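import Mathlib

/-!
# Row 131: the area formula with multiplicities in the plane (helper74)
-/

set_option autoImplicit false

open MeasureTheory Set Filter Topology Function
open scoped ENNReal

namespace Crest.Agent.R131.Area

theorem exists_nhds_injOn {F : ℂ → ℂ} {A : ℂ →L[ℝ] ℂ} {z : ℂ} (h : HasStrictFDerivAt F A z)
    (hd : A.det ≠ 0) : ∃ U, IsOpen U ∧ z ∈ U ∧ InjOn F U := by
  have h' : HasStrictFDerivAt F
      ((A.toContinuousLinearEquivOfDetNeZero hd : ℂ ≃L[ℝ] ℂ) : ℂ →L[ℝ] ℂ) z := by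
    simpa using h
  refine ⟨(h'.toOpenPartialHomeomorph F).source, (h'.toOpenPartialHomeomorph F).open_source,
    h'.mem_toOpenPartialHomeomorph_source, ?_⟩
  have := (h'.toOpenPartialHomeomorph F).injOn
  simpa using this

theorem exists_partition {F : ℂ → ℂ} {S : Set ℂ} (hS : MeasurableSet S)
    (h : ∀ z ∈ S, ∃ U, IsOpen U ∧ z ∈ U ∧ InjOn F U) :
    ∃ T : ℕ → Set ℂ, (∀ n, MeasurableSet (T n)) ∧ Pairwise (Disjoint on T) ∧ ⋃ n, T n = S ∧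
      ∀ n, InjOn F (T n) := by
  classical
  choose! U hUo hUm hUi using h
  obtain ⟨s, hsS, hsc, hcov⟩ := TopologicalSpace.countable_cover_nhdsWithin
    (s := S) (f := U) (fun z hz => mem_nhdsWithin_of_mem_nhds ((hUo z hz).mem_nhds (hUm z hz)))
  rcases s.eq_empty_or_nonempty with rfl | hne
  · have : S = ∅ := by simpa using hcov
    subst this
    exact ⟨fun _ => ∅, by simp, fun _ _ _ => by simp [onFun], by simp, by simp⟩
  obtain ⟨e, he⟩ := hsc.exists_eq_range hne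
  have heS : ∀ n, e n ∈ S := fun n => hsS (he ▸ mem_range_self n)
  let V : ℕ → Set ℂ := fun n => S ∩ U (e n)
  have hV : ∀ n, MeasurableSet (V n) := fun n => hS.inter (hUo _ (heS n)).measurableSet
  refine ⟨disjointed V, MeasurableSet.disjointed hV, disjoint_disjointed V, ?_, fun n => ?_⟩
  · rw [iUnion_disjointed]
    refine Subset.antisymm (iUnion_subset fun n => inter_subset_left) fun z hz => ?_
    obtain ⟨w, hw, hzw⟩ := mem_iUnion₂.1 (hcov hz)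
    rw [he] at hw
    obtain ⟨n, rfl⟩ := hw
    exact mem_iUnion.2 ⟨n, hz, hzw⟩
  · exact (hUi _ (heS n)).mono ((disjointed_subset V n).trans inter_subset_right)

/-- the sum of `φ` over the fibre of `F` over `a` inside `S` -/
noncomputable def fibSum (F : ℂ → ℂ) (S : Set ℂ) (φ : ℂ → ℝ≥0∞) (a : ℂ) : ℝ≥0∞ :=
  ∑' z : ℂ, {z | z ∈ S ∧ F z = a}.indicator φ z

theorem fibSum_eq_subtype (F : ℂ → ℂ) (S : Set ℂ) (φ : ℂ → ℝ≥0∞) (a : ℂ) :
    fibSum F S φ a = ∑' z : {z | z ∈ S ∧ F z = a}, φ z :=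
  (tsum_subtype _ φ).symm

theorem fibSum_iUnion {F : ℂ → ℂ} {T : ℕ → Set ℂ} (hd : Pairwise (Disjoint on T))
    (φ : ℂ → ℝ≥0∞) (a : ℂ) : fibSum F (⋃ n, T n) φ a = ∑' n, fibSum F (T n) φ a := by
  unfold fibSum
  rw [ENNReal.tsum_comm]
  refine tsum_congr fun z => ?_
  by_cases hz : z ∈ (⋃ n, T n) ∧ F z = a
  · obtain ⟨n, hn⟩ := mem_iUnion.1 hz.1
    rw [tsum_eq_single n]
    · rw [indicator_of_mem (show z ∈ {z | z ∈ (⋃ n, T n) ∧ F z = a} from hz),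
        indicator_of_mem (show z ∈ {z | z ∈ T n ∧ F z = a} from ⟨hn, hz.2⟩)]
    · intro m hm
      exact indicator_of_notMem (fun h => Set.disjoint_left.1 (hd hm) h.1 hn) _
  · rw [indicator_of_notMem (show z ∉ {z | z ∈ (⋃ n, T n) ∧ F z = a} from hz)]
    refine (ENNReal.tsum_eq_zero.2 fun n => ?_).symm
    exact indicator_of_notMem (fun h => hz ⟨mem_iUnion.2 ⟨n, h.1⟩, h.2⟩) _

theorem fibSum_of_injOn {F : ℂ → ℂ} {T : Set ℂ} (hi : InjOn F T) (φ : ℂ → ℝ≥0∞) (a : ℂ) :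
    fibSum F T φ a = extend (T.domRestrict F) (fun z : T => φ z) 0 a := by
  unfold fibSum
  have hinj : Injective (T.domRestrict F) := fun x y h => Subtype.ext (hi x.2 y.2 h)
  by_cases h : ∃ z ∈ T, F z = a
  · obtain ⟨z, hz, rfl⟩ := h
    rw [tsum_eq_single z]
    · rw [indicator_of_mem (show z ∈ {w | w ∈ T ∧ F w = F z} from ⟨hz, rfl⟩)]
      exact (hinj.extend_apply (fun z : T => φ z) 0 ⟨z, hz⟩).symm
    · intro w hw
      exact indicator_of_notMem (fun h => hw (hi h.1 hz h.2)) _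
  · rw [extend_apply' (f := T.domRestrict F) _ _ _ (fun ⟨w, hw⟩ => h ⟨w.1, w.2, hw⟩)]
    exact ENNReal.tsum_eq_zero.2 fun z => indicator_of_notMem (fun hz => h ⟨z, hz.1, hz.2⟩) _

theorem piece {F : ℂ → ℂ} {F1 : ℂ → ℂ →L[ℝ] ℂ} {T : Set ℂ} (hT : MeasurableSet T)
    (hF : ∀ z ∈ T, HasFDerivWithinAt F (F1 z) T z) (hi : InjOn F T) {φ : ℂ → ℝ≥0∞}
    (hφ : Measurable φ) : Measurable (fibSum F T φ) ∧
      ∫⁻ a, fibSum F T φ a = ∫⁻ z in T, ENNReal.ofReal |(F1 z).det| * φ z := by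
  have he : fibSum F T φ = extend (T.domRestrict F) (fun z : T => φ z) 0 :=
    funext (fibSum_of_injOn hi φ)
  have hinj : Injective (T.domRestrict F) := fun x y h => Subtype.ext (hi x.2 y.2 h)
  refine ⟨he ▸ (measurableEmbedding_of_fderivWithin hT hF hi).measurable_extend
    (hφ.comp measurable_subtype_coe) measurable_zero, ?_⟩
  have h1 : ∫⁻ a, fibSum F T φ a = ∫⁻ a in F '' T, fibSum F T φ a := by
    rw [← lintegral_indicator (measurable_image_of_fderivWithin hT hF hi)]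
    refine lintegral_congr fun a => ?_
    by_cases ha : a ∈ F '' T
    · rw [indicator_of_mem ha]
    · rw [indicator_of_notMem ha, he]
      exact extend_apply' _ _ _ (fun ⟨w, hw⟩ => ha ⟨w, w.2, hw⟩)
  rw [h1, lintegral_image_eq_lintegral_abs_det_fderiv_mul volume hT hF hi]
  refine setLIntegral_congr_fun hT fun z hz => ?_
  rw [he]
  exact congrArg _ (hinj.extend_apply (fun z : T => φ z) 0 ⟨z, hz⟩)

/-- **Area formula with multiplicities.** -/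
theorem area_mult {F : ℂ → ℂ} {F1 : ℂ → ℂ →L[ℝ] ℂ} {S : Set ℂ} (hS : MeasurableSet S)
    (hF : ∀ z ∈ S, HasStrictFDerivAt F (F1 z) z) (hd : ∀ z ∈ S, (F1 z).det ≠ 0)
    {φ : ℂ → ℝ≥0∞} (hφ : Measurable φ) :
    ∫⁻ z in S, ENNReal.ofReal |(F1 z).det| * φ z = ∫⁻ a, fibSum F S φ a := by
  obtain ⟨T, hTm, hTd, hTU, hTi⟩ :=
    exists_partition hS fun z hz => exists_nhds_injOn (hF z hz) (hd z hz)
  have hp : ∀ n, Measurable (fibSum F (T n) φ) ∧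
      ∫⁻ a, fibSum F (T n) φ a = ∫⁻ z in T n, ENNReal.ofReal |(F1 z).det| * φ z := fun n =>
    piece (hTm n) (fun z hz => (hF z (hTU ▸ mem_iUnion.2 ⟨n, hz⟩)).hasFDerivAt.hasFDerivWithinAt)
      (hTi n) hφ
  rw [← hTU, lintegral_iUnion hTm hTd]
  simp_rw [fibSum_iUnion hTd]
  rw [lintegral_tsum fun n => (hp n).1.aemeasurable]
  exact tsum_congr fun n => (hp n).2.symm

/-- an injective pairing of fibres compares the fibre sums -/
theorem fibSum_le_of_pairing {F : ℂ → ℂ} {S₁ S₂ : Set ℂ} {φ₁ φ₂ : ℂ → ℝ≥0∞} {a : ℂ}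
    (π : ℂ → ℂ) (hπ : InjOn π {z | z ∈ S₁ ∧ F z = a})
    (h : ∀ z ∈ S₁, F z = a → π z ∈ S₂ ∧ F (π z) = a ∧ φ₁ z ≤ φ₂ (π z)) :
    fibSum F S₁ φ₁ a ≤ fibSum F S₂ φ₂ a := by
  rw [fibSum_eq_subtype, fibSum_eq_subtype]
  let e : {z | z ∈ S₁ ∧ F z = a} → {z | z ∈ S₂ ∧ F z = a} := fun z =>
    ⟨π z, (h z z.2.1 z.2.2).1, (h z z.2.1 z.2.2).2.1⟩
  have he : Injective e := fun x y hxy => Subtype.ext (hπ x.2 y.2 (congrArg Subtype.val hxy))
  refine le_trans ?_ (ENNReal.tsum_comp_le_tsum_of_injective he fun z => φ₂ z)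
  exact ENNReal.tsum_le_tsum fun z => (h z.1 z.2.1 z.2.2).2.2

/-- **Comparison of weighted Jacobian integrals from an a.e. inequality of fibre sums.** -/
theorem area_compare' {F : ℂ → ℂ} {F1 : ℂ → ℂ →L[ℝ] ℂ} {S₁ S₂ : Set ℂ} (hS₁ : MeasurableSet S₁)
    (hS₂ : MeasurableSet S₂) (hF₁ : ∀ z ∈ S₁, HasStrictFDerivAt F (F1 z) z)
    (hF₂ : ∀ z ∈ S₂, HasStrictFDerivAt F (F1 z) z) (hd₁ : ∀ z ∈ S₁, (F1 z).det ≠ 0)
    (hd₂ : ∀ z ∈ S₂, (F1 z).det ≠ 0) {φ₁ φ₂ : ℂ → ℝ≥0∞} (hφ₁ : Measurable φ₁)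
    (hφ₂ : Measurable φ₂) (h : ∀ᵐ a, fibSum F S₁ φ₁ a ≤ fibSum F S₂ φ₂ a) :
    ∫⁻ z in S₁, ENNReal.ofReal |(F1 z).det| * φ₁ z ≤
      ∫⁻ z in S₂, ENNReal.ofReal |(F1 z).det| * φ₂ z := by
  rw [area_mult hS₁ hF₁ hd₁ hφ₁, area_mult hS₂ hF₂ hd₂ hφ₂]
  exact lintegral_mono_ae h

/-- **Comparison of weighted Jacobian integrals from an a.e. injective pairing of fibres.** -/
theorem area_compare {F : ℂ → ℂ} {F1 : ℂ → ℂ →L[ℝ] ℂ} {S₁ S₂ : Set ℂ} (hS₁ : MeasurableSet S₁)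
    (hS₂ : MeasurableSet S₂) (hF₁ : ∀ z ∈ S₁, HasStrictFDerivAt F (F1 z) z)
    (hF₂ : ∀ z ∈ S₂, HasStrictFDerivAt F (F1 z) z) (hd₁ : ∀ z ∈ S₁, (F1 z).det ≠ 0)
    (hd₂ : ∀ z ∈ S₂, (F1 z).det ≠ 0) {φ₁ φ₂ : ℂ → ℝ≥0∞} (hφ₁ : Measurable φ₁)
    (hφ₂ : Measurable φ₂)
    (h : ∀ᵐ a, ∃ π : ℂ → ℂ, InjOn π {z | z ∈ S₁ ∧ F z = a} ∧
      ∀ z ∈ S₁, F z = a → π z ∈ S₂ ∧ F (π z) = a ∧ φ₁ z ≤ φ₂ (π z)) :
    ∫⁻ z in S₁, ENNReal.ofReal |(F1 z).det| * φ₁ z ≤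
      ∫⁻ z in S₂, ENNReal.ofReal |(F1 z).det| * φ₂ z :=
  area_compare' hS₁ hS₂ hF₁ hF₂ hd₁ hd₂ hφ₁ hφ₂
    (h.mono fun _ ⟨π, hπ, hh⟩ => fibSum_le_of_pairing π hπ hh)

/-- **Sard**: almost every value is regular. -/
theorem sard {F : ℂ → ℂ} {F1 : ℂ → ℂ →L[ℝ] ℂ} {U : Set ℂ}
    (hF : ∀ z ∈ U, HasFDerivAt F (F1 z) z) : ∀ᵐ a, ∀ z ∈ U, F z = a → (F1 z).det ≠ 0 := by
  have h := addHaar_image_eq_zero_of_det_fderivWithin_eq_zero (volume : Measure ℂ)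
    (s := {z | z ∈ U ∧ (F1 z).det = 0}) (f := F) (f' := F1)
    (fun z hz => (hF z hz.1).hasFDerivWithinAt) (fun z hz => hz.2)
  refine (measure_eq_zero_iff_ae_notMem.1 h).mono fun a ha z hz hza hd => ha ⟨z, ⟨hz, hd⟩, hza⟩

/-- almost every value is not attained on the unit circle -/
theorem ae_notMem_image_sphere {f : ℂ → ℂ} (hf : ∀ z : ℂ, ‖z‖ = 1 → DifferentiableAt ℂ f z) :
    ∀ᵐ a, ∀ z : ℂ, ‖z‖ = 1 → f z ≠ a := by
  have h := addHaar_image_eq_zero_of_differentiableOn_of_addHaar_eq_zero (volume : Measure ℂ)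
    (s := Metric.sphere (0 : ℂ) 1) (f := f)
    (fun z hz => ((hf z (by simpa using hz)).restrictScalars ℝ).differentiableWithinAt)
    (Measure.addHaar_sphere _ _ _)
  refine (measure_eq_zero_iff_ae_notMem.1 h).mono fun a ha z hz hza => ha ⟨z, by simpa using hz, hza⟩

end Crest.Agent.R131.Area
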