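import Mathlib

/-!
# Row 131: Parseval on circles for holomorphic functions (helper57)
-/

set_option autoImplicit false

open MeasureTheory Set Metric Complex
open scoped Real

namespace Crest.Agent.R131

lemma p57_orth (n m : ℕ) :
    ∫ θ in (-π)..π, cexp ((n : ℂ) * (θ * I)) * (starRingEnd ℂ) (cexp ((m : ℂ) * (θ * I))) =
      if n = m then (2 * π : ℂ) else 0 := by
  have h1 : ∀ θ : ℝ, cexp ((n : ℂ) * (θ * I)) * (starRingEnd ℂ) (cexp ((m : ℂ) * (θ * I))) =
      cexp ((((n : ℂ) - m) * I) * θ) := by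
    intro θ
    rw [← Complex.exp_conj, ← Complex.exp_add]
    congr 1
    simp only [map_mul, Complex.conj_natCast, Complex.conj_ofReal, Complex.conj_I]
    ring
  simp_rw [h1]
  split_ifs with h
  · subst h
    simp
    ring
  · have hc : ((n : ℂ) - m) * I ≠ 0 := by
      refine mul_ne_zero (sub_ne_zero.2 ?_) I_ne_zero
      exact_mod_cast h
    rw [integral_exp_mul_complex hc]
    have : cexp (((n : ℂ) - m) * I * (π : ℝ)) = cexp (((n : ℂ) - m) * I * ((-π : ℝ) : ℂ)) := by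
      rw [Complex.exp_eq_exp_iff_exists_int]
      refine ⟨(n : ℤ) - m, ?_⟩
      push_cast
      ring
    rw [this]
    simp

/-- integrating a normally convergent trigonometric series against a continuous function -/
lemma p57_hasSum (a : ℕ → ℂ) (ha : Summable fun n => ‖a n‖) (G : ℝ → ℂ)
    (hG : ∀ θ : ℝ, HasSum (fun n : ℕ => a n * cexp ((n : ℂ) * (θ * I))) (G θ))
    (φ : ℝ → ℂ) (hφ : Continuous φ) :
    HasSum (fun n : ℕ => a n * ∫ θ in (-π)..π, cexp ((n : ℂ) * (θ * I)) * φ θ)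
      (∫ θ in (-π)..π, G θ * φ θ) := by
  have hpi : -π ≤ π := by linarith [Real.pi_pos]
  obtain ⟨M, hM⟩ := (isCompact_Icc (a := -π) (b := π)).exists_bound_of_continuousOn
    hφ.continuousOn
  have hne : ∀ (n : ℕ) (θ : ℝ), ‖cexp ((n : ℂ) * (θ * I))‖ = 1 := by
    intro n θ
    have : (n : ℂ) * (θ * I) = ((n * θ : ℝ) : ℂ) * I := by push_cast; ring
    rw [this, Complex.norm_exp_ofReal_mul_I]
  have key := intervalIntegral.hasSum_integral_of_dominated_convergence (μ := volume)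
    (a := -π) (b := π)
    (F := fun (n : ℕ) (θ : ℝ) => a n * cexp ((n : ℂ) * (θ * I)) * φ θ)
    (f := fun θ => G θ * φ θ) (fun n _ => ‖a n‖ * M)
    (fun n => by
      apply Continuous.aestronglyMeasurable
      fun_prop)
    (fun n => Filter.Eventually.of_forall fun θ hθ => by
      rw [uIoc_of_le hpi] at hθ
      rw [norm_mul, norm_mul, hne, mul_one]
      exact mul_le_mul_of_nonneg_left (hM θ ⟨hθ.1.le, hθ.2⟩) (norm_nonneg _))
    (Filter.Eventually.of_forall fun θ _ => ha.mul_right M)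
    (by simp)
    (Filter.Eventually.of_forall fun θ _ => (hG θ).mul_right (φ θ))
  simp only [mul_assoc, intervalIntegral.integral_const_mul] at key
  exact key

/-- Parseval for a normally convergent analytic trigonometric series -/
theorem p57_parseval (a : ℕ → ℂ) (ha : Summable fun n => ‖a n‖) (G : ℝ → ℂ)
    (hG : ∀ θ : ℝ, HasSum (fun n : ℕ => a n * cexp ((n : ℂ) * (θ * I))) (G θ)) :
    HasSum (fun n : ℕ => 2 * π * ‖a n‖ ^ 2) (∫ θ in (-π)..π, ‖G θ‖ ^ 2) := by
  have hne : ∀ (n : ℕ) (θ : ℝ), ‖cexp ((n : ℂ) * (θ * I))‖ = 1 := by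
    intro n θ
    have : (n : ℂ) * (θ * I) = ((n * θ : ℝ) : ℂ) * I := by push_cast; ring
    rw [this, Complex.norm_exp_ofReal_mul_I]
  have hGc : Continuous G := by
    have : G = fun θ : ℝ => ∑' n : ℕ, a n * cexp ((n : ℂ) * (θ * I)) :=
      funext fun θ => (hG θ).tsum_eq.symm
    rw [this]
    refine continuous_tsum (fun n => by fun_prop) ha fun n θ => ?_
    rw [norm_mul, hne, mul_one]
  -- the coefficients
  have hco : ∀ m : ℕ, ∫ θ in (-π)..π, G θ * (starRingEnd ℂ) (cexp ((m : ℂ) * (θ * I))) =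
      2 * π * a m := by
    intro m
    have h := p57_hasSum a ha G hG (fun θ => (starRingEnd ℂ) (cexp ((m : ℂ) * (θ * I))))
      (by fun_prop)
    simp only [p57_orth] at h
    have h2 : HasSum (fun n : ℕ => a n * if n = m then (2 * π : ℂ) else 0) (a m * (2 * π)) := by
      have := hasSum_single (f := fun n : ℕ => a n * if n = m then (2 * π : ℂ) else 0) m
        (fun b hb => by simp [hb])
      simpa using this
    rw [h.unique h2]; ring
  have h := p57_hasSum a ha G hG (fun θ => (starRingEnd ℂ) (G θ)) (by fun_prop)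
  have h3 : ∀ n : ℕ, ∫ θ in (-π)..π, cexp ((n : ℂ) * (θ * I)) * (starRingEnd ℂ) (G θ) =
      2 * π * (starRingEnd ℂ) (a n) := by
    intro n
    have h4 := congrArg (starRingEnd ℂ) (hco n)
    rw [← intervalIntegral.intervalIntegral_conj] at h4
    simp only [map_mul, Complex.conj_conj, Complex.conj_ofReal, map_ofNat] at h4
    rw [← h4]
    simp only [mul_comm]
  simp only [h3] at h
  have h5 : ∫ θ in (-π)..π, G θ * (starRingEnd ℂ) (G θ) =
      ((∫ θ in (-π)..π, ‖G θ‖ ^ 2 : ℝ) : ℂ) := by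
    rw [← intervalIntegral.integral_ofReal]
    simp only [Complex.mul_conj, Complex.normSq_eq_norm_sq]
  rw [h5] at h
  have h6 : (fun n : ℕ => a n * (2 * π * (starRingEnd ℂ) (a n))) =
      fun n : ℕ => ((2 * π * ‖a n‖ ^ 2 : ℝ) : ℂ) := by
    funext n
    have := Complex.mul_conj (a n)
    rw [Complex.normSq_eq_norm_sq] at this
    push_cast at this ⊢
    rw [← this]; ring
  rw [h6] at h
  exact_mod_cast h

lemma p57_congr {f g : ℕ → ℂ} {a : ℂ} (h : HasSum f a) (hfg : ∀ n, f n = g n) : HasSum g a :=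
  (funext hfg : f = g) ▸ h

/-- Taylor coefficients -/
noncomputable def p57co (g : ℂ → ℂ) (n : ℕ) : ℂ := iteratedDeriv n g 0 / (n.factorial : ℂ)

lemma p57_taylor (g : ℂ → ℂ) (R : ℝ) (hg : DifferentiableOn ℂ g (ball 0 R)) (z : ℂ)
    (hz : ‖z‖ < R) : HasSum (fun n : ℕ => p57co g n * z ^ n) (g z) := by
  have h := Complex.hasSum_taylorSeries_on_ball hg (z := z) (by simpa using hz)
  refine p57_congr h fun n => ?_
  simp only [p57co, sub_zero, smul_eq_mul]
  ring

lemma p57_summable (g : ℂ → ℂ) (R : ℝ) (hg : DifferentiableOn ℂ g (ball 0 R)) (r : ℝ)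
    (hr0 : 0 ≤ r) (hr : r < R) (k : ℕ) :
    Summable fun n : ℕ => (n : ℝ) ^ k * (‖p57co g n‖ * r ^ n) := by
  obtain ⟨ρ, h1, h2⟩ := exists_between hr
  have hρ : 0 < ρ := lt_of_le_of_lt hr0 h1
  have hs := (p57_taylor g R hg (ρ : ℂ) (by simpa [abs_of_pos hρ] using h2)).summable
  have hb := hs.tendsto_atTop_zero.norm.bddAbove_range
  obtain ⟨M, hM⟩ := hb
  have hq : ‖r / ρ‖ < 1 := by
    rw [Real.norm_eq_abs, abs_of_nonneg (by positivity), div_lt_one hρ]; exact h1
  have hg2 := (summable_pow_mul_geometric_of_norm_lt_one k hq).mul_left M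
  refine Summable.of_nonneg_of_le (fun n => by positivity) (fun n => ?_) hg2
  have h3 : ‖p57co g n‖ * ρ ^ n ≤ M := by
    have := hM ⟨n, rfl⟩
    simpa [abs_of_pos hρ] using this
  have h4 : ‖p57co g n‖ * r ^ n = (‖p57co g n‖ * ρ ^ n) * (r / ρ) ^ n := by
    rw [div_pow]; field_simp
  rw [h4]
  have h5 : 0 ≤ (r / ρ) ^ n := by positivity
  have h6 : (0 : ℝ) ≤ (n : ℝ) ^ k := by positivity
  calc (n : ℝ) ^ k * (‖p57co g n‖ * ρ ^ n * (r / ρ) ^ n)
      ≤ (n : ℝ) ^ k * (M * (r / ρ) ^ n) := by gcongr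
    _ = M * ((n : ℝ) ^ k * (r / ρ) ^ n) := by ring

lemma p57_taylor_deriv (g : ℂ → ℂ) (R : ℝ) (hg : DifferentiableOn ℂ g (ball 0 R)) (z : ℂ)
    (hz : ‖z‖ < R) : HasSum (fun n : ℕ => (n : ℂ) * p57co g n * z ^ n) (z * deriv g z) := by
  have hd : DifferentiableOn ℂ (deriv g) (ball 0 R) := hg.deriv isOpen_ball
  have h := (p57_taylor (deriv g) R hd z hz).mul_left z
  rw [← hasSum_nat_add_iff' 1]
  simp only [Finset.range_one, Finset.sum_singleton, Nat.cast_zero, zero_mul, sub_zero]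
  refine p57_congr h fun n => ?_
  simp only [p57co, iteratedDeriv_succ', Nat.factorial_succ]
  have : ((n.factorial : ℕ) : ℂ) ≠ 0 := by exact_mod_cast n.factorial_ne_zero
  have h2 : ((n : ℂ) + 1) ≠ 0 := by exact_mod_cast n.succ_ne_zero
  push_cast
  field_simp
  ring

/-- **Parseval on a circle** for `α g + β z g'` (real `α`, `β`). -/
theorem p57_circle (g : ℂ → ℂ) (R : ℝ) (hg : DifferentiableOn ℂ g (ball 0 R)) (r : ℝ)
    (hr0 : 0 ≤ r) (hr : r < R) (α β : ℝ) :
    HasSum (fun n : ℕ => 2 * π * ((α + β * n) ^ 2 * ‖p57co g n‖ ^ 2 * r ^ (2 * n)))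
      (∫ θ in (-π)..π, ‖(α : ℂ) * g (r * cexp (θ * I)) +
        (β : ℂ) * ((r * cexp (θ * I)) * deriv g (r * cexp (θ * I)))‖ ^ 2) := by
  have hz : ∀ θ : ℝ, ‖(r : ℂ) * cexp (θ * I)‖ < R := fun θ => by
    rw [norm_mul, Complex.norm_exp_ofReal_mul_I, mul_one, Complex.norm_real, Real.norm_eq_abs,
      abs_of_nonneg hr0]
    exact hr
  have hn : ∀ n : ℕ, ‖((α + β * n : ℝ) : ℂ) * p57co g n * (r : ℂ) ^ n‖ =
      |α + β * n| * (‖p57co g n‖ * r ^ n) := fun n => by
    rw [norm_mul, norm_mul, norm_pow, Complex.norm_real, Complex.norm_real, Real.norm_eq_abs,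
      Real.norm_eq_abs, abs_of_nonneg hr0, mul_assoc]
  have h := p57_parseval (fun n => ((α + β * n : ℝ) : ℂ) * p57co g n * (r : ℂ) ^ n)
    (by
      simp only [hn]
      have h0 := (p57_summable g R hg r hr0 hr 0).mul_left |α|
      have h1 := (p57_summable g R hg r hr0 hr 1).mul_left |β|
      refine Summable.of_nonneg_of_le (fun n => by positivity) (fun n => ?_) (h0.add h1)
      have h2 : |α + β * n| ≤ |α| + |β| * n := by
        refine (abs_add_le _ _).trans ?_
        rw [abs_mul, Nat.abs_cast]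
      have h3 : 0 ≤ ‖p57co g n‖ * r ^ n := by positivity
      simp only [pow_zero, pow_one]
      nlinarith)
    (fun θ => (α : ℂ) * g (r * cexp (θ * I)) +
        (β : ℂ) * ((r * cexp (θ * I)) * deriv g (r * cexp (θ * I))))
    (fun θ => by
      have h0 := (p57_taylor g R hg _ (hz θ)).mul_left (α : ℂ)
      have h1 := (p57_taylor_deriv g R hg _ (hz θ)).mul_left (β : ℂ)
      refine p57_congr (h0.add h1) fun n => ?_
      rw [mul_pow, ← Complex.exp_nat_mul]
      push_cast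
      ring)
  convert h using 2 with n
  rw [hn, mul_pow, mul_pow, sq_abs, ← pow_mul, mul_comm n 2]
  ring

/-- Parseval on a circle -/
theorem p57_circle0 (g : ℂ → ℂ) (R : ℝ) (hg : DifferentiableOn ℂ g (ball 0 R)) (r : ℝ)
    (hr0 : 0 ≤ r) (hr : r < R) :
    HasSum (fun n : ℕ => 2 * π * (‖p57co g n‖ ^ 2 * r ^ (2 * n)))
      (∫ θ in (-π)..π, ‖g (r * cexp (θ * I))‖ ^ 2) := by
  simpa using p57_circle g R hg r hr0 hr 1 0

end Crest.Agent.R131
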