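import Mathlib
import Crest.Agent.Lib.Complex.Univalent

/-!
Basic facts on univalent functions on the unit disc: logarithm of the derivative, and the
consequences (Harnack / distortion / second-order bound) of a Koebe-type bound
`(1-‖z‖²) ‖f''(z)‖ ≤ K ‖f'(z)‖`.
-/

set_option autoImplicit false

open Metric Set Filter Topology

namespace Crest.Agent.R131

theorem univ_deriv_ne_zero {f : ℂ → ℂ} (hf : DifferentiableOn ℂ f (ball 0 1))
    (hinj : InjOn f (ball 0 1)) : ∀ z ∈ ball (0 : ℂ) 1, deriv f z ≠ 0 := fun _ hz =>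
  Crest.Agent.Lib.Complex.deriv_ne_zero_of_injOn isOpen_ball hf hinj hz

/-- A zero-free holomorphic function on a disc has a holomorphic logarithm. -/
theorem univ_exists_log {g : ℂ → ℂ} {c : ℂ} {r : ℝ} (hg : DifferentiableOn ℂ g (ball c r))
    (h0 : ∀ z ∈ ball c r, g z ≠ 0) :
    ∃ L : ℂ → ℂ, DifferentiableOn ℂ L (ball c r) ∧ (∀ z ∈ ball c r, Complex.exp (L z) = g z) ∧
      ∀ z ∈ ball c r, HasDerivAt L (deriv g z / g z) z := by
  rcases le_or_gt r 0 with hr | hr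
  · exact ⟨fun _ => 0, by simp [ball_eq_empty.2 hr]⟩
  have hq : DifferentiableOn ℂ (fun z => deriv g z / g z) (ball c r) :=
    (hg.deriv isOpen_ball).div hg h0
  obtain ⟨L, hL0, hL⟩ := hq.isExactOn_ball.with_val_at c (Complex.log (g c))
  have hLd : DifferentiableOn ℂ L (ball c r) := fun z hz =>
    (hL z hz).differentiableAt.differentiableWithinAt
  refine ⟨L, hLd, ?_, hL⟩
  have hd : ∀ z ∈ ball c r, HasDerivAt (fun w => g w * Complex.exp (-L w)) 0 z := by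
    intro z hz
    have h1 := (hg.differentiableAt (isOpen_ball.mem_nhds hz)).hasDerivAt
    have h2 := (h1.mul (hL z hz).neg.cexp)
    refine h2.congr_deriv ?_
    have := h0 z hz
    field_simp
    ring
  intro z hz
  have hc : c ∈ ball c r := mem_ball_self hr
  have h3 : g z * Complex.exp (-L z) = g c * Complex.exp (-L c) :=
    isOpen_ball.is_const_of_deriv_eq_zero (𝕜 := ℂ) (f := fun w => g w * Complex.exp (-L w))
      (convex_ball c r).isPreconnected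
      (fun w hw => (hd w hw).differentiableAt.differentiableWithinAt)
      (fun w hw => (hd w hw).deriv) hz hc
  rw [hL0, Complex.exp_neg, Complex.exp_neg, Complex.exp_log (h0 c hc),
    mul_inv_cancel₀ (h0 c hc), mul_inv_eq_one₀ (Complex.exp_ne_zero _)] at h3
  exact h3.symm

/-- Logarithm of the derivative of a univalent function. -/
theorem univ_exists_log_deriv {f : ℂ → ℂ} (hf : DifferentiableOn ℂ f (ball 0 1))
    (hinj : InjOn f (ball 0 1)) :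
    ∃ L : ℂ → ℂ, DifferentiableOn ℂ L (ball 0 1) ∧
      (∀ z ∈ ball (0 : ℂ) 1, Complex.exp (L z) = deriv f z) ∧
      ∀ z ∈ ball (0 : ℂ) 1, HasDerivAt L (deriv (deriv f) z / deriv f z) z :=
  univ_exists_log (hf.deriv isOpen_ball) (univ_deriv_ne_zero hf hinj)

/-- Logarithm of the derivative of a normalised univalent function, vanishing at `0`. -/
theorem univ_exists_log_deriv_zero {f : ℂ → ℂ} (hf : DifferentiableOn ℂ f (ball 0 1))
    (hinj : InjOn f (ball 0 1)) (h1 : deriv f 0 = 1) :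
    ∃ L : ℂ → ℂ, DifferentiableOn ℂ L (ball 0 1) ∧ L 0 = 0 ∧
      (∀ z ∈ ball (0 : ℂ) 1, Complex.exp (L z) = deriv f z) ∧
      ∀ z ∈ ball (0 : ℂ) 1, HasDerivAt L (deriv (deriv f) z / deriv f z) z := by
  obtain ⟨L, hL, he, hd⟩ := univ_exists_log_deriv hf hinj
  refine ⟨fun z => L z - L 0, hL.sub_const _, sub_self _, fun z hz => ?_,
    fun z hz => (hd z hz).sub_const _⟩
  rw [Complex.exp_sub, he z hz, he 0 (mem_ball_self one_pos), h1, div_one]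

/-- Harnack inequality for a zero-free `g` on a convex set where `‖g'‖ ≤ M ‖g‖`. -/
theorem univ_harnack_convex {g : ℂ → ℂ} (hg : DifferentiableOn ℂ g (ball 0 1))
    (h0 : ∀ z ∈ ball (0 : ℂ) 1, g z ≠ 0) {S : Set ℂ} (hS : Convex ℝ S) (hSb : S ⊆ ball 0 1)
    {M : ℝ} (hM : ∀ z ∈ S, ‖deriv g z‖ ≤ M * ‖g z‖) {z w : ℂ} (hz : z ∈ S) (hw : w ∈ S) :
    ‖g w‖ ≤ Real.exp (M * ‖w - z‖) * ‖g z‖ := by
  obtain ⟨L, -, he, hd⟩ := univ_exists_log hg h0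
  have h1 : ‖L w - L z‖ ≤ M * ‖w - z‖ := by
    refine hS.norm_image_sub_le_of_norm_hasDerivWithin_le (𝕜 := ℂ)
      (f' := fun u => deriv g u / g u) (fun u hu => (hd u (hSb hu)).hasDerivWithinAt)
      (fun u hu => ?_) hz hw
    rw [norm_div, div_le_iff₀ (norm_pos_iff.2 (h0 u (hSb hu)))]
    exact hM u hu
  rw [← he w (hSb hw), ← he z (hSb hz), Complex.norm_exp, Complex.norm_exp, ← Real.exp_add]
  apply Real.exp_le_exp.2
  have h2 : (L w - L z).re ≤ ‖L w - L z‖ := Complex.re_le_norm _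
  rw [Complex.sub_re] at h2
  linarith

/-- On the Whitney disc of radius `(1-‖z‖)/2` about `z`, `1-‖w‖² ≥ (1-‖z‖)/2`. -/
theorem univ_whitney {z w : ℂ} (hz : ‖z‖ < 1) (hw : ‖w - z‖ ≤ (1 - ‖z‖) / 2) :
    ‖w‖ < 1 ∧ (1 - ‖z‖) / 2 ≤ 1 - ‖w‖ ∧ (1 - ‖z‖) / 2 ≤ 1 - ‖w‖ ^ 2 := by
  have h1 : ‖w‖ ≤ ‖w - z‖ + ‖z‖ := by simpa using norm_add_le (w - z) z
  have h2 := norm_nonneg w
  refine ⟨by linarith, by linarith, by nlinarith⟩

/-- Harnack on Whitney discs from the Koebe bound. -/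
theorem univ_harnack {g : ℂ → ℂ} (hg : DifferentiableOn ℂ g (ball 0 1))
    (h0 : ∀ z ∈ ball (0 : ℂ) 1, g z ≠ 0) {K : ℝ}
    (hK : ∀ z ∈ ball (0 : ℂ) 1, (1 - ‖z‖ ^ 2) * ‖deriv g z‖ ≤ K * ‖g z‖)
    {z u w : ℂ} (hz : ‖z‖ < 1) (hu : ‖u - z‖ ≤ (1 - ‖z‖) / 2) (hw : ‖w - z‖ ≤ (1 - ‖z‖) / 2) :
    ‖g w‖ ≤ Real.exp (2 * K / (1 - ‖z‖) * ‖w - u‖) * ‖g u‖ := by
  have hd : 0 < 1 - ‖z‖ := by linarith
  refine univ_harnack_convex hg h0 (convex_closedBall z ((1 - ‖z‖) / 2))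
    (fun v hv => mem_ball_zero_iff.2 (univ_whitney hz (mem_closedBall_iff_norm.1 hv)).1)
    (fun v hv => ?_) (mem_closedBall_iff_norm.2 hu) (mem_closedBall_iff_norm.2 hw)
  obtain ⟨a1, -, a3⟩ := univ_whitney hz (mem_closedBall_iff_norm.1 hv)
  have h1 := hK v (mem_ball_zero_iff.2 a1)
  have h2 : (1 - ‖z‖) / 2 * ‖deriv g v‖ ≤ K * ‖g v‖ :=
    (mul_le_mul_of_nonneg_right a3 (norm_nonneg _)).trans h1
  rw [div_mul_eq_mul_div, le_div_iff₀ hd]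
  linarith

theorem univ_K_nonneg {g : ℂ → ℂ} (h0 : ∀ z ∈ ball (0 : ℂ) 1, g z ≠ 0) {K : ℝ}
    (hK : ∀ z ∈ ball (0 : ℂ) 1, (1 - ‖z‖ ^ 2) * ‖deriv g z‖ ≤ K * ‖g z‖) : 0 ≤ K := by
  have h1 := hK 0 (mem_ball_self one_pos)
  have h2 := norm_pos_iff.2 (h0 0 (mem_ball_self one_pos))
  have h3 : 0 ≤ K * ‖g 0‖ := le_trans (by simp) h1
  exact nonneg_of_mul_nonneg_left h3 h2 |> fun h => by
    by_contra hneg
    push Not at hneg
    nlinarith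

/-- Doubling on Whitney discs: any two points of the disc `D(z,(1-‖z‖)/2)` are comparable. -/
theorem univ_doubling {g : ℂ → ℂ} (hg : DifferentiableOn ℂ g (ball 0 1))
    (h0 : ∀ z ∈ ball (0 : ℂ) 1, g z ≠ 0) {K : ℝ}
    (hK : ∀ z ∈ ball (0 : ℂ) 1, (1 - ‖z‖ ^ 2) * ‖deriv g z‖ ≤ K * ‖g z‖)
    {z u w : ℂ} (hz : ‖z‖ < 1) (hu : ‖u - z‖ ≤ (1 - ‖z‖) / 2) (hw : ‖w - z‖ ≤ (1 - ‖z‖) / 2) :
    ‖g w‖ ≤ Real.exp (2 * K) * ‖g u‖ := by
  have hd : 0 < 1 - ‖z‖ := by linarith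
  have hK0 := univ_K_nonneg h0 hK
  refine (univ_harnack hg h0 hK hz hu hw).trans
    (mul_le_mul_of_nonneg_right (Real.exp_le_exp.2 ?_) (norm_nonneg _))
  have h1 : ‖w - u‖ ≤ 1 - ‖z‖ := by
    have := norm_sub_le (w - z) (u - z)
    rw [sub_sub_sub_cancel_right] at this
    linarith
  rw [div_mul_eq_mul_div, div_le_iff₀ hd]
  nlinarith

/-- Cauchy estimate: if `(1-‖z‖²)‖q z‖ ≤ K` on the disc then `(1-‖z‖²)²‖q' z‖ ≤ 16 K`. -/
theorem univ_deriv_bound {q : ℂ → ℂ} (hq : DifferentiableOn ℂ q (ball 0 1)) {K : ℝ}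
    (hK : ∀ z ∈ ball (0 : ℂ) 1, (1 - ‖z‖ ^ 2) * ‖q z‖ ≤ K) :
    ∀ z ∈ ball (0 : ℂ) 1, (1 - ‖z‖ ^ 2) ^ 2 * ‖deriv q z‖ ≤ 16 * K := by
  intro z hz
  have hz1 : ‖z‖ < 1 := mem_ball_zero_iff.1 hz
  have hd : 0 < 1 - ‖z‖ := by linarith
  have hsub : closedBall z ((1 - ‖z‖) / 2) ⊆ ball 0 1 := fun v hv =>
    mem_ball_zero_iff.2 (univ_whitney hz1 (mem_closedBall_iff_norm.1 hv)).1
  have hK0 : 0 ≤ K := le_trans (by simp) (hK 0 (mem_ball_self one_pos))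
  have h1 : ‖deriv q z‖ ≤ (2 * K / (1 - ‖z‖)) / ((1 - ‖z‖) / 2) := by
    refine Complex.norm_deriv_le_of_forall_mem_sphere_norm_le (by positivity)
      (hq.diffContOnCl_ball hsub) (fun v hv => ?_)
    obtain ⟨a1, -, a3⟩ := univ_whitney hz1 (mem_closedBall_iff_norm.1 (sphere_subset_closedBall hv))
    have h1 := hK v (mem_ball_zero_iff.2 a1)
    have h2 : (1 - ‖z‖) / 2 * ‖q v‖ ≤ K :=
      (mul_le_mul_of_nonneg_right a3 (norm_nonneg _)).trans h1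
    rw [le_div_iff₀ hd]
    linarith
  have h2 : (1 - ‖z‖) ^ 2 * ‖deriv q z‖ ≤ 4 * K := by
    rw [div_div, le_div_iff₀ (by positivity)] at h1
    nlinarith
  have h3 : (1 - ‖z‖ ^ 2) ^ 2 ≤ 4 * (1 - ‖z‖) ^ 2 := by
    have h4 : (1 + ‖z‖) ^ 2 ≤ 4 := by nlinarith [norm_nonneg z]
    have h5 : (1 - ‖z‖ ^ 2) ^ 2 = (1 + ‖z‖) ^ 2 * (1 - ‖z‖) ^ 2 := by ring
    rw [h5]
    exact mul_le_mul_of_nonneg_right h4 (by positivity)
  nlinarith [norm_nonneg (deriv q z)]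

/-- Radial distortion: `‖L z - L 0‖ ≤ -K log (1-‖z‖)` if `(1-‖z‖²)‖L'‖ ≤ K`. -/
theorem univ_log_growth {L q : ℂ → ℂ} (hL : ∀ z ∈ ball (0 : ℂ) 1, HasDerivAt L (q z) z) {K : ℝ}
    (hK : ∀ z ∈ ball (0 : ℂ) 1, (1 - ‖z‖ ^ 2) * ‖q z‖ ≤ K) {z : ℂ} (hz : ‖z‖ < 1) :
    ‖L z - L 0‖ ≤ -K * Real.log (1 - ‖z‖) := by
  have hz0 := norm_nonneg z
  have hmem : ∀ t ∈ Icc (0 : ℝ) 1, ‖(t : ℂ) * z‖ = t * ‖z‖ ∧ t * ‖z‖ < 1 ∧ 0 ≤ t * ‖z‖ := by
    intro t ht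
    refine ⟨by rw [norm_mul, Complex.norm_real, Real.norm_of_nonneg ht.1], ?_,
      mul_nonneg ht.1 hz0⟩
    nlinarith [ht.1, ht.2]
  have hf' : ∀ t ∈ Icc (0 : ℝ) 1,
      HasDerivAt (fun s : ℝ => L ((s : ℂ) * z) - L 0) (q ((t : ℂ) * z) * z) t := by
    intro t ht
    obtain ⟨a1, a2, -⟩ := hmem t ht
    have h1 : HasDerivAt (fun s : ℂ => L (s * z)) (q ((t : ℂ) * z) * z) (t : ℂ) := by
      have := (hL ((t : ℂ) * z) (mem_ball_zero_iff.2 (a1 ▸ a2))).comp (t : ℂ)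
        ((hasDerivAt_id (t : ℂ)).mul_const z)
      simpa [Function.comp_def] using this
    exact h1.comp_ofReal.sub_const _
  have hB : ∀ t ∈ Icc (0 : ℝ) 1,
      HasDerivAt (fun s : ℝ => -K * Real.log (1 - s * ‖z‖)) (K * ‖z‖ / (1 - t * ‖z‖)) t := by
    intro t ht
    obtain ⟨-, a2, -⟩ := hmem t ht
    have h1 := (((hasDerivAt_id t).mul_const ‖z‖).const_sub 1).log (by
      simp only [id]; linarith)
    refine (h1.const_mul (-K)).congr_deriv ?_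
    simp only [id]; ring
  have key := image_norm_le_of_norm_deriv_right_le_deriv_boundary'
    (f := fun s : ℝ => L ((s : ℂ) * z) - L 0) (f' := fun t => q ((t : ℂ) * z) * z)
    (a := 0) (b := 1) (fun t ht => (hf' t ht).continuousAt.continuousWithinAt)
    (fun t ht => (hf' t (Ico_subset_Icc_self ht)).hasDerivWithinAt)
    (B := fun s : ℝ => -K * Real.log (1 - s * ‖z‖)) (B' := fun t => K * ‖z‖ / (1 - t * ‖z‖))
    (by simp) (fun t ht => (hB t ht).continuousAt.continuousWithinAt)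
    (fun t ht => (hB t (Ico_subset_Icc_self ht)).hasDerivWithinAt)
    (fun t ht => by
      obtain ⟨a1, a2, a3⟩ := hmem t (Ico_subset_Icc_self ht)
      have h1 := hK ((t : ℂ) * z) (mem_ball_zero_iff.2 (a1 ▸ a2))
      rw [a1] at h1
      rw [norm_mul, le_div_iff₀ (by linarith)]
      have h2 : (1 - t * ‖z‖) * ‖q ((t : ℂ) * z)‖ ≤ K :=
        (mul_le_mul_of_nonneg_right (by nlinarith) (norm_nonneg _)).trans h1
      nlinarith) (x := 1) ⟨zero_le_one, le_rfl⟩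
  simpa using key

/-- Distortion: `(1-‖z‖)^K ‖g 0‖ ≤ ‖g z‖ ≤ (1-‖z‖)^(-K) ‖g 0‖`. -/
theorem univ_distortion {g : ℂ → ℂ} (hg : DifferentiableOn ℂ g (ball 0 1))
    (h0 : ∀ z ∈ ball (0 : ℂ) 1, g z ≠ 0) {K : ℝ}
    (hK : ∀ z ∈ ball (0 : ℂ) 1, (1 - ‖z‖ ^ 2) * ‖deriv g z‖ ≤ K * ‖g z‖) {z : ℂ} (hz : ‖z‖ < 1) :
    (1 - ‖z‖) ^ K * ‖g 0‖ ≤ ‖g z‖ ∧ ‖g z‖ ≤ (1 - ‖z‖) ^ (-K) * ‖g 0‖ := by
  obtain ⟨L, -, he, hd⟩ := univ_exists_log hg h0
  have hpos : 0 < 1 - ‖z‖ := by linarith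
  have h1 := univ_log_growth hd (K := K) (fun w hw => by
    rw [norm_div, ← mul_div_assoc, div_le_iff₀ (norm_pos_iff.2 (h0 w hw))]
    exact hK w hw) hz
  have h2 : |(L z - L 0).re| ≤ ‖L z - L 0‖ := Complex.abs_re_le_norm _
  rw [Complex.sub_re, abs_le] at h2
  rw [← he z (mem_ball_zero_iff.2 hz), ← he 0 (mem_ball_self one_pos), Complex.norm_exp,
    Complex.norm_exp, Real.rpow_def_of_pos hpos, Real.rpow_def_of_pos hpos, ← Real.exp_add,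
    ← Real.exp_add, Real.exp_le_exp, Real.exp_le_exp]
  constructor <;> nlinarith [h2.1, h2.2]

end Crest.Agent.R131
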