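import Mathlib
import Crest.Agent.R131.Univ
import Crest.Agent.R131.Pars57

/-! Bieberbach's bound `|a₂| ≤ 2` by Prawitz' weighted area argument. -/

set_option autoImplicit false

namespace Crest.Agent.R131.Bieb30
open MeasureTheory Metric Set Filter Topology

theorem det_smul_one (a : ℂ) : (a • (1 : ℂ →L[ℝ] ℂ)).det = ‖a‖ ^ 2 := by
  rw [ContinuousLinearMap.det, ← LinearMap.det_toMatrix Complex.basisOneI, Matrix.det_fin_two]
  simp [LinearMap.toMatrix_apply, Complex.sq_norm, Complex.normSq_apply]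

theorem area_le (f : ℂ → ℂ) (hf : DifferentiableOn ℂ f (ball 0 1)) (hinj : InjOn f (ball 0 1))
    (A B : Set ℂ) (hA : MeasurableSet A) (hA1 : A ⊆ ball 0 1) (hAB : ∀ z ∈ A, f z ∈ B)
    (φ : ℂ → ENNReal) :
    ∫⁻ z in A, ENNReal.ofReal (‖deriv f z‖ ^ 2) * φ (f z) ≤ ∫⁻ w in B, φ w := by
  have h := lintegral_image_eq_lintegral_abs_det_fderiv_mul (volume : Measure ℂ)
    (s := A) (f := f) (f' := fun z => deriv f z • (1 : ℂ →L[ℝ] ℂ))
    hA (fun z hz =>
      ((hf.differentiableAt (isOpen_ball.mem_nhds (hA1 hz))).hasDerivAt.complexToReal_fderiv).hasFDerivWithinAt)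
    (hinj.mono hA1) φ
  simp only [det_smul_one, abs_pow, abs_norm] at h
  rw [← h]
  exact lintegral_mono_set (by rintro _ ⟨z, hz, rfl⟩; exact hAB z hz)

theorem norm_polar {r : ℝ} (hr : 0 ≤ r) (θ : ℝ) : ‖(r : ℂ) * Complex.exp (θ * Complex.I)‖ = r := by
  rw [norm_mul, Complex.norm_exp_ofReal_mul_I, Complex.norm_real, Real.norm_eq_abs,
    abs_of_nonneg hr, mul_one]

theorem polar_eq (F : ℂ → ENNReal) (hF : Measurable F) (S : Set ℝ) (hS : MeasurableSet S)
    (hS0 : S ⊆ Ioi 0) :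
    ∫⁻ z in {z : ℂ | ‖z‖ ∈ S}, F z =
      ∫⁻ r in S, ENNReal.ofReal r * ∫⁻ θ in Ioo (-Real.pi) Real.pi,
        F ((r : ℂ) * Complex.exp (θ * Complex.I)) := by
  have hm : MeasurableSet {z : ℂ | ‖z‖ ∈ S} := measurable_norm hS
  rw [← lintegral_indicator hm, ← Complex.lintegral_comp_polarCoord_symm,
    polarCoord_target, Measure.volume_eq_prod, ← Measure.prod_restrict]
  have hc : Continuous fun p : ℝ × ℝ => (p.1 : ℂ) * Complex.exp (p.2 * Complex.I) := by fun_prop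
  have he : ∀ p : ℝ × ℝ, Complex.polarCoord.symm p = (p.1 : ℂ) * Complex.exp (p.2 * Complex.I) := by
    intro p
    rw [Complex.polarCoord_symm_apply, Complex.exp_mul_I]
    push_cast; ring
  simp only [he, smul_eq_mul]
  rw [lintegral_prod]
  · have : S = S ∩ Ioi 0 := (inter_eq_left.2 hS0).symm
    conv_rhs => rw [this, ← Measure.restrict_restrict hS, ← lintegral_indicator hS]
    refine setLIntegral_congr_fun measurableSet_Ioi fun r hr => ?_
    have hr' : (0 : ℝ) < r := hr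
    simp only
    rw [lintegral_const_mul' _ _ ENNReal.ofReal_ne_top]
    by_cases h1 : r ∈ S
    · rw [indicator_of_mem h1]
      congr 1
      refine lintegral_congr fun θ => indicator_of_mem ?_ _
      simp only [mem_ofPred_eq, norm_polar hr'.le]; exact h1
    · rw [indicator_of_notMem h1]
      have : ∀ θ : ℝ, {z : ℂ | ‖z‖ ∈ S}.indicator F ((r : ℂ) * Complex.exp (θ * Complex.I)) = 0 :=
        fun θ => indicator_of_notMem (by simp only [mem_ofPred_eq, norm_polar hr'.le]; exact h1) _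
      simp [this]
  · exact ((measurable_fst.ennreal_ofReal).mul
      ((hF.indicator hm).comp hc.measurable)).aemeasurable

/-- exterior integral -/
theorem ext_int {β δ : ℝ} (hβ : 0 < β) (hδ : 0 < δ) :
    ∫⁻ w in {w : ℂ | ‖w‖ ∈ Ici δ}, ENNReal.ofReal (‖w‖ ^ (-(β + 2))) =
      ENNReal.ofReal (2 * Real.pi * (δ ^ (-β) / β)) := by
  rw [polar_eq _ (by fun_prop) _ measurableSet_Ici (fun r hr => lt_of_lt_of_le hδ hr),
    ← setLIntegral_congr (Ioi_ae_eq_Ici (a := δ))]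
  have h1 : ∀ r ∈ Ioi δ, ENNReal.ofReal r * ∫⁻ θ in Ioo (-Real.pi) Real.pi,
      ENNReal.ofReal (‖(r : ℂ) * Complex.exp (θ * Complex.I)‖ ^ (-(β + 2))) =
      ENNReal.ofReal (2 * Real.pi * r ^ (-β - 1)) := by
    intro r hr
    have hr' : 0 < r := hδ.trans hr
    simp only [norm_polar hr'.le, lintegral_const, Measure.restrict_apply MeasurableSet.univ,
      univ_inter, Real.volume_Ioo]
    rw [← ENNReal.ofReal_mul (by positivity), ← ENNReal.ofReal_mul hr'.le]
    congr 1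
    have : r ^ (-β - 1) = r * r ^ (-(β + 2)) := by
      rw [show -β - 1 = 1 + -(β + 2) by ring, Real.rpow_add hr', Real.rpow_one]
    rw [this]; ring
  rw [setLIntegral_congr_fun measurableSet_Ioi h1, ← ofReal_integral_eq_lintegral_ofReal]
  · rw [integral_const_mul, integral_Ioi_rpow_of_lt (by linarith) hδ]
    congr 2
    rw [show -β - 1 + 1 = -β by ring]; field_simp
  · exact (integrableOn_Ioi_rpow_of_lt (by linarith) hδ).const_mul _
  · refine (ae_restrict_iff' measurableSet_Ioi).2 (Eventually.of_forall fun r hr => ?_)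
    have hr' : 0 < r := hδ.trans hr
    simp only [Pi.zero_apply]; positivity

/-- two-term Bessel inequality -/
theorem bessel (k : ℂ → ℂ) (hk : DifferentiableOn ℂ k (ball 0 1)) {r : ℝ} (hr : 0 ≤ r)
    (hr1 : r < 1) :
    ENNReal.ofReal (2 * Real.pi * (‖k 0‖ ^ 2 + ‖deriv k 0‖ ^ 2 * r ^ 2)) ≤
      ∫⁻ θ in Ioo (-Real.pi) Real.pi,
        ENNReal.ofReal (‖k ((r : ℂ) * Complex.exp (θ * Complex.I))‖ ^ 2) := by
  have h := p57_circle0 k 1 hk r hr hr1
  have h2 := sum_le_hasSum (Finset.range 2) (fun n _ => by positivity) h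
  simp only [Finset.sum_range_succ, Finset.sum_range_zero, p57co, iteratedDeriv_zero,
    iteratedDeriv_one] at h2
  have hc : Continuous fun θ : ℝ => ‖k ((r : ℂ) * Complex.exp (θ * Complex.I))‖ ^ 2 := by
    refine (Continuous.norm ?_).pow 2
    refine hk.continuousOn.comp_continuous (by fun_prop) fun θ => ?_
    rw [mem_ball_zero_iff, norm_polar hr]; exact hr1
  rw [← ofReal_integral_eq_lintegral_ofReal
    ((hc.integrableOn_Icc (a := -Real.pi) (b := Real.pi)).mono_set Ioo_subset_Icc_self)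
    (Eventually.of_forall fun θ => by simp only [Pi.zero_apply]; positivity)]
  refine ENNReal.ofReal_le_ofReal ?_
  rw [← integral_Ioc_eq_integral_Ioo, ← intervalIntegral.integral_of_le (by linarith [Real.pi_pos])]
  refine le_trans (le_of_eq ?_) h2
  simp; ring

/-- annulus lower bound -/
theorem ann_int (k : ℂ → ℂ) (hk : DifferentiableOn ℂ k (ball 0 1)) (hkm : Measurable k)
    (hk0 : k 0 = 1) {β ε : ℝ} (hβ : 0 < β) (hβ1 : β < 1) (hε : 0 < ε) (hε1 : ε < 1) :
    ENNReal.ofReal (2 * Real.pi * ((ε ^ (-β) - 1) / β +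
        ‖deriv k 0‖ ^ 2 * ((1 - ε ^ (2 - β)) / (2 - β)))) ≤
      ∫⁻ z in {z : ℂ | ‖z‖ ∈ Ioo ε 1}, ENNReal.ofReal (‖z‖ ^ (-(β + 2)) * ‖k z‖ ^ 2) := by
  rw [polar_eq _ (by fun_prop) _ measurableSet_Ioo (fun r hr => hε.trans hr.1)]
  set A := ‖deriv k 0‖ ^ 2 with hA
  have hA0 : 0 ≤ A := by positivity
  have hc : ContinuousOn (fun r : ℝ => 2 * Real.pi * (r ^ (-β - 1) + A * r ^ (1 - β))) (Icc ε 1) := by
    refine continuousOn_const.mul (ContinuousOn.add ?_ (continuousOn_const.mul ?_)) <;>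
      exact continuousOn_id.rpow_const fun r hr => Or.inl (hε.trans_le hr.1).ne'
  have h0 : (0 : ℝ) ∉ uIcc ε 1 := by
    rw [uIcc_of_le hε1.le]; exact fun h => absurd h.1 (not_le.2 hε)
  have hi : ∫ r in Ioo ε 1, 2 * Real.pi * (r ^ (-β - 1) + A * r ^ (1 - β)) =
      2 * Real.pi * ((ε ^ (-β) - 1) / β + A * ((1 - ε ^ (2 - β)) / (2 - β))) := by
    rw [← integral_Ioc_eq_integral_Ioo, ← intervalIntegral.integral_of_le hε1.le,
      intervalIntegral.integral_const_mul, intervalIntegral.integral_add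
        (intervalIntegral.intervalIntegrable_rpow (Or.inr h0))
        ((intervalIntegral.intervalIntegrable_rpow (Or.inr h0)).const_mul _),
      intervalIntegral.integral_const_mul,
      integral_rpow (Or.inr ⟨by linarith, h0⟩), integral_rpow (Or.inl (by linarith))]
    rw [show -β - 1 + 1 = -β by ring, show 1 - β + 1 = 2 - β by ring, Real.one_rpow, Real.one_rpow]
    congr 2
    field_simp; ring
  rw [← hi, ofReal_integral_eq_lintegral_ofReal
    (hc.integrableOn_Icc.mono_set Ioo_subset_Icc_self)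
    ((ae_restrict_iff' measurableSet_Ioo).2 (Eventually.of_forall fun r hr => by
      have hr' : 0 < r := hε.trans hr.1
      simp only [Pi.zero_apply]; positivity))]
  refine setLIntegral_mono' measurableSet_Ioo fun r hr => ?_
  have hr' : 0 < r := hε.trans hr.1
  have hb := bessel k hk hr'.le hr.2
  simp only [norm_polar hr'.le]
  simp only [ENNReal.ofReal_mul (Real.rpow_nonneg hr'.le (-(β + 2)))]
  rw [lintegral_const_mul' _ _ ENNReal.ofReal_ne_top]
  refine le_trans (le_of_eq ?_) (mul_le_mul_right (mul_le_mul_right hb _) _)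
  rw [← ENNReal.ofReal_mul (by positivity), ← ENNReal.ofReal_mul hr'.le, hk0, norm_one, ← hA]
  congr 1
  have e1 : r ^ (-β - 1) = r * r ^ (-(β + 2)) := by
    rw [show -β - 1 = 1 + -(β + 2) by ring, Real.rpow_add hr', Real.rpow_one]
  have e2 : r ^ (1 - β) = r ^ 3 * r ^ (-(β + 2)) := by
    rw [show 1 - β = ((3 : ℕ) : ℝ) + -(β + 2) by push_cast; ring, Real.rpow_add hr', Real.rpow_natCast]
  rw [e1, e2]; ring

/-- covering -/
theorem cover (f : ℂ → ℂ) (hf : DifferentiableOn ℂ f (ball 0 1)) (hinj : InjOn f (ball 0 1))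
    (h0 : f 0 = 0) {ε δ : ℝ} (hε : 0 < ε) (hε1 : ε < 1)
    (hs : ∀ z : ℂ, ‖z‖ = ε → δ ≤ ‖f z‖) : ∀ z : ℂ, ‖z‖ ∈ Ioo ε 1 → δ ≤ ‖f z‖ := by
  intro z hz
  by_contra hlt
  rw [not_le] at hlt
  have hδ : 0 < δ := (norm_nonneg _).trans_lt hlt
  have hb : ball (0 : ℂ) ε ⊆ ball 0 1 := ball_subset_ball hε1.le
  have hcb : closedBall (0 : ℂ) ε ⊆ ball 0 1 := closedBall_subset_ball hε1
  have hU : IsOpen (f '' ball 0 ε) :=
    Crest.Agent.Lib.Complex.isOpen_image_of_injOn isOpen_ball hf hinj isOpen_ball hb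
  have hV : IsOpen (f '' closedBall 0 ε)ᶜ :=
    ((isCompact_closedBall 0 ε).image_of_continuousOn (hf.continuousOn.mono hcb)).isClosed.isOpen_compl
  have hsub : ball (0 : ℂ) δ ⊆ f '' ball 0 ε := by
    refine (convex_ball (0 : ℂ) δ).isPreconnected.subset_left_of_subset_union hU hV ?_ ?_ ?_
    · exact disjoint_compl_right.mono_left (image_mono ball_subset_closedBall)
    · intro w hw
      by_cases hw' : w ∈ f '' closedBall 0 ε
      · obtain ⟨y, hy, rfl⟩ := hw'
        left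
        refine ⟨y, ?_, rfl⟩
        rw [mem_closedBall_zero_iff] at hy
        rw [mem_ball_zero_iff] at hw ⊢
        refine lt_of_le_of_ne hy fun h => absurd (hs y h) (not_le.2 hw)
      · exact Or.inr hw'
    · exact ⟨0, mem_ball_self hδ, 0, mem_ball_self hε, h0⟩
  obtain ⟨y, hy, hyz⟩ := hsub (mem_ball_zero_iff.2 hlt)
  have := hinj (hb hy) (mem_ball_zero_iff.2 hz.2) hyz
  rw [mem_ball_zero_iff, this] at hy
  exact absurd hz.1 (not_lt.2 hy.le)

theorem key (f u L : ℂ → ℂ) (hf : DifferentiableOn ℂ f (ball 0 1)) (hinj : InjOn f (ball 0 1))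
    (hL : DifferentiableOn ℂ L (ball 0 1)) (hL0 : L 0 = 0)
    (hfL : ∀ z ∈ ball (0 : ℂ) 1, f z = z * Complex.exp (L z)) (h1 : deriv f 0 = 1)
    (h2 : deriv (deriv f) 0 = 2 * deriv L 0) {β : ℝ} (hβ : 0 < β) (hβ1 : β < 1) :
    β * (2 - β) * ‖deriv L 0‖ ^ 2 ≤ 4 := by
  classical
  have hz0 : (0 : ℂ) ∈ ball (0 : ℂ) 1 := mem_ball_self one_pos
  have hn0 : ball (0 : ℂ) 1 ∈ 𝓝 (0 : ℂ) := isOpen_ball.mem_nhds hz0
  have hf0 : f 0 = 0 := by rw [hfL 0 hz0, zero_mul]
  set k₀ : ℂ → ℂ := fun z => deriv f z * Complex.exp (-((1 + β / 2 : ℝ) : ℂ) * L z) with hk₀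
  have hk₀d : DifferentiableOn ℂ k₀ (ball 0 1) :=
    (hf.deriv isOpen_ball).mul ((hL.const_mul _).cexp)
  set k : ℂ → ℂ := (ball (0 : ℂ) 1).piecewise k₀ (fun _ => 0) with hk
  have hkk : ∀ z ∈ ball (0 : ℂ) 1, k z = k₀ z := fun z hz => piecewise_eq_of_mem _ _ _ hz
  have hkd : DifferentiableOn ℂ k (ball 0 1) := hk₀d.congr hkk
  have hkm : Measurable k :=
    hk₀d.continuousOn.measurable_piecewise continuousOn_const measurableSet_ball
  have hk0 : k 0 = 1 := by rw [hkk 0 hz0]; simp [hk₀, h1, hL0]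
  have hk1 : deriv k 0 = ((1 - β / 2 : ℝ) : ℂ) * deriv L 0 := by
    have e : k =ᶠ[𝓝 0] k₀ := mem_of_superset hn0 hkk
    rw [e.deriv_eq]
    have a1 := ((hf.deriv isOpen_ball).differentiableAt hn0).hasDerivAt
    have a2 := (((hL.differentiableAt hn0).hasDerivAt).const_mul (-((1 + β / 2 : ℝ) : ℂ))).cexp
    have a3 : HasDerivAt k₀ _ 0 := a1.mul a2
    rw [a3.deriv, h2, h1, hL0]
    push_cast; simp; ring
  -- Lipschitz bound for `L` near `0`
  obtain ⟨C, hC0, ρ, hρ, hC⟩ : ∃ C : ℝ, 0 < C ∧ ∃ ρ : ℝ, 0 < ρ ∧ ∀ z : ℂ, ‖z‖ < ρ → ‖L z‖ ≤ C * ‖z‖ := by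
    have hb := (hL.differentiableAt hn0).hasDerivAt.isBigO_sub
    obtain ⟨C, hC0, hC⟩ := hb.exists_pos
    obtain ⟨ρ, hρ, hh⟩ := Metric.eventually_nhds_iff_ball.1 hC.bound
    exact ⟨C, hC0, ρ, hρ, fun z hz => by simpa [hL0] using hh z (mem_ball_zero_iff.2 hz)⟩
  set A := ‖deriv k 0‖ ^ 2 with hA
  have main : ∀ ε : ℝ, 0 < ε → ε < 1 → ε < ρ → β * C * ε ≤ 1 →
      A * ((1 - ε ^ (2 - β)) / (2 - β)) ≤ 1 / β + 2 * C * ε ^ (1 - β) := by
    intro ε hε hε1 hερ hsm
    set δ := ε * Real.exp (-(C * ε)) with hδ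
    have hδ0 : 0 < δ := by positivity
    have hcov := cover f hf hinj hf0 hε hε1 (δ := δ) (fun z hz => by
      rw [hfL z (mem_ball_zero_iff.2 (hz ▸ hε1)), norm_mul, Complex.norm_exp, hz]
      refine mul_le_mul_of_nonneg_left (Real.exp_le_exp.2 ?_) hε.le
      have := hC z (hz ▸ hερ)
      rw [hz] at this
      linarith [neg_abs_le (L z).re, Complex.abs_re_le_norm (L z)])
    have hA1 : {z : ℂ | ‖z‖ ∈ Ioo ε 1} ⊆ ball 0 1 := fun z hz => mem_ball_zero_iff.2 hz.2
    have hAm : MeasurableSet {z : ℂ | ‖z‖ ∈ Ioo ε 1} := measurable_norm measurableSet_Ioo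
    have ha := area_le f hf hinj _ {w : ℂ | ‖w‖ ∈ Ici δ} hAm hA1 (fun z hz => hcov z hz)
      (fun w => ENNReal.ofReal (‖w‖ ^ (-(β + 2))))
    rw [ext_int hβ hδ0] at ha
    have hb := ann_int k hkd hkm hk0 hβ hβ1 hε hε1
    have hc : ∀ z ∈ {z : ℂ | ‖z‖ ∈ Ioo ε 1}, ENNReal.ofReal (‖z‖ ^ (-(β + 2)) * ‖k z‖ ^ 2) =
        ENNReal.ofReal (‖deriv f z‖ ^ 2) * ENNReal.ofReal (‖f z‖ ^ (-(β + 2))) := by
      intro z hz
      rw [← ENNReal.ofReal_mul (by positivity), hkk z (hA1 hz), hfL z (hA1 hz)]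
      congr 1
      simp only [hk₀, norm_mul, Complex.norm_exp]
      rw [Real.mul_rpow (norm_nonneg _) (Real.exp_pos _).le, ← Real.exp_mul, mul_pow,
        ← Real.exp_nat_mul]
      have : ((2 : ℕ) : ℝ) * (-((1 + β / 2 : ℝ) : ℂ) * L z).re = (L z).re * -(β + 2) := by
        rw [← Complex.ofReal_neg, Complex.re_ofReal_mul]; push_cast; ring
      rw [this]; ring
    rw [setLIntegral_congr_fun hAm hc] at hb
    have hd := (ENNReal.ofReal_le_ofReal_iff (by positivity)).1 (hb.trans ha)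
    have hd' := le_of_mul_le_mul_left hd (by positivity)
    have e1 : δ ^ (-β) = ε ^ (-β) * Real.exp (β * C * ε) := by
      rw [hδ, Real.mul_rpow hε.le (Real.exp_pos _).le, ← Real.exp_mul]; congr 2; ring
    have e2 : Real.exp (β * C * ε) ≤ 1 + 2 * (β * C * ε) := by
      have h0 : 0 ≤ β * C * ε := by positivity
      have := Real.abs_exp_sub_one_le (x := β * C * ε) (by rwa [abs_of_nonneg h0])
      rw [abs_of_nonneg h0] at this
      linarith [le_abs_self (Real.exp (β * C * ε) - 1)]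
    have e3 : ε ^ (1 - β) = ε * ε ^ (-β) := by
      rw [sub_eq_add_neg, Real.rpow_add hε, Real.rpow_one]
    have hp : 0 < ε ^ (-β) := Real.rpow_pos_of_pos hε _
    have e4 : δ ^ (-β) / β ≤ ε ^ (-β) / β + 2 * C * ε ^ (1 - β) := by
      rw [e1, e3]
      calc ε ^ (-β) * Real.exp (β * C * ε) / β ≤ ε ^ (-β) * (1 + 2 * (β * C * ε)) / β := by gcongr
        _ = _ := by field_simp
    have e5 : (ε ^ (-β) - 1) / β = ε ^ (-β) / β - 1 / β := by ring
    rw [← hA] at hd'
    linarith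
  have t1 : Tendsto (fun ε : ℝ => A * ((1 - ε ^ (2 - β)) / (2 - β))) (𝓝[>] 0)
      (𝓝 (A * ((1 - (0 : ℝ) ^ (2 - β)) / (2 - β)))) :=
    tendsto_nhdsWithin_of_tendsto_nhds (((tendsto_const_nhds.sub
      (Real.continuousAt_rpow_const 0 _ (Or.inr (by linarith))).tendsto).div_const _).const_mul _)
  have t2 : Tendsto (fun ε : ℝ => 1 / β + 2 * C * ε ^ (1 - β)) (𝓝[>] 0)
      (𝓝 (1 / β + 2 * C * (0 : ℝ) ^ (1 - β))) :=
    tendsto_nhdsWithin_of_tendsto_nhds (tendsto_const_nhds.add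
      ((Real.continuousAt_rpow_const 0 _ (Or.inr (by linarith))).tendsto.const_mul _))
  rw [Real.zero_rpow (by linarith)] at t1 t2
  have hfin := le_of_tendsto_of_tendsto t1 t2 (by
    have hm : 0 < min 1 (min ρ (1 / (β * C))) := by positivity
    filter_upwards [Ioo_mem_nhdsGT hm] with ε hε
    have h3 := hε.2
    simp only [lt_min_iff] at h3
    refine main ε hε.1 h3.1 h3.2.1 ?_
    have := (lt_div_iff₀ (by positivity : 0 < β * C)).1 h3.2.2
    linarith)
  rw [hA, hk1, norm_mul, Complex.norm_real, Real.norm_eq_abs, abs_of_pos (by linarith), mul_pow,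
    mul_zero, add_zero, sub_zero] at hfin
  have h2β : 0 < 2 - β := by linarith
  have : (1 - β / 2) ^ 2 * ‖deriv L 0‖ ^ 2 * (1 / (2 - β)) = (2 - β) * ‖deriv L 0‖ ^ 2 / 4 := by
    field_simp; ring
  rw [this, div_le_div_iff₀ (by norm_num) hβ] at hfin
  linarith

/-- **Bieberbach**: `|a₂| ≤ 2`. -/
theorem bieberbach (f : ℂ → ℂ) (hf : DifferentiableOn ℂ f (ball 0 1)) (hinj : InjOn f (ball 0 1))
    (h0 : f 0 = 0) (h1 : deriv f 0 = 1) : ‖deriv (deriv f) 0‖ ≤ 4 := by
  have hz0 : (0 : ℂ) ∈ ball (0 : ℂ) 1 := mem_ball_self one_pos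
  have hn0 : ball (0 : ℂ) 1 ∈ 𝓝 (0 : ℂ) := isOpen_ball.mem_nhds hz0
  set u := dslope f 0 with hu
  have hud : DifferentiableOn ℂ u (ball 0 1) := (Complex.differentiableOn_dslope hn0).2 hf
  have hfu : ∀ z, f z = z * u z := fun z => by
    have := sub_smul_dslope f 0 z
    simpa [h0] using this.symm
  have hu0 : u 0 = 1 := by rw [hu, dslope_same, h1]
  have hune : ∀ z ∈ ball (0 : ℂ) 1, u z ≠ 0 := by
    intro z hz h
    have : f z = f 0 := by rw [hfu z, h, mul_zero, h0]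
    have := hinj hz hz0 this
    rw [this, hu0] at h
    exact one_ne_zero h
  obtain ⟨L, hL, he, hd⟩ := univ_exists_log hud hune
  have hL' : DifferentiableOn ℂ (fun z => L z - L 0) (ball 0 1) := hL.sub_const _
  have hdL : deriv (fun z => L z - L 0) 0 = deriv u 0 := by
    rw [((hd 0 hz0).sub_const _).deriv, hu0, div_one]
  have h2 : deriv (deriv f) 0 = 2 * deriv u 0 := by
    have e : deriv f =ᶠ[𝓝 0] fun z => u z + z * deriv u z := by
      filter_upwards [hn0] with z hz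
      have a : HasDerivAt (fun z => z * u z) _ z :=
        (hasDerivAt_id z).mul (hud.differentiableAt (isOpen_ball.mem_nhds hz)).hasDerivAt
      have e2 : f = fun z => z * u z := funext hfu
      rw [e2, a.deriv]; simp
    rw [e.deriv_eq]
    have a := (hud.differentiableAt hn0).hasDerivAt.add ((hasDerivAt_id (0 : ℂ)).mul
      ((hud.deriv isOpen_ball).differentiableAt hn0).hasDerivAt)
    have := a.deriv
    simp only [id, one_mul, zero_mul, add_zero] at this
    rw [two_mul]; exact this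
  have hk : ∀ β : ℝ, 0 < β → β < 1 → β * (2 - β) * ‖deriv u 0‖ ^ 2 ≤ 4 := fun β hβ hβ1 => by
    have := key f u (fun z => L z - L 0) hf hinj hL' (sub_self _) (fun z hz => by
      rw [Complex.exp_sub, he z hz, he 0 hz0, hu0, div_one, hfu z]) h1 (by rw [hdL, h2]) hβ hβ1
    rwa [hdL] at this
  have t : Tendsto (fun β : ℝ => β * (2 - β) * ‖deriv u 0‖ ^ 2) (𝓝[<] 1)
      (𝓝 (1 * (2 - 1) * ‖deriv u 0‖ ^ 2)) :=
    tendsto_nhdsWithin_of_tendsto_nhds ((by fun_prop : Continuous fun β : ℝ =>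
      β * (2 - β) * ‖deriv u 0‖ ^ 2).tendsto 1)
  have h4 := le_of_tendsto t (b := 4) (by
    filter_upwards [Ioo_mem_nhdsLT (zero_lt_one' ℝ)] with β hβ using hk β hβ.1 hβ.2)
  rw [h2, norm_mul, Complex.norm_two]
  nlinarith [norm_nonneg (deriv u 0)]

end Crest.Agent.R131.Bieb30
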