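import Mathlib
import Crest.Agent.R131.Univ
import Crest.Agent.R131.Pars57

/-!
The area theorem, Bieberbach's bound `|a₂| ≤ 2` and the Koebe bound
`(1-‖z‖²) ‖f''‖ ≤ 6 ‖f'‖` for univalent functions on the unit disc.
-/

set_option autoImplicit false

open MeasureTheory Metric Set Filter Topology Complex
open scoped ENNReal Real Interval ComplexConjugate

namespace Crest.Agent.R131.B47

lemma mass (δ : ℝ) (hδ : 0 < δ) :
    ∫⁻ w : ℂ, ENNReal.ofReal (δ / (‖w‖ ^ 2 + δ) ^ 2) ≤ ENNReal.ofReal π := by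
  rw [← Complex.lintegral_comp_polarCoord_symm]
  have h1 : ∀ p ∈ polarCoord.target,
      ENNReal.ofReal p.1 • ENNReal.ofReal (δ / (‖Complex.polarCoord.symm p‖ ^ 2 + δ) ^ 2) =
        ENNReal.ofReal (p.1 * (δ / (p.1 ^ 2 + δ) ^ 2)) * (fun _ : ℝ => (1 : ℝ≥0∞)) p.2 := by
    intro p hp
    have hp1 : 0 < p.1 := hp.1
    rw [Complex.norm_polarCoord_symm, sq_abs, smul_eq_mul, ← ENNReal.ofReal_mul hp1.le, mul_one]
  rw [setLIntegral_congr_fun polarCoord.open_target.measurableSet h1, polarCoord_target,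
    Measure.volume_eq_prod, ← Measure.prod_restrict,
    lintegral_prod_mul (f := fun r : ℝ => ENNReal.ofReal (r * (δ / (r ^ 2 + δ) ^ 2)))
      (g := fun _ : ℝ => (1 : ℝ≥0∞)) (by fun_prop) (by fun_prop)]
  have hd : ∀ x ∈ Ici (0 : ℝ), HasDerivAt (fun r : ℝ => -(δ / 2) * (r ^ 2 + δ)⁻¹)
      (x * (δ / (x ^ 2 + δ) ^ 2)) x := by
    intro x _
    have h2 : x ^ 2 + δ ≠ 0 := by positivity
    have h3 := (((hasDerivAt_pow 2 x).add_const δ).inv h2).const_mul (-(δ / 2))
    refine h3.congr_deriv ?_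
    field_simp
    simp
  have hpos : ∀ x ∈ Ioi (0 : ℝ), 0 ≤ x * (δ / (x ^ 2 + δ) ^ 2) := by
    intro x hx
    have : 0 < x := hx
    positivity
  have hlim : Tendsto (fun r : ℝ => -(δ / 2) * (r ^ 2 + δ)⁻¹) atTop (𝓝 (-(δ / 2) * 0)) :=
    ((tendsto_atTop_add_const_right _ δ (tendsto_pow_atTop two_ne_zero)).inv_tendsto_atTop).const_mul _
  have hI := integral_Ioi_of_hasDerivAt_of_nonneg' hd hpos hlim
  have hint := integrableOn_Ioi_deriv_of_nonneg' hd hpos hlim
  rw [← ofReal_integral_eq_lintegral_ofReal hint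
    ((ae_restrict_iff' measurableSet_Ioi).2 (Eventually.of_forall hpos)), hI]
  simp only [lintegral_const, MeasurableSet.univ, Measure.restrict_apply, univ_inter, one_mul,
    Real.volume_Ioo]
  rw [← ENNReal.ofReal_mul (by
    have : (0 : ℝ) ≤ δ / 2 * (0 ^ 2 + δ)⁻¹ := by positivity
    linarith)]
  apply ENNReal.ofReal_le_ofReal
  apply le_of_eq
  field_simp
  ring

lemma det_smul_one (a : ℂ) : (a • (1 : ℂ →L[ℝ] ℂ)).det = ‖a‖ ^ 2 := by
  rw [ContinuousLinearMap.det, ← LinearMap.det_toMatrix Complex.basisOneI, Matrix.det_fin_two]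
  simp [LinearMap.toMatrix_apply, Complex.sq_norm, Complex.normSq_apply]

lemma area_le {G G' : ℂ → ℂ} {S : Set ℂ} (hS : MeasurableSet S)
    (hG : ∀ z ∈ S, HasDerivAt G (G' z) z) (hi : InjOn G S) (φ : ℂ → ℝ≥0∞) :
    ∫⁻ z in S, ENNReal.ofReal (‖G' z‖ ^ 2) * φ (G z) ≤ ∫⁻ w, φ w := by
  have h := lintegral_image_eq_lintegral_abs_det_fderiv_mul volume hS (f := G)
    (f' := fun z => G' z • (1 : ℂ →L[ℝ] ℂ))
    (fun z hz => (hG z hz).complexToReal_fderiv.hasFDerivWithinAt) hi φ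
  simp only [det_smul_one, abs_pow, abs_norm] at h
  rw [← h]
  exact setLIntegral_le_lintegral _ _

lemma dbar {A B : ℂ → ℂ} {A' B' ζ : ℂ} (hA : HasDerivAt A A' ζ) (hB : HasDerivAt B B' ζ)
    {δ : ℂ} (hδ : B ζ * conj (B ζ) + δ ≠ 0) :
    ∃ L : ℂ →L[ℝ] ℂ, HasFDerivAt (fun u => A u * (B u * conj (B u) + δ)⁻¹) L ζ ∧
      I • L 1 - L I = -(2 * I * A ζ * B ζ * conj B') / (B ζ * conj (B ζ) + δ) ^ 2 := by
  have h1 := hA.complexToReal_fderiv
  have h2 := hB.complexToReal_fderiv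
  have h3 : HasFDerivAt (fun u => conj (B u))
      ((Complex.conjCLE : ℂ →L[ℝ] ℂ).comp (B' • (1 : ℂ →L[ℝ] ℂ))) ζ :=
    Complex.conjCLE.hasFDerivAt.comp ζ h2
  have h4 := (h2.mul h3).add_const δ
  have h5 := (hasDerivAt_inv hδ).comp_hasFDerivAt ζ h4
  refine ⟨_, h1.mul h5, ?_⟩
  simp
  field_simp
  ring

lemma rect_integral (H : ℂ → ℝ) {a b c d : ℝ} (hab : a ≤ b) (hcd : c ≤ d)
    (hH : IntegrableOn H (Ioo a b ×ℂ Ioo c d)) :
    ∫ x in a..b, ∫ y in c..d, H (x + y * I) = ∫ ζ in Ioo a b ×ℂ Ioo c d, H ζ := by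
  have hp := Complex.volume_preserving_equiv_real_prod.symm
  have he := Complex.measurableEquivRealProd.symm.measurableEmbedding
  have hpre : Complex.measurableEquivRealProd.symm ⁻¹' (Ioo a b ×ℂ Ioo c d) =
      Ioo a b ×ˢ Ioo c d := by
    ext p; simp [Complex.mem_reProdIm]
  rw [← hp.setIntegral_preimage_emb he, hpre, Measure.volume_eq_prod, setIntegral_prod]
  · simp only [intervalIntegral.integral_of_le hab, intervalIntegral.integral_of_le hcd,
      integral_Ioc_eq_integral_Ioo]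
    congr 1
    ext x
    congr 1
    ext y
    congr 1
    apply Complex.ext <;> simp
  · rw [← Measure.volume_eq_prod, ← hpre]
    exact (hp.integrableOn_comp_preimage he).2 hH

/-- The function whose circle integrals are controlled by Stokes' formula. -/
noncomputable def Ph (S : ℂ → ℂ) (δ : ℝ) (z : ℂ) : ℂ :=
  (δ * ((z * deriv S z - S z) / S z)) * (z / S z * conj (z / S z) + δ)⁻¹

lemma den_ne (w : ℂ) {δ : ℝ} (hδ : 0 < δ) : w * conj w + δ ≠ 0 := by
  rw [Complex.mul_conj, Complex.normSq_eq_norm_sq]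
  exact_mod_cast (by positivity : ‖w‖ ^ 2 + δ ≠ 0)

lemma Ph_cont {S : ℂ → ℂ} (hS : DifferentiableOn ℂ S (ball 0 1))
    (h0 : ∀ z ∈ ball (0 : ℂ) 1, S z ≠ 0) {δ : ℝ} (hδ : 0 < δ) :
    ContinuousOn (Ph S δ) (ball 0 1) := by
  have h1 := hS.continuousOn
  have h2 := (hS.deriv isOpen_ball).continuousOn
  have h3 : ContinuousOn (fun z => z / S z) (ball 0 1) := continuousOn_id.div h1 h0
  unfold Ph
  refine (continuousOn_const.mul (((continuousOn_id.mul h2).sub h1).div h1 h0)).mul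
    (((h3.mul (Complex.continuous_conj.comp_continuousOn h3)).add continuousOn_const).inv₀
      fun z _ => den_ne _ hδ)

lemma exp_mem {ζ : ℂ} (h : ζ.re < 0) : cexp ζ ∈ ball (0 : ℂ) 1 := by
  rw [mem_ball_zero_iff, Complex.norm_exp]
  exact Real.exp_lt_one_iff.2 h

lemma stokes {S : ℂ → ℂ} (hS : DifferentiableOn ℂ S (ball 0 1))
    (h0 : ∀ z ∈ ball (0 : ℂ) 1, S z ≠ 0) (hi : InjOn (fun z => z / S z) (ball 0 1))
    {δ : ℝ} (hδ : 0 < δ) {a b : ℝ} (hab : a ≤ b) (hb : b < 0) :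
    (∫ y in (-π)..π, Ph S δ (cexp (b + y * I))).re -
      (∫ y in (-π)..π, Ph S δ (cexp (a + y * I))).re ≤ 2 * π := by
  have hpi : -π ≤ π := by linarith [Real.pi_pos]
  set G : ℂ → ℂ := fun ζ => cexp ζ / S (cexp ζ) with hG
  set G' : ℂ → ℂ := fun ζ =>
    (cexp ζ * S (cexp ζ) - cexp ζ * (deriv S (cexp ζ) * cexp ζ)) / S (cexp ζ) ^ 2 with hG'
  set H : ℂ → ℝ := fun ζ => ‖G' ζ‖ ^ 2 * (δ / (‖G ζ‖ ^ 2 + δ) ^ 2) with hH
  have hSe : ∀ ζ : ℂ, ζ.re < 0 →
      HasDerivAt (fun u => S (cexp u)) (deriv S (cexp ζ) * cexp ζ) ζ := fun ζ hζ =>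
    (hS.differentiableAt (isOpen_ball.mem_nhds (exp_mem hζ))).hasDerivAt.comp ζ
      (Complex.hasDerivAt_exp ζ)
  have hSe' : ∀ ζ : ℂ, ζ.re < 0 → DifferentiableAt ℂ (fun u => deriv S (cexp u)) ζ := fun ζ hζ =>
    ((hS.deriv isOpen_ball).differentiableAt (isOpen_ball.mem_nhds (exp_mem hζ))).comp ζ
      Complex.differentiableAt_exp
  have hGd : ∀ ζ : ℂ, ζ.re < 0 → HasDerivAt G (G' ζ) ζ := fun ζ hζ =>
    (Complex.hasDerivAt_exp ζ).fun_div (hSe ζ hζ) (h0 _ (exp_mem hζ))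
  have hL : ∀ ζ : ℂ, ζ.re < 0 → ∃ L : ℂ →L[ℝ] ℂ,
      HasFDerivAt (fun u => Ph S δ (cexp u)) L ζ ∧ I • L 1 - L I = 2 * I * (H ζ : ℂ) := by
    intro ζ hζ
    have hA : DifferentiableAt ℂ (fun u => (δ : ℂ) *
        ((cexp u * deriv S (cexp u) - S (cexp u)) / S (cexp u))) ζ :=
      (((Complex.differentiableAt_exp.mul (hSe' ζ hζ)).sub (hSe ζ hζ).differentiableAt).div
        (hSe ζ hζ).differentiableAt (h0 _ (exp_mem hζ))).const_mul _
    obtain ⟨L, h1, h2⟩ := dbar hA.hasDerivAt (hGd ζ hζ) (den_ne (G ζ) hδ)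
    refine ⟨L, h1, ?_⟩
    have h3 : (δ : ℂ) * ((cexp ζ * deriv S (cexp ζ) - S (cexp ζ)) / S (cexp ζ)) * G ζ =
        -(δ * G' ζ) := by
      have := h0 _ (exp_mem hζ)
      simp only [hG, hG']
      field_simp
      ring
    have h4 : ((‖G' ζ‖ : ℝ) : ℂ) ^ 2 = G' ζ * conj (G' ζ) := by
      rw [Complex.mul_conj, Complex.normSq_eq_norm_sq]; push_cast; rfl
    have h5 : ((‖G ζ‖ : ℝ) : ℂ) ^ 2 = G ζ * conj (G ζ) := by
      rw [Complex.mul_conj, Complex.normSq_eq_norm_sq]; push_cast; rfl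
    rw [h2, mul_assoc (2 * I), h3]
    simp only [hH]
    push_cast
    rw [h4, h5]
    ring
  choose! L hL1 hL2 using hL
  have hre : ∀ ζ ∈ [[a, b]] ×ℂ [[-π, π]], ζ.re < 0 := by
    intro ζ hζ
    have := hζ.1
    rw [uIcc_of_le hab] at this
    exact lt_of_le_of_lt this.2 hb
  have hGc : ContinuousOn G ([[a, b]] ×ℂ [[-π, π]]) := fun ζ hζ =>
    (hGd ζ (hre ζ hζ)).continuousAt.continuousWithinAt
  have hG'c : ContinuousOn G' ([[a, b]] ×ℂ [[-π, π]]) := by
    intro ζ hζ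
    have h1 := (hSe ζ (hre ζ hζ)).continuousAt
    have h2 := (hSe' ζ (hre ζ hζ)).continuousAt
    have h3 := Complex.continuous_exp.continuousAt (x := ζ)
    exact (((h3.mul h1).sub (h3.mul (h2.mul h3))).div (h1.pow 2)
      (pow_ne_zero 2 (h0 _ (exp_mem (hre ζ hζ))))).continuousWithinAt
  have hHc : ContinuousOn H ([[a, b]] ×ℂ [[-π, π]]) :=
    (hG'c.norm.pow 2).mul (continuousOn_const.div (((hGc.norm.pow 2).add continuousOn_const).pow 2)
      fun ζ _ => by positivity)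
  have hcpt : IsCompact ([[a, b]] ×ℂ [[-π, π]]) := isCompact_uIcc.reProdIm isCompact_uIcc
  have hHi : IntegrableOn H ([[a, b]] ×ℂ [[-π, π]]) := hHc.integrableOn_compact hcpt
  have hsub : Ioo a b ×ℂ Ioo (-π) π ⊆ [[a, b]] ×ℂ [[-π, π]] := by
    intro ζ hζ
    rw [uIcc_of_le hab, uIcc_of_le hpi]
    exact ⟨Ioo_subset_Icc_self hζ.1, Ioo_subset_Icc_self hζ.2⟩
  have hmeas : MeasurableSet (Ioo a b ×ℂ Ioo (-π) π) :=
    (isOpen_Ioo.reProdIm isOpen_Ioo).measurableSet
  have key := Complex.integral_boundary_rect_of_continuousOn_of_hasFDerivAt_real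
    (fun u => Ph S δ (cexp u)) L ⟨a, -π⟩ ⟨b, π⟩
    (fun ζ hζ => (hL1 ζ (hre ζ hζ)).continuousAt.continuousWithinAt)
    (fun ζ hζ => hL1 ζ (by
      have := hζ.1.2
      simp only [max_eq_right hab] at this
      linarith))
    (by
      refine IntegrableOn.congr_fun (f := fun ζ => 2 * I * (H ζ : ℂ)) ?_
        (fun ζ hζ => (hL2 ζ (hre ζ hζ)).symm) hcpt.measurableSet
      exact (hHi.ofReal (𝕜 := ℂ)).const_mul _)
  simp only at key
  have hper : ∀ x : ℝ, cexp (x + ((-π : ℝ) : ℂ) * I) = cexp (x + (π : ℝ) * I) := by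
    intro x
    rw [← Complex.exp_periodic (x + ((-π : ℝ) : ℂ) * I)]
    congr 1
    push_cast
    ring
  have hrhs : (∫ x : ℝ in a..b, ∫ y : ℝ in (-π)..π, I • L (x + y * I) 1 - L (x + y * I) I) =
      2 * I * ((∫ x : ℝ in a..b, ∫ y : ℝ in (-π)..π, H (x + y * I) : ℝ) : ℂ) := by
    rw [← intervalIntegral.integral_ofReal, ← intervalIntegral.integral_const_mul]
    refine intervalIntegral.integral_congr fun x hx => ?_
    rw [← intervalIntegral.integral_ofReal, ← intervalIntegral.integral_const_mul]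
    refine intervalIntegral.integral_congr fun y _ => ?_
    refine hL2 _ ?_
    rw [uIcc_of_le hab] at hx
    simpa using lt_of_le_of_lt hx.2 hb
  simp only [hper, sub_self, zero_add] at key
  rw [hrhs, rect_integral H hab hpi (hHi.mono_set hsub), smul_eq_mul, smul_eq_mul] at key
  have hle : ∫ ζ in Ioo a b ×ℂ Ioo (-π) π, H ζ ≤ π := by
    rw [integral_eq_lintegral_of_nonneg_ae (Eventually.of_forall fun ζ => by
      simp only [hH, Pi.zero_apply]; positivity) (hHi.mono_set hsub).aestronglyMeasurable]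
    refine ENNReal.toReal_le_of_le_ofReal Real.pi_pos.le (le_trans ?_ (mass δ hδ))
    refine le_trans (le_of_eq ?_) (area_le (G := G) (G' := G') hmeas
      (fun ζ hζ => hGd ζ (hre ζ (hsub hζ))) ?_ _)
    · refine lintegral_congr fun ζ => ?_
      rw [← ENNReal.ofReal_mul (by positivity)]
    · intro u hu v hv huv
      have h1 : cexp u = cexp v := hi (exp_mem (hre u (hsub hu))) (exp_mem (hre v (hsub hv))) huv
      exact Complex.exp_inj_of_neg_pi_lt_of_le_pi hu.2.1 hu.2.2.le hv.2.1 hv.2.2.le h1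
  have him := congrArg Complex.im key
  simp at him
  linarith

lemma circ_cont {φ : ℂ → ℂ} (hφ : ContinuousOn φ (ball 0 1)) {b : ℝ} (hb : b < 0) :
    Continuous fun y : ℝ => φ (cexp (b + y * I)) :=
  hφ.comp_continuous (by fun_prop) fun y => exp_mem (by simpa using hb)

lemma circ_nonpos {S : ℂ → ℂ} (hS : DifferentiableOn ℂ S (ball 0 1))
    (h0 : ∀ z ∈ ball (0 : ℂ) 1, S z ≠ 0) (hi : InjOn (fun z => z / S z) (ball 0 1))
    {δ : ℝ} (hδ : 0 < δ) {b : ℝ} (hb : b < 0) :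
    (∫ y in (-π)..π, Ph S δ (cexp (b + y * I))).re ≤ 0 := by
  have hz : (0 : ℂ) ∈ ball (0 : ℂ) 1 := mem_ball_self one_pos
  have hc := (Ph_cont hS h0 hδ).continuousAt (isOpen_ball.mem_nhds hz)
  have hv : Ph S δ 0 = -1 := by
    have h1 := h0 0 hz
    have h2 : (δ : ℂ) ≠ 0 := by exact_mod_cast hδ.ne'
    simp only [Ph, zero_mul, zero_sub, zero_div, zero_add]
    field_simp
  refine le_of_forall_pos_le_add fun ε hε => ?_
  obtain ⟨ρ, hρ, hρ'⟩ := Metric.continuousAt_iff.1 hc (ε / (2 * π)) (by positivity)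
  set a := min b (Real.log ρ) - 1 with ha
  have hab : a ≤ b := by have := min_le_left b (Real.log ρ); linarith
  have h1 := stokes hS h0 hi hδ hab hb
  have h2 : ‖∫ y in (-π)..π, (Ph S δ (cexp (a + y * I)) - (-1))‖ ≤ ε / (2 * π) * |π - -π| := by
    refine intervalIntegral.norm_integral_le_of_norm_le_const fun y _ => ?_
    rw [← hv, ← dist_eq_norm]
    refine (hρ' ?_).le
    rw [dist_zero_right, Complex.norm_exp, ← Real.lt_log_iff_exp_lt hρ]
    have := min_le_right b (Real.log ρ)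
    simp only [add_re, ofReal_re, mul_re, I_re, mul_zero, ofReal_im, I_im, mul_one, sub_self,
      add_zero]
    linarith
  rw [intervalIntegral.integral_sub
    ((circ_cont (Ph_cont hS h0 hδ) (lt_of_le_of_lt hab hb)).intervalIntegrable _ _)
    intervalIntegrable_const, abs_of_pos (by linarith [Real.pi_pos])] at h2
  have h3 := (Complex.re_le_norm _).trans h2
  have h4 : ε / (2 * π) * (π - -π) = ε := by field_simp; ring
  rw [h4] at h3
  simp at h3
  linarith

lemma circ_limit {S : ℂ → ℂ} (hS : DifferentiableOn ℂ S (ball 0 1))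
    (h0 : ∀ z ∈ ball (0 : ℂ) 1, S z ≠ 0) (hi : InjOn (fun z => z / S z) (ball 0 1))
    {b : ℝ} (hb : b < 0) :
    (∫ y in (-π)..π, ((cexp (b + y * I) * deriv S (cexp (b + y * I)) - S (cexp (b + y * I))) *
      conj (S (cexp (b + y * I)))).re) ≤ 0 := by
  set e : ℝ → ℂ := fun y => cexp (b + y * I) with he
  have hem : ∀ y, e y ∈ ball (0 : ℂ) 1 := fun y => exp_mem (by simpa using hb)
  have hec : Continuous e := by simp only [he]; fun_prop
  have h1 : Continuous fun y => S (e y) := circ_cont hS.continuousOn hb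
  have h2 : Continuous fun y => deriv S (e y) := circ_cont (hS.deriv isOpen_ball).continuousOn hb
  have h3 : Continuous fun y => e y / S (e y) := hec.div h1 fun y => h0 _ (hem y)
  have hne : ∀ y, e y / S (e y) ≠ 0 := fun y => div_ne_zero (Complex.exp_ne_zero _) (h0 _ (hem y))
  set K : ℝ → ℝ → ℂ := fun t y => ((e y * deriv S (e y) - S (e y)) / S (e y)) *
    (e y / S (e y) * conj (e y / S (e y)) + ((t ^ 2 : ℝ) : ℂ))⁻¹ with hK
  have hKc : Continuous (Function.uncurry K) := by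
    refine ((((hec.mul h2).sub h1).div h1 fun y => h0 _ (hem y)).comp continuous_snd).mul
      ((((h3.mul (Complex.continuous_conj.comp h3)).comp continuous_snd).add
        (Complex.continuous_ofReal.comp (continuous_fst.pow 2))).inv₀ fun p => ?_)
    show e p.2 / S (e p.2) * conj (e p.2 / S (e p.2)) + ((p.1 ^ 2 : ℝ) : ℂ) ≠ 0
    rw [Complex.mul_conj, Complex.normSq_eq_norm_sq]
    have := norm_pos_iff.2 (hne p.2)
    exact_mod_cast (by positivity : ‖e p.2 / S (e p.2)‖ ^ 2 + p.1 ^ 2 ≠ 0)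
  have hIc : Continuous fun t => (∫ y in (-π)..π, K t y).re :=
    Complex.continuous_re.comp
      (intervalIntegral.continuous_parametric_intervalIntegral_of_continuous' hKc _ _)
  have hle : (∫ y in (-π)..π, K 0 y).re ≤ 0 := by
    refine le_of_tendsto (x := 𝓝[>] (0 : ℝ)) (hIc.continuousAt.tendsto.mono_left
      nhdsWithin_le_nhds) ?_
    filter_upwards [self_mem_nhdsWithin] with t ht
    have ht' : 0 < t ^ 2 := by have : 0 < t := ht; positivity
    have h4 := circ_nonpos hS h0 hi ht' hb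
    have h5 : (∫ y in (-π)..π, Ph S (t ^ 2) (cexp (b + y * I))) =
        ((t ^ 2 : ℝ) : ℂ) * ∫ y in (-π)..π, K t y := by
      rw [← intervalIntegral.integral_const_mul]
      refine intervalIntegral.integral_congr fun y _ => ?_
      simp only [Ph, hK, he]
      ring
    rw [h5, Complex.re_ofReal_mul] at h4
    by_contra hcon
    push Not at hcon
    nlinarith
  have h6 : ∀ y, (e y * deriv S (e y) - S (e y)) * conj (S (e y)) =
      ((Real.exp b ^ 2 : ℝ) : ℂ) * K 0 y := by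
    intro y
    have a1 := h0 _ (hem y)
    have a2 : conj (S (e y)) ≠ 0 := by simpa using a1
    have a3 : e y * conj (e y) = ((Real.exp b ^ 2 : ℝ) : ℂ) := by
      rw [Complex.mul_conj, Complex.normSq_eq_norm_sq]
      simp [he, Complex.norm_exp]
    have a4 : e y ≠ 0 := Complex.exp_ne_zero _
    have a5 : conj (e y) ≠ 0 := by simpa using a4
    simp only [hK, ← a3, map_div₀]
    simp only [ne_eq, OfNat.ofNat_ne_zero, not_false_eq_true, zero_pow, ofReal_zero, add_zero]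
    field_simp
  have h7 : Continuous (K 0) := hKc.uncurry_left 0
  have h8 : (∫ y in (-π)..π, ((e y * deriv S (e y) - S (e y)) * conj (S (e y))).re) =
      Real.exp b ^ 2 * (∫ y in (-π)..π, K 0 y).re := by
    simp only [h6, Complex.re_ofReal_mul]
    rw [intervalIntegral.integral_const_mul]
    congr 1
    exact (Complex.reCLM.intervalIntegral_comp_comm (h7.intervalIntegrable _ _))
  rw [h8]
  exact mul_nonpos_of_nonneg_of_nonpos (by positivity) hle

/-- The area theorem (first coefficient). -/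
theorem area_thm {S : ℂ → ℂ} (hS : DifferentiableOn ℂ S (ball 0 1))
    (h0 : ∀ z ∈ ball (0 : ℂ) 1, S z ≠ 0) (hi : InjOn (fun z => z / S z) (ball 0 1)) :
    ‖p57co S 2‖ ≤ ‖S 0‖ := by
  have key : ∀ r : ℝ, 0 < r → r < 1 → ‖p57co S 2‖ ^ 2 * r ^ 4 ≤ ‖S 0‖ ^ 2 := by
    intro r hr0 hr1
    have h1 := circ_limit hS h0 hi (Real.log_neg hr0 hr1)
    have he : ∀ y : ℝ, cexp ((Real.log r : ℝ) + y * I) = r * cexp (y * I) := by
      intro y
      rw [Complex.exp_add, ← Complex.ofReal_exp, Real.exp_log hr0]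
    have c1 : Continuous fun y : ℝ => S (cexp ((Real.log r : ℝ) + y * I)) :=
      circ_cont hS.continuousOn (Real.log_neg hr0 hr1)
    have c2 : Continuous fun y : ℝ => deriv S (cexp ((Real.log r : ℝ) + y * I)) :=
      circ_cont (hS.deriv isOpen_ball).continuousOn (Real.log_neg hr0 hr1)
    simp only [he] at h1 c1 c2
    have h2 := (p57_circle S 1 hS r hr0.le hr1 0 1).sub (p57_circle S 1 hS r hr0.le hr1 (-2) 1)
    have c0 : Continuous fun y : ℝ => (r : ℂ) * cexp (y * I) := by fun_prop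
    have c3 : ∀ α β : ℝ, Continuous fun y : ℝ => ‖(α : ℂ) * S (r * cexp (y * I)) +
        (β : ℂ) * ((r * cexp (y * I)) * deriv S (r * cexp (y * I)))‖ ^ 2 := fun α β =>
      ((continuous_const.mul c1).add (continuous_const.mul (c0.mul c2))).norm.pow 2
    rw [← intervalIntegral.integral_sub ((c3 0 1).intervalIntegrable _ _)
      ((c3 (-2) 1).intervalIntegrable _ _)] at h2
    have h3 : ∀ A B : ℂ, ‖((0 : ℝ) : ℂ) * A + ((1 : ℝ) : ℂ) * B‖ ^ 2 -
        ‖((-2 : ℝ) : ℂ) * A + ((1 : ℝ) : ℂ) * B‖ ^ 2 = 4 * ((B - A) * conj A).re := by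
      intro A B
      simp only [Complex.sq_norm, Complex.normSq_apply]
      simp
      ring
    simp only [h3] at h2
    rw [intervalIntegral.integral_const_mul] at h2
    have h4 := sum_le_hasSum (Finset.range 3) (fun n hn => by
      have hn' : (3 : ℝ) ≤ n := by exact_mod_cast (by simpa using hn : 3 ≤ n)
      have : 0 ≤ 2 * π * ((4 * ((n : ℝ) - 1)) * ‖p57co S n‖ ^ 2 * r ^ (2 * n)) := by
        have : 0 ≤ (n : ℝ) - 1 := by linarith
        positivity
      refine this.trans (le_of_eq ?_)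
      ring) h2
    simp only [Finset.sum_range_succ, Finset.sum_range_zero] at h4
    have h5 : p57co S 0 = S 0 := by simp [p57co]
    rw [h5] at h4
    push_cast at h4
    have h6 : π * (‖p57co S 2‖ ^ 2 * r ^ 4) ≤ π * ‖S 0‖ ^ 2 := by nlinarith
    exact le_of_mul_le_mul_left h6 Real.pi_pos
  have h7 : ‖p57co S 2‖ ^ 2 * 1 ^ 4 ≤ ‖S 0‖ ^ 2 := by
    have hc : Continuous fun r : ℝ => ‖p57co S 2‖ ^ 2 * r ^ 4 := by fun_prop
    refine le_of_tendsto (x := 𝓝[<] (1 : ℝ)) (hc.continuousAt.tendsto.mono_left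
      nhdsWithin_le_nhds) ?_
    filter_upwards [Ioo_mem_nhdsLT (zero_lt_one' ℝ)] with r hr using key r hr.1 hr.2
  rw [one_pow, mul_one] at h7
  exact (pow_le_pow_iff_left₀ (norm_nonneg _) (norm_nonneg _) two_ne_zero).1 h7

/-- Bieberbach's bound `|a₂| ≤ 2`. -/
theorem bieberbach {f : ℂ → ℂ} (hf : DifferentiableOn ℂ f (ball 0 1))
    (hinj : InjOn f (ball 0 1)) : ‖deriv (deriv f) 0‖ ≤ 4 * ‖deriv f 0‖ := by
  have hz : (0 : ℂ) ∈ ball (0 : ℂ) 1 := mem_ball_self one_pos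
  have hn : ball (0 : ℂ) 1 ∈ 𝓝 (0 : ℂ) := isOpen_ball.mem_nhds hz
  set u := dslope f 0 with hu
  have hud : DifferentiableOn ℂ u (ball 0 1) := (Complex.differentiableOn_dslope hn).2 hf
  have hfu : ∀ z, f z = f 0 + z * u z := by
    intro z
    have := sub_smul_dslope f 0 z
    rw [sub_zero, smul_eq_mul] at this
    rw [hu, this]; ring
  have hu0 : u 0 = deriv f 0 := dslope_same f 0
  have hune : ∀ z ∈ ball (0 : ℂ) 1, u z ≠ 0 := by
    intro z hzb h
    by_cases hz0 : z = 0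
    · rw [hz0, hu0] at h
      exact univ_deriv_ne_zero hf hinj 0 hz h
    · apply hz0
      apply hinj hzb hz
      rw [hfu z, h, mul_zero, add_zero]
  obtain ⟨L, hLd, hLe, hL'⟩ := univ_exists_log hud hune
  have hsq : ∀ z ∈ ball (0 : ℂ) 1, z ^ 2 ∈ ball (0 : ℂ) 1 := by
    intro z hzb
    rw [mem_ball_zero_iff] at hzb ⊢
    rw [norm_pow]
    nlinarith [norm_nonneg z]
  set S : ℂ → ℂ := fun z => cexp (-(L (z ^ 2)) / 2) with hS
  have hSd : ∀ z ∈ ball (0 : ℂ) 1,
      HasDerivAt S (-(z * (deriv u (z ^ 2) / u (z ^ 2) * S z))) z := by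
    intro z hzb
    have h1 := ((((hL' _ (hsq z hzb)).comp z (hasDerivAt_pow 2 z)).neg).div_const 2).cexp
    refine h1.congr_deriv ?_
    simp only [hS, Function.comp_apply, Pi.neg_apply]
    push_cast
    ring
  have hSdiff : DifferentiableOn ℂ S (ball 0 1) := fun z hzb =>
    (hSd z hzb).differentiableAt.differentiableWithinAt
  have hS0 : ∀ z, S z ≠ 0 := fun z => Complex.exp_ne_zero _
  have hF : ∀ z ∈ ball (0 : ℂ) 1, (z / S z) ^ 2 = f (z ^ 2) - f 0 := by
    intro z hzb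
    rw [hfu (z ^ 2), ← hLe _ (hsq z hzb), div_pow, hS]
    simp only
    rw [← Complex.exp_nat_mul, div_eq_mul_inv, ← Complex.exp_neg]
    have : -(((2 : ℕ) : ℂ) * (-L (z ^ 2) / 2)) = L (z ^ 2) := by push_cast; ring
    rw [this]; ring
  have hi : InjOn (fun z => z / S z) (ball 0 1) := by
    intro z hzb w hwb hzw
    simp only at hzw
    have h1 : z ^ 2 = w ^ 2 := by
      apply hinj (hsq z hzb) (hsq w hwb)
      have := hF z hzb
      rw [hzw, hF w hwb] at this
      exact (sub_left_inj.1 this).symm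
    have h2 : S z = S w := by simp only [hS, h1]
    rw [h2] at hzw
    exact (div_left_inj' (hS0 w)).1 hzw
  have key := area_thm hSdiff (fun z _ => hS0 z) hi
  have hq : DifferentiableAt ℂ (fun z : ℂ => deriv u (z ^ 2) / u (z ^ 2) * S z) 0 := by
    have h1 : DifferentiableOn ℂ (fun z : ℂ => deriv u z / u z) (ball 0 1) :=
      (hud.deriv isOpen_ball).div hud hune
    have h2 : DifferentiableOn ℂ (fun z : ℂ => deriv u (z ^ 2) / u (z ^ 2)) (ball 0 1) :=
      h1.comp (f := fun z : ℂ => z ^ 2) (by fun_prop) hsq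
    exact (h2.mul hSdiff).differentiableAt hn
  have hS2 : deriv (deriv S) 0 = -(deriv u 0 / u 0 * S 0) := by
    have h1 : deriv S =ᶠ[𝓝 0] fun z => -(z * (deriv u (z ^ 2) / u (z ^ 2) * S z)) := by
      filter_upwards [hn] with z hzb using (hSd z hzb).deriv
    rw [h1.deriv_eq]
    have h2 := ((hasDerivAt_id' (0 : ℂ)).fun_mul hq.hasDerivAt).fun_neg
    rw [h2.deriv]
    simp
  have hf2 : deriv (deriv f) 0 = 2 * deriv u 0 := by
    have h1 : deriv f =ᶠ[𝓝 0] fun z => u z + z * deriv u z := by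
      filter_upwards [hn] with z hzb
      have h2 := (((hasDerivAt_id' z).fun_mul
        (hud.differentiableAt (isOpen_ball.mem_nhds hzb)).hasDerivAt).const_add (f 0))
      have h3 : f = fun z => f 0 + z * u z := funext hfu
      rw [h3, h2.deriv]
      simp
    rw [h1.deriv_eq]
    have h2 := (hud.differentiableAt hn).hasDerivAt.fun_add ((hasDerivAt_id' (0 : ℂ)).fun_mul
      ((hud.deriv isOpen_ball).differentiableAt hn).hasDerivAt)
    rw [h2.deriv]
    ring
  have h3 : p57co S 2 = -(deriv u 0 / u 0 * S 0) / 2 := by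
    rw [p57co, iteratedDeriv_succ, iteratedDeriv_one, hS2]
    norm_num
  rw [h3, norm_div, norm_neg, norm_mul, norm_div, Complex.norm_two] at key
  have h4 := norm_pos_iff.2 (hune 0 hz)
  have h5 := norm_pos_iff.2 (hS0 0)
  rw [hf2, ← hu0, norm_mul, Complex.norm_two]
  rw [div_le_iff₀ two_pos, mul_comm ‖S 0‖] at key
  have h6 := le_of_mul_le_mul_right key h5
  rw [div_le_iff₀ h4] at h6
  linarith

/-- Sharp Koebe bound. -/
theorem koebe_sharp {f : ℂ → ℂ} (hf : DifferentiableOn ℂ f (ball 0 1))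
    (hinj : InjOn f (ball 0 1)) {z : ℂ} (hz : z ∈ ball (0 : ℂ) 1) :
    ‖((1 - ‖z‖ ^ 2 : ℝ) : ℂ) * deriv (deriv f) z - 2 * conj z * deriv f z‖ ≤ 4 * ‖deriv f z‖ := by
  have hz1 : ‖z‖ < 1 := mem_ball_zero_iff.1 hz
  have h00 : (0 : ℂ) ∈ ball (0 : ℂ) 1 := mem_ball_self one_pos
  have hn : ball (0 : ℂ) 1 ∈ 𝓝 (0 : ℂ) := isOpen_ball.mem_nhds h00
  set d : ℝ := 1 - ‖z‖ ^ 2 with hd
  have hd0 : 0 < d := by nlinarith [norm_nonneg z]
  have hdc : (d : ℂ) = 1 - z * conj z := by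
    rw [Complex.mul_conj, Complex.normSq_eq_norm_sq, hd]; push_cast; rfl
  have hden : ∀ w ∈ ball (0 : ℂ) 1, 1 + conj z * w ≠ 0 := by
    intro w hw h
    have h1 : conj z * w = -1 := by linear_combination h
    have h2 := congrArg norm h1
    rw [norm_mul, Complex.norm_conj, norm_neg, norm_one] at h2
    rw [mem_ball_zero_iff] at hw
    nlinarith [norm_nonneg z, norm_nonneg w]
  set φ : ℂ → ℂ := fun w => (w + z) / (1 + conj z * w) with hφ
  have hφm : ∀ w ∈ ball (0 : ℂ) 1, φ w ∈ ball (0 : ℂ) 1 := by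
    intro w hw
    rw [mem_ball_zero_iff, hφ]
    simp only
    rw [norm_div, div_lt_one (norm_pos_iff.2 (hden w hw)),
      ← pow_lt_pow_iff_left₀ (norm_nonneg _) (norm_nonneg _) two_ne_zero]
    have h1 : ‖1 + conj z * w‖ ^ 2 - ‖w + z‖ ^ 2 = (1 - ‖z‖ ^ 2) * (1 - ‖w‖ ^ 2) := by
      simp only [Complex.sq_norm, Complex.normSq_apply]
      simp
      ring
    rw [mem_ball_zero_iff] at hw
    have h2 : 0 < 1 - ‖w‖ ^ 2 := by nlinarith [norm_nonneg w]
    nlinarith [mul_pos hd0 h2]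
  have hφd : ∀ w ∈ ball (0 : ℂ) 1, HasDerivAt φ (d * ((1 + conj z * w) ^ 2)⁻¹) w := by
    intro w hw
    have h1 := ((hasDerivAt_id' w).add_const z).fun_div
      (((hasDerivAt_id' w).const_mul (conj z)).const_add 1) (hden w hw)
    refine h1.congr_deriv ?_
    have := hden w hw
    rw [hdc]
    field_simp
    ring
  have hφi : InjOn φ (ball 0 1) := by
    intro u hu v hv huv
    simp only [hφ] at huv
    rw [div_eq_div_iff (hden u hu) (hden v hv)] at huv
    have h1 : (d : ℂ) * (u - v) = 0 := by rw [hdc]; linear_combination huv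
    have h2 : (d : ℂ) ≠ 0 := by exact_mod_cast hd0.ne'
    exact sub_eq_zero.1 ((mul_eq_zero.1 h1).resolve_left h2)
  have hφ0 : φ 0 = z := by simp [hφ]
  have hh : ∀ w ∈ ball (0 : ℂ) 1,
      HasDerivAt (f ∘ φ) (deriv f (φ w) * (d * ((1 + conj z * w) ^ 2)⁻¹)) w := fun w hw =>
    (hf.differentiableAt (isOpen_ball.mem_nhds (hφm w hw))).hasDerivAt.comp w (hφd w hw)
  have key := bieberbach (f := f ∘ φ)
    (fun w hw => (hh w hw).differentiableAt.differentiableWithinAt) (hinj.comp hφi hφm)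
  have h1 : deriv (f ∘ φ) =ᶠ[𝓝 0] fun w => deriv f (φ w) * (d * ((1 + conj z * w) ^ 2)⁻¹) := by
    filter_upwards [hn] with w hw using (hh w hw).deriv
  have h2 : HasDerivAt (fun w => deriv f (φ w))
      (deriv (deriv f) (φ 0) * (d * ((1 + conj z * 0) ^ 2)⁻¹)) 0 :=
    ((hf.deriv isOpen_ball).differentiableAt
      (isOpen_ball.mem_nhds (hφm 0 h00))).hasDerivAt.comp 0 (hφd 0 h00)
  have h3 := (((((hasDerivAt_id' (0 : ℂ)).const_mul (conj z)).const_add 1).fun_pow 2).fun_inv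
    (pow_ne_zero 2 (hden 0 h00))).const_mul (d : ℂ)
  have h4 := (h2.fun_mul h3).deriv
  rw [h1.deriv_eq, h4, (hh 0 h00).deriv, hφ0] at key
  have h5 : deriv (deriv f) z * (d * ((1 + conj z * 0) ^ 2)⁻¹) * (d * ((1 + conj z * 0) ^ 2)⁻¹) +
      deriv f z * (d * (-(((2 : ℕ) : ℂ) * (1 + conj z * 0) ^ (2 - 1) * (conj z * 1)) /
        ((1 + conj z * 0) ^ 2) ^ 2)) =
      (d * deriv (deriv f) z - 2 * conj z * deriv f z) * d := by
    simp
    ring
  have h6 : deriv f z * (d * ((1 + conj z * 0) ^ 2)⁻¹) = deriv f z * d := by simp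
  rw [h5, h6, norm_mul, norm_mul, Complex.norm_real, Real.norm_of_nonneg hd0.le,
    ← mul_assoc] at key
  exact le_of_mul_le_mul_right key hd0

end Crest.Agent.R131.B47

namespace Crest.Agent.R131

/-- Koebe's bound with the sharp constant `6`. -/
theorem koebe6 (f : ℂ → ℂ) (hf : DifferentiableOn ℂ f (ball 0 1)) (hinj : InjOn f (ball 0 1))
    (z : ℂ) (hz : z ∈ ball (0 : ℂ) 1) :
    (1 - ‖z‖ ^ 2) * ‖deriv (deriv f) z‖ ≤ 6 * ‖deriv f z‖ := by
  have h1 := B47.koebe_sharp hf hinj hz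
  have hz1 : ‖z‖ < 1 := mem_ball_zero_iff.1 hz
  have hd0 : 0 ≤ 1 - ‖z‖ ^ 2 := by nlinarith [norm_nonneg z]
  have h2 := norm_sub_norm_le (((1 - ‖z‖ ^ 2 : ℝ) : ℂ) * deriv (deriv f) z)
    (2 * conj z * deriv f z)
  rw [norm_mul, norm_mul, norm_mul, Complex.norm_real, Real.norm_of_nonneg hd0, Complex.norm_conj,
    Complex.norm_two] at h2
  nlinarith [norm_nonneg (deriv f z), norm_nonneg z]

end Crest.Agent.R131
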