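import Mathlib
import Crest.Agent.Lib.Complex.Univalent

/-!
# Row 131: a crude Koebe distortion bound without the area theorem (helper13)
-/

set_option autoImplicit false

open Metric Set Filter Topology

noncomputable section

namespace Crest.Agent.R131

/-- a holomorphic logarithm on a disc -/
theorem Dist13_log {c : ℂ} {ρ : ℝ} (hρ : 0 < ρ) {g : ℂ → ℂ}
    (hg : DifferentiableOn ℂ g (ball c ρ)) (h0 : ∀ z ∈ ball c ρ, g z ≠ 0) :
    ∃ L : ℂ → ℂ, DifferentiableOn ℂ L (ball c ρ) ∧ L c = Complex.log (g c) ∧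
      ∀ z ∈ ball c ρ, Complex.exp (L z) = g z := by
  have hd : DifferentiableOn ℂ (fun z => deriv g z / g z) (ball c ρ) :=
    (hg.deriv isOpen_ball).div hg h0
  obtain ⟨L, hLc, hL⟩ := hd.isExactOn_ball.with_val_at c (Complex.log (g c))
  have hLd : DifferentiableOn ℂ L (ball c ρ) := fun z hz =>
    (hL z hz).differentiableAt.differentiableWithinAt
  refine ⟨L, hLd, hLc, ?_⟩
  have hc : c ∈ ball c ρ := mem_ball_self hρ
  have key : ∀ z ∈ ball c ρ, HasDerivAt (fun z => g z * Complex.exp (-L z)) 0 z := by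
    intro z hz
    have h1 : HasDerivAt g (deriv g z) z :=
      ((hg z hz).differentiableAt (isOpen_ball.mem_nhds hz)).hasDerivAt
    have h2 := h1.mul ((hL z hz).neg.cexp)
    refine h2.congr_deriv ?_
    have := h0 z hz
    simp only [Pi.neg_apply]
    field_simp
    ring
  have hconst : ∀ z ∈ ball c ρ, g z * Complex.exp (-L z) = g c * Complex.exp (-L c) := by
    intro z hz
    refine isOpen_ball.is_const_of_deriv_eq_zero (convex_ball c ρ).isPreconnected
      (fun z hz => (key z hz).differentiableAt.differentiableWithinAt)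
      (fun z hz => (key z hz).deriv) hz hc
  intro z hz
  have h1 := hconst z hz
  rw [hLc, Complex.exp_neg, Complex.exp_neg, Complex.exp_log (h0 c hc),
    mul_inv_cancel₀ (h0 c hc)] at h1
  have h2 := Complex.exp_ne_zero (L z)
  field_simp at h1
  exact h1.symm

/-- an omitted value close to `f c` -/
theorem Dist13_omit {c : ℂ} {ρ : ℝ} (hρ : 0 < ρ) {f : ℂ → ℂ}
    (hf : DifferentiableOn ℂ f (ball c ρ)) (hi : InjOn f (ball c ρ)) :
    ∃ w, w ∉ f '' ball c ρ ∧ ‖w - f c‖ ≤ 2 * ρ * ‖deriv f c‖ ∧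
      ball (f c) ‖w - f c‖ ⊆ f '' ball c ρ := by
  have hc : c ∈ ball c ρ := mem_ball_self hρ
  have ha : deriv f c ≠ 0 := Lib.Complex.deriv_ne_zero_of_injOn isOpen_ball hf hi hc
  have ha' : 0 < ‖deriv f c‖ := norm_pos_iff.2 ha
  have hopen : IsOpen (f '' ball c ρ) :=
    Lib.Complex.isOpen_image_of_injOn isOpen_ball hf hi isOpen_ball subset_rfl
  have h1 : ∃ w, w ∉ f '' ball c ρ ∧ ‖w - f c‖ < 2 * ρ * ‖deriv f c‖ := by
    by_contra hcon
    push Not at hcon
    have hsub : ball (f c) (2 * ρ * ‖deriv f c‖) ⊆ f '' ball c ρ := by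
      intro w hw
      by_contra hw'
      have := hcon w hw'
      rw [mem_ball, dist_eq_norm] at hw
      linarith
    have hd := (Lib.Complex.differentiableOn_invFunOn isOpen_ball hf hi).mono hsub
    have hinv : Function.invFunOn f (ball c ρ) (f c) = c := hi.leftInvOn_invFunOn hc
    have hm : MapsTo (Function.invFunOn f (ball c ρ)) (ball (f c) (2 * ρ * ‖deriv f c‖))
        (closedBall (Function.invFunOn f (ball c ρ) (f c)) ρ) := by
      intro w hw
      rw [hinv]
      obtain ⟨z, hz, rfl⟩ := hsub hw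
      rw [hi.leftInvOn_invFunOn hz]
      exact ball_subset_closedBall hz
    have h2 := Complex.norm_deriv_le_div_of_mapsTo_ball hd hm (by positivity)
    rw [(Lib.Complex.hasDerivAt_invFunOn isOpen_ball hf hi hc).deriv, norm_inv,
      le_div_iff₀ (by positivity)] at h2
    have : ‖deriv f c‖⁻¹ * (2 * ρ * ‖deriv f c‖) = 2 * ρ := by field_simp
    linarith
  obtain ⟨w1, hw1, hw1'⟩ := h1
  obtain ⟨w, hw, hwd⟩ := hopen.isClosed_compl.exists_infDist_eq_dist ⟨w1, hw1⟩ (f c)
  have hmin : ∀ u, u ∉ f '' ball c ρ → ‖w - f c‖ ≤ ‖u - f c‖ := by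
    intro u hu
    have := infDist_le_dist_of_mem (x := f c) (s := (f '' ball c ρ)ᶜ) hu
    rw [hwd, dist_comm, dist_eq_norm, dist_comm, dist_eq_norm] at this
    exact this
  refine ⟨w, hw, (hmin w1 hw1).trans hw1'.le, fun u hu => ?_⟩
  by_contra hu'
  have := hmin u hu'
  rw [mem_ball, dist_eq_norm] at hu
  linarith

/-- growth near the centre -/
theorem Dist13_growth {c : ℂ} {ρ : ℝ} (hρ : 0 < ρ) {f : ℂ → ℂ}
    (hf : DifferentiableOn ℂ f (ball c ρ)) (hi : InjOn f (ball c ρ)) {z : ℂ}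
    (hz : ‖z - c‖ ≤ ρ / 20) : ‖f z - f c‖ ≤ 52 * ρ * ‖deriv f c‖ := by
  have hc : c ∈ ball c ρ := mem_ball_self hρ
  obtain ⟨w, hw, hw1, hw2⟩ := Dist13_omit hρ hf hi
  have hwc : w - f c ≠ 0 := fun h => hw ⟨c, hc, (sub_eq_zero.1 h).symm⟩
  have hwn : 0 < ‖w - f c‖ := norm_pos_iff.2 hwc
  set g : ℂ → ℂ := fun z => 1 - (f z - f c) / (w - f c) with hg
  have hgd : DifferentiableOn ℂ g (ball c ρ) :=
    (differentiableOn_const 1).sub ((hf.sub_const _).div_const _)
  have hg0 : ∀ z ∈ ball c ρ, g z ≠ 0 := by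
    intro z hz h
    apply hw
    refine ⟨z, hz, ?_⟩
    simp only [hg] at h
    field_simp at h
    linear_combination -h
  obtain ⟨L, hLd, hLc, hL⟩ := Dist13_log hρ hgd hg0
  have hgc : g c = 1 := by simp [hg]
  rw [hgc, Complex.log_one] at hLc
  set h : ℂ → ℂ := fun z => Complex.exp (L z / 2) with hh
  have hhd : DifferentiableOn ℂ h (ball c ρ) := (hLd.div_const 2).cexp
  have hhc : h c = 1 := by simp [hh, hLc]
  have hsq : ∀ z ∈ ball c ρ, h z * h z = g z := by
    intro z hz
    rw [← hL z hz, hh]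
    simp only [← Complex.exp_add]
    congr 1; ring
  -- `h` omits the disc of radius `1/4` about `-1`
  have homit : ∀ z ∈ ball c ρ, 1 / 4 ≤ ‖h z + 1‖ := by
    intro z hz
    by_contra hlt
    push Not at hlt
    have e1 : (f z - f c) / (w - f c) = (1 - h z) * (h z + 1) := by
      have := hsq z hz
      simp only [hg] at this
      linear_combination this
    have e2 : ‖1 - h z‖ ≤ 9 / 4 := by
      have : 1 - h z = 2 - (h z + 1) := by ring
      rw [this]
      have := norm_sub_le (2 : ℂ) (h z + 1)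
      simp only [Complex.norm_ofNat] at this
      linarith
    have e3 : ‖(f z - f c) / (w - f c)‖ < 1 := by
      rw [e1, norm_mul]
      nlinarith [norm_nonneg (1 - h z), norm_nonneg (h z + 1)]
    have e4 : ‖f z - f c‖ < ‖w - f c‖ := by
      rwa [norm_div, div_lt_one hwn] at e3
    set φ := Function.invFunOn f (ball c ρ) with hφ
    have hφc : ContinuousOn φ (f '' ball c ρ) :=
      (Lib.Complex.differentiableOn_invFunOn isOpen_ball hf hi).continuousOn
    set γ : ℝ → ℂ := fun t => f c + (t : ℂ) * (f z - f c) with hγ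
    have hγm : ∀ t ∈ Icc (0 : ℝ) 1, γ t ∈ f '' ball c ρ := by
      intro t ht
      apply hw2
      rw [mem_ball, dist_eq_norm]
      simp only [hγ, add_sub_cancel_left, norm_mul, Complex.norm_real, Real.norm_eq_abs,
        abs_of_nonneg ht.1]
      nlinarith [norm_nonneg (f z - f c), ht.1, ht.2]
    have hφm : ∀ u ∈ f '' ball c ρ, φ u ∈ ball c ρ ∧ f (φ u) = u := by
      rintro u ⟨y, hy, rfl⟩
      have : φ (f y) = y := hi.leftInvOn_invFunOn hy
      rw [this]; exact ⟨hy, rfl⟩
    have hγc : Continuous γ := by simp only [hγ]; fun_prop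
    have hcont : ContinuousOn (fun t => (h (φ (γ t))).re) (Icc (0 : ℝ) 1) := by
      refine Complex.continuous_re.comp_continuousOn ?_
      refine hhd.continuousOn.comp (hφc.comp hγc.continuousOn hγm) ?_
      exact fun t ht => (hφm _ (hγm t ht)).1
    have hφ0 : φ (γ 0) = c := by
      have : γ 0 = f c := by simp [hγ]
      rw [this]; exact hi.leftInvOn_invFunOn hc
    have hφ1 : φ (γ 1) = z := by
      have : γ 1 = f z := by simp [hγ]
      rw [this]; exact hi.leftInvOn_invFunOn hz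
    have hre : (h z).re ≤ 0 := by
      have h1 := Complex.abs_re_le_norm (h z + 1)
      have h2 := (abs_le.1 (h1.trans hlt.le)).2
      simp only [Complex.add_re, Complex.one_re] at h2
      linarith
    have hiv := intermediate_value_Icc' zero_le_one hcont
    have h0m : (0 : ℝ) ∈ Icc ((fun t => (h (φ (γ t))).re) 1) ((fun t => (h (φ (γ t))).re) 0) := by
      simp only [hφ0, hφ1, hhc, Complex.one_re]
      exact ⟨hre, zero_le_one⟩
    obtain ⟨t, ht, ht0⟩ := hiv h0m
    simp only at ht0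
    obtain ⟨hy, hy'⟩ := hφm _ (hγm t ht)
    have e5 := hsq _ hy
    simp only [hg, hy'] at e5
    have e6 : (γ t - f c) / (w - f c) = (t : ℂ) * ((f z - f c) / (w - f c)) := by
      simp only [hγ]; ring
    rw [e6] at e5
    have e7 := congrArg Complex.re e5
    simp only [Complex.mul_re, ht0, Complex.sub_re, Complex.one_re, Complex.ofReal_re,
      Complex.ofReal_im, zero_mul, sub_zero, zero_sub] at e7
    have e8 := (abs_le.1 (Complex.abs_re_le_norm ((f z - f c) / (w - f c)))).2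
    nlinarith [mul_self_nonneg (h (φ (γ t))).im, ht.1, ht.2, norm_nonneg ((f z - f c) / (w - f c))]
  have hne : ∀ z ∈ ball c ρ, h z + 1 ≠ 0 := by
    intro z hz h0
    have := homit z hz
    rw [h0, norm_zero] at this
    norm_num at this
  set k : ℂ → ℂ := fun z => (h z + 1)⁻¹ with hk
  have hkd : DifferentiableOn ℂ k (ball c ρ) := (hhd.add_const 1).inv hne
  have hkc : ‖k c‖ = 1 / 2 := by
    simp only [hk, hhc]; norm_num
  have hkm : MapsTo k (ball c ρ) (closedBall (k c) 5) := by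
    intro z hz
    rw [mem_closedBall, dist_eq_norm]
    have h1 : ‖k z‖ ≤ 4 := by
      simp only [hk, norm_inv]
      rw [inv_le_comm₀ (norm_pos_iff.2 (hne z hz)) (by norm_num)]
      have := homit z hz
      linarith
    have := norm_sub_le (k z) (k c)
    linarith
  have hzb : z ∈ ball c ρ := by
    rw [mem_ball, dist_eq_norm]; linarith
  have h1 := Complex.dist_le_div_mul_dist_of_mapsTo_ball hkd hkm hzb
  rw [dist_eq_norm, dist_eq_norm] at h1
  have h2 : 5 / ρ * ‖z - c‖ ≤ 1 / 4 := by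
    calc 5 / ρ * ‖z - c‖ ≤ 5 / ρ * (ρ / 20) := by gcongr
      _ = 1 / 4 := by field_simp; norm_num
  have h3 : 1 / 4 ≤ ‖k z‖ := by
    have := norm_sub_norm_le (k c) (k z)
    rw [norm_sub_rev] at this
    linarith
  have h4 : ‖h z + 1‖ ≤ 4 := by
    simp only [hk, norm_inv] at h3
    rw [le_inv_comm₀ (by norm_num) (norm_pos_iff.2 (hne z hzb))] at h3
    linarith
  have e1 : f z - f c = (w - f c) * ((1 - h z) * (h z + 1)) := by
    have := hsq z hzb
    simp only [hg] at this
    field_simp at this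
    linear_combination this
  have e2 : ‖1 - h z‖ ≤ 6 := by
    have : 1 - h z = 2 - (h z + 1) := by ring
    rw [this]
    have := norm_sub_le (2 : ℂ) (h z + 1)
    simp only [Complex.norm_ofNat] at this
    linarith
  rw [e1, norm_mul, norm_mul]
  have e3 : ‖1 - h z‖ * ‖h z + 1‖ ≤ 24 := by
    nlinarith [norm_nonneg (1 - h z), norm_nonneg (h z + 1)]
  have e4 : 0 ≤ ρ * ‖deriv f c‖ := by positivity
  nlinarith [norm_nonneg (1 - h z), norm_nonneg (h z + 1)]

/-- the second derivative at the centre -/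
theorem Dist13_centre {c : ℂ} {ρ : ℝ} (hρ : 0 < ρ) {f : ℂ → ℂ}
    (hf : DifferentiableOn ℂ f (ball c ρ)) (hi : InjOn f (ball c ρ)) :
    ρ * ‖deriv (deriv f) c‖ ≤ 50000 * ‖deriv f c‖ := by
  have hsub : closedBall c (ρ / 20) ⊆ ball c ρ := closedBall_subset_ball (by linarith)
  have hd : DiffContOnCl ℂ (fun z => f z - f c) (ball c (ρ / 20)) := by
    refine DifferentiableOn.diffContOnCl ?_
    rw [closure_ball c (by positivity)]
    exact (hf.sub_const _).mono hsub
  have h1 := Complex.norm_iteratedDeriv_le_of_forall_mem_sphere_norm_le 2 (by positivity) hd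
    (C := 52 * ρ * ‖deriv f c‖) (fun z hz => Dist13_growth hρ hf hi (mem_sphere_iff_norm.1 hz).le)
  have h2 : iteratedDeriv 2 (fun z => f z - f c) c = deriv (deriv f) c := by
    rw [iteratedDeriv_succ, iteratedDeriv_one]
    congr 1
    funext z
    exact deriv_sub_const _
  rw [h2] at h1
  have h3 : ((Nat.factorial 2 : ℕ) : ℝ) * (52 * ρ * ‖deriv f c‖) / (ρ / 20) ^ 2 =
      41600 * ‖deriv f c‖ / ρ := by
    simp only [Nat.factorial]; field_simp; norm_num; ring
  rw [h3, le_div_iff₀ hρ] at h1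
  nlinarith [norm_nonneg (deriv f c)]

/-- crude Koebe distortion bound, form with `1 - ‖z‖` -/
theorem dist13' (f : ℂ → ℂ) (hf : DifferentiableOn ℂ f (ball 0 1)) (hinj : InjOn f (ball 0 1))
    (z : ℂ) (hz : z ∈ ball (0 : ℂ) 1) :
    (1 - ‖z‖) * ‖deriv (deriv f) z‖ ≤ 50000 * ‖deriv f z‖ := by
  have hz' : ‖z‖ < 1 := mem_ball_zero_iff.1 hz
  have hsub : ball z (1 - ‖z‖) ⊆ ball (0 : ℂ) 1 := by
    intro w hw
    rw [mem_ball, dist_eq_norm] at hw
    rw [mem_ball_zero_iff]
    have := norm_add_le (w - z) z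
    rw [sub_add_cancel] at this
    linarith
  exact Dist13_centre (by linarith) (hf.mono hsub) (hinj.mono hsub)

/-- crude Koebe distortion bound -/
theorem dist13 (f : ℂ → ℂ) (hf : DifferentiableOn ℂ f (ball 0 1)) (hinj : InjOn f (ball 0 1))
    (z : ℂ) (hz : z ∈ ball (0 : ℂ) 1) :
    (1 - ‖z‖ ^ 2) * ‖deriv (deriv f) z‖ ≤ 100000 * ‖deriv f z‖ := by
  have hz' : ‖z‖ < 1 := mem_ball_zero_iff.1 hz
  have h := dist13' f hf hinj z hz
  have h1 : 0 ≤ (1 - ‖z‖) * ‖deriv (deriv f) z‖ := mul_nonneg (by linarith) (norm_nonneg _)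
  nlinarith [norm_nonneg z]

/-- two-sided Harnack bound for `f'` on the disc of radius `r` -/
theorem harnack13 (f : ℂ → ℂ) (hf : DifferentiableOn ℂ f (ball 0 1))
    (hinj : InjOn f (ball 0 1)) {r : ℝ} (hr : r < 1) {z w : ℂ} (hz : ‖z‖ ≤ r) (hw : ‖w‖ ≤ r) :
    ‖deriv f w‖ ≤ Real.exp (50000 / (1 - r) * ‖w - z‖) * ‖deriv f z‖ := by
  have hr' : 0 < 1 - r := by linarith
  set γ : ℝ → ℂ := fun t => z + (t : ℂ) * (w - z) with hγ
  have hγn : ∀ t ∈ Icc (0 : ℝ) 1, ‖γ t‖ ≤ r := by
    intro t ht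
    have : γ t = ((1 - t : ℝ) : ℂ) * z + (t : ℂ) * w := by simp only [hγ]; push_cast; ring
    rw [this]
    have h1 := norm_add_le (((1 - t : ℝ) : ℂ) * z) ((t : ℂ) * w)
    rw [norm_mul, norm_mul, Complex.norm_real, Complex.norm_real, Real.norm_eq_abs,
      Real.norm_eq_abs, abs_of_nonneg ht.1, abs_of_nonneg (by linarith [ht.2])] at h1
    nlinarith [ht.1, ht.2]
  have hγb : ∀ t ∈ Icc (0 : ℝ) 1, γ t ∈ ball (0 : ℂ) 1 := fun t ht =>
    mem_ball_zero_iff.2 ((hγn t ht).trans_lt hr)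
  have hf1 : DifferentiableOn ℂ (deriv f) (ball 0 1) := hf.deriv isOpen_ball
  have hder : ∀ t ∈ Icc (0 : ℝ) 1, HasDerivAt (fun t => deriv f (γ t))
      (deriv (deriv f) (γ t) * (w - z)) t := by
    intro t ht
    have h1 : HasDerivAt (deriv f) (deriv (deriv f) (γ t)) (γ t) :=
      ((hf1 _ (hγb t ht)).differentiableAt (isOpen_ball.mem_nhds (hγb t ht))).hasDerivAt
    have h2 : HasDerivAt (fun s : ℂ => z + s * (w - z)) (w - z) (t : ℂ) := by
      simpa using ((hasDerivAt_id (t : ℂ)).mul_const (w - z)).const_add z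
    exact (h1.comp (t : ℂ) h2).comp_ofReal
  have hg := norm_le_gronwallBound_of_norm_deriv_right_le (f := fun t => deriv f (γ t))
    (f' := fun t => deriv (deriv f) (γ t) * (w - z)) (δ := ‖deriv f z‖)
    (K := 50000 / (1 - r) * ‖w - z‖) (ε := 0) (a := 0) (b := 1)
    (fun t ht => (hder t ht).continuousAt.continuousWithinAt)
    (fun t ht => (hder t (Ico_subset_Icc_self ht)).hasDerivWithinAt)
    (by simp [hγ])
    (fun t ht => by
      have ht' := Ico_subset_Icc_self ht
      have h1 := dist13' f hf hinj _ (hγb t ht')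
      have h2 := hγn t ht'
      have h3 : (1 - r) * ‖deriv (deriv f) (γ t)‖ ≤ 50000 * ‖deriv f (γ t)‖ := by
        nlinarith [norm_nonneg (deriv (deriv f) (γ t))]
      have h4 : ‖deriv (deriv f) (γ t)‖ ≤ 50000 / (1 - r) * ‖deriv f (γ t)‖ := by
        rw [div_mul_eq_mul_div, le_div_iff₀ hr']; linarith
      rw [norm_mul, add_zero]
      calc _ ≤ 50000 / (1 - r) * ‖deriv f (γ t)‖ * ‖w - z‖ := by gcongr
        _ = _ := by ring) 1 ⟨zero_le_one, le_rfl⟩
  rw [gronwallBound_ε0] at hg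
  have : γ 1 = w := by simp [hγ]
  simp only [this, sub_zero, mul_one] at hg
  linarith [mul_comm (‖deriv f z‖) (Real.exp (50000 / (1 - r) * ‖w - z‖))]

end Crest.Agent.R131
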