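import Crest.Agent.R131.Pars57
import Crest.Agent.R131.Dist13

/-!
# Row 131: the sharp Bieberbach bound `|a₂| ≤ 2` and the Koebe bound with constant `6` (helper85)
-/

set_option autoImplicit false

open MeasureTheory Set Metric Complex Filter Topology
open scoped Real ENNReal

noncomputable section

namespace Crest.Agent.R131

theorem b85_det (c : ℂ) :
    |((ContinuousLinearMap.toSpanSingleton ℂ c).restrictScalars ℝ).det| = ‖c‖ ^ 2 := by
  rw [ContinuousLinearMap.det, ← LinearMap.det_toMatrix basisOneI, Matrix.det_fin_two]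
  simp only [LinearMap.toMatrix_apply]
  rw [Complex.sq_norm, normSq_apply, ← abs_of_nonneg (add_nonneg (mul_self_nonneg c.re)
    (mul_self_nonneg c.im))]
  simp

theorem b85_norm {r : ℝ} (hr : 0 ≤ r) (θ : ℝ) : ‖(r : ℂ) * cexp ((θ : ℂ) * I)‖ = r := by
  rw [norm_mul, Complex.norm_exp_ofReal_mul_I, mul_one, Complex.norm_real, Real.norm_of_nonneg hr]

/-- polar coordinates on a rotation invariant set -/
theorem b85_polar (g : ℂ → ℝ) (S : Set ℝ) (hS : MeasurableSet S) (hS0 : S ⊆ Ioi 0)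
    (hg : ContinuousOn g {w : ℂ | ‖w‖ ∈ S}) :
    ∫⁻ w in {w : ℂ | ‖w‖ ∈ S}, ENNReal.ofReal (g w) =
      ∫⁻ r in S, ∫⁻ θ in Ioo (-π) π, ENNReal.ofReal (r * g ((r : ℂ) * cexp ((θ : ℂ) * I))) := by
  have hm : MeasurableSet {w : ℂ | ‖w‖ ∈ S} := measurable_norm hS
  have hT : MeasurableSet (S ×ˢ Ioo (-π) π) := hS.prod measurableSet_Ioo
  have hsub : S ×ˢ Ioo (-π) π ⊆ polarCoord.target := fun p hp => ⟨hS0 hp.1, hp.2⟩
  rw [← lintegral_indicator hm, ← Complex.lintegral_comp_polarCoord_symm]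
  have h1 : ∫⁻ p in polarCoord.target, ENNReal.ofReal p.1 •
        indicator {w : ℂ | ‖w‖ ∈ S} (fun w => ENNReal.ofReal (g w)) (Complex.polarCoord.symm p) =
      ∫⁻ p in polarCoord.target, indicator (S ×ˢ Ioo (-π) π)
        (fun p : ℝ × ℝ => ENNReal.ofReal (p.1 * g ((p.1 : ℂ) * cexp ((p.2 : ℂ) * I)))) p := by
    refine setLIntegral_congr_fun polarCoord.open_target.measurableSet fun p hp => ?_
    have hp1 : 0 < p.1 := hp.1
    have hp2 : p.2 ∈ Ioo (-π) π := hp.2
    have he : Complex.polarCoord.symm p = (p.1 : ℂ) * cexp ((p.2 : ℂ) * I) := by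
      rw [Complex.polarCoord_symm_apply, Complex.exp_mul_I]
      simp
    simp only [he]
    by_cases h : p.1 ∈ S
    · rw [indicator_of_mem (by rw [mem_ofPred_eq, b85_norm hp1.le]; exact h),
        indicator_of_mem (show p ∈ S ×ˢ Ioo (-π) π from ⟨h, hp2⟩), smul_eq_mul,
        ENNReal.ofReal_mul hp1.le]
    · rw [indicator_of_notMem (by rw [mem_ofPred_eq, b85_norm hp1.le]; exact h),
        indicator_of_notMem (fun h' => h h'.1)]
      simp
  rw [h1, lintegral_indicator hT, Measure.restrict_restrict hT, inter_eq_left.2 hsub,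
    Measure.volume_eq_prod, ← Measure.prod_restrict]
  refine lintegral_prod _ ?_
  rw [Measure.prod_restrict, ← Measure.volume_eq_prod]
  refine ContinuousOn.aemeasurable ?_ hT
  refine ENNReal.continuous_ofReal.comp_continuousOn (continuous_fst.continuousOn.mul ?_)
  refine hg.comp (by fun_prop) fun p hp => ?_
  rw [mem_ofPred_eq, b85_norm (le_of_lt (hS0 hp.1))]
  exact hp.1

/-- the outer integral -/
theorem b85_outer {s δ : ℝ} (hs : 0 < s) (hδ : 0 < δ) :
    ∫⁻ w in {w : ℂ | ‖w‖ ∈ Ici δ}, ENNReal.ofReal (‖w‖ ^ (-s - 2)) =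
      ENNReal.ofReal (2 * π * (δ ^ (-s) / s)) := by
  rw [b85_polar (fun w => ‖w‖ ^ (-s - 2)) (Ici δ) measurableSet_Ici
    (fun r hr => lt_of_lt_of_le hδ hr)
    (continuous_norm.continuousOn.rpow_const fun w hw => Or.inl (lt_of_lt_of_le hδ hw).ne')]
  have h1 : ∀ r ∈ Ici δ, ∫⁻ θ in Ioo (-π) π,
      ENNReal.ofReal (r * ‖(r : ℂ) * cexp ((θ : ℂ) * I)‖ ^ (-s - 2)) =
        ENNReal.ofReal (2 * π * r ^ (-s - 1)) := by
    intro r hr
    have hr0 : 0 < r := lt_of_lt_of_le hδ hr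
    simp only [b85_norm hr0.le]
    rw [setLIntegral_const, Real.volume_Ioo, ← ENNReal.ofReal_mul (by positivity)]
    congr 1
    rw [show -s - 1 = 1 + (-s - 2) by ring, Real.rpow_add hr0, Real.rpow_one]
    ring
  rw [setLIntegral_congr_fun measurableSet_Ici h1, ← setLIntegral_congr Ioi_ae_eq_Ici,
    ← ofReal_integral_eq_lintegral_ofReal
      ((integrableOn_Ioi_rpow_of_lt (by linarith) hδ).const_mul _)]
  · rw [integral_const_mul, integral_Ioi_rpow_of_lt (by linarith) hδ]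
    congr 2
    rw [show -s - 1 + 1 = -s by ring]
    field_simp
  · filter_upwards [ae_restrict_mem measurableSet_Ioi] with r hr
    have hr0 : 0 < r := hδ.trans hr
    positivity

/-- two-term Bessel inequality -/
theorem b85_bessel {u : ℂ → ℂ} (hu : DifferentiableOn ℂ u (ball 0 1)) {r : ℝ} (hr0 : 0 ≤ r)
    (hr : r < 1) :
    2 * π * (‖u 0‖ ^ 2 + ‖deriv u 0‖ ^ 2 * r ^ 2) ≤ ∫ θ in (-π)..π, ‖u (r * cexp (θ * I))‖ ^ 2 := by
  have h := sum_le_hasSum (Finset.range 2) (fun n _ => by positivity) (p57_circle0 u 1 hu r hr0 hr)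
  refine le_trans (le_of_eq ?_) h
  simp [Finset.sum_range_succ, p57co]
  ring

/-- the inner integral -/
theorem b85_inner {u : ℂ → ℂ} (hu : DifferentiableOn ℂ u (ball 0 1)) (hu0 : u 0 = 1)
    {s ε ρ : ℝ} (hs : 0 < s) (hs1 : s < 1) (hε : 0 < ε) (hερ : ε ≤ ρ) (hρ : ρ < 1) :
    ENNReal.ofReal (2 * π * ((ε ^ (-s) - ρ ^ (-s)) / s +
        ‖deriv u 0‖ ^ 2 * ((ρ ^ (2 - s) - ε ^ (2 - s)) / (2 - s)))) ≤
      ∫⁻ w in {w : ℂ | ‖w‖ ∈ Ioc ε ρ}, ENNReal.ofReal (‖w‖ ^ (-s - 2) * ‖u w‖ ^ 2) := by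
  have hc : ContinuousOn (fun w : ℂ => ‖w‖ ^ (-s - 2) * ‖u w‖ ^ 2) {w : ℂ | ‖w‖ ∈ Ioc ε ρ} := by
    refine ContinuousOn.mul (continuous_norm.continuousOn.rpow_const fun w hw =>
      Or.inl (hε.trans hw.1).ne') ((hu.continuousOn.mono fun w hw => ?_).norm.pow 2)
    exact mem_ball_zero_iff.2 (lt_of_le_of_lt hw.2 hρ)
  rw [b85_polar _ (Ioc ε ρ) measurableSet_Ioc (fun r hr => hε.trans hr.1) hc]
  set c := ‖deriv u 0‖ ^ 2 with hcdef
  have hc0 : 0 ≤ c := by positivity
  have h0 : (0 : ℝ) ∉ uIcc ε ρ := by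
    rw [uIcc_of_le hερ]
    exact fun h => absurd h.1 (not_le.2 hε)
  have i1 : IntervalIntegrable (fun r : ℝ => r ^ (-s - 1)) volume ε ρ :=
    intervalIntegral.intervalIntegrable_rpow (Or.inr h0)
  have i2 : IntervalIntegrable (fun r : ℝ => r ^ (1 - s)) volume ε ρ :=
    intervalIntegral.intervalIntegrable_rpow (Or.inr h0)
  have hI : ∫ r in Ioc ε ρ, 2 * π * (r ^ (-s - 1) + c * r ^ (1 - s)) =
      2 * π * ((ε ^ (-s) - ρ ^ (-s)) / s + c * ((ρ ^ (2 - s) - ε ^ (2 - s)) / (2 - s))) := by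
    rw [← intervalIntegral.integral_of_le hερ, intervalIntegral.integral_const_mul,
      intervalIntegral.integral_add i1 (i2.const_mul c), intervalIntegral.integral_const_mul,
      integral_rpow (Or.inr ⟨by linarith, h0⟩), integral_rpow (Or.inl (by linarith))]
    rw [show -s - 1 + 1 = -s by ring, show 1 - s + 1 = 2 - s by ring]
    congr 2
    field_simp
    ring
  rw [← hI, ofReal_integral_eq_lintegral_ofReal
    (((i1.add (i2.const_mul c)).const_mul (2 * π)).1)]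
  · refine setLIntegral_mono' measurableSet_Ioc fun r hr => ?_
    have hr0 : 0 < r := hε.trans hr.1
    have hr1 : r < 1 := lt_of_le_of_lt hr.2 hρ
    have hb := b85_bessel hu hr0.le hr1
    have hcu : Continuous fun θ : ℝ => ‖u (r * cexp (θ * I))‖ ^ 2 := by
      refine (Continuous.norm ?_).pow 2
      refine hu.continuousOn.comp_continuous (by fun_prop) fun θ => ?_
      rw [mem_ball_zero_iff, b85_norm hr0.le]
      exact hr1
    have hpi : -π ≤ π := by linarith [Real.pi_pos]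
    simp only [b85_norm hr0.le]
    rw [← ofReal_integral_eq_lintegral_ofReal]
    · refine ENNReal.ofReal_le_ofReal ?_
      rw [integral_const_mul, integral_const_mul, ← integral_Ioc_eq_integral_Ioo,
        ← intervalIntegral.integral_of_le hpi]
      have e1 : r ^ (-s - 1) = r * r ^ (-s - 2) := by
        rw [show -s - 1 = 1 + (-s - 2) by ring, Real.rpow_add hr0, Real.rpow_one]
      have e2 : r ^ (1 - s) = r * r ^ (-s - 2) * r ^ 2 := by
        rw [← e1, show 1 - s = (-s - 1) + 2 by ring, Real.rpow_add hr0, Real.rpow_two]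
      rw [hu0, norm_one] at hb
      have hp : 0 ≤ r * r ^ (-s - 2) := by positivity
      have := mul_le_mul_of_nonneg_left hb hp
      rw [e1, e2, ← mul_assoc r]
      nlinarith
    · exact (((hcu.const_mul _).const_mul _).integrableOn_Icc (a := -π) (b := π)).mono_set
        Ioo_subset_Icc_self
    · exact Eventually.of_forall fun θ => by positivity
  · filter_upwards [ae_restrict_mem measurableSet_Ioc] with r hr
    have hr0 : 0 < r := hε.trans hr.1
    positivity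

/-- the area inequality at scale `ε` -/
theorem b85_area {L : ℂ → ℂ} (hL : DifferentiableOn ℂ L (ball 0 1)) (hL0 : L 0 = 0)
    (hinj : InjOn (fun z => z * cexp (L z)) (ball 0 1)) {s ρ : ℝ} (hs : 0 < s) (hs1 : s < 1)
    (hρ : ρ < 1) : ∃ K : ℝ, 0 ≤ K ∧ ∀ ε : ℝ, 0 < ε → ε ≤ ρ →
      ((1 - s / 2) ^ 2 * ‖deriv L 0‖ ^ 2) * ((ρ ^ (2 - s) - ε ^ (2 - s)) / (2 - s)) ≤
        ρ ^ (-s) / s + K * ε ^ (1 - s) / s := by
  have h0 : ball (0 : ℂ) 1 ∈ 𝓝 (0 : ℂ) := ball_mem_nhds 0 one_pos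
  have hψ : DifferentiableOn ℂ (fun z => cexp (-L z)) (ball 0 1) := hL.neg.cexp
  have hd : DifferentiableOn ℂ (dslope (fun z => cexp (-L z)) 0) (ball 0 1) :=
    (differentiableOn_dslope h0).2 hψ
  obtain ⟨K0, hK0⟩ := (isCompact_closedBall (0 : ℂ) ρ).exists_bound_of_continuousOn
    (hd.continuousOn.mono (closedBall_subset_ball hρ))
  set K := max K0 0 with hK
  have hKn : 0 ≤ K := le_max_right _ _
  have hψb : ∀ z : ℂ, ‖z‖ ≤ ρ → ‖cexp (-L z)‖ ≤ 1 + K * ‖z‖ := by
    intro z hz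
    have h1 := sub_smul_dslope (fun z => cexp (-L z)) 0 z
    simp only [sub_zero, hL0, neg_zero, Complex.exp_zero, smul_eq_mul] at h1
    have h2 : cexp (-L z) = 1 + z * dslope (fun z => cexp (-L z)) 0 z := by rw [h1]; ring
    have h3 := (hK0 z (mem_closedBall_zero_iff.2 hz)).trans (le_max_left K0 0)
    rw [h2]
    refine (norm_add_le _ _).trans ?_
    rw [norm_one, norm_mul, mul_comm K]
    gcongr
  refine ⟨K, hKn, fun ε hε hερ => ?_⟩
  set u : ℂ → ℂ := fun z => (1 + z * deriv L z) * cexp (-((s / 2 : ℝ) : ℂ) * L z) with hu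
  have hL' : DifferentiableOn ℂ (deriv L) (ball 0 1) := hL.deriv isOpen_ball
  have hud : DifferentiableOn ℂ u (ball 0 1) :=
    ((differentiableOn_const _).add (differentiableOn_id.mul hL')).mul
      ((differentiableOn_const _).mul hL).cexp
  have hu0 : u 0 = 1 := by simp [hu, hL0]
  have hu1 : deriv u 0 = ((1 - s / 2 : ℝ) : ℂ) * deriv L 0 := by
    have a1 := (hL.differentiableAt h0).hasDerivAt
    have a2 := (hL'.differentiableAt h0).hasDerivAt
    have a3 := (((hasDerivAt_id (0 : ℂ)).mul a2).const_add 1).mul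
      (a1.const_mul (-((s / 2 : ℝ) : ℂ))).cexp
    have a4 : deriv u 0 = _ := a3.deriv
    rw [a4]
    simp [hL0]
    ring
  have hin := b85_inner hud hu0 hs hs1 hε hερ hρ
  set δ := ε / (1 + K * ε) with hδ
  have hδ0 : 0 < δ := by positivity
  set A := {w : ℂ | ‖w‖ ∈ Ioc ε ρ} with hA
  have hAm : MeasurableSet A := measurable_norm measurableSet_Ioc
  have hAb : A ⊆ ball 0 1 := fun w hw => mem_ball_zero_iff.2 (lt_of_le_of_lt hw.2 hρ)
  have hder : ∀ z ∈ A, HasDerivAt (fun z => z * cexp (L z))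
      ((1 + z * deriv L z) * cexp (L z)) z := by
    intro z hz
    have a1 := (hL.differentiableAt (isOpen_ball.mem_nhds (hAb hz))).hasDerivAt
    have a2 : HasDerivAt (fun z => z * cexp (L z)) _ z := (hasDerivAt_id z).mul a1.cexp
    refine a2.congr_deriv ?_
    simp only [id]
    ring
  have harea := lintegral_image_eq_lintegral_abs_det_fderiv_mul volume hAm
    (fun z hz => ((hder z hz).hasFDerivAt.restrictScalars ℝ).hasFDerivWithinAt) (hinj.mono hAb)
    (fun w => ENNReal.ofReal (‖w‖ ^ (-s - 2)))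
  have himg : (fun z => z * cexp (L z)) '' A ⊆ {w : ℂ | ‖w‖ ∈ Ici δ} := by
    rintro _ ⟨z, hz, rfl⟩
    have h1 := hψb z hz.2
    have h2 : ‖cexp (L z)‖ * ‖cexp (-L z)‖ = 1 := by
      rw [← norm_mul, ← Complex.exp_add]
      simp
    have hz1 : ε < ‖z‖ := hz.1
    have h3 : 0 ≤ ‖cexp (L z)‖ := norm_nonneg _
    have h4 : 1 ≤ ‖cexp (L z)‖ * (1 + K * ‖z‖) := by
      calc (1 : ℝ) = ‖cexp (L z)‖ * ‖cexp (-L z)‖ := h2.symm
        _ ≤ _ := by gcongr
    show δ ≤ ‖z * cexp (L z)‖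
    rw [norm_mul, hδ, div_le_iff₀ (by positivity)]
    have h5 : ε * (‖cexp (L z)‖ * (1 + K * ‖z‖)) ≤ ‖z‖ * ‖cexp (L z)‖ * (1 + K * ε) := by
      nlinarith [mul_le_mul_of_nonneg_left hz1.le h3]
    nlinarith
  have hle : ∫⁻ w in A, ENNReal.ofReal (‖w‖ ^ (-s - 2) * ‖u w‖ ^ 2) ≤
      ENNReal.ofReal (2 * π * (δ ^ (-s) / s)) := by
    rw [← b85_outer hs hδ0]
    refine le_trans (le_of_eq ?_) (lintegral_mono_set himg)
    rw [harea]
    refine setLIntegral_congr_fun hAm fun z hz => ?_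
    have hz0 : 0 < ‖z‖ := hε.trans hz.1
    simp only [b85_det]
    rw [← ENNReal.ofReal_mul (by positivity)]
    congr 1
    simp only [hu, norm_mul, Complex.norm_exp]
    rw [Real.mul_rpow hz0.le (Real.exp_pos _).le, ← Real.exp_mul]
    have e1 : (-((s / 2 : ℝ) : ℂ) * L z).re = -(s / 2) * (L z).re := by
      rw [← Complex.ofReal_neg, Complex.re_ofReal_mul]
    have e2 : Real.exp (-(s / 2) * (L z).re) ^ 2 =
        Real.exp (L z).re ^ 2 * Real.exp ((L z).re * (-s - 2)) := by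
      rw [← Real.exp_nat_mul, ← Real.exp_nat_mul, ← Real.exp_add]
      congr 1
      push_cast
      ring
    rw [e1, mul_pow, mul_pow, e2]
    ring
  have hfin := (ENNReal.ofReal_le_ofReal_iff (by positivity)).1 (hin.trans hle)
  have hfin2 := le_of_mul_le_mul_left hfin (by positivity : 0 < 2 * π)
  have hδs : δ ^ (-s) ≤ ε ^ (-s) + K * ε ^ (1 - s) := by
    have h1 : (1 : ℝ) ≤ 1 + K * ε := by nlinarith
    rw [hδ, Real.div_rpow hε.le (by positivity), Real.rpow_neg (by positivity : 0 ≤ 1 + K * ε),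
      div_inv_eq_mul, show 1 - s = -s + 1 by ring, Real.rpow_add hε, Real.rpow_one]
    have h2 : (1 + K * ε) ^ s ≤ 1 + K * ε := by
      conv_rhs => rw [← Real.rpow_one (1 + K * ε)]
      exact Real.rpow_le_rpow_of_exponent_le h1 hs1.le
    have h3 : 0 ≤ ε ^ (-s) := by positivity
    nlinarith [mul_le_mul_of_nonneg_left h2 h3]
  have hn : ‖deriv u 0‖ ^ 2 = (1 - s / 2) ^ 2 * ‖deriv L 0‖ ^ 2 := by
    rw [hu1, norm_mul, Complex.norm_real, mul_pow, Real.norm_eq_abs, sq_abs]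
  rw [hn] at hfin2
  have h6 : δ ^ (-s) / s ≤ (ε ^ (-s) + K * ε ^ (1 - s)) / s := by gcongr
  rw [add_div] at h6
  rw [sub_div] at hfin2
  linarith

/-- the coefficient bound in logarithmic form -/
theorem b85_core {L : ℂ → ℂ} (hL : DifferentiableOn ℂ L (ball 0 1)) (hL0 : L 0 = 0)
    (hinj : InjOn (fun z => z * cexp (L z)) (ball 0 1)) : ‖deriv L 0‖ ≤ 2 := by
  set a := ‖deriv L 0‖ with ha
  have key : ∀ t : ℝ, 0 < t → t < 1 → (2 - t) * t ^ 3 * a ^ 2 ≤ 4 := by
    intro t ht ht1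
    obtain ⟨K, hK, h⟩ := b85_area hL hL0 hinj ht ht1 ht1
    have l1 : Tendsto (fun ε : ℝ => ε ^ (2 - t)) (𝓝[>] 0) (𝓝 0) := by
      have := (Real.continuousAt_rpow_const 0 (2 - t) (Or.inr (by linarith))).tendsto
      rw [Real.zero_rpow (by linarith)] at this
      exact this.mono_left nhdsWithin_le_nhds
    have l2 : Tendsto (fun ε : ℝ => ε ^ (1 - t)) (𝓝[>] 0) (𝓝 0) := by
      have := (Real.continuousAt_rpow_const 0 (1 - t) (Or.inr (by linarith))).tendsto
      rw [Real.zero_rpow (by linarith)] at this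
      exact this.mono_left nhdsWithin_le_nhds
    have l3 := ((l1.const_sub (t ^ (2 - t))).div_const (2 - t)).const_mul
      ((1 - t / 2) ^ 2 * a ^ 2)
    have l4 := ((l2.const_mul K).div_const t).const_add (t ^ (-t) / t)
    have l5 := le_of_tendsto_of_tendsto l3 l4 (by
      filter_upwards [Ioc_mem_nhdsGT ht] with ε hε
      exact h ε hε.1 hε.2)
    have e1 : t ^ (2 - t) = t ^ (-t) * t ^ 2 := by
      rw [show 2 - t = -t + 2 by ring, Real.rpow_add ht, Real.rpow_two]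
    have hp : 0 < t ^ (-t) := by positivity
    have h2t : 0 < 2 - t := by linarith
    rw [e1, sub_zero, mul_zero, zero_div, add_zero, le_div_iff₀ ht] at l5
    have e2 : (1 - t / 2) ^ 2 * a ^ 2 * (t ^ (-t) * t ^ 2 / (2 - t)) * t =
        t ^ (-t) * ((2 - t) * t ^ 3 * a ^ 2 / 4) := by
      field_simp
      ring
    rw [e2] at l5
    have l6 : (2 - t) * t ^ 3 * a ^ 2 / 4 ≤ 1 := by
      by_contra hc
      push Not at hc
      nlinarith
    linarith
  have l1 : Tendsto (fun t : ℝ => (2 - t) * t ^ 3 * a ^ 2) (𝓝[<] 1) (𝓝 ((2 - 1) * 1 ^ 3 * a ^ 2)) :=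
    ((by fun_prop : Continuous fun t : ℝ => (2 - t) * t ^ 3 * a ^ 2).tendsto 1).mono_left
      nhdsWithin_le_nhds
  have l2 := le_of_tendsto l1 (by
    filter_upwards [Ioo_mem_nhdsLT (zero_lt_one' ℝ)] with t ht
    exact key t ht.1 ht.2)
  have ha0 : 0 ≤ a := norm_nonneg _
  nlinarith

/-- **Bieberbach**: `|f''(0)| ≤ 4` for a normalised univalent function. -/
theorem bieb85 (f : ℂ → ℂ) (hf : DifferentiableOn ℂ f (ball 0 1)) (hinj : InjOn f (ball 0 1))
    (f0 : f 0 = 0) (f1 : deriv f 0 = 1) : ‖deriv (deriv f) 0‖ ≤ 4 := by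
  have h0 : ball (0 : ℂ) 1 ∈ 𝓝 (0 : ℂ) := ball_mem_nhds 0 one_pos
  have hd : DifferentiableOn ℂ (dslope f 0) (ball 0 1) := (differentiableOn_dslope h0).2 hf
  have hz : ∀ z, z * dslope f 0 z = f z := fun z => by
    have h1 := sub_smul_dslope f 0 z
    simpa [f0] using h1
  have hd0 : dslope f 0 0 = 1 := by rw [dslope_same, f1]
  have hne : ∀ z ∈ ball (0 : ℂ) 1, dslope f 0 z ≠ 0 := by
    intro z hzb h
    have h1 : f z = f 0 := by rw [← hz z, h, mul_zero, f0]
    have h2 := hinj hzb (mem_ball_self one_pos) h1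
    rw [h2, hd0] at h
    exact one_ne_zero h
  obtain ⟨L, hL, hL0, hLe⟩ := Dist13_log one_pos hd hne
  rw [hd0, Complex.log_one] at hL0
  have hfe : ∀ z ∈ ball (0 : ℂ) 1, f z = z * cexp (L z) := fun z hzb => by rw [hLe z hzb, hz]
  have hc := b85_core hL hL0 (fun x hx y hy hxy => hinj hx hy (by
    rw [hfe x hx, hfe y hy]; exact hxy))
  have hL' : DifferentiableOn ℂ (deriv L) (ball 0 1) := hL.deriv isOpen_ball
  have hde : deriv f =ᶠ[𝓝 0] fun z => (1 + z * deriv L z) * cexp (L z) := by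
    filter_upwards [h0] with z hzb
    have a1 := (hL.differentiableAt (isOpen_ball.mem_nhds hzb)).hasDerivAt
    have a2 := (hasDerivAt_id z).mul a1.cexp
    have a3 : f =ᶠ[𝓝 z] fun z => z * cexp (L z) := by
      filter_upwards [isOpen_ball.mem_nhds hzb] with w hw using hfe w hw
    rw [a3.deriv_eq]
    have a4 : deriv (fun z => z * cexp (L z)) z = _ := a2.deriv
    rw [a4]
    simp only [id]
    ring
  have a1 := (hL.differentiableAt h0).hasDerivAt
  have a2 := (hL'.differentiableAt h0).hasDerivAt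
  have a3 := (((hasDerivAt_id (0 : ℂ)).mul a2).const_add 1).mul a1.cexp
  have a4 : deriv (fun z => (1 + z * deriv L z) * cexp (L z)) 0 = _ := a3.deriv
  have e : deriv (fun z => (1 + z * deriv L z) * cexp (L z)) 0 = 2 * deriv L 0 := by
    rw [a4]
    simp [hL0]
    ring
  rw [hde.deriv_eq, e, norm_mul]
  simp only [Complex.norm_ofNat]
  linarith

/-- **Koebe bound**, sharp form. -/
theorem koebe85' (f : ℂ → ℂ) (hf : DifferentiableOn ℂ f (ball 0 1)) (hinj : InjOn f (ball 0 1))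
    (z : ℂ) (hz : z ∈ ball (0 : ℂ) 1) :
    ‖((1 - ‖z‖ ^ 2 : ℝ) : ℂ) * deriv (deriv f) z / deriv f z - 2 * (starRingEnd ℂ) z‖ ≤ 4 := by
  have hz1 : ‖z‖ < 1 := mem_ball_zero_iff.1 hz
  have hf1 : deriv f z ≠ 0 := Crest.Agent.Lib.Complex.deriv_ne_zero_of_injOn isOpen_ball hf hinj hz
  set b := (starRingEnd ℂ) z with hb
  set d : ℂ := ((1 - ‖z‖ ^ 2 : ℝ) : ℂ) with hd
  have hdr : (0 : ℝ) < 1 - ‖z‖ ^ 2 := by nlinarith [norm_nonneg z]
  have hd0 : d ≠ 0 := by rw [hd]; exact_mod_cast hdr.ne'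
  have hdb : d = 1 - b * z := by
    rw [hd, hb, Complex.conj_mul']
    push_cast
    ring
  have hden : ∀ w ∈ ball (0 : ℂ) 1, 1 + b * w ≠ 0 := by
    intro w hw h
    have h1 : b * w = -1 := by linear_combination h
    have h2 := congrArg norm h1
    rw [norm_mul, hb, Complex.norm_conj, norm_neg, norm_one] at h2
    have h3 : ‖w‖ < 1 := mem_ball_zero_iff.1 hw
    nlinarith [norm_nonneg z, norm_nonneg w]
  set m : ℂ → ℂ := fun w => (w + z) / (1 + b * w) with hm
  have hmb : ∀ w ∈ ball (0 : ℂ) 1, m w ∈ ball (0 : ℂ) 1 := by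
    intro w hw
    have h3 : ‖w‖ < 1 := mem_ball_zero_iff.1 hw
    rw [mem_ball_zero_iff, hm]
    simp only
    rw [norm_div, div_lt_one (norm_pos_iff.2 (hden w hw))]
    refine lt_of_pow_lt_pow_left₀ 2 (norm_nonneg _) ?_
    have h4 : ‖1 + b * w‖ ^ 2 - ‖w + z‖ ^ 2 = (1 - ‖z‖ ^ 2) * (1 - ‖w‖ ^ 2) := by
      simp only [Complex.sq_norm, normSq_apply, hb, add_re, add_im, mul_re, mul_im, one_re, one_im,
        conj_re, conj_im]
      ring
    have h5 : 0 < 1 - ‖w‖ ^ 2 := by nlinarith [norm_nonneg w]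
    nlinarith [mul_pos hdr h5]
  have hmd : ∀ w ∈ ball (0 : ℂ) 1, HasDerivAt m (d / (1 + b * w) ^ 2) w := by
    intro w hw
    have a1 : HasDerivAt m _ w := ((hasDerivAt_id w).add_const z).div
      (((hasDerivAt_id w).const_mul b).const_add 1) (hden w hw)
    refine a1.congr_deriv ?_
    simp only [id]
    rw [hdb]
    congr 1
    ring
  have hm0 : m 0 = z := by simp [hm]
  have hmi : InjOn m (ball 0 1) := by
    intro x hx y hy hxy
    simp only [hm] at hxy
    rw [div_eq_div_iff (hden x hx) (hden y hy)] at hxy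
    have h1 : d * (x - y) = 0 := by rw [hdb]; linear_combination hxy
    exact sub_eq_zero.1 ((mul_eq_zero.1 h1).resolve_left hd0)
  set F : ℂ → ℂ := fun w => (f (m w) - f z) / (d * deriv f z) with hF
  have hFd : ∀ w ∈ ball (0 : ℂ) 1,
      HasDerivAt F (deriv f (m w) * ((1 + b * w) ^ 2)⁻¹ / deriv f z) w := by
    intro w hw
    have a1 := (hf.differentiableAt (isOpen_ball.mem_nhds (hmb w hw))).hasDerivAt
    have a2 : HasDerivAt F _ w := ((a1.comp w (hmd w hw)).sub_const (f z)).div_const (d * deriv f z)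
    refine a2.congr_deriv ?_
    have := hden w hw
    field_simp
  have h0 : ball (0 : ℂ) 1 ∈ 𝓝 (0 : ℂ) := ball_mem_nhds 0 one_pos
  have hB := bieb85 F (fun w hw => (hFd w hw).differentiableAt.differentiableWithinAt)
    (fun x hx y hy hxy => by
      simp only [hF] at hxy
      rw [div_left_inj' (mul_ne_zero hd0 hf1), sub_left_inj] at hxy
      exact hmi hx hy (hinj (hmb x hx) (hmb y hy) hxy))
    (by simp [hF, hm0])
    (by rw [(hFd 0 (mem_ball_self one_pos)).deriv, hm0]; simp [hf1])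
  have hde : deriv F =ᶠ[𝓝 0] fun w => deriv f (m w) * ((1 + b * w) ^ 2)⁻¹ / deriv f z := by
    filter_upwards [h0] with w hw using (hFd w hw).deriv
  have a1 : HasDerivAt (deriv f) (deriv (deriv f) z) (m 0) := by
    rw [hm0]
    exact ((hf.deriv isOpen_ball).differentiableAt (isOpen_ball.mem_nhds hz)).hasDerivAt
  have a2 : HasDerivAt (fun w : ℂ => ((1 + b * w) ^ 2)⁻¹) (-2 * b) 0 := by
    have a3 : HasDerivAt (fun w : ℂ => ((1 + b * w) ^ 2)⁻¹) _ 0 :=
      ((((hasDerivAt_id (0 : ℂ)).const_mul b).const_add 1).pow 2).inv (by simp)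
    refine a3.congr_deriv ?_
    simp
  have a4 : HasDerivAt (fun w => deriv f (m w) * ((1 + b * w) ^ 2)⁻¹ / deriv f z) _ 0 :=
    ((a1.comp 0 (hmd 0 (mem_ball_self one_pos))).mul a2).div_const (deriv f z)
  rw [hde.deriv_eq, a4.deriv] at hB
  refine le_trans (le_of_eq ?_) hB
  congr 1
  simp only [Function.comp, hm0, mul_zero, add_zero, one_pow, inv_one, div_one, mul_one]
  field_simp
  ring

/-- **Koebe bound** with the sharp constant `6`. -/
theorem koebe85 (f : ℂ → ℂ) (hf : DifferentiableOn ℂ f (ball 0 1)) (hinj : InjOn f (ball 0 1))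
    (z : ℂ) (hz : z ∈ ball (0 : ℂ) 1) :
    (1 - ‖z‖ ^ 2) * ‖deriv (deriv f) z‖ ≤ 6 * ‖deriv f z‖ := by
  have hz1 : ‖z‖ < 1 := mem_ball_zero_iff.1 hz
  have hf1 : deriv f z ≠ 0 := Crest.Agent.Lib.Complex.deriv_ne_zero_of_injOn isOpen_ball hf hinj hz
  have hdr : (0 : ℝ) < 1 - ‖z‖ ^ 2 := by nlinarith [norm_nonneg z]
  have h := koebe85' f hf hinj z hz
  have h2 := (norm_le_norm_add_norm_sub' _ _).trans
    (add_le_add (le_refl ‖2 * (starRingEnd ℂ) z‖) h)
  rw [norm_div, norm_mul, norm_mul, Complex.norm_real, Real.norm_of_nonneg hdr.le,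
    Complex.norm_conj, div_le_iff₀ (norm_pos_iff.2 hf1)] at h2
  simp only [Complex.norm_ofNat] at h2
  nlinarith [norm_nonneg (deriv f z)]

end Crest.Agent.R131
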