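import Crest.Agent.R131.Star
import Crest.Agent.Lib.Complex.Univalent

set_option autoImplicit false
open MeasureTheory Set Metric Filter Topology
open scoped ENNReal ComplexConjugate

namespace Crest.Agent.R131

/-- a holomorphic logarithm on a disc -/
theorem exists_log36 (h : ℂ → ℂ) (R : ℝ) (hh : DifferentiableOn ℂ h (ball 0 R))
    (h0 : ∀ z ∈ ball (0 : ℂ) R, h z ≠ 0) :
    ∃ L : ℂ → ℂ, (∀ z ∈ ball (0 : ℂ) R, HasDerivAt L (deriv h z / h z) z) ∧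
      ∀ z ∈ ball (0 : ℂ) R, Complex.exp (L z) = h z := by
  have hd : DifferentiableOn ℂ (fun z => deriv h z / h z) (ball 0 R) :=
    (hh.deriv isOpen_ball).div hh h0
  obtain ⟨L, hL0, hL⟩ := hd.isExactOn_ball.with_val_at 0 (Complex.log (h 0))
  refine ⟨L, hL, fun z hz => ?_⟩
  have hR : (0 : ℂ) ∈ ball (0 : ℂ) R := mem_ball_self (pos_of_mem_ball hz)
  have hq : ∀ w ∈ ball (0 : ℂ) R, HasDerivAt (fun w => Complex.exp (-L w) * h w) 0 w := by
    intro w hw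
    have h1 := ((hL w hw).neg.cexp).mul
      (hh.differentiableAt (isOpen_ball.mem_nhds hw)).hasDerivAt
    have := h0 w hw
    have e : Complex.exp ((-L) w) * -(deriv h w / h w) * h w +
        Complex.exp ((-L) w) * deriv h w = 0 := by
      field_simp
      ring
    rw [e] at h1
    exact h1
  have hc := isOpen_ball.is_const_of_deriv_eq_zero (convex_ball (0 : ℂ) R).isPreconnected
    (fun w hw => (hq w hw).differentiableAt.differentiableWithinAt)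
    (fun w hw => (hq w hw).deriv) hz hR
  simp only [hL0, Complex.exp_neg, Complex.exp_log (h0 0 hR)] at hc
  rw [inv_mul_cancel₀ (h0 0 hR)] at hc
  have he := Complex.exp_ne_zero (L z)
  field_simp at hc
  exact hc.symm

/-- `g = f'^(-al)` -/
theorem exists_root (f : ℂ → ℂ) (R : ℝ) (hf : DifferentiableOn ℂ f (ball 0 R))
    (hinj : InjOn f (ball 0 R)) (al : ℝ) :
    ∃ g : ℂ → ℂ, DifferentiableOn ℂ g (ball 0 R) ∧
      (∀ z ∈ ball (0 : ℂ) R, ‖g z‖ ^ 2 = ‖deriv f z‖ ^ (-(2 * al))) ∧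
      (∀ z ∈ ball (0 : ℂ) R,
        deriv g z = -(al : ℂ) * (deriv (deriv f) z / deriv f z) * g z) := by
  have h0 : ∀ z ∈ ball (0 : ℂ) R, deriv f z ≠ 0 := fun z hz =>
    Crest.Agent.Lib.Complex.deriv_ne_zero_of_injOn isOpen_ball hf hinj hz
  obtain ⟨L, hL, hE⟩ := exists_log36 (deriv f) R (hf.deriv isOpen_ball) h0
  have hg : ∀ z ∈ ball (0 : ℂ) R, HasDerivAt (fun w => Complex.exp (-(al : ℂ) * L w))
      (Complex.exp (-(al : ℂ) * L z) * (-(al : ℂ) * (deriv (deriv f) z / deriv f z))) z :=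
    fun z hz => ((hL z hz).const_mul (-(al : ℂ))).cexp
  refine ⟨fun w => Complex.exp (-(al : ℂ) * L w),
    fun z hz => (hg z hz).differentiableAt.differentiableWithinAt, fun z hz => ?_,
    fun z hz => ?_⟩
  · rw [← hE z hz, Complex.norm_exp, Complex.norm_exp, ← Real.exp_mul, ← Real.exp_nat_mul]
    congr 1
    simp
    ring
  · rw [(hg z hz).deriv]; ring

/-- the combination of `g` and `g'` that is `X g` -/
theorem root_X {f g : ℂ → ℂ} {c al : ℝ} (hal : al ≠ 0) {z : ℂ}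
    (hg : deriv g z = -(al : ℂ) * (deriv (deriv f) z / deriv f z) * g z) :
    ((c * ‖z‖ ^ 2 : ℝ) : ℂ) * g z - (((1 - ‖z‖ ^ 2) / al : ℝ) : ℂ) * z * deriv g z =
      sX f c z * g z := by
  have : (al : ℂ) ≠ 0 := by exact_mod_cast hal
  rw [hg, sX]
  push_cast
  field_simp
  ring

/-- the level at a critical point, up to the factor `(1+c)^2` -/
noncomputable def bU (f : ℂ → ℂ) (c : ℝ) (z : ℂ) : ℝ :=
  ‖deriv f z‖ ^ 2 * (1 - ‖z‖ ^ 2) ^ (1 - c) / ‖z‖ ^ 2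

/-- the weight `|f'|^(-2 al) d^(b-1) |z|^(2 al-2)` -/
noncomputable def bW (f : ℂ → ℂ) (al b : ℝ) (z : ℂ) : ℝ :=
  ‖deriv f z‖ ^ (-(2 * al)) * ((1 - ‖z‖ ^ 2) ^ (b - 1) * ‖z‖ ^ (2 * al - 2))

/-- the test function `(1+c)^2 u^(-(1+al))` -/
noncomputable def bPh (f : ℂ → ℂ) (c al : ℝ) (z : ℂ) : ℝ :=
  (1 + c) ^ 2 * bU f c z ^ (-(1 + al))

theorem one_sub_sq_pos {z : ℂ} (hz : z ∈ ball (0 : ℂ) 1) : 0 < 1 - ‖z‖ ^ 2 := by
  have h := mem_ball_zero_iff.1 hz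
  have := norm_nonneg z
  nlinarith

theorem bW_nonneg (f : ℂ → ℂ) (al b : ℝ) {z : ℂ} (hz : z ∈ ball (0 : ℂ) 1) : 0 ≤ bW f al b z := by
  have := one_sub_sq_pos hz
  unfold bW; positivity

theorem bU_nonneg (f : ℂ → ℂ) (c : ℝ) {z : ℂ} (hz : z ∈ ball (0 : ℂ) 1) : 0 ≤ bU f c z := by
  have := one_sub_sq_pos hz
  unfold bU; positivity

theorem bU_pos {f : ℂ → ℂ} (c : ℝ) {z : ℂ} (hz : z ∈ ball (0 : ℂ) 1) (hz0 : z ≠ 0)
    (hf : deriv f z ≠ 0) : 0 < bU f c z := by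
  have := one_sub_sq_pos hz
  have h1 := norm_pos_iff.2 hz0
  have h2 := norm_pos_iff.2 hf
  unfold bU; positivity

theorem bPh_nonneg (f : ℂ → ℂ) (c al : ℝ) {z : ℂ} (hz : z ∈ ball (0 : ℂ) 1) :
    0 ≤ bPh f c al z := by
  have := bU_nonneg f c hz
  unfold bPh; positivity

theorem sG_eq {f : ℂ → ℂ} {c : ℝ} (hc : -1 < c) {a z : ℂ} (hz : z ∈ ball (0 : ℂ) 1)
    (hz0 : z ≠ 0) (hF : sF f c z = a) : sG f c a z = bU f c z / (1 + c) ^ 2 := by
  have hd := one_sub_sq_pos hz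
  have h1 := norm_pos_iff.2 hz0
  have hc' : 0 < 1 + c := by linarith
  have e : f z - a = -(((1 - ‖z‖ ^ 2 : ℝ) : ℂ) * deriv f z / (((1 + c : ℝ) : ℂ) * conj z)) := by
    rw [← hF, sF]; ring
  have e2 : (1 - ‖z‖ ^ 2) ^ (1 - c) = (1 - ‖z‖ ^ 2) ^ 2 / (1 - ‖z‖ ^ 2) ^ (1 + c) := by
    rw [eq_div_iff (Real.rpow_pos_of_pos hd _).ne', ← Real.rpow_add hd]
    norm_num
  have hp := Real.rpow_pos_of_pos hd (1 + c)
  rw [sG, bU, e, e2, norm_neg, norm_div, norm_mul, norm_mul, Complex.norm_real, Complex.norm_real,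
    Complex.norm_conj, Real.norm_of_nonneg hd.le, Real.norm_of_nonneg hc'.le]
  field_simp

theorem sJ_mul_bPh {f : ℂ → ℂ} {c al b : ℝ} (hc : -1 < c) (hb : b - 1 = -((1 + al) * (1 - c)))
    {z : ℂ} (hz : z ∈ ball (0 : ℂ) 1) (hz0 : z ≠ 0) (hf : deriv f z ≠ 0) :
    sJ f c z * bPh f c al z = (‖sX f c z‖ ^ 2 - 1) * bW f al b z := by
  have hd := one_sub_sq_pos hz
  have h1 := norm_pos_iff.2 hz0
  have h2 := norm_pos_iff.2 hf
  have hc' : 0 < 1 + c := by linarith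
  have hp := Real.rpow_pos_of_pos hd (1 - c)
  have e1 : (‖deriv f z‖ ^ 2) ^ (-(1 + al)) = ‖deriv f z‖ ^ (-(2 * al)) / ‖deriv f z‖ ^ 2 := by
    rw [← Real.rpow_natCast, ← Real.rpow_mul h2.le, ← Real.rpow_sub h2]
    congr 1; push_cast; ring
  have e2 : ((1 - ‖z‖ ^ 2) ^ (1 - c)) ^ (-(1 + al)) = (1 - ‖z‖ ^ 2) ^ (b - 1) := by
    rw [← Real.rpow_mul hd.le, hb]; congr 1; ring
  have e3 : (‖z‖ ^ 2) ^ (-(1 + al)) = (‖z‖ ^ (2 * al - 2) * ‖z‖ ^ 4)⁻¹ := by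
    rw [← Real.rpow_natCast, ← Real.rpow_mul h1.le, ← Real.rpow_natCast ‖z‖ 4,
      ← Real.rpow_add h1, ← Real.rpow_neg h1.le]
    congr 1; push_cast; ring
  have h3 := Real.rpow_pos_of_pos h1 (2 * al - 2)
  rw [sJ, bPh, bU, bW, Real.div_rpow (by positivity) (by positivity),
    Real.mul_rpow (by positivity) hp.le, e1, e2, e3]
  field_simp

theorem bPh_le {f : ℂ → ℂ} {c al : ℝ} (hc : -1 < c) (hal : 0 ≤ 1 + al) {a s m : ℂ}
    (hs : s ∈ ball (0 : ℂ) 1) (hm : m ∈ ball (0 : ℂ) 1) (hs0 : s ≠ 0) (hm0 : m ≠ 0)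
    (hfm : deriv f m ≠ 0) (hFs : sF f c s = a) (hFm : sF f c m = a) {κ : ℝ} (hκ : 0 < κ)
    (h : κ * sG f c a m ≤ sG f c a s) : bPh f c al s ≤ κ ^ (-(1 + al)) * bPh f c al m := by
  have hc' : 0 < 1 + c := by linarith
  rw [sG_eq hc hs hs0 hFs, sG_eq hc hm hm0 hFm, ← mul_div_assoc,
    div_le_div_iff_of_pos_right (by positivity)] at h
  have hp := bU_pos c hm hm0 hfm
  have h1 : bU f c s ^ (-(1 + al)) ≤ (κ * bU f c m) ^ (-(1 + al)) :=
    Real.rpow_le_rpow_of_nonpos (by positivity) h (by linarith)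
  rw [Real.mul_rpow hκ.le hp.le] at h1
  unfold bPh
  calc (1 + c) ^ 2 * bU f c s ^ (-(1 + al))
      ≤ (1 + c) ^ 2 * (κ ^ (-(1 + al)) * bU f c m ^ (-(1 + al))) := by gcongr
    _ = _ := by ring

theorem measurable_bU (f : ℂ → ℂ) (c : ℝ) : Measurable (bU f c) := by
  have := measurable_deriv f
  unfold bU; fun_prop

theorem measurable_bPh (f : ℂ → ℂ) (c al : ℝ) : Measurable (bPh f c al) := by
  have := measurable_bU f c
  unfold bPh; fun_prop

theorem measurable_bW (f : ℂ → ℂ) (al b : ℝ) : Measurable (bW f al b) := by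
  have := measurable_deriv f
  unfold bW; fun_prop

theorem measurable_sX36 (f : ℂ → ℂ) (c : ℝ) : Measurable (sX f c) := by
  have := measurable_deriv f
  have := measurable_deriv (deriv f)
  unfold sX; fun_prop

theorem measurable_sJ36 (f : ℂ → ℂ) (c : ℝ) : Measurable (sJ f c) := by
  have := measurable_deriv f
  have := measurable_sX36 f c
  unfold sJ; fun_prop

/-- restriction to the set where a real factor is positive -/
theorem lint_pos_part (J P : ℂ → ℝ) (om : ℂ → ℝ≥0∞) (hJ : Measurable J) (V : ℂ → ℝ)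
    (hP : ∀ z ∈ ball (0 : ℂ) 1, 0 ≤ P z)
    (hV : ∀ z ∈ ball (0 : ℂ) 1, z ≠ 0 → J z * P z = V z) :
    ∫⁻ z in {z | z ∈ ball (0 : ℂ) 1 ∧ 0 < J z},
        ENNReal.ofReal (J z) * (ENNReal.ofReal (P z) * om z) =
      ∫⁻ z in ball (0 : ℂ) 1, ENNReal.ofReal (V z) * om z := by
  have hm : MeasurableSet {z | z ∈ ball (0 : ℂ) 1 ∧ 0 < J z} :=
    measurableSet_ball.inter (measurableSet_lt measurable_const hJ)
  rw [← lintegral_indicator hm, ← lintegral_indicator measurableSet_ball]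
  refine lintegral_congr_ae ?_
  filter_upwards [Measure.ae_ne volume (0 : ℂ)] with z hz0
  by_cases hz : z ∈ ball (0 : ℂ) 1
  · rw [indicator_of_mem hz, ← hV z hz hz0]
    by_cases hj : 0 < J z
    · rw [indicator_of_mem (show z ∈ {z | z ∈ ball (0 : ℂ) 1 ∧ 0 < J z} from ⟨hz, hj⟩),
        ENNReal.ofReal_mul hj.le, mul_assoc]
    · rw [indicator_of_notMem (fun h => hj h.2),
        ENNReal.ofReal_of_nonpos (mul_nonpos_of_nonpos_of_nonneg (not_lt.1 hj) (hP z hz)),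
        zero_mul]
  · rw [indicator_of_notMem hz, indicator_of_notMem (fun h => hz h.1)]

/-- **(*) with a weight on the minima.**  `om m` is any measurable factor such that a saddle
paired with `m` has `κ * G m ≤ G s` for some `κ > 0` with `κ^(-(1+al)) ≤ om m`. -/
theorem star_W (f : ℂ → ℂ) (R : ℝ) (hR : 1 < R) (hf : DifferentiableOn ℂ f (ball 0 R))
    (hinj : InjOn f (ball 0 R)) (c al b : ℝ) (hc : -1 < c) (hal : 0 ≤ 1 + al)
    (hb : b - 1 = -((1 + al) * (1 - c))) (om : ℂ → ℝ≥0∞) (hom : Measurable om)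
    (hpair : ∀ a s m : ℂ, s ∈ ball (0 : ℂ) 1 → m ∈ ball (0 : ℂ) 1 → s ≠ 0 → m ≠ 0 →
      sF f c s = a → sF f c m = a → 0 < sJ f c s → sJ f c m < 0 →
      sG f c a m ≤ sG f c a s →
      (∃ C : Set ℂ, IsPreconnected C ∧ s ∈ C ∧ m ∈ C ∧
        C ⊆ {z | z ∈ ball (0 : ℂ) 1 ∧ sG f c a z ≤ sG f c a s}) →
      ∃ κ : ℝ, 0 < κ ∧ κ * sG f c a m ≤ sG f c a s ∧ ENNReal.ofReal (κ ^ (-(1 + al))) ≤ om m) :
    ∫⁻ z in ball (0 : ℂ) 1, ENNReal.ofReal ((‖sX f c z‖ ^ 2 - 1) * bW f al b z) ≤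
      ∫⁻ z in ball (0 : ℂ) 1, ENNReal.ofReal ((1 - ‖sX f c z‖ ^ 2) * bW f al b z) * om z := by
  have h0 : ∀ z ∈ ball (0 : ℂ) 1, deriv f z ≠ 0 := fun z hz =>
    Crest.Agent.Lib.Complex.deriv_ne_zero_of_injOn isOpen_ball hf hinj
      (ball_subset_ball hR.le hz)
  have hP := (measurable_bPh f c al).ennreal_ofReal
  have H := star' f R hR hf hinj c hc (fun z => ENNReal.ofReal (bPh f c al z) * 1)
    (fun z => ENNReal.ofReal (bPh f c al z) * om z) (hP.mul measurable_const) (hP.mul hom)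
    (fun a s m hs hm hs0 hm0 hFs hFm hJs hJm hG hC => by
      obtain ⟨κ, hκ, h1, h2⟩ := hpair a s m hs hm hs0 hm0 hFs hFm hJs hJm hG hC
      have h3 := bPh_le hc hal hs hm hs0 hm0 (h0 m hm) hFs hFm hκ h1
      calc ENNReal.ofReal (bPh f c al s) * 1
          ≤ ENNReal.ofReal (κ ^ (-(1 + al)) * bPh f c al m) := by
            rw [mul_one]; exact ENNReal.ofReal_le_ofReal h3
        _ = ENNReal.ofReal (bPh f c al m) * ENNReal.ofReal (κ ^ (-(1 + al))) := by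
            rw [ENNReal.ofReal_mul (by positivity), mul_comm]
        _ ≤ _ := by gcongr)
  rw [lint_pos_part (sJ f c) (bPh f c al) (fun _ => 1) (measurable_sJ36 f c)
    (fun z => (‖sX f c z‖ ^ 2 - 1) * bW f al b z) (fun z hz => bPh_nonneg f c al hz)
    (fun z hz hz0 => sJ_mul_bPh hc hb hz hz0 (h0 z hz))] at H
  have H2 := lint_pos_part (fun z => -sJ f c z) (bPh f c al) om (measurable_sJ36 f c).neg
    (fun z => (1 - ‖sX f c z‖ ^ 2) * bW f al b z) (fun z hz => bPh_nonneg f c al hz)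
    (fun z hz hz0 => by rw [neg_mul, sJ_mul_bPh hc hb hz hz0 (h0 z hz)]; ring)
  simp only [neg_pos] at H2
  rw [H2] at H
  simpa only [mul_one] using H

/-- **(*)** -/
theorem star_W1 (f : ℂ → ℂ) (R : ℝ) (hR : 1 < R) (hf : DifferentiableOn ℂ f (ball 0 R))
    (hinj : InjOn f (ball 0 R)) (c al b : ℝ) (hc : -1 < c) (hal : 0 ≤ 1 + al)
    (hb : b - 1 = -((1 + al) * (1 - c))) :
    ∫⁻ z in ball (0 : ℂ) 1, ENNReal.ofReal ((‖sX f c z‖ ^ 2 - 1) * bW f al b z) ≤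
      ∫⁻ z in ball (0 : ℂ) 1, ENNReal.ofReal ((1 - ‖sX f c z‖ ^ 2) * bW f al b z) := by
  have H := star_W f R hR hf hinj c al b hc hal hb (fun _ => 1) measurable_const
    (fun a s m _ _ _ _ _ _ _ _ hG _ => ⟨1, one_pos, by simpa using hG, by simp⟩)
  simpa only [mul_one] using H

end Crest.Agent.R131
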