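import Mathlib

/-! # Row 131 (Brennan): definitions (owner helper95) -/

set_option autoImplicit false

namespace Crest.Agent.R131

open MeasureTheory Set Metric
open scoped ENNReal ComplexConjugate

/-- the class `S` -/
structure InS (f : ℂ → ℂ) : Prop where
  diff : DifferentiableOn ℂ f (ball 0 1)
  inj : InjOn f (ball 0 1)
  zero : f 0 = 0
  one : deriv f 0 = 1

/-- univalent on a larger disc -/
def Nice (f : ℂ → ℂ) : Prop :=
  ∃ R : ℝ, 1 < R ∧ DifferentiableOn ℂ f (ball 0 R) ∧ InjOn f (ball 0 R)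

/-- `d = 1 - |z|²` -/
noncomputable def dd (z : ℂ) : ℝ := 1 - ‖z‖ ^ 2

/-- `X = c |z|² + d z f''/f'` -/
noncomputable def XX (c : ℝ) (f : ℂ → ℂ) (z : ℂ) : ℂ :=
  ((c * ‖z‖ ^ 2 : ℝ) : ℂ) + (dd z : ℂ) * z * (deriv (deriv f) z / deriv f z)

/-- `J = |X|² - 1`, the sign of the Jacobian of `FF` -/
noncomputable def JJ (c : ℝ) (f : ℂ → ℂ) (z : ℂ) : ℝ := ‖XX c f z‖ ^ 2 - 1

/-- `G_a = |f - a|² / d ^ (1 + c)` -/
noncomputable def GG (c : ℝ) (f : ℂ → ℂ) (a z : ℂ) : ℝ := ‖f z - a‖ ^ 2 / dd z ^ (1 + c)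

/-- `z` is a critical point of `G_a` of positive level iff `FF c f z = a` -/
noncomputable def FF (c : ℝ) (f : ℂ → ℂ) (z : ℂ) : ℂ :=
  f z + (dd z : ℂ) * deriv f z / (((1 + c : ℝ) : ℂ) * conj z)

/-- the Jacobian determinant of `FF` -/
noncomputable def Jac (c : ℝ) (f : ℂ → ℂ) (z : ℂ) : ℝ :=
  ‖deriv f z‖ ^ 2 * JJ c f z / ((1 + c) ^ 2 * ‖z‖ ^ 4)

/-- the critical level `GG c f (FF c f z) z` -/
noncomputable def uu (c : ℝ) (f : ℂ → ℂ) (z : ℂ) : ℝ :=
  ‖deriv f z‖ ^ 2 * dd z ^ (1 - c) / ((1 + c) ^ 2 * ‖z‖ ^ 2)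

/-- the weight `|f'|^(-τ) d^(b-1) |z|^(τ-2)` -/
noncomputable def ww (τ b : ℝ) (f : ℂ → ℂ) (z : ℂ) : ℝ :=
  ‖deriv f z‖ ^ (-τ) * dd z ^ (b - 1) * ‖z‖ ^ (τ - 2)

/-- the exponent `b` that belongs to `τ, c` -/
noncomputable def bb (τ c : ℝ) : ℝ := 1 - (1 + τ / 2) * (1 - c)

/-- `θ` -/
noncomputable def th (τ b c : ℝ) : ℝ := (c - 2 * b / τ) ^ 2 + 4 * b / τ ^ 2 - 1

/-- total mass of the weight -/
noncomputable def Mass (τ b : ℝ) (f : ℂ → ℂ) : ℝ≥0∞ :=
  ∫⁻ z in ball (0 : ℂ) 1, ENNReal.ofReal (ww τ b f z)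

/-- the punctured disc -/
def PD : Set ℂ := ball 0 1 \ {0}

/-- saddles -/
def Sad (c : ℝ) (f : ℂ → ℂ) : Set ℂ := {z | z ∈ PD ∧ 0 < JJ c f z}

/-- minima -/
def Mi (c : ℝ) (f : ℂ → ℂ) : Set ℂ := {z | z ∈ PD ∧ JJ c f z < 0}

theorem Nice.diff {f : ℂ → ℂ} (h : Nice f) : DifferentiableOn ℂ f (ball 0 1) := by
  obtain ⟨R, hR, h1, -⟩ := h
  exact h1.mono (ball_subset_ball hR.le)

theorem Nice.inj {f : ℂ → ℂ} (h : Nice f) : InjOn f (ball 0 1) := by
  obtain ⟨R, hR, -, h1⟩ := h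
  exact h1.mono (ball_subset_ball hR.le)

theorem dd_pos {z : ℂ} (hz : z ∈ ball (0 : ℂ) 1) : 0 < dd z := by
  have h : ‖z‖ < 1 := by simpa using hz
  have := norm_nonneg z
  unfold dd; nlinarith

@[fun_prop] theorem continuous_dd : Continuous dd := by unfold dd; fun_prop

@[fun_prop] theorem measurable_dd : Measurable dd := continuous_dd.measurable

theorem measurable_XX (c : ℝ) (f : ℂ → ℂ) : Measurable (XX c f) := by
  have h1 := measurable_deriv f
  have h2 := measurable_deriv (deriv f)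
  unfold XX
  fun_prop

theorem measurable_JJ (c : ℝ) (f : ℂ → ℂ) : Measurable (JJ c f) := by
  have := measurable_XX c f
  unfold JJ
  fun_prop

theorem measurable_uu (c : ℝ) (f : ℂ → ℂ) : Measurable (uu c f) := by
  have h1 := measurable_deriv f
  unfold uu
  fun_prop

theorem measurable_ww (τ b : ℝ) (f : ℂ → ℂ) : Measurable (ww τ b f) := by
  have h1 := measurable_deriv f
  unfold ww
  fun_prop

theorem measurable_Jac (c : ℝ) (f : ℂ → ℂ) : Measurable (Jac c f) := by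
  have h1 := measurable_deriv f
  have := measurable_JJ c f
  unfold Jac
  fun_prop

theorem measurableSet_PD : MeasurableSet PD :=
  measurableSet_ball.diff (measurableSet_singleton _)

theorem measurableSet_Sad (c : ℝ) (f : ℂ → ℂ) : MeasurableSet (Sad c f) :=
  measurableSet_PD.inter (measurableSet_lt measurable_const (measurable_JJ c f))

theorem measurableSet_Mi (c : ℝ) (f : ℂ → ℂ) : MeasurableSet (Mi c f) :=
  measurableSet_PD.inter (measurableSet_lt (measurable_JJ c f) measurable_const)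

theorem ww_nonneg (τ b : ℝ) (f : ℂ → ℂ) {z : ℂ} (hz : z ∈ ball (0 : ℂ) 1) : 0 ≤ ww τ b f z := by
  have := dd_pos hz
  unfold ww; positivity

end Crest.Agent.R131
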