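import Mathlib

/-!
# Row 131: uniform local expansion of `log H` at a critical point (helper10)
-/

set_option autoImplicit false

open Metric Complex

noncomputable section

namespace Crest.Agent.R131.Depth

theorem taylor2 {ψ : ℂ → ℂ} {p : ℂ} {ρ M : ℝ} (hρ : 0 < ρ) (hψ : DifferentiableOn ℂ ψ (ball p ρ))
    (hM : ∀ z ∈ ball p ρ, ‖ψ z‖ ≤ M) :
    ‖deriv ψ p‖ ≤ 2 * M / ρ ∧
      ∀ z ∈ ball p ρ, ‖ψ z - ψ p - deriv ψ p * (z - p)‖ ≤ 4 * M / ρ ^ 2 * ‖z - p‖ ^ 2 := by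
  have hp : p ∈ ball p ρ := mem_ball_self hρ
  have h1 : ∀ z ∈ ball p ρ, ‖dslope ψ p z‖ ≤ 2 * M / ρ := fun z hz =>
    Complex.norm_dslope_le_div_of_mapsTo_ball hψ (fun w hw => by
      rw [mem_closedBall, dist_eq_norm]
      calc ‖ψ w - ψ p‖ ≤ ‖ψ w‖ + ‖ψ p‖ := norm_sub_le _ _
        _ ≤ 2 * M := by linarith [hM w hw, hM p hp]) hz
  have hd1 : DifferentiableOn ℂ (dslope ψ p) (ball p ρ) :=
    (Complex.differentiableOn_dslope (ball_mem_nhds p hρ)).2 hψ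
  have h2 : ∀ z ∈ ball p ρ, ‖dslope (dslope ψ p) p z‖ ≤ 2 * (2 * M / ρ) / ρ := fun z hz =>
    Complex.norm_dslope_le_div_of_mapsTo_ball hd1 (fun w hw => by
      rw [mem_closedBall, dist_eq_norm]
      calc ‖dslope ψ p w - dslope ψ p p‖ ≤ ‖dslope ψ p w‖ + ‖dslope ψ p p‖ := norm_sub_le _ _
        _ ≤ 2 * (2 * M / ρ) := by linarith [h1 w hw, h1 p hp]) hz
  refine ⟨by simpa [dslope_same] using h1 p hp, fun z hz => ?_⟩
  have e1 : ψ z - ψ p = (z - p) * dslope ψ p z := by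
    rw [← smul_eq_mul, sub_smul_dslope]
  have e2 : dslope ψ p z - dslope ψ p p = (z - p) * dslope (dslope ψ p) p z := by
    rw [← smul_eq_mul, sub_smul_dslope]
  have e3 : ψ z - ψ p - deriv ψ p * (z - p) = (z - p) ^ 2 * dslope (dslope ψ p) p z := by
    rw [e1, ← dslope_same]
    linear_combination (z - p) * e2
  rw [e3, norm_mul, norm_pow]
  have := h2 z hz
  calc ‖z - p‖ ^ 2 * ‖dslope (dslope ψ p) p z‖ ≤ ‖z - p‖ ^ 2 * (2 * (2 * M / ρ) / ρ) := by gcongr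
    _ = 4 * M / ρ ^ 2 * ‖z - p‖ ^ 2 := by field_simp; ring

theorem taylor3 {f : ℂ → ℂ} {p : ℂ} {ρ M : ℝ} (hρ : 0 < ρ) (hf : DifferentiableOn ℂ f (ball p ρ))
    (hM : ∀ z ∈ ball p ρ, ‖deriv f z‖ ≤ M) :
    ‖deriv (deriv f) p‖ ≤ 2 * M / ρ ∧
      ∀ z ∈ ball p ρ, ‖f z - f p - deriv f p * (z - p) - deriv (deriv f) p * (z - p) ^ 2 / 2‖ ≤
        4 * M / ρ ^ 2 * ‖z - p‖ ^ 3 := by
  have hψ : DifferentiableOn ℂ (deriv f) (ball p ρ) := hf.deriv isOpen_ball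
  obtain ⟨h1, h2⟩ := taylor2 hρ hψ hM
  refine ⟨h1, fun z hz => ?_⟩
  have hM0 : 0 ≤ M := le_trans (norm_nonneg _) (hM p (mem_ball_self hρ))
  have hsub : closedBall p ‖z - p‖ ⊆ ball p ρ :=
    closedBall_subset_ball (by rwa [mem_ball, dist_eq_norm] at hz)
  have key := (convex_closedBall p ‖z - p‖).norm_image_sub_le_of_norm_hasDerivWithin_le
    (f := fun w => f w - deriv f p * (w - p) - deriv (deriv f) p * (w - p) ^ 2 / 2)
    (f' := fun w => deriv f w - deriv f p - deriv (deriv f) p * (w - p))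
    (C := 4 * M / ρ ^ 2 * ‖z - p‖ ^ 2) (x := p) (y := z)
    (fun w hw => by
      have hw' := hsub hw
      have a1 : HasDerivAt f (deriv f w) w :=
        (hf.differentiableAt (isOpen_ball.mem_nhds hw')).hasDerivAt
      have a2 : HasDerivAt (fun w : ℂ => w - p) 1 w := (hasDerivAt_id w).sub_const p
      have a3 := (a1.sub (a2.const_mul (deriv f p))).sub
        (((a2.pow 2).const_mul (deriv (deriv f) p)).div_const 2)
      refine (a3.congr_deriv ?_).hasDerivWithinAt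
      simp; ring)
    (fun w hw => by
      refine (h2 w (hsub hw)).trans ?_
      have : ‖w - p‖ ≤ ‖z - p‖ := by rwa [mem_closedBall, dist_eq_norm] at hw
      gcongr)
    (mem_closedBall_self (norm_nonneg _)) (by rw [mem_closedBall, dist_eq_norm])
  have e : f z - f p - deriv f p * (z - p) - deriv (deriv f) p * (z - p) ^ 2 / 2 =
      f z - deriv f p * (z - p) - deriv (deriv f) p * (z - p) ^ 2 / 2 -
        (f p - deriv f p * (p - p) - deriv (deriv f) p * (p - p) ^ 2 / 2) := by ring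
  rw [e]
  refine key.trans (le_of_eq ?_)
  ring

theorem log_cplx {q : ℂ} (hq : ‖q‖ ≤ 1 / 2) :
    |Real.log ‖1 - q‖ - (-q - q ^ 2 / 2).re| ≤ ‖q‖ ^ 3 := by
  have h := Complex.norm_log_sub_logTaylor_le 2 (z := -q) (by rw [norm_neg]; linarith)
  have e : Complex.logTaylor (2 + 1) (-q) = -q - q ^ 2 / 2 := by
    simp [Complex.logTaylor, Finset.sum_range_succ]; ring
  rw [e, norm_neg, ← sub_eq_add_neg] at h
  have h2 := Complex.abs_re_le_norm (Complex.log (1 - q) - (-q - q ^ 2 / 2))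
  rw [Complex.sub_re, Complex.log_re] at h2
  refine h2.trans (h.trans ?_)
  have h0 : 0 ≤ ‖q‖ ^ 3 := by positivity
  have h3 : (1 - ‖q‖)⁻¹ ≤ 2 := by
    rw [inv_le_comm₀ (by linarith) (by norm_num)]; linarith
  have h4 : ‖q‖ ^ 3 * (1 - ‖q‖)⁻¹ ≤ ‖q‖ ^ 3 * 2 := by gcongr
  push_cast
  norm_num
  linarith

theorem log_real {y : ℝ} (hy : |y| ≤ 1 / 2) :
    |Real.log (1 - y) + (y + y ^ 2 / 2)| ≤ 2 * |y| ^ 3 := by
  have h := Real.abs_log_sub_add_sum_range_le (x := y) (by linarith) 2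
  simp only [Finset.sum_range_succ, Finset.sum_range_zero] at h
  norm_num at h
  rw [add_comm]
  refine h.trans ?_
  rw [div_le_iff₀ (by linarith)]
  have h0 : 0 ≤ |y| ^ 3 := by positivity
  nlinarith

/-- the algebraic core -/
theorem core {m a R s : ℂ} {c L : ℝ} (hL : 1 ≤ L) (hc0 : 0 ≤ c) (hc1 : c ≤ 1) (hm : ‖m‖ ≤ 1)
    (ha : ‖a‖ ≤ 4 * L) (hR : ‖R‖ ≤ 64 * L * ‖s‖ ^ 3) (hs : ‖s‖ ≤ 1 / (64 * L)) :
    ‖((1 + c : ℝ) : ℂ) * m * (s + a * s ^ 2 + R)‖ ≤ 1 / 2 ∧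
    |2 * (m * s).re + (1 - ‖m‖ ^ 2) * ‖s‖ ^ 2| ≤ 1 / 2 ∧
    |2 * Real.log ‖1 - ((1 + c : ℝ) : ℂ) * m * (s + a * s ^ 2 + R)‖ -
        (1 + c) * Real.log (1 - (2 * (m * s).re + (1 - ‖m‖ ^ 2) * ‖s‖ ^ 2)) -
        (1 + c) * (‖s‖ ^ 2 - (m * (2 * a + c * m) * s ^ 2).re)| ≤ 600 * L * ‖s‖ ^ 3 := by
  set σ := ‖s‖ with hσ
  have hσ0 : 0 ≤ σ := norm_nonneg _
  have hLσ : L * σ ≤ 1 / 64 := by
    rw [le_div_iff₀ (by positivity)] at hs; linarith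
  have hσ1 : σ ≤ 1 / 64 := by nlinarith
  set η := a * s ^ 2 + R with hη
  have hσ2 : 0 ≤ σ ^ 2 := by positivity
  have hσ3 : 0 ≤ σ ^ 3 := by positivity
  have hηb : ‖η‖ ≤ 5 * L * σ ^ 2 := by
    have h1 : ‖a * s ^ 2‖ ≤ 4 * L * σ ^ 2 := by rw [norm_mul, norm_pow]; gcongr
    have h2 : 64 * L * σ ^ 3 ≤ L * σ ^ 2 := by
      have : 0 ≤ L * σ ^ 2 := by positivity
      nlinarith
    calc ‖η‖ ≤ ‖a * s ^ 2‖ + ‖R‖ := norm_add_le _ _
      _ ≤ 5 * L * σ ^ 2 := by linarith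
  have hησ : ‖η‖ ≤ σ := by nlinarith
  set φ := s + a * s ^ 2 + R with hφ
  have hφe : φ = s + η := by rw [hφ, hη]; ring
  have hφb : ‖φ‖ ≤ 2 * σ := by
    rw [hφe]; exact (norm_add_le _ _).trans (by linarith)
  set k : ℂ := ((1 + c : ℝ) : ℂ) with hk
  have hkb : ‖k‖ ≤ 2 := by
    rw [hk, Complex.norm_real, Real.norm_eq_abs, abs_of_nonneg (by linarith)]; linarith
  have hkm : ‖k * m‖ ≤ 2 := by
    rw [norm_mul]; nlinarith [norm_nonneg k, norm_nonneg m]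
  set q := k * m * φ with hq
  have hqb : ‖q‖ ≤ 4 * σ := by
    rw [hq, norm_mul]; nlinarith [norm_nonneg (k * m), norm_nonneg φ]
  have hq2 : ‖q‖ ≤ 1 / 2 := by linarith
  have hms : |(m * s).re| ≤ σ := by
    refine (Complex.abs_re_le_norm _).trans ?_
    rw [norm_mul]; nlinarith [norm_nonneg m]
  set x := (m * s).re with hx
  set d := 1 - ‖m‖ ^ 2 with hd
  have hd0 : 0 ≤ d := by rw [hd]; nlinarith [norm_nonneg m]
  have hd1 : d ≤ 1 := by rw [hd]; nlinarith [norm_nonneg m]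
  set y := 2 * x + d * σ ^ 2 with hy
  have hdσ : d * σ ^ 2 ≤ σ ^ 2 := by nlinarith
  have hdσ0 : 0 ≤ d * σ ^ 2 := by positivity
  have hσσ : σ ^ 2 ≤ σ := by nlinarith
  have hyb : |y| ≤ 3 * σ := by
    rw [abs_le] at hms ⊢; constructor <;> linarith [hms.1, hms.2]
  have hy2 : |y| ≤ 1 / 2 := by linarith
  refine ⟨hq2, hy2, ?_⟩
  have l1 := log_cplx hq2
  have l2 := log_real hy2
  have hq3 : ‖q‖ ^ 3 ≤ 64 * σ ^ 3 := by
    calc ‖q‖ ^ 3 ≤ (4 * σ) ^ 3 := by gcongr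
      _ = 64 * σ ^ 3 := by ring
  have hy3 : |y| ^ 3 ≤ 27 * σ ^ 3 := by
    calc |y| ^ 3 ≤ (3 * σ) ^ 3 := by gcongr
      _ = 27 * σ ^ 3 := by ring
  -- the error of the complex part
  set er := -(k * m * R) - (k * m) ^ 2 * (η * (φ + s)) / 2 with her
  have herb : ‖er‖ ≤ 158 * L * σ ^ 3 := by
    have h1 : ‖k * m * R‖ ≤ 2 * (64 * L * σ ^ 3) := by rw [norm_mul]; gcongr
    have h2 : ‖φ + s‖ ≤ 3 * σ := (norm_add_le _ _).trans (by linarith)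
    have h3 : ‖(k * m) ^ 2 * (η * (φ + s)) / 2‖ ≤ 2 ^ 2 * (5 * L * σ ^ 2 * (3 * σ)) / 2 := by
      rw [norm_div, norm_mul, norm_pow, norm_mul η]
      simp only [Complex.norm_ofNat]
      gcongr
    calc ‖er‖ ≤ ‖-(k * m * R)‖ + ‖(k * m) ^ 2 * (η * (φ + s)) / 2‖ := norm_sub_le _ _
      _ ≤ 158 * L * σ ^ 3 := by rw [norm_neg]; nlinarith
  have hmain : -q - q ^ 2 / 2 = -(k * (m * s)) - k * (m * a * s ^ 2) - k ^ 2 * (m * s) ^ 2 / 2 + er := by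
    rw [her, hq, hφe, hη]; ring
  have hre : (-q - q ^ 2 / 2).re = -((1 + c) * x) - (1 + c) * (m * a * s ^ 2).re -
      (1 + c) ^ 2 * ((m * s) ^ 2).re / 2 + er.re := by
    rw [hmain, hk, ← Complex.ofReal_pow]
    simp only [Complex.add_re, Complex.sub_re, Complex.neg_re, Complex.re_ofReal_mul,
      Complex.div_ofNat_re, hx]
  have hx2 : 2 * x ^ 2 = ((m * s) ^ 2).re + ‖m‖ ^ 2 * σ ^ 2 := by
    have : ‖m‖ ^ 2 * σ ^ 2 = ‖m * s‖ ^ 2 := by rw [norm_mul]; ring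
    rw [this, Complex.sq_norm, Complex.normSq_apply, hx, sq (m * s), Complex.mul_re (m * s)]
    ring
  have hP : (m * (2 * a + c * m) * s ^ 2).re =
      2 * (m * a * s ^ 2).re + c * ((m * s) ^ 2).re := by
    have : m * (2 * a + c * m) * s ^ 2 = ((2 : ℝ) : ℂ) * (m * a * s ^ 2) + c * (m * s) ^ 2 := by
      push_cast; ring
    rw [this]
    simp only [Complex.add_re, Complex.re_ofReal_mul]
  have herr : |er.re| ≤ 158 * L * σ ^ 3 := (Complex.abs_re_le_norm _).trans herb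
  set e2 := 2 * x * (d * σ ^ 2) + (d * σ ^ 2) ^ 2 / 2 with he2
  have he2b : |e2| ≤ 3 * σ ^ 3 := by
    have h1 : |2 * x * (d * σ ^ 2)| ≤ 2 * σ * σ ^ 2 := by
      rw [abs_mul, abs_mul, abs_of_nonneg hdσ0, abs_two]; gcongr
    have h2 : (d * σ ^ 2) ^ 2 ≤ σ * σ ^ 2 := by
      calc (d * σ ^ 2) ^ 2 = (d * σ ^ 2) * (d * σ ^ 2) := by ring
        _ ≤ σ * σ ^ 2 := by gcongr; linarith
    have h3 : 0 ≤ (d * σ ^ 2) ^ 2 := by positivity
    rw [abs_le] at h1 ⊢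
    constructor <;> nlinarith [h1.1, h1.2]
  have key : 2 * Real.log ‖1 - q‖ - (1 + c) * Real.log (1 - y) -
      (1 + c) * (σ ^ 2 - (m * (2 * a + c * m) * s ^ 2).re) =
      2 * (Real.log ‖1 - q‖ - (-q - q ^ 2 / 2).re) + 2 * er.re -
        (1 + c) * (Real.log (1 - y) + (y + y ^ 2 / 2)) + (1 + c) * e2 := by
    have hm2 : ‖m‖ ^ 2 = 1 - d := by rw [hd]; ring
    rw [hm2] at hx2
    rw [hre, hP, he2, hy]
    linear_combination (1 + c) * hx2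
  rw [key]
  have t1 : |(1 + c) * (Real.log (1 - y) + (y + y ^ 2 / 2))| ≤ 2 * (2 * (27 * σ ^ 3)) := by
    rw [abs_mul, abs_of_nonneg (by linarith : 0 ≤ 1 + c)]
    gcongr
    · linarith
    · linarith
  have t2 : |(1 + c) * e2| ≤ 2 * (3 * σ ^ 3) := by
    rw [abs_mul, abs_of_nonneg (by linarith : 0 ≤ 1 + c)]
    gcongr
    linarith
  have hLσ3 : σ ^ 3 ≤ L * σ ^ 3 := by nlinarith
  rw [abs_le] at l1 herr t1 t2 ⊢
  constructor <;> nlinarith [l1.1, l1.2, herr.1, herr.2, t1.1, t1.2, t2.1, t2.2]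

end Crest.Agent.R131.Depth
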