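import Mathlib

/-! Row 131, part (B) (strictness, S0177): definitions and interfaces (helper31). `τ = 1`. -/

set_option autoImplicit false

open MeasureTheory Set Metric
open scoped ENNReal ComplexConjugate

noncomputable section

namespace Crest.Agent.R131

/-- `X = c |z|² + (1 - |z|²) z f''/f'` -/
def stX (c : ℝ) (f : ℂ → ℂ) (z : ℂ) : ℂ :=
  ((c * ‖z‖ ^ 2 : ℝ) : ℂ) + ((1 - ‖z‖ ^ 2 : ℝ) : ℂ) * z * (deriv (deriv f) z / deriv f z)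

/-- the weight `|f'|⁻¹ (1-|z|²)^(b-1) |z|⁻¹` -/
def stW (b : ℝ) (f : ℂ → ℂ) (z : ℂ) : ℝ := ‖deriv f z‖⁻¹ * (1 - ‖z‖ ^ 2) ^ (b - 1) * ‖z‖⁻¹

/-- `G_a = |f - a|² / (1-|z|²)^(1+c)` -/
def stG (c : ℝ) (f : ℂ → ℂ) (a z : ℂ) : ℝ := ‖f z - a‖ ^ 2 / (1 - ‖z‖ ^ 2) ^ (1 + c)

/-- the critical point map -/
def stF (c : ℝ) (f : ℂ → ℂ) (z : ℂ) : ℂ :=
  f z + ((1 - ‖z‖ ^ 2 : ℝ) : ℂ) * deriv f z / (((1 + c : ℝ) : ℂ) * conj z)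

/-- its Jacobian -/
def stJ (c : ℝ) (f : ℂ → ℂ) (z : ℂ) : ℝ :=
  ‖deriv f z‖ ^ 2 * (‖stX c f z‖ ^ 2 - 1) / ((1 + c) ^ 2 * ‖z‖ ^ 4)

/-- total mass of the weight -/
def stM (b : ℝ) (f : ℂ → ℂ) : ℝ≥0∞ := ∫⁻ z in ball (0 : ℂ) 1, ENNReal.ofReal (stW b f z)

/-- holomorphic, `f' ≠ 0`, pre-Schwarzian bound `K` -/
structure StOK (K : ℝ) (f : ℂ → ℂ) : Prop where
  diff : DifferentiableOn ℂ f (ball 0 1)
  ne : ∀ z ∈ ball (0 : ℂ) 1, deriv f z ≠ 0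
  pre : ∀ z ∈ ball (0 : ℂ) 1, (1 - ‖z‖ ^ 2) * ‖deriv (deriv f) z‖ ≤ K * ‖deriv f z‖

/-- the two-weight pairing inequality STAR' -/
def StarP (c : ℝ) (f : ℂ → ℂ) : Prop :=
  ∀ Φ₁ Φ₂ : ℂ → ℝ≥0∞, Measurable Φ₁ → Measurable Φ₂ →
    (∀ s ∈ ball (0 : ℂ) 1, ∀ m ∈ ball (0 : ℂ) 1, s ≠ 0 → m ≠ 0 → stF c f s = stF c f m →
      0 < stJ c f s → stJ c f m < 0 → stG c f (stF c f s) m ≤ stG c f (stF c f s) s →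
      (∃ C : Set ℂ, IsPreconnected C ∧ s ∈ C ∧ m ∈ C ∧
        C ⊆ {z | z ∈ ball (0 : ℂ) 1 ∧ stG c f (stF c f s) z ≤ stG c f (stF c f s) s}) →
      Φ₁ s ≤ Φ₂ m) →
    ∫⁻ z in {z | z ∈ ball (0 : ℂ) 1 ∧ 0 < stJ c f z}, ENNReal.ofReal (stJ c f z) * Φ₁ z ≤
      ∫⁻ z in {z | z ∈ ball (0 : ℂ) 1 ∧ stJ c f z < 0}, ENNReal.ofReal (-stJ c f z) * Φ₂ z

/-- B1: depth of uniformly nondegenerate minima -/
def MinDepth : Prop :=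
  ∀ K δ : ℝ, 0 < δ → ∃ δ₁ : ℝ, 0 < δ₁ ∧ ∀ (c : ℝ) (f : ℂ → ℂ), 1 / 3 ≤ c → c ≤ 1 / 2 → StOK K f →
    ∀ m ∈ ball (0 : ℂ) 1, m ≠ 0 → ‖stX c f m‖ ≤ 1 - δ →
      ∃ ρ : ℝ, 0 < ρ ∧ (∀ z ∈ closedBall m ρ, ‖stX c f z‖ ≤ 1) ∧
        ∀ z ∈ sphere m ρ, Real.exp δ₁ * stG c f (stF c f m) m ≤ stG c f (stF c f m) z

/-- B2: `| |X|² - 1 |` is not small on average -/
def NonDeg : Prop :=
  ∀ K : ℝ, ∃ η : ℝ, 0 < η ∧ ∃ C : ℝ, ∀ (b c : ℝ) (f : ℂ → ℂ), 1 / 5 ≤ b → b ≤ 1 / 4 → 1 / 3 ≤ c →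
    c ≤ 1 / 2 → StOK K f → deriv f 0 = 1 →
      ENNReal.ofReal η * stM b f ≤
        (∫⁻ z in ball (0 : ℂ) 1, ENNReal.ofReal (|‖stX c f z‖ ^ 2 - 1| * stW b f z)) +
          ENNReal.ofReal C

/-- the improved inequality -/
def StGain : Prop :=
  ∀ K : ℝ, ∃ η : ℝ, 0 < η ∧ η ≤ 1 / 2 ∧ ∃ C : ℝ, ∀ (b : ℝ) (f : ℂ → ℂ), 1 / 5 ≤ b → b ≤ 1 / 4 →
    StOK K f → deriv f 0 = 1 → StarP ((1 + 2 * b) / 3) f → stM b f ≠ ⊤ →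
      (∫⁻ z in ball (0 : ℂ) 1, ENNReal.ofReal (‖stX ((1 + 2 * b) / 3) f z‖ ^ 2 * stW b f z)) +
        ENNReal.ofReal η * stM b f ≤ stM b f + ENNReal.ofReal C

theorem measurable_stX (c : ℝ) (f : ℂ → ℂ) : Measurable (stX c f) := by
  unfold stX
  have h1 : Measurable (deriv f) := measurable_deriv f
  have h2 : Measurable (deriv (deriv f)) := measurable_deriv _
  fun_prop

theorem measurable_stW (b : ℝ) (f : ℂ → ℂ) : Measurable (stW b f) := by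
  unfold stW
  have h1 : Measurable (deriv f) := measurable_deriv f
  fun_prop

theorem measurable_stJ (c : ℝ) (f : ℂ → ℂ) : Measurable (stJ c f) := by
  unfold stJ
  have h1 : Measurable (deriv f) := measurable_deriv f
  have h2 := measurable_stX c f
  fun_prop

theorem stW_nonneg (b : ℝ) (f : ℂ → ℂ) {z : ℂ} (hz : z ∈ ball (0 : ℂ) 1) : 0 ≤ stW b f z := by
  unfold stW
  have h : ‖z‖ < 1 := by simpa using hz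
  have : 0 ≤ 1 - ‖z‖ ^ 2 := by nlinarith [norm_nonneg z]
  positivity

end Crest.Agent.R131
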