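import Mathlib

/-!
# Row 131 (helper25): Lipschitz bound of `P = c|z|² + (1-|z|²) z φ(z)` in the hyperbolic scale
-/

set_option autoImplicit false

open Metric Set

noncomputable section

namespace Crest.Agent.R131.Lip

/-- `P z = c|z|² + (1-|z|²) z φ(z)` -/
def PP (φ : ℂ → ℂ) (c : ℝ) (z : ℂ) : ℂ :=
  ((c * ‖z‖ ^ 2 : ℝ) : ℂ) + ((1 - ‖z‖ ^ 2 : ℝ) : ℂ) * z * φ z

lemma geo {z0 z : ℂ} (h0 : ‖z0‖ < 1) (hz : ‖z - z0‖ ≤ (1 - ‖z0‖ ^ 2) / 4) :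
    ‖z‖ < 1 ∧ (1 - ‖z0‖ ^ 2) / 2 ≤ 1 - ‖z‖ ^ 2 ∧ 1 - ‖z‖ ^ 2 ≤ 3 * (1 - ‖z0‖ ^ 2) / 2 := by
  have h1 : ‖z‖ ≤ ‖z0‖ + ‖z - z0‖ := by
    calc ‖z‖ = ‖z0 + (z - z0)‖ := by ring_nf
      _ ≤ _ := norm_add_le _ _
  have h2 : ‖z0‖ ≤ ‖z‖ + ‖z - z0‖ := by
    calc ‖z0‖ = ‖z - (z - z0)‖ := by ring_nf
      _ ≤ _ := norm_sub_le _ _
  have a0 := norm_nonneg z0
  have a1 := norm_nonneg z
  have a2 := norm_nonneg (z - z0)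
  have hlt : ‖z‖ < 1 := by nlinarith
  refine ⟨hlt, ?_, ?_⟩ <;> nlinarith

lemma norm_PP_le {φ : ℂ → ℂ} {C0 c : ℝ} (hc0 : 0 ≤ c) (hc1 : c ≤ 1)
    (hb : ∀ z ∈ ball (0 : ℂ) 1, (1 - ‖z‖ ^ 2) * ‖φ z‖ ≤ C0) {z : ℂ} (hz : ‖z‖ < 1) :
    ‖PP φ c z‖ ≤ 1 + C0 := by
  have a1 := norm_nonneg z
  have hd : 0 ≤ 1 - ‖z‖ ^ 2 := by nlinarith
  have h := hb z (by simpa using hz)
  unfold PP
  refine (norm_add_le _ _).trans ?_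
  rw [norm_mul, norm_mul, Complex.norm_real, Complex.norm_real, Real.norm_of_nonneg hd,
    Real.norm_of_nonneg (by positivity)]
  have h1 : c * ‖z‖ ^ 2 ≤ 1 := by nlinarith
  have h2 : (1 - ‖z‖ ^ 2) * ‖z‖ * ‖φ z‖ ≤ (1 - ‖z‖ ^ 2) * ‖φ z‖ := by
    have := mul_nonneg hd (norm_nonneg (φ z))
    nlinarith
  linarith

/-- Cauchy estimate -/
lemma deriv_le {φ : ℂ → ℂ} {C0 : ℝ} (hφ : DifferentiableOn ℂ φ (ball 0 1))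
    (hb : ∀ z ∈ ball (0 : ℂ) 1, (1 - ‖z‖ ^ 2) * ‖φ z‖ ≤ C0) {z0 z : ℂ} (h0 : ‖z0‖ < 1)
    (hz : ‖z - z0‖ ≤ (1 - ‖z0‖ ^ 2) / 8) :
    ‖deriv φ z‖ ≤ 16 * C0 / (1 - ‖z0‖ ^ 2) ^ 2 := by
  have a0 := norm_nonneg z0
  have hd : 0 < 1 - ‖z0‖ ^ 2 := by nlinarith
  set d := 1 - ‖z0‖ ^ 2 with hdd
  have hsub : ∀ w ∈ closedBall z (d / 8), ‖w - z0‖ ≤ d / 4 := by
    intro w hw
    rw [mem_closedBall, dist_eq_norm] at hw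
    calc ‖w - z0‖ = ‖(w - z) + (z - z0)‖ := by ring_nf
      _ ≤ ‖w - z‖ + ‖z - z0‖ := norm_add_le _ _
      _ ≤ d / 4 := by linarith
  have hs : closedBall z (d / 8) ⊆ ball (0 : ℂ) 1 := fun w hw => by
    simpa using (geo h0 (hsub w hw)).1
  have hdc : DiffContOnCl ℂ φ (ball z (d / 8)) := by
    apply DifferentiableOn.diffContOnCl
    rw [closure_ball z (by positivity)]
    exact hφ.mono hs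
  have h := Complex.norm_deriv_le_of_forall_mem_sphere_norm_le (by positivity : 0 < d / 8) hdc
    (C := 2 * C0 / d) (fun w hw => by
      have hw' : w ∈ closedBall z (d / 8) := sphere_subset_closedBall hw
      obtain ⟨g1, g2, _⟩ := geo h0 (hsub w hw')
      have h3 := hb w (hs hw')
      rw [le_div_iff₀ hd]
      have := norm_nonneg (φ w)
      nlinarith)
  refine h.trans (le_of_eq ?_)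
  field_simp
  ring

lemma phi_lip {φ : ℂ → ℂ} {C0 : ℝ} (hφ : DifferentiableOn ℂ φ (ball 0 1))
    (hb : ∀ z ∈ ball (0 : ℂ) 1, (1 - ‖z‖ ^ 2) * ‖φ z‖ ≤ C0) {z0 z w : ℂ} (h0 : ‖z0‖ < 1)
    (hz : ‖z - z0‖ ≤ (1 - ‖z0‖ ^ 2) / 8) (hw : ‖w - z0‖ ≤ (1 - ‖z0‖ ^ 2) / 8) :
    ‖φ z - φ w‖ ≤ 16 * C0 / (1 - ‖z0‖ ^ 2) ^ 2 * ‖z - w‖ := by
  have a0 := norm_nonneg z0
  have hd : 0 < 1 - ‖z0‖ ^ 2 := by nlinarith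
  refine (convex_closedBall z0 ((1 - ‖z0‖ ^ 2) / 8)).norm_image_sub_le_of_norm_deriv_le
    (𝕜 := ℂ) (f := φ) (fun x hx => ?_) (fun x hx => ?_) ?_ ?_
  · rw [mem_closedBall, dist_eq_norm] at hx
    have := (geo h0 (z := x) (by linarith)).1
    exact hφ.differentiableAt (isOpen_ball.mem_nhds (by simpa using this))
  · rw [mem_closedBall, dist_eq_norm] at hx
    exact deriv_le hφ hb h0 hx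
  · rw [mem_closedBall, dist_eq_norm]; exact hw
  · rw [mem_closedBall, dist_eq_norm]; exact hz

lemma PP_lip {φ : ℂ → ℂ} {C0 c : ℝ} (hc0 : 0 ≤ c) (hc1 : c ≤ 1)
    (hφ : DifferentiableOn ℂ φ (ball 0 1))
    (hb : ∀ z ∈ ball (0 : ℂ) 1, (1 - ‖z‖ ^ 2) * ‖φ z‖ ≤ C0) {z0 z w : ℂ} (h0 : ‖z0‖ < 1)
    (hz : ‖z - z0‖ ≤ (1 - ‖z0‖ ^ 2) / 8) (hw : ‖w - z0‖ ≤ (1 - ‖z0‖ ^ 2) / 8) :
    ‖PP φ c z - PP φ c w‖ ≤ (2 + 30 * C0) * ‖z - w‖ / (1 - ‖z0‖ ^ 2) := by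
  have a0 := norm_nonneg z0
  have hd : 0 < 1 - ‖z0‖ ^ 2 := by nlinarith
  have hd1 : 1 - ‖z0‖ ^ 2 ≤ 1 := by nlinarith
  obtain ⟨z1, z2, z3⟩ := geo h0 (z := z) (by linarith)
  obtain ⟨w1, w2, w3⟩ := geo h0 (z := w) (by linarith)
  have hl := phi_lip hφ hb h0 hz hw
  have hbw := hb w (by simpa using w1)
  set d := 1 - ‖z0‖ ^ 2 with hdd
  have hC : 0 ≤ C0 := le_trans (mul_nonneg (by linarith) (norm_nonneg _)) hbw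
  have az := norm_nonneg z
  have aw := norm_nonneg w
  have azw := norm_nonneg (z - w)
  have hn : |‖z‖ - ‖w‖| ≤ ‖z - w‖ := abs_norm_sub_norm_le z w
  have hsq : |‖z‖ ^ 2 - ‖w‖ ^ 2| ≤ 2 * ‖z - w‖ := by
    have : ‖z‖ ^ 2 - ‖w‖ ^ 2 = (‖z‖ - ‖w‖) * (‖z‖ + ‖w‖) := by ring
    rw [this, abs_mul, abs_of_nonneg (by positivity : 0 ≤ ‖z‖ + ‖w‖)]
    nlinarith [abs_nonneg (‖z‖ - ‖w‖)]
  have hφw : ‖φ w‖ ≤ 2 * C0 / d := by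
    rw [le_div_iff₀ hd]
    have := norm_nonneg (φ w)
    nlinarith
  have e : PP φ c z - PP φ c w = ((c * (‖z‖ ^ 2 - ‖w‖ ^ 2) : ℝ) : ℂ) +
      ((1 - ‖z‖ ^ 2 : ℝ) : ℂ) * z * (φ z - φ w) + ((1 - ‖z‖ ^ 2 : ℝ) : ℂ) * (z - w) * φ w -
      ((‖z‖ ^ 2 - ‖w‖ ^ 2 : ℝ) : ℂ) * w * φ w := by
    unfold PP; push_cast; ring
  have t1 : ‖((c * (‖z‖ ^ 2 - ‖w‖ ^ 2) : ℝ) : ℂ)‖ ≤ 2 * ‖z - w‖ / d := by
    rw [Complex.norm_real, Real.norm_eq_abs, abs_mul, abs_of_nonneg hc0, le_div_iff₀ hd]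
    have := abs_nonneg (‖z‖ ^ 2 - ‖w‖ ^ 2)
    have h1 : c * |‖z‖ ^ 2 - ‖w‖ ^ 2| ≤ 2 * ‖z - w‖ := by nlinarith
    have h2 : 0 ≤ c * |‖z‖ ^ 2 - ‖w‖ ^ 2| := by positivity
    nlinarith
  have t2 : ‖((1 - ‖z‖ ^ 2 : ℝ) : ℂ) * z * (φ z - φ w)‖ ≤ 24 * C0 * ‖z - w‖ / d := by
    rw [norm_mul, norm_mul, Complex.norm_real, Real.norm_of_nonneg (by linarith)]
    calc (1 - ‖z‖ ^ 2) * ‖z‖ * ‖φ z - φ w‖ ≤ (3 * d / 2) * 1 * (16 * C0 / d ^ 2 * ‖z - w‖) := by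
          gcongr
      _ = 24 * C0 * ‖z - w‖ / d := by field_simp; ring
  have t3 : ‖((1 - ‖z‖ ^ 2 : ℝ) : ℂ) * (z - w) * φ w‖ ≤ 2 * C0 * ‖z - w‖ / d := by
    rw [norm_mul, norm_mul, Complex.norm_real, Real.norm_of_nonneg (by linarith)]
    calc (1 - ‖z‖ ^ 2) * ‖z - w‖ * ‖φ w‖ ≤ 1 * ‖z - w‖ * (2 * C0 / d) := by
          gcongr
          nlinarith
      _ = 2 * C0 * ‖z - w‖ / d := by field_simp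
  have t4 : ‖((‖z‖ ^ 2 - ‖w‖ ^ 2 : ℝ) : ℂ) * w * φ w‖ ≤ 4 * C0 * ‖z - w‖ / d := by
    rw [norm_mul, norm_mul, Complex.norm_real, Real.norm_eq_abs]
    calc |‖z‖ ^ 2 - ‖w‖ ^ 2| * ‖w‖ * ‖φ w‖ ≤ (2 * ‖z - w‖) * 1 * (2 * C0 / d) := by
          gcongr
      _ = 4 * C0 * ‖z - w‖ / d := by field_simp; ring
  rw [e]
  refine (norm_sub_le _ _).trans ?_
  have s1 := norm_add_le (((c * (‖z‖ ^ 2 - ‖w‖ ^ 2) : ℝ) : ℂ) +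
      ((1 - ‖z‖ ^ 2 : ℝ) : ℂ) * z * (φ z - φ w)) (((1 - ‖z‖ ^ 2 : ℝ) : ℂ) * (z - w) * φ w)
  have s2 := norm_add_le (((c * (‖z‖ ^ 2 - ‖w‖ ^ 2) : ℝ) : ℂ))
      (((1 - ‖z‖ ^ 2 : ℝ) : ℂ) * z * (φ z - φ w))
  have e2 : (2 + 30 * C0) * ‖z - w‖ / d = 2 * ‖z - w‖ / d + 24 * C0 * ‖z - w‖ / d +
      2 * C0 * ‖z - w‖ / d + 4 * C0 * ‖z - w‖ / d := by ring
  linarith

/-- the Lipschitz constant of `|P|²` -/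
def L2 (C0 : ℝ) : ℝ := 2 * (1 + C0) * (2 + 30 * C0)

lemma L2_pos {C0 : ℝ} (h : 0 ≤ C0) : 0 < L2 C0 := by unfold L2; positivity

lemma sq_lip {φ : ℂ → ℂ} {C0 c : ℝ} (hc0 : 0 ≤ c) (hc1 : c ≤ 1)
    (hφ : DifferentiableOn ℂ φ (ball 0 1))
    (hb : ∀ z ∈ ball (0 : ℂ) 1, (1 - ‖z‖ ^ 2) * ‖φ z‖ ≤ C0) {z0 z w : ℂ} (h0 : ‖z0‖ < 1)
    (hz : ‖z - z0‖ ≤ (1 - ‖z0‖ ^ 2) / 8) (hw : ‖w - z0‖ ≤ (1 - ‖z0‖ ^ 2) / 8) :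
    |‖PP φ c z‖ ^ 2 - ‖PP φ c w‖ ^ 2| ≤ L2 C0 * ‖z - w‖ / (1 - ‖z0‖ ^ 2) := by
  have a0 := norm_nonneg z0
  have hd : 0 < 1 - ‖z0‖ ^ 2 := by nlinarith
  obtain ⟨z1, -, -⟩ := geo h0 (z := z) (by linarith)
  obtain ⟨w1, -, -⟩ := geo h0 (z := w) (by linarith)
  have h1 := PP_lip hc0 hc1 hφ hb h0 hz hw
  have h2 := norm_PP_le hc0 hc1 hb z1
  have h3 := norm_PP_le hc0 hc1 hb w1
  have hn : |‖PP φ c z‖ - ‖PP φ c w‖| ≤ ‖PP φ c z - PP φ c w‖ := abs_norm_sub_norm_le _ _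
  have : ‖PP φ c z‖ ^ 2 - ‖PP φ c w‖ ^ 2 =
      (‖PP φ c z‖ - ‖PP φ c w‖) * (‖PP φ c z‖ + ‖PP φ c w‖) := by ring
  rw [this, abs_mul, abs_of_nonneg (by positivity : 0 ≤ ‖PP φ c z‖ + ‖PP φ c w‖)]
  calc |‖PP φ c z‖ - ‖PP φ c w‖| * (‖PP φ c z‖ + ‖PP φ c w‖)
      ≤ ((2 + 30 * C0) * ‖z - w‖ / (1 - ‖z0‖ ^ 2)) * (2 * (1 + C0)) := by
        apply mul_le_mul (hn.trans h1) (by linarith) (by positivity)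
        exact (abs_nonneg _).trans (hn.trans h1)
    _ = L2 C0 * ‖z - w‖ / (1 - ‖z0‖ ^ 2) := by unfold L2; ring

/-- **Sub-disc lemma**: around a point `z1` of `ball z0 (ρ d0)`, `|P|²` moves by at most `δ`
on the disc of radius `η d0`, which lies in `ball z0 (2 ρ d0)`. -/
lemma subdisc {φ : ℂ → ℂ} {C0 c ρ η δ : ℝ} (hc0 : 0 ≤ c) (hc1 : c ≤ 1)
    (hφ : DifferentiableOn ℂ φ (ball 0 1))
    (hb : ∀ z ∈ ball (0 : ℂ) 1, (1 - ‖z‖ ^ 2) * ‖φ z‖ ≤ C0) (hρ : ρ ≤ 1 / 16) (hηρ : η ≤ ρ)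
    (hη : L2 C0 * η ≤ δ) {z0 z1 : ℂ} (h0 : ‖z0‖ < 1)
    (h1 : ‖z1 - z0‖ ≤ ρ * (1 - ‖z0‖ ^ 2)) {z : ℂ} (hz : ‖z - z1‖ < η * (1 - ‖z0‖ ^ 2)) :
    ‖z - z0‖ < 2 * ρ * (1 - ‖z0‖ ^ 2) ∧ |‖PP φ c z‖ ^ 2 - ‖PP φ c z1‖ ^ 2| ≤ δ := by
  have a0 := norm_nonneg z0
  have hd : 0 < 1 - ‖z0‖ ^ 2 := by nlinarith
  have hC : 0 ≤ C0 := le_trans (mul_nonneg hd.le (norm_nonneg _)) (hb z0 (by simpa using h0))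
  have hL := L2_pos hC
  have hz0 : ‖z - z0‖ < 2 * ρ * (1 - ‖z0‖ ^ 2) := by
    calc ‖z - z0‖ = ‖(z - z1) + (z1 - z0)‖ := by ring_nf
      _ ≤ ‖z - z1‖ + ‖z1 - z0‖ := norm_add_le _ _
      _ < _ := by nlinarith
  refine ⟨hz0, (sq_lip hc0 hc1 hφ hb h0 (by nlinarith) (by nlinarith)).trans ?_⟩
  rw [div_le_iff₀ hd]
  nlinarith

end Crest.Agent.R131.Lip
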