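import Crest.Agent.R131.StarDefs
import Crest.Agent.R131.StDefs
import Crest.Agent.R131.StrLip

/-! Row 131: uniform third order Taylor expansion of `log H` at a critical point, depth of good
saddles (helper55). -/

set_option autoImplicit false
open Metric Set
open scoped ComplexConjugate

namespace Crest.Agent.R131.D55

theorem int_step {F F' : ℂ → ℂ} {r C : ℝ} {n : ℕ} (hF : ∀ w ∈ ball (0 : ℂ) r, HasDerivAt F (F' w) w)
    (h0 : F 0 = 0) (hC : 0 ≤ C) (hb : ∀ w ∈ ball (0 : ℂ) r, ‖F' w‖ ≤ C * ‖w‖ ^ n) :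
    ∀ w ∈ ball (0 : ℂ) r, ‖F w‖ ≤ C * ‖w‖ ^ (n + 1) := by
  intro w hw
  have hs : closedBall (0 : ℂ) ‖w‖ ⊆ ball 0 r := closedBall_subset_ball (mem_ball_zero_iff.1 hw)
  have := (convex_closedBall (0 : ℂ) ‖w‖).norm_image_sub_le_of_norm_hasDerivWithin_le
    (f := F) (f' := F') (C := C * ‖w‖ ^ n) (x := 0) (y := w)
    (fun x hx => (hF x (hs hx)).hasDerivWithinAt)
    (fun x hx => (hb x (hs hx)).trans (mul_le_mul_of_nonneg_left
      (pow_le_pow_left₀ (norm_nonneg _) (mem_closedBall_zero_iff.1 hx) n) hC))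
    (mem_closedBall_self (norm_nonneg _)) (mem_closedBall_zero_iff.2 le_rfl)
  rw [h0, sub_zero, sub_zero] at this
  rw [pow_succ, ← mul_assoc]
  exact this

theorem gron {G G' : ℂ → ℂ} {K : ℝ} (_hK : 0 ≤ K)
    (hG : ∀ w ∈ ball (0 : ℂ) (1 / 4), HasDerivAt G (G' w) w) (h0 : G 0 = 1)
    (hb : ∀ w ∈ ball (0 : ℂ) (1 / 4), ‖G' w‖ ≤ K * ‖G w‖) :
    ∀ w ∈ ball (0 : ℂ) (1 / 4), ‖G w‖ ≤ Real.exp K := by
  intro w hw
  have hw' : ‖w‖ < 1 / 4 := mem_ball_zero_iff.1 hw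
  have hm : ∀ t ∈ Icc (0 : ℝ) 1, ((t : ℂ) * w) ∈ ball (0 : ℂ) (1 / 4) := fun t ht => by
    rw [mem_ball_zero_iff, norm_mul, Complex.norm_real, Real.norm_eq_abs, abs_of_nonneg ht.1]
    exact lt_of_le_of_lt (mul_le_of_le_one_left (norm_nonneg _) ht.2) hw'
  have hd : ∀ t ∈ Icc (0 : ℝ) 1, HasDerivAt (fun s : ℝ => G ((s : ℂ) * w)) (G' (t * w) * w) t :=
    fun t ht => by
      have h1 : HasDerivAt (fun z : ℂ => G (z * w)) (G' (t * w) * w) (t : ℂ) := by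
        have := (hG _ (hm t ht)).comp (t : ℂ) ((hasDerivAt_id (t : ℂ)).mul_const w)
        simpa [Function.comp_def] using this
      exact h1.comp_ofReal
  have := norm_le_gronwallBound_of_norm_deriv_right_le (f := fun s : ℝ => G ((s : ℂ) * w))
    (f' := fun t : ℝ => G' (t * w) * w) (δ := 1) (K := K) (ε := 0) (a := 0) (b := 1)
    (fun t ht => (hd t ht).continuousAt.continuousWithinAt)
    (fun t ht => (hd t (Ico_subset_Icc_self ht)).hasDerivWithinAt) (by simp [h0])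
    (fun t ht => by
      rw [add_zero, norm_mul]
      have h1 := hb _ (hm t (Ico_subset_Icc_self ht))
      have h2 : ‖G' (t * w)‖ * ‖w‖ ≤ ‖G' (t * w)‖ :=
        mul_le_of_le_one_right (norm_nonneg _) (by linarith)
      exact h2.trans h1) 1 ⟨zero_le_one, le_rfl⟩
  simpa [gronwallBound_ε0] using this

theorem taylor_phi {φ G G' : ℂ → ℂ} {K κ : ℝ} {φ1 : ℂ} (hK : 0 ≤ K) (hκ : ‖φ1‖ ≤ κ)
    (hφ : ∀ w ∈ ball (0 : ℂ) (1 / 4), HasDerivAt φ (φ1 * G w) w)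
    (hG : ∀ w ∈ ball (0 : ℂ) (1 / 4), HasDerivAt G (G' w) w)
    (hG' : DifferentiableOn ℂ G' (ball (0 : ℂ) (1 / 4))) (hφ0 : φ 0 = 1) (h0 : G 0 = 1)
    (hb : ∀ w ∈ ball (0 : ℂ) (1 / 4), ‖G' w‖ ≤ K * ‖G w‖) :
    ∀ w ∈ ball (0 : ℂ) (1 / 4), ‖φ w - 1‖ ≤ κ * Real.exp K * ‖w‖ ∧
      ‖φ w - 1 - φ1 * w‖ ≤ κ * (K * Real.exp K) * ‖w‖ ^ 2 ∧
      ‖φ w - 1 - φ1 * w - φ1 * G' 0 * w ^ 2 / 2‖ ≤ κ * (8 * (K * Real.exp K)) * ‖w‖ ^ 3 := by
  have hκ0 : 0 ≤ κ := (norm_nonneg _).trans hκ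
  have hE := Real.exp_pos K
  have b0 := gron hK hG h0 hb
  have b1 : ∀ w ∈ ball (0 : ℂ) (1 / 4), ‖G' w‖ ≤ K * Real.exp K := fun w hw =>
    (hb w hw).trans (mul_le_mul_of_nonneg_left (b0 w hw) hK)
  have b2 : ∀ w ∈ ball (0 : ℂ) (1 / 4), ‖G' w - G' 0‖ ≤ 8 * (K * Real.exp K) * ‖w‖ ^ 1 := by
    intro w hw
    have := Complex.dist_le_div_mul_dist_of_mapsTo_ball (R₂ := 2 * (K * Real.exp K)) hG'
      (fun z hz => by
        rw [mem_closedBall, dist_eq_norm]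
        have := norm_sub_le (G' z) (G' 0)
        have h1 := b1 z hz
        have h2 := b1 0 (mem_ball_self (by norm_num))
        linarith) hw
    rw [dist_eq_norm, dist_zero_right] at this
    refine this.trans (le_of_eq ?_)
    ring
  have c1 : ∀ w ∈ ball (0 : ℂ) (1 / 4), ‖G w - 1‖ ≤ K * Real.exp K * ‖w‖ ^ (0 + 1) :=
    int_step (F := fun w => G w - 1) (F' := G') (fun w hw => (hG w hw).sub_const 1) (by simp [h0])
      (by positivity) (fun w hw => by simpa using b1 w hw)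
  have c2 : ∀ w ∈ ball (0 : ℂ) (1 / 4),
      ‖G w - 1 - G' 0 * w‖ ≤ 8 * (K * Real.exp K) * ‖w‖ ^ (1 + 1) :=
    int_step (F := fun w => G w - 1 - G' 0 * w) (F' := fun w => G' w - G' 0)
      (fun w hw => by
        simpa using ((hG w hw).sub_const 1).fun_sub ((hasDerivAt_id' w).const_mul (G' 0)))
      (by simp [h0]) (by positivity) b2
  have d1 : ∀ w ∈ ball (0 : ℂ) (1 / 4), ‖φ w - 1‖ ≤ κ * Real.exp K * ‖w‖ ^ (0 + 1) :=
    int_step (F := fun w => φ w - 1) (F' := fun w => φ1 * G w) (fun w hw => (hφ w hw).sub_const 1)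
      (by simp [hφ0]) (by positivity) (fun w hw => by
        rw [norm_mul, pow_zero, mul_one]
        exact mul_le_mul hκ (b0 w hw) (norm_nonneg _) hκ0)
  have d2 : ∀ w ∈ ball (0 : ℂ) (1 / 4),
      ‖φ w - 1 - φ1 * w‖ ≤ κ * (K * Real.exp K) * ‖w‖ ^ (1 + 1) :=
    int_step (F := fun w => φ w - 1 - φ1 * w) (F' := fun w => φ1 * (G w - 1))
      (fun w hw => by
        have := ((hφ w hw).sub_const 1).fun_sub ((hasDerivAt_id' w).const_mul φ1)
        exact this.congr_deriv (by ring))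
      (by simp [hφ0]) (by positivity) (fun w hw => by
        rw [norm_mul, mul_assoc]
        exact mul_le_mul hκ (c1 w hw) (norm_nonneg _) hκ0)
  have d3 : ∀ w ∈ ball (0 : ℂ) (1 / 4), ‖φ w - 1 - φ1 * w - φ1 * G' 0 * w ^ 2 / 2‖ ≤
      κ * (8 * (K * Real.exp K)) * ‖w‖ ^ (2 + 1) :=
    int_step (F := fun w => φ w - 1 - φ1 * w - φ1 * G' 0 * w ^ 2 / 2)
      (F' := fun w => φ1 * (G w - 1 - G' 0 * w))
      (fun w hw => by
        have := (((hφ w hw).sub_const 1).fun_sub ((hasDerivAt_id' w).const_mul φ1)).fun_sub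
          (((hasDerivAt_pow 2 w).const_mul (φ1 * G' 0)).div_const 2)
        exact this.congr_deriv (by push_cast; ring))
      (by simp [hφ0]) (by positivity) (fun w hw => by
        rw [norm_mul, mul_assoc]
        exact mul_le_mul hκ (c2 w hw) (norm_nonneg _) hκ0)
  intro w hw
  exact ⟨by simpa using d1 w hw, d2 w hw, d3 w hw⟩

theorem log_taylor {ψ l q : ℂ} {a b c t : ℝ} (ht : 0 ≤ t) (ha : 0 ≤ a) (hb : 0 ≤ b)
    (h1 : ‖ψ‖ ≤ a * t) (hat : a * t ≤ 1 / 2) (hl : ‖l‖ ≤ a * t) (h2 : ‖ψ - l‖ ≤ b * t ^ 2)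
    (h3 : ‖ψ - l - q‖ ≤ c * t ^ 3) :
    |Real.log ‖1 + ψ‖ - (l + q - l ^ 2 / 2).re| ≤ (a ^ 3 + c + a * b) * t ^ 3 := by
  have hψ : ‖ψ‖ ≤ 1 / 2 := h1.trans hat
  have e1 := Complex.norm_log_sub_logTaylor_le 2 (z := ψ) (by linarith)
  have e2 : Complex.logTaylor (2 + 1) ψ = ψ - ψ ^ 2 / 2 := by
    simp [Complex.logTaylor, Finset.sum_range_succ]; ring
  rw [e2] at e1
  have e3 : ‖ψ‖ ^ (2 + 1) * (1 - ‖ψ‖)⁻¹ / ((2 : ℕ) + 1 : ℝ) ≤ a ^ 3 * t ^ 3 := by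
    have i1 : (1 - ‖ψ‖)⁻¹ ≤ 2 := by
      rw [inv_le_comm₀ (by linarith) (by norm_num)]; linarith
    have i2 : ‖ψ‖ ^ (2 + 1) ≤ (a * t) ^ 3 := pow_le_pow_left₀ (norm_nonneg _) h1 3
    have i3 : ‖ψ‖ ^ (2 + 1) * (1 - ‖ψ‖)⁻¹ ≤ (a * t) ^ 3 * 2 :=
      mul_le_mul i2 i1 (inv_nonneg.2 (by linarith)) (by positivity)
    have i4 : 0 ≤ (a * t) ^ 3 := by positivity
    rw [← mul_pow, div_le_iff₀ (by positivity)]
    push_cast
    linarith
  have e4 : ‖(ψ - l) * (ψ + l) / 2‖ ≤ a * b * t ^ 3 := by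
    have i1 : ‖ψ + l‖ ≤ 2 * (a * t) := (norm_add_le _ _).trans (by linarith)
    have i2 := mul_le_mul h2 i1 (norm_nonneg _) (by positivity)
    rw [norm_div, norm_mul, Complex.norm_ofNat, div_le_iff₀ (by norm_num)]
    refine i2.trans (le_of_eq ?_)
    ring
  have e5 : Complex.log (1 + ψ) - (l + q - l ^ 2 / 2) =
      (Complex.log (1 + ψ) - (ψ - ψ ^ 2 / 2)) + (ψ - l - q) - (ψ - l) * (ψ + l) / 2 := by ring
  rw [← Complex.log_re, ← Complex.sub_re]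
  refine (Complex.abs_re_le_norm _).trans ?_
  rw [e5]
  have := (norm_sub_le _ ((ψ - l) * (ψ + l) / 2)).trans (add_le_add
    (norm_add_le (Complex.log (1 + ψ) - (ψ - ψ ^ 2 / 2)) (ψ - l - q)) le_rfl)
  nlinarith

theorem rlog_taylor {r s t : ℝ} (hr : |r| ≤ t) (hs0 : 0 ≤ s) (hs : s ≤ t ^ 2) (ht : t ≤ 1 / 6) :
    0 < 1 - (2 * r + s) ∧ |-Real.log (1 - (2 * r + s)) - (2 * r + s + 2 * r ^ 2)| ≤ 60 * t ^ 3 := by
  have ht0 : 0 ≤ t := (abs_nonneg _).trans hr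
  obtain ⟨hr1, hr2⟩ := abs_le.1 hr
  have hst : s ≤ t := by nlinarith
  have hy : |2 * r + s| ≤ 3 * t := abs_le.2 ⟨by linarith, by linarith⟩
  have hy2 : |2 * r + s| ≤ 1 / 2 := by linarith
  refine ⟨by linarith [(abs_le.1 hy2).2], ?_⟩
  have e1 := Real.abs_log_sub_add_sum_range_le (x := 2 * r + s) (by linarith) 2
  simp only [Finset.sum_range_succ, Finset.range_zero, Finset.sum_empty] at e1
  have e2 : |2 * r + s| ^ (2 + 1) / (1 - |2 * r + s|) ≤ 54 * t ^ 3 := by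
    rw [div_le_iff₀ (by linarith)]
    have i2 : |2 * r + s| ^ (2 + 1) ≤ (3 * t) ^ 3 := pow_le_pow_left₀ (abs_nonneg _) hy 3
    have i3 : 0 ≤ t ^ 3 := by positivity
    nlinarith
  have e3 : |s * (4 * r + s) / 2| ≤ 3 * t ^ 3 := by
    have i1 : |4 * r + s| ≤ 5 * t := abs_le.2 ⟨by linarith, by linarith⟩
    have i2 := mul_le_mul hs i1 (abs_nonneg _) (by positivity)
    have i3 : 0 ≤ t ^ 3 := by positivity
    rw [abs_div, abs_mul, abs_of_nonneg hs0, abs_two, div_le_iff₀ (by norm_num)]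
    nlinarith
  obtain ⟨f1, f2⟩ := abs_le.1 (e1.trans e2)
  obtain ⟨f3, f4⟩ := abs_le.1 e3
  have i3 : 0 ≤ t ^ 3 := by positivity
  norm_num at f1 f2
  refine abs_le.2 ⟨by nlinarith, by nlinarith⟩

theorem mem_aux {p w : ℂ} (hp : ‖p‖ < 1) (hw : ‖w‖ < 1 / 4) :
    ‖p + ((1 - ‖p‖ ^ 2 : ℝ) : ℂ) * w‖ < 1 ∧
      1 - ‖p‖ ^ 2 ≤ 4 * (1 - ‖p + ((1 - ‖p‖ ^ 2 : ℝ) : ℂ) * w‖ ^ 2) := by
  have h0 := norm_nonneg p
  have hd : 0 < 1 - ‖p‖ ^ 2 := by nlinarith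
  have h1 : ‖p + ((1 - ‖p‖ ^ 2 : ℝ) : ℂ) * w‖ ≤ ‖p‖ + (1 - ‖p‖ ^ 2) * (1 / 4) := by
    refine (norm_add_le _ _).trans (add_le_add le_rfl ?_)
    rw [norm_mul, Complex.norm_real, Real.norm_eq_abs, abs_of_pos hd]
    exact mul_le_mul_of_nonneg_left hw.le hd.le
  have h2 := norm_nonneg (p + ((1 - ‖p‖ ^ 2 : ℝ) : ℂ) * w)
  generalize ‖p + ((1 - ‖p‖ ^ 2 : ℝ) : ℂ) * w‖ = z at *
  have h3 : z ≤ ‖p‖ + (1 - ‖p‖) / 2 := by nlinarith
  have h4 : z < 1 := by linarith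
  exact ⟨h4, by nlinarith⟩

set_option maxHeartbeats 1000000 in
/-- uniform third order Taylor expansion of `log G_a` at a critical point `p` -/
theorem taylorG (κ B : ℝ) (hκ0 : 0 < κ) (hB : 0 ≤ B) : ∃ M ρ : ℝ, 0 < M ∧ 0 < ρ ∧ ρ ≤ 1 / 8 ∧
    ∀ c : ℝ, -1 < c → 1 + c ≤ κ → ∀ f : ℂ → ℂ, DifferentiableOn ℂ f (ball 0 1) → (∀ z ∈ ball (0 : ℂ) 1, deriv f z ≠ 0) →
      (∀ z ∈ ball (0 : ℂ) 1, (1 - ‖z‖ ^ 2) * ‖deriv (deriv f) z‖ ≤ B * ‖deriv f z‖) →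
      ∀ p ∈ ball (0 : ℂ) 1, p ≠ 0 → 0 < sG f c (sF f c p) p ∧ ∀ w : ℂ, ‖w‖ ≤ ρ →
        p + ((1 - ‖p‖ ^ 2 : ℝ) : ℂ) * w ∈ ball (0 : ℂ) 1 ∧ ∃ Δ : ℝ,
          sG f c (sF f c p) (p + ((1 - ‖p‖ ^ 2 : ℝ) : ℂ) * w) = sG f c (sF f c p) p * Real.exp Δ ∧
          |Δ - (1 + c) * (‖w‖ ^ 2 - (conj p / p * sX f c p * w ^ 2).re)| ≤ M * ‖w‖ ^ 3 := by
  obtain ⟨K, hK⟩ : ∃ K : ℝ, K = 4 * B := ⟨_, rfl⟩
  have hK0 : 0 ≤ K := by rw [hK]; positivity
  obtain ⟨a0, ha0⟩ : ∃ a0 : ℝ, a0 = κ * Real.exp K := ⟨_, rfl⟩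
  have ha00 : 0 < a0 := by rw [ha0]; positivity
  refine ⟨2 * (a0 ^ 3 + κ * (8 * (K * Real.exp K)) + a0 * (κ * (K * Real.exp K))) +
    κ * 60, min (1 / 8) (1 / (2 * a0)), by positivity, by positivity, min_le_left _ _, ?_⟩
  intro c hc hcκ f hf hne hb p hp hp0
  have hκ : 0 < 1 + c := by linarith
  have hp1 : ‖p‖ < 1 := mem_ball_zero_iff.1 hp
  have hd : 0 < 1 - ‖p‖ ^ 2 := by nlinarith [norm_nonneg p]
  obtain ⟨d, hdd⟩ : ∃ d : ℝ, d = 1 - ‖p‖ ^ 2 := ⟨_, rfl⟩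
  have hdc : (d : ℂ) ≠ 0 := Complex.ofReal_ne_zero.2 (by rw [hdd]; exact hd.ne')
  have hκc : ((1 + c : ℝ) : ℂ) ≠ 0 := Complex.ofReal_ne_zero.2 hκ.ne'
  have hpc : conj p ≠ 0 := (map_ne_zero _).2 hp0
  have hf1 := hne p hp
  have hm : ∀ w ∈ ball (0 : ℂ) (1 / 4), p + (d : ℂ) * w ∈ ball (0 : ℂ) 1 := fun w hw => by
    rw [hdd]; exact mem_ball_zero_iff.2 (mem_aux hp1 (mem_ball_zero_iff.1 hw)).1
  have hf' : DifferentiableOn ℂ (deriv f) (ball 0 1) := hf.deriv isOpen_ball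
  have hf'' : DifferentiableOn ℂ (deriv (deriv f)) (ball 0 1) := hf'.deriv isOpen_ball
  have hlin : ∀ w : ℂ, HasDerivAt (fun w : ℂ => p + (d : ℂ) * w) (d : ℂ) w := fun w => by
    simpa using ((hasDerivAt_id' w).const_mul (d : ℂ)).const_add p
  have hA : f p - sF f c p = -((d : ℂ) * deriv f p / (((1 + c : ℝ) : ℂ) * conj p)) := by
    rw [sF, ← hdd]; ring
  have hA0 : f p - sF f c p ≠ 0 := by
    rw [hA]; exact neg_ne_zero.2 (div_ne_zero (mul_ne_zero hdc hf1) (mul_ne_zero hκc hpc))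
  have hG0 : 0 < sG f c (sF f c p) p :=
    div_pos (pow_pos (norm_pos_iff.2 hA0) 2) (Real.rpow_pos_of_pos hd _)
  refine ⟨hG0, fun w hw => ?_⟩
  have hw8 : ‖w‖ ≤ 1 / 8 := hw.trans (min_le_left _ _)
  have hwa : a0 * ‖w‖ ≤ 1 / 2 := by
    have := hw.trans (min_le_right _ _)
    rw [le_div_iff₀ (by positivity)] at this
    linarith
  have hwb : w ∈ ball (0 : ℂ) (1 / 4) := mem_ball_zero_iff.2 (by linarith)
  rw [← hdd]
  refine ⟨hm w hwb, ?_⟩
  have hφ1 : ‖-(((1 + c : ℝ) : ℂ) * conj p)‖ ≤ κ := by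
    rw [norm_neg, norm_mul, Complex.norm_real, Real.norm_eq_abs, abs_of_pos hκ, Complex.norm_conj]
    exact (mul_le_of_le_one_right hκ.le hp1.le).trans hcκ
  obtain ⟨t1, t2, t3⟩ := taylor_phi (φ := fun w => (f (p + d * w) - sF f c p) / (f p - sF f c p))
    (G := fun w => deriv f (p + d * w) / deriv f p)
    (G' := fun w => deriv (deriv f) (p + d * w) * d / deriv f p) (K := K) (κ := κ)
    (φ1 := -(((1 + c : ℝ) : ℂ) * conj p)) hK0 hφ1
    (fun w hw => by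
      have h1 := ((hf.differentiableAt (isOpen_ball.mem_nhds (hm w hw))).hasDerivAt.comp w
        (hlin w)).sub_const (sF f c p) |>.div_const (f p - sF f c p)
      refine h1.congr_deriv ?_
      rw [hA]
      field_simp)
    (fun w hw => by
      have h1 := ((hf'.differentiableAt (isOpen_ball.mem_nhds (hm w hw))).hasDerivAt.comp w
        (hlin w)).div_const (deriv f p)
      exact h1)
    (fun w hw => ((((hf''.differentiableAt (isOpen_ball.mem_nhds (hm w hw))).comp w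
        (hlin w).differentiableAt).mul_const (d : ℂ)).div_const
          (deriv f p)).differentiableWithinAt)
    (by simp [hA0]) (by simp [hf1])
    (fun w hw => by
      have h1 := hb _ (hm w hw)
      have h2 := (mem_aux hp1 (mem_ball_zero_iff.1 hw)).2
      rw [← hdd] at h2
      rw [norm_div, norm_div, norm_mul, Complex.norm_real, Real.norm_eq_abs,
        abs_of_pos (by rw [hdd]; exact hd), ← mul_div_assoc]
      refine div_le_div_of_nonneg_right ?_ (norm_nonneg _)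
      have h3 := mul_le_mul_of_nonneg_left h2 (norm_nonneg (deriv (deriv f) (p + d * w)))
      rw [hK]
      linarith) w hwb
  simp only [mul_zero, add_zero] at t3
  obtain ⟨φ, hφ⟩ : ∃ φ : ℂ, φ = (f (p + d * w) - sF f c p) / (f p - sF f c p) := ⟨_, rfl⟩
  rw [← hφ] at t1 t2 t3
  rw [← ha0] at t1
  have hl : ‖-(((1 + c : ℝ) : ℂ) * conj p) * w‖ ≤ a0 * ‖w‖ := by
    rw [norm_mul]
    refine mul_le_mul_of_nonneg_right (hφ1.trans ?_) (norm_nonneg _)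
    rw [ha0]
    exact le_mul_of_one_le_right hκ0.le (Real.one_le_exp hK0)
  have L1 := log_taylor (norm_nonneg w) ha00.le (by positivity) t1 hwa hl t2 t3
  rw [add_sub_cancel] at L1
  have hφ0 : 0 < ‖φ‖ := by
    have := norm_sub_norm_le (1 : ℂ) φ
    rw [norm_one, norm_sub_rev] at this
    linarith
  have hr : |(conj p * w).re| ≤ ‖w‖ := by
    refine (Complex.abs_re_le_norm _).trans ?_
    rw [norm_mul, Complex.norm_conj]
    exact mul_le_of_le_one_left (norm_nonneg _) hp1.le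
  have hd0 : 0 < d := by rw [hdd]; exact hd
  have hd1 : d ≤ 1 := by rw [hdd]; nlinarith [norm_nonneg p]
  obtain ⟨L2, L3⟩ := rlog_taylor (s := d * ‖w‖ ^ 2) hr (by positivity)
    (mul_le_of_le_one_left (by positivity) hd1) (by linarith)
  have hz : 1 - ‖p + d * w‖ ^ 2 = d * (1 - (2 * (conj p * w).re + d * ‖w‖ ^ 2)) := by
    have e1 : ‖p + d * w‖ ^ 2 = ‖p‖ ^ 2 + 2 * d * (conj p * w).re + d ^ 2 * ‖w‖ ^ 2 := by
      simp only [Complex.sq_norm, Complex.normSq_apply, Complex.add_re, Complex.add_im,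
        Complex.mul_re, Complex.mul_im, Complex.ofReal_re, Complex.ofReal_im, Complex.conj_re,
        Complex.conj_im]
      ring
    have e2 : ‖p‖ ^ 2 = 1 - d := by rw [hdd]; ring
    rw [e1, e2]; ring
  refine ⟨2 * Real.log ‖φ‖ - (1 + c) * Real.log (1 - (2 * (conj p * w).re + d * ‖w‖ ^ 2)), ?_, ?_⟩
  · have e1 : f (p + d * w) - sF f c p = (f p - sF f c p) * φ := by rw [hφ]; field_simp
    have e2 : Real.exp (2 * Real.log ‖φ‖) = ‖φ‖ ^ 2 := by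
      rw [two_mul, Real.exp_add, Real.exp_log hφ0, pow_two]
    rw [sG, sG, hz, e1, ← hdd, Real.mul_rpow hd0.le L2.le, Real.exp_sub, e2,
      Real.rpow_def_of_pos L2, mul_comm (Real.log _) (1 + c), norm_mul, mul_pow]
    have := Real.rpow_pos_of_pos hd0 (1 + c)
    field_simp
  · have e1 : conj p / p * sX f c p * w ^ 2 = (c : ℂ) * (conj p * w) ^ 2 +
        conj p * (deriv (deriv f) p * d / deriv f p) * w ^ 2 := by
      have : ((‖p‖ ^ 2 : ℝ) : ℂ) = p * conj p := by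
        rw [Complex.mul_conj, Complex.normSq_eq_norm_sq]
      rw [sX, ← hdd, Complex.ofReal_mul, this]
      field_simp
    have e2 : ‖w‖ ^ 2 = d * ‖w‖ ^ 2 + ((conj p * w).re ^ 2 + (conj p * w).im ^ 2) := by
      have : (conj p * w).re ^ 2 + (conj p * w).im ^ 2 = ‖p‖ ^ 2 * ‖w‖ ^ 2 := by
        rw [← mul_pow, ← Complex.norm_conj p, ← norm_mul, Complex.sq_norm, Complex.normSq_apply]
        ring
      rw [this, hdd]; ring
    have e3 : (-(((1 + c : ℝ) : ℂ) * conj p) * w +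
        -(((1 + c : ℝ) : ℂ) * conj p) * (deriv (deriv f) p * d / deriv f p) * w ^ 2 / 2 -
        (-(((1 + c : ℝ) : ℂ) * conj p) * w) ^ 2 / 2) =
        ((-(1 + c) : ℝ) : ℂ) * (conj p * w) + ((-(1 + c) / 2 : ℝ) : ℂ) *
          (conj p * (deriv (deriv f) p * d / deriv f p) * w ^ 2) +
          ((-(1 + c) ^ 2 / 2 : ℝ) : ℂ) * (conj p * w) ^ 2 := by
      push_cast; ring
    rw [e3] at L1
    rw [e1]
    have e4 : ((conj p * w) ^ 2).re = (conj p * w).re ^ 2 - (conj p * w).im ^ 2 := by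
      rw [pow_two, Complex.mul_re]; ring
    simp only [Complex.add_re, Complex.re_ofReal_mul, e4] at L1 ⊢
    generalize (conj p * (deriv (deriv f) p * d / deriv f p) * w ^ 2).re = U at *
    generalize (conj p * w).re = r at *
    generalize (conj p * w).im = i at *
    generalize Real.log (1 - (2 * r + d * ‖w‖ ^ 2)) = l2 at *
    generalize Real.log ‖φ‖ = l1 at *
    obtain ⟨a1, a2⟩ := abs_le.1 L1
    obtain ⟨a3, a4⟩ := abs_le.1 L3
    have a5 := mul_le_mul_of_nonneg_left a3 hκ.le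
    have a6 := mul_le_mul_of_nonneg_left a4 hκ.le
    have a7 : (1 + c) * ‖w‖ ^ 2 = (1 + c) * (d * ‖w‖ ^ 2 + (r ^ 2 + i ^ 2)) := by rw [← e2]
    have a8 := mul_le_mul_of_nonneg_right hcκ (by positivity : 0 ≤ 60 * ‖w‖ ^ 3)
    refine abs_le.2 ⟨by linarith, by linarith⟩

theorem sX_eq (c : ℝ) (f : ℂ → ℂ) (z : ℂ) : sX f c z = stX c f z := by
  rw [sX, stX, mul_div_assoc]

/-- B1: depth of uniformly nondegenerate minima -/
theorem minDepth : MinDepth := by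
  intro K δ hδ
  obtain ⟨M, ρ, hM, hρ, hρ8, hT⟩ := taylorG 2 (max K 0) two_pos (le_max_right _ _)
  have hK0 : 0 ≤ max K 0 := le_max_right _ _
  obtain ⟨t, ht0, ht1, ht2, ht3⟩ : ∃ t : ℝ, 0 < t ∧ t ≤ ρ ∧ t ≤ δ / (2 * M) ∧
      t ≤ δ / (2 + 30 * max K 0) :=
    ⟨min ρ (min (δ / (2 * M)) (δ / (2 + 30 * max K 0))),
      lt_min hρ (lt_min (by positivity) (by positivity)), min_le_left _ _,
      (min_le_right _ _).trans (min_le_left _ _), (min_le_right _ _).trans (min_le_right _ _)⟩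
  rw [le_div_iff₀ (by positivity)] at ht2 ht3
  refine ⟨δ / 2 * t ^ 2, by positivity, fun c f hc1 hc2 hf m hm hm0 hX => ?_⟩
  have hm1 : ‖m‖ < 1 := mem_ball_zero_iff.1 hm
  have hd : 0 < 1 - ‖m‖ ^ 2 := by nlinarith [norm_nonneg m]
  have hb : ∀ z ∈ ball (0 : ℂ) 1,
      (1 - ‖z‖ ^ 2) * ‖deriv (deriv f) z‖ ≤ max K 0 * ‖deriv f z‖ := fun z hz =>
    (hf.pre z hz).trans (mul_le_mul_of_nonneg_right (le_max_left _ _) (norm_nonneg _))
  obtain ⟨hG0, hT⟩ := hT c (by linarith) (by linarith) f hf.diff hf.ne hb m hm hm0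
  refine ⟨t * (1 - ‖m‖ ^ 2), by positivity, fun z hz => ?_, fun z hz => ?_⟩
  · have hf' : DifferentiableOn ℂ (deriv f) (ball 0 1) := hf.diff.deriv isOpen_ball
    have hf'' : DifferentiableOn ℂ (deriv (deriv f)) (ball 0 1) := hf'.deriv isOpen_ball
    rw [mem_closedBall, dist_eq_norm] at hz
    have h1 := Lip.PP_lip (φ := fun z => deriv (deriv f) z / deriv f z) (C0 := max K 0) (c := c)
      (by linarith) (by linarith) (hf''.div hf' hf.ne)
      (fun z hz => by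
        rw [norm_div, ← mul_div_assoc, div_le_iff₀ (norm_pos_iff.2 (hf.ne z hz))]
        exact hb z hz) (z0 := m) (z := z) (w := m) hm1
      (hz.trans (by nlinarith)) (by rw [sub_self, norm_zero]; positivity)
    have h2 : (2 + 30 * max K 0) * ‖z - m‖ / (1 - ‖m‖ ^ 2) ≤ δ := by
      rw [div_le_iff₀ hd]
      have := mul_le_mul_of_nonneg_left hz (by positivity : 0 ≤ 2 + 30 * max K 0)
      have := mul_le_mul_of_nonneg_right ht3 hd.le
      nlinarith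
    have h3 : ‖stX c f z - stX c f m‖ ≤ δ := h1.trans h2
    have h4 := norm_sub_norm_le (stX c f z) (stX c f m)
    linarith
  · rw [mem_sphere, dist_eq_norm] at hz
    have hdc : ((1 - ‖m‖ ^ 2 : ℝ) : ℂ) ≠ 0 := Complex.ofReal_ne_zero.2 hd.ne'
    have hw : ‖(z - m) / ((1 - ‖m‖ ^ 2 : ℝ) : ℂ)‖ = t := by
      rw [norm_div, hz, Complex.norm_real, Real.norm_eq_abs, abs_of_pos hd]
      field_simp
    obtain ⟨-, Δ, e1, e2⟩ := hT _ (hw.le.trans ht1)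
    have e3 : m + ((1 - ‖m‖ ^ 2 : ℝ) : ℂ) * ((z - m) / ((1 - ‖m‖ ^ 2 : ℝ) : ℂ)) = z := by
      rw [mul_div_cancel₀ _ hdc]; ring
    rw [e3] at e1
    have e4 : (conj m / m * sX f c m * ((z - m) / ((1 - ‖m‖ ^ 2 : ℝ) : ℂ)) ^ 2).re ≤
        (1 - δ) * t ^ 2 := by
      refine (Complex.re_le_norm _).trans ?_
      rw [norm_mul, norm_mul, norm_pow, hw, norm_div, Complex.norm_conj,
        div_self (norm_ne_zero_iff.2 hm0), one_mul, sX_eq]
      exact mul_le_mul_of_nonneg_right hX (by positivity)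
    rw [hw] at e2
    have e5 : δ / 2 * t ^ 2 ≤ Δ := by
      have a1 := (abs_le.1 e2).1
      have a2 : δ * t ^ 2 ≤ t ^ 2 -
          (conj m / m * sX f c m * ((z - m) / ((1 - ‖m‖ ^ 2 : ℝ) : ℂ)) ^ 2).re := by linarith
      have a3 : 0 ≤ δ * t ^ 2 := by positivity
      have a4 := mul_le_mul (show (1 : ℝ) ≤ 1 + c by linarith) a2 a3 (by linarith)
      have a5 := mul_le_mul_of_nonneg_right ht2 (by positivity : 0 ≤ t ^ 2)
      nlinarith
    show Real.exp (δ / 2 * t ^ 2) * sG f c (sF f c m) m ≤ sG f c (sF f c m) z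
    rw [e1, mul_comm]
    exact mul_le_mul_of_nonneg_left (Real.exp_le_exp.2 e5) hG0.le

end Crest.Agent.R131.D55
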