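import Mathlib

set_option autoImplicit false
open MeasureTheory Set Metric Filter Topology
open scoped ENNReal ComplexConjugate

namespace Crest.Agent.R131

/-- `F = f + d f' / ((1+c) conj z)`, `d = 1 - |z|^2`. -/
noncomputable def sF (f : ℂ → ℂ) (c : ℝ) (z : ℂ) : ℂ :=
  f z + ((1 - ‖z‖ ^ 2 : ℝ) : ℂ) * deriv f z / (((1 + c : ℝ) : ℂ) * conj z)

/-- `X = c |z|^2 + d z f'' / f'`. -/
noncomputable def sX (f : ℂ → ℂ) (c : ℝ) (z : ℂ) : ℂ :=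
  ((c * ‖z‖ ^ 2 : ℝ) : ℂ) + ((1 - ‖z‖ ^ 2 : ℝ) : ℂ) * z * deriv (deriv f) z / deriv f z

/-- The Jacobian of `sF` (junk value `0` at `z = 0`). -/
noncomputable def sJ (f : ℂ → ℂ) (c : ℝ) (z : ℂ) : ℝ :=
  ‖deriv f z‖ ^ 2 * (‖sX f c z‖ ^ 2 - 1) / ((1 + c) ^ 2 * ‖z‖ ^ 4)

/-- `G_a = |f - a|^2 / d^(1+c)`. -/
noncomputable def sG (f : ℂ → ℂ) (c : ℝ) (a z : ℂ) : ℝ :=
  ‖f z - a‖ ^ 2 / (1 - ‖z‖ ^ 2) ^ (1 + c)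

end Crest.Agent.R131
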