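import Crest.Agent.R131.Depth
import Crest.Agent.R131.StarDefs

/-!
# Row 131: expansion of `log G` at a critical point, depth of good minima (helper10)
-/

set_option autoImplicit false

open Metric Complex
open scoped ComplexConjugate

noncomputable section

namespace Crest.Agent.R131.Depth

theorem d_pos {p : ℂ} (hp : p ∈ ball (0 : ℂ) 1) : 0 < 1 - ‖p‖ ^ 2 := by
  rw [mem_ball_zero_iff] at hp
  nlinarith [norm_nonneg p]

theorem d_near {p z : ℂ} (hp : p ∈ ball (0 : ℂ) 1) (hz : z ∈ ball p ((1 - ‖p‖ ^ 2) / 4)) :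
    (1 - ‖p‖ ^ 2) / 4 ≤ 1 - ‖z‖ ^ 2 := by
  have hd := d_pos hp
  rw [mem_ball_zero_iff] at hp
  rw [mem_ball, dist_eq_norm] at hz
  have h1 : ‖z‖ ≤ ‖p‖ + (1 - ‖p‖ ^ 2) / 4 := by
    have := norm_add_le p (z - p)
    rw [add_sub_cancel] at this
    linarith
  have h2 : ‖z‖ ^ 2 ≤ (‖p‖ + (1 - ‖p‖ ^ 2) / 4) ^ 2 := by gcongr
  nlinarith [norm_nonneg p]

theorem ball_sub {p : ℂ} (hp : p ∈ ball (0 : ℂ) 1) :
    ball p ((1 - ‖p‖ ^ 2) / 4) ⊆ ball (0 : ℂ) 1 := fun z hz => by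
  have h1 := d_near hp hz
  have h2 := d_pos hp
  rw [mem_ball_zero_iff]
  nlinarith [norm_nonneg z]

theorem harnack {K : ℝ} (hK0 : 0 ≤ K) {f : ℂ → ℂ} (hf : DifferentiableOn ℂ f (ball 0 1))
    (hK : ∀ z ∈ ball (0 : ℂ) 1, (1 - ‖z‖ ^ 2) * ‖deriv (deriv f) z‖ ≤ K * ‖deriv f z‖)
    {p : ℂ} (hp : p ∈ ball (0 : ℂ) 1) :
    ∀ z ∈ ball p ((1 - ‖p‖ ^ 2) / 4), ‖deriv f z‖ ≤ Real.exp K * ‖deriv f p‖ := by
  intro z hz
  have hd := d_pos hp
  have hψ : DifferentiableOn ℂ (deriv f) (ball 0 1) := hf.deriv isOpen_ball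
  have hzp : ‖z - p‖ < (1 - ‖p‖ ^ 2) / 4 := by rwa [mem_ball, dist_eq_norm] at hz
  have hmem : ∀ t ∈ Set.Icc (0 : ℝ) 1, p + (t : ℂ) * (z - p) ∈ ball p ((1 - ‖p‖ ^ 2) / 4) := by
    intro t ht
    rw [mem_ball, dist_eq_norm, add_sub_cancel_left, norm_mul, Complex.norm_real,
      Real.norm_eq_abs, abs_of_nonneg ht.1]
    nlinarith [ht.1, ht.2, norm_nonneg (z - p)]
  have hder : ∀ t ∈ Set.Icc (0 : ℝ) 1, HasDerivAt (fun t : ℝ => deriv f (p + (t : ℂ) * (z - p)))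
      (deriv (deriv f) (p + (t : ℂ) * (z - p)) * (z - p)) t := by
    intro t ht
    have a1 : HasDerivAt (deriv f) (deriv (deriv f) (p + (t : ℂ) * (z - p)))
        (p + (t : ℂ) * (z - p)) :=
      (hψ.differentiableAt (isOpen_ball.mem_nhds (ball_sub hp (hmem t ht)))).hasDerivAt
    have a2 : HasDerivAt (fun w : ℂ => p + w * (z - p)) (z - p) (t : ℂ) := by
      simpa using ((hasDerivAt_id (t : ℂ)).mul_const (z - p)).const_add p
    exact (a1.comp (t : ℂ) a2).comp_ofReal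
  have key := norm_le_gronwallBound_of_norm_deriv_right_le
    (f := fun t : ℝ => deriv f (p + (t : ℂ) * (z - p)))
    (f' := fun t : ℝ => deriv (deriv f) (p + (t : ℂ) * (z - p)) * (z - p))
    (δ := ‖deriv f p‖) (K := K) (ε := 0) (a := 0) (b := 1)
    (fun t ht => (hder t ht).continuousAt.continuousWithinAt)
    (fun t ht => (hder t (Set.Ico_subset_Icc_self ht)).hasDerivWithinAt) (by simp)
    (fun t ht => by
      have ht' := Set.Ico_subset_Icc_self ht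
      have h1 := hK _ (ball_sub hp (hmem t ht'))
      have h2 := d_near hp (hmem t ht')
      rw [norm_mul, add_zero]
      nlinarith [norm_nonneg (deriv (deriv f) (p + (t : ℂ) * (z - p)))])
    1 (Set.right_mem_Icc.2 zero_le_one)
  rw [gronwallBound_ε0] at key
  simpa [mul_comm] using key

/-- **the uniform expansion of `log G` at a critical point** -/
theorem expand {f : ℂ → ℂ} {p s : ℂ} {c L : ℝ} (hL : 1 ≤ L) (hc0 : 0 ≤ c) (hc1 : c ≤ 1)
    (hf : DifferentiableOn ℂ f (ball 0 1)) (hp : p ∈ ball (0 : ℂ) 1) (hp0 : p ≠ 0)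
    (h1 : deriv f p ≠ 0)
    (hH : ∀ z ∈ ball p ((1 - ‖p‖ ^ 2) / 4), ‖deriv f z‖ ≤ L * ‖deriv f p‖)
    (hs : ‖s‖ ≤ 1 / (64 * L)) :
    0 < sG f c (sF f c p) p ∧ 0 < sG f c (sF f c p) (p + ((1 - ‖p‖ ^ 2 : ℝ) : ℂ) * s) ∧
    |Real.log (sG f c (sF f c p) (p + ((1 - ‖p‖ ^ 2 : ℝ) : ℂ) * s)) -
        Real.log (sG f c (sF f c p) p) -
        (1 + c) * (‖s‖ ^ 2 - (conj p / p * sX f c p * s ^ 2).re)| ≤ 600 * L * ‖s‖ ^ 3 := by
  have hd := d_pos hp
  set d : ℝ := 1 - ‖p‖ ^ 2 with hdd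
  have hdC : (d : ℂ) ≠ 0 := by exact_mod_cast hd.ne'
  have hn1 : 0 < ‖deriv f p‖ := norm_pos_iff.2 h1
  set z := p + (d : ℂ) * s with hz
  have hzp : z - p = (d : ℂ) * s := by rw [hz]; ring
  have hnzp : ‖z - p‖ = d * ‖s‖ := by
    rw [hzp, norm_mul, Complex.norm_real, Real.norm_eq_abs, abs_of_pos hd]
  have hs1 : ‖s‖ ≤ 1 / 64 := hs.trans (by gcongr; linarith)
  have hzb : z ∈ ball p (d / 4) := by
    rw [mem_ball, dist_eq_norm, hnzp]; nlinarith
  obtain ⟨t1, t2⟩ := taylor3 (by positivity : 0 < d / 4) (hf.mono (ball_sub hp)) hH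
  set a : ℂ := d * deriv (deriv f) p / (2 * deriv f p) with ha
  set R : ℂ := (f z - f p - deriv f p * (z - p) - deriv (deriv f) p * (z - p) ^ 2 / 2) /
    (d * deriv f p) with hR
  have hab : ‖a‖ ≤ 4 * L := by
    rw [ha, norm_div, norm_mul, norm_mul, Complex.norm_real, Real.norm_eq_abs, abs_of_pos hd,
      Complex.norm_ofNat, div_le_iff₀ (by positivity)]
    rw [le_div_iff₀ (by positivity)] at t1
    linarith
  have hRb : ‖R‖ ≤ 64 * L * ‖s‖ ^ 3 := by
    rw [hR, norm_div, norm_mul, Complex.norm_real, Real.norm_eq_abs, abs_of_pos hd,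
      div_le_iff₀ (by positivity)]
    refine (t2 z hzb).trans (le_of_eq ?_)
    rw [hnzp]; field_simp; ring
  have hm : ‖conj p‖ ≤ 1 := by
    rw [Complex.norm_conj]; exact (mem_ball_zero_iff.1 hp).le
  obtain ⟨c1, c2, c3⟩ := core (m := conj p) hL hc0 hc1 hm hab hRb hs
  rw [Complex.norm_conj, ← hdd] at c2 c3
  set k : ℂ := ((1 + c : ℝ) : ℂ) with hk
  have hk0 : k ≠ 0 := by rw [hk]; exact_mod_cast (by linarith : (1 + c) ≠ 0)
  have hcp : conj p ≠ 0 := by simpa using hp0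
  set q := k * conj p * (s + a * s ^ 2 + R) with hq
  set y := 2 * (conj p * s).re + d * ‖s‖ ^ 2 with hy
  set A : ℂ := d * deriv f p / (k * conj p) with hA
  have hA0 : 0 < ‖A‖ := norm_pos_iff.2 (div_ne_zero (mul_ne_zero hdC h1) (mul_ne_zero hk0 hcp))
  have e1 : f p - sF f c p = -A := by rw [sF, hA]; ring
  have e2 : f z - sF f c p = -A * (1 - q) := by
    rw [sF, hA, hq, hR, ha, hzp, ← hdd, ← hk]; field_simp; ring
  have e3 : 1 - ‖z‖ ^ 2 = d * (1 - y) := by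
    have hp2 : ‖p‖ ^ 2 = 1 - d := by rw [hdd]; ring
    rw [Complex.sq_norm, Complex.normSq_apply] at hp2
    rw [hy, Complex.sq_norm, Complex.sq_norm, Complex.normSq_apply, Complex.normSq_apply, hz]
    simp only [Complex.add_re, Complex.add_im, Complex.re_ofReal_mul, Complex.im_ofReal_mul,
      Complex.mul_re, Complex.conj_re, Complex.conj_im, Complex.ofReal_re, Complex.ofReal_im]
    linear_combination -hp2
  have hy1 : 0 < 1 - y := by linarith [(abs_le.1 c2).2]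
  have hq1 : 0 < ‖1 - q‖ := by
    have := norm_sub_norm_le (1 : ℂ) q
    rw [norm_one] at this; linarith
  have g1 : sG f c (sF f c p) p = ‖A‖ ^ 2 / d ^ (1 + c) := by rw [sG, e1, norm_neg]
  have g2 : sG f c (sF f c p) z = (‖A‖ * ‖1 - q‖) ^ 2 / (d * (1 - y)) ^ (1 + c) := by
    rw [sG, e2, norm_mul, norm_neg, e3]
  have e4 : conj p / p * sX f c p * s ^ 2 = conj p * (2 * a + c * conj p) * s ^ 2 := by
    have : ((‖p‖ ^ 2 : ℝ) : ℂ) = p * conj p := by
      rw [Complex.mul_conj, Complex.sq_norm]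
    rw [sX, ← hdd, ha, Complex.ofReal_mul, this]; field_simp; ring
  refine ⟨by rw [g1]; positivity, by rw [g2]; positivity, ?_⟩
  rw [g1, g2, e4, Real.log_div (by positivity) (by positivity),
    Real.log_div (by positivity) (by positivity), Real.log_rpow (by positivity),
    Real.log_rpow hd, Real.log_pow, Real.log_pow, Real.log_mul hA0.ne' hq1.ne',
    Real.log_mul hd.ne' hy1.ne']
  refine le_of_eq_of_le ?_ c3
  congr 1
  push_cast
  ring

end Crest.Agent.R131.Depth
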