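import Mathlib

/-!
Row 131: reduction of circle-mean bounds to maps univalent on a larger disc.
-/

set_option autoImplicit false

open MeasureTheory Metric Set
open scoped ENNReal

namespace Crest.Agent.R131.Dilate

theorem deriv_dil (f : ℂ → ℂ) {ρ : ℂ} (hρ : ρ ≠ 0) (z : ℂ) :
    deriv (fun w => f (ρ * w) / ρ) z = deriv f (ρ * z) := by
  rw [deriv_div_const, deriv_comp_mul_left, smul_eq_mul, mul_div_cancel_left₀ _ hρ]

theorem mem_dil {ρ : ℝ} (hρ : 0 < ρ) {z : ℂ} (hz : z ∈ ball (0 : ℂ) (1 / ρ)) :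
    (ρ : ℂ) * z ∈ ball (0 : ℂ) 1 := by
  rw [mem_ball_zero_iff] at hz ⊢
  rw [norm_mul, Complex.norm_real, Real.norm_of_nonneg hρ.le]
  rwa [lt_div_iff₀' hρ] at hz

theorem diffOn_dil {f : ℂ → ℂ} (hf : DifferentiableOn ℂ f (ball 0 1)) {ρ : ℝ} (hρ : 0 < ρ) :
    DifferentiableOn ℂ (fun w => f (ρ * w) / ρ) (ball 0 (1 / ρ)) :=
  (hf.comp (by fun_prop) fun _ hz => mem_dil hρ hz).div_const _

theorem injOn_dil {f : ℂ → ℂ} (hf : InjOn f (ball 0 1)) {ρ : ℝ} (hρ : 0 < ρ) :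
    InjOn (fun w => f (ρ * w) / ρ) (ball 0 (1 / ρ)) := by
  intro a ha b hb hab
  have h0 : (ρ : ℂ) ≠ 0 := by exact_mod_cast hρ.ne'
  have h1 := (div_left_inj' h0).1 hab
  exact mul_left_cancel₀ h0 (hf (mem_dil hρ ha) (mem_dil hρ hb) h1)

/-- A circle-mean bound `C (1-r)^e`, `e ≤ 0`, for normalised maps univalent on a larger disc gives
the bound for all normalised univalent maps of the unit disc. -/
theorem dilate (φ : ℂ → ℝ≥0∞) (e : ℝ) (he : e ≤ 0)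
    (h : ∃ C : ℝ, ∀ (f : ℂ → ℂ) (R : ℝ), 1 < R → DifferentiableOn ℂ f (ball 0 R) →
      InjOn f (ball 0 R) → f 0 = 0 → deriv f 0 = 1 → ∀ r : ℝ, 1 / 2 ≤ r → r < 1 →
        ∫⁻ θ in Ioc (-Real.pi) Real.pi,
            φ (deriv f ((r : ℂ) * Complex.exp ((θ : ℂ) * Complex.I))) ≤
          ENNReal.ofReal (C * (1 - r) ^ e)) :
    ∃ C : ℝ, ∀ f : ℂ → ℂ, DifferentiableOn ℂ f (ball 0 1) →
      InjOn f (ball 0 1) → f 0 = 0 → deriv f 0 = 1 → ∀ r : ℝ, 1 / 2 ≤ r → r < 1 →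
        ∫⁻ θ in Ioc (-Real.pi) Real.pi,
            φ (deriv f ((r : ℂ) * Complex.exp ((θ : ℂ) * Complex.I))) ≤
          ENNReal.ofReal (2 * Real.pi * C * (1 - r) ^ e) := by
  obtain ⟨C, hC⟩ := h
  refine ⟨|C| * (1 / 2) ^ e / (2 * Real.pi), fun f hf hinj h0 h1 r hr1 hr2 => ?_⟩
  set ρ : ℝ := (1 + r) / 2 with hρ
  have hρ0 : 0 < ρ := by rw [hρ]; linarith
  have hρ1 : ρ < 1 := by rw [hρ]; linarith
  have hρc : (ρ : ℂ) ≠ 0 := by exact_mod_cast hρ0.ne'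
  have hR : 1 < 1 / ρ := by rw [lt_div_iff₀ hρ0]; linarith
  have hr' : 1 / 2 ≤ r / ρ := by rw [le_div_iff₀ hρ0]; nlinarith
  have hr'' : r / ρ < 1 := by rw [div_lt_one hρ0, hρ]; linarith
  have key := hC (fun w => f (ρ * w) / ρ) (1 / ρ) hR (diffOn_dil hf hρ0) (injOn_dil hinj hρ0)
    (by simp [h0]) (by rw [deriv_dil f hρc, mul_zero, h1]) (r / ρ) hr' hr''
  have e1 : ∀ θ : ℝ, (ρ : ℂ) * (((r / ρ : ℝ) : ℂ) * Complex.exp ((θ : ℂ) * Complex.I)) =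
      (r : ℂ) * Complex.exp ((θ : ℂ) * Complex.I) := by
    intro θ; push_cast; field_simp
  simp_rw [deriv_dil f hρc, e1] at key
  refine key.trans (ENNReal.ofReal_le_ofReal ?_)
  have h2 : 0 < 1 - r := by linarith
  have h3 : (1 / 2) * (1 - r) ≤ 1 - r / ρ := by
    have : 1 - r / ρ = (ρ - r) / ρ := by field_simp
    rw [this, le_div_iff₀ hρ0, hρ]; nlinarith
  have h4 : (1 - r / ρ) ^ e ≤ ((1 / 2) * (1 - r)) ^ e :=
    Real.rpow_le_rpow_of_nonpos (by positivity) h3 he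
  rw [Real.mul_rpow (by norm_num) h2.le] at h4
  have h5 : 0 ≤ (1 - r / ρ) ^ e := Real.rpow_nonneg (by linarith) _
  have hpi := Real.pi_pos
  calc C * (1 - r / ρ) ^ e ≤ |C| * (1 - r / ρ) ^ e := by gcongr; exact le_abs_self C
    _ ≤ |C| * ((1 / 2) ^ e * (1 - r) ^ e) := by gcongr
    _ = _ := by field_simp

end Crest.Agent.R131.Dilate
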