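import Crest.Agent.R131.DepthB
import Crest.Agent.R131.StrLip
import Crest.Agent.R131.StDefs

/-!
# Row 131, B1: depth of uniformly nondegenerate minima (helper10)
-/

set_option autoImplicit false

open Metric Complex
open scoped ComplexConjugate

noncomputable section

namespace Crest.Agent.R131

theorem minDepth : MinDepth := by
  intro K δ hδ
  set K' := max K 0 with hK'
  have hK0 : 0 ≤ K' := le_max_right _ _
  set L := Real.exp K' with hL
  have hL1 : 1 ≤ L := Real.one_le_exp hK0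
  set δ' := min δ 1 with hδ'
  have hδ0 : 0 < δ' := lt_min hδ one_pos
  have hδ1 : δ' ≤ 1 := min_le_right _ _
  have hδ2 : δ' ≤ δ := min_le_left _ _
  set B := 2 + 30 * K' with hB
  have hB1 : 1 ≤ B := by linarith
  set σ := δ' / (1200 * L * B) with hσ
  have hσ0 : 0 < σ := by positivity
  have hσe : σ * (1200 * L * B) = δ' := by rw [hσ]; field_simp
  have hLσ : 0 < L * σ := by positivity
  have hBσ : 0 < B * σ := by positivity
  have s1 : 1200 * L * σ ≤ δ' := by nlinarith
  have s2 : B * σ ≤ δ' := by nlinarith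
  have s3 : σ ≤ 1 / (64 * L) := by
    rw [le_div_iff₀ (by positivity)]; nlinarith
  have s4 : σ ≤ 1 / 8 := by nlinarith
  refine ⟨δ' * σ ^ 2 / 2, by positivity, fun c f hc0 hc1 hf m hm hm0 hX => ?_⟩
  have hd := Depth.d_pos hm
  have hm1 : ‖m‖ < 1 := mem_ball_zero_iff.1 hm
  have hpre : ∀ z ∈ ball (0 : ℂ) 1,
      (1 - ‖z‖ ^ 2) * ‖deriv (deriv f) z‖ ≤ K' * ‖deriv f z‖ := fun z hz =>
    (hf.pre z hz).trans (mul_le_mul_of_nonneg_right (le_max_left _ _) (norm_nonneg _))
  have hH := Depth.harnack hK0 hf.diff hpre hm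
  refine ⟨(1 - ‖m‖ ^ 2) * σ, by positivity, fun z hz => ?_, fun z hz => ?_⟩
  · have hψ : DifferentiableOn ℂ (deriv f) (ball 0 1) := hf.diff.deriv isOpen_ball
    have hφ : DifferentiableOn ℂ (fun z => deriv (deriv f) z / deriv f z) (ball 0 1) :=
      (hψ.deriv isOpen_ball).div hψ hf.ne
    have hb : ∀ z ∈ ball (0 : ℂ) 1,
        (1 - ‖z‖ ^ 2) * ‖deriv (deriv f) z / deriv f z‖ ≤ K' := fun z hz => by
      rw [norm_div, ← mul_div_assoc, div_le_iff₀ (norm_pos_iff.2 (hf.ne z hz))]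
      exact hpre z hz
    rw [mem_closedBall, dist_eq_norm] at hz
    have key := Lip.PP_lip (c := c) (by linarith) (by linarith) hφ hb hm1 (z := z) (w := m)
      (by nlinarith) (by rw [sub_self, norm_zero]; positivity)
    have e : ∀ w, Lip.PP (fun z => deriv (deriv f) z / deriv f z) c w = stX c f w := fun _ => rfl
    rw [e, e, ← hB] at key
    have k2 : B * ‖z - m‖ / (1 - ‖m‖ ^ 2) ≤ δ' := by
      rw [div_le_iff₀ hd]
      calc B * ‖z - m‖ ≤ B * ((1 - ‖m‖ ^ 2) * σ) := by gcongr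
        _ = B * σ * (1 - ‖m‖ ^ 2) := by ring
        _ ≤ δ' * (1 - ‖m‖ ^ 2) := by gcongr
    have k3 := norm_add_le (stX c f m) (stX c f z - stX c f m)
    rw [add_sub_cancel] at k3
    linarith
  · rw [mem_sphere, dist_eq_norm] at hz
    have hdC : ((1 - ‖m‖ ^ 2 : ℝ) : ℂ) ≠ 0 := by exact_mod_cast hd.ne'
    set s : ℂ := (z - m) / ((1 - ‖m‖ ^ 2 : ℝ) : ℂ) with hs
    have hsn : ‖s‖ = σ := by
      rw [hs, norm_div, hz, Complex.norm_real, Real.norm_eq_abs, abs_of_pos hd]
      field_simp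
    have hzs : m + ((1 - ‖m‖ ^ 2 : ℝ) : ℂ) * s = z := by rw [hs]; field_simp; ring
    obtain ⟨g1, g2, g3⟩ := Depth.expand (c := c) (s := s) hL1 (by linarith) (by linarith) hf.diff
      hm hm0 (hf.ne m hm) hH (by rw [hsn]; exact s3)
    rw [hzs] at g2 g3
    have eX : sX f c m = stX c f m := by unfold stX sX; rw [mul_div_assoc]
    have hre : (conj m / m * sX f c m * s ^ 2).re ≤ (1 - δ') * σ ^ 2 := by
      refine (Complex.re_le_norm _).trans ?_
      rw [norm_mul, norm_mul, norm_div, Complex.norm_conj, div_self (norm_ne_zero_iff.2 hm0),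
        one_mul, norm_pow, hsn, eX]
      gcongr
      linarith
    rw [hsn] at g3
    have g4 := (abs_le.1 g3).1
    have hσ2 : 0 < σ ^ 2 := by positivity
    have g5 : δ' * σ ^ 2 ≤ (1 + c) * (σ ^ 2 - (conj m / m * sX f c m * s ^ 2).re) := by
      have : δ' * σ ^ 2 ≤ σ ^ 2 - (conj m / m * sX f c m * s ^ 2).re := by linarith
      have h0 : 0 < δ' * σ ^ 2 := by positivity
      nlinarith
    have g6 : 600 * L * σ ^ 3 ≤ δ' * σ ^ 2 / 2 := by nlinarith
    change Real.exp (δ' * σ ^ 2 / 2) * sG f c (sF f c m) m ≤ sG f c (sF f c m) z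
    rw [← Real.exp_log g1, ← Real.exp_log g2, ← Real.exp_add]
    exact Real.exp_le_exp.2 (by linarith)

end Crest.Agent.R131
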