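import Crest.Agent.R131.StDefs

/-! Row 131, part (B): `MinDepth → NonDeg → StGain` (helper31). -/

set_option autoImplicit false

open MeasureTheory Set Metric
open scoped ENNReal ComplexConjugate NNReal

noncomputable section

namespace Crest.Agent.R131

theorem st_num {IX Ia Ib Ig M : ℝ≥0∞} {k η C : ℝ} (hk0 : 0 < k) (hk1 : k ≤ 1) (hη : 0 < η)
    (hM : M ≠ ⊤) (r1 : IX + Ib = M + Ia) (r2 : Ia ≤ Ig)
    (r3 : Ig + ENNReal.ofReal k * Ib ≤ Ib + ENNReal.ofReal (η / 4 * k) * M)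
    (r4 : ENNReal.ofReal η * M ≤ Ia + Ib + ENNReal.ofReal C) (r5 : Ib ≤ M) (r6 : Ig ≤ Ib) :
    IX + ENNReal.ofReal (k * η / 4) * M ≤ M + ENNReal.ofReal C := by
  have hb : Ib ≠ ⊤ := ne_top_of_le_ne_top hM r5
  have hg : Ig ≠ ⊤ := ne_top_of_le_ne_top
    (ENNReal.add_ne_top.2 ⟨hb, ENNReal.mul_ne_top ENNReal.ofReal_ne_top hM⟩) (le_self_add.trans r3)
  have ha : Ia ≠ ⊤ := ne_top_of_le_ne_top hg r2
  have hx : IX ≠ ⊤ := ne_top_of_le_ne_top (ENNReal.add_ne_top.2 ⟨hM, ha⟩) (le_self_add.trans r1.le)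
  lift IX to ℝ≥0 using hx
  lift Ia to ℝ≥0 using ha
  lift Ib to ℝ≥0 using hb
  lift Ig to ℝ≥0 using hg
  lift M to ℝ≥0 using hM
  have hc : ENNReal.ofReal C = ((Real.toNNReal C : ℝ≥0) : ℝ≥0∞) := rfl
  simp only [ENNReal.ofReal] at r3 r4 ⊢
  norm_cast at r1 r2 r3 r4 r5 r6 ⊢
  have r1' : (IX : ℝ) + Ib = M + Ia := by exact_mod_cast r1
  have r2' : (Ia : ℝ) ≤ Ig := by exact_mod_cast r2
  have r3' : (Ig : ℝ) + k * Ib ≤ Ib + η / 4 * k * M := by
    have := NNReal.coe_le_coe.2 r3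
    simpa [Real.coe_toNNReal _ hk0.le, Real.coe_toNNReal _ (show 0 ≤ η / 4 * k by positivity)]
      using this
  have r4' : η * M ≤ (Ia : ℝ) + Ib + Real.toNNReal C := by
    have := NNReal.coe_le_coe.2 r4
    simpa only [NNReal.coe_mul, NNReal.coe_add, Real.coe_toNNReal _ hη.le] using this
  rw [← NNReal.coe_le_coe]
  simp only [NNReal.coe_mul, NNReal.coe_add,
    Real.coe_toNNReal _ (show 0 ≤ k * η / 4 by positivity)]
  have hC : (0 : ℝ) ≤ Real.toNNReal C := NNReal.coe_nonneg _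
  have hb0 : (0 : ℝ) ≤ Ib := NNReal.coe_nonneg _
  have hM0 : (0 : ℝ) ≤ M := NNReal.coe_nonneg _
  generalize ((Real.toNNReal C : ℝ≥0) : ℝ) = c at *
  have r6' : (Ig : ℝ) ≤ Ib := by exact_mod_cast r6
  have h5 : k * (η * M) ≤ k * (2 * Ib + c) := mul_le_mul_of_nonneg_left (by linarith) hk0.le
  have h6 : k * c ≤ c := by nlinarith
  nlinarith

/-- the abstract integral bookkeeping -/
theorem st_abs {μ : Measure ℂ} {P W : ℂ → ℝ} {G : Set ℂ} [DecidablePred (· ∈ G)] {k η C : ℝ}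
    (hP : Measurable P) (hW : Measurable W) (hG : MeasurableSet G) (hk0 : 0 < k) (hk1 : k ≤ 1)
    (hη : 0 < η) (hW0 : ∀ᵐ z ∂μ, 0 ≤ W z) (hP1 : ∀ z, -1 ≤ P z) (hPG : ∀ z, z ∉ G → -(η / 4) ≤ P z)
    (hM : ∫⁻ z, ENNReal.ofReal (W z) ∂μ ≠ ⊤)
    (h1 : ∫⁻ z, ENNReal.ofReal (P z * W z) ∂μ ≤
      ∫⁻ z, ENNReal.ofReal (-P z * W z * (if z ∈ G then 1 - k else 1)) ∂μ)
    (h2 : ENNReal.ofReal η * ∫⁻ z, ENNReal.ofReal (W z) ∂μ ≤
      (∫⁻ z, ENNReal.ofReal (|P z| * W z) ∂μ) + ENNReal.ofReal C) :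
    (∫⁻ z, ENNReal.ofReal ((P z + 1) * W z) ∂μ) +
      ENNReal.ofReal (k * η / 4) * ∫⁻ z, ENNReal.ofReal (W z) ∂μ ≤
        (∫⁻ z, ENNReal.ofReal (W z) ∂μ) + ENNReal.ofReal C := by
  have mb : Measurable fun z => ENNReal.ofReal (-P z * W z) := by fun_prop
  have ma : Measurable fun z => ENNReal.ofReal (P z * W z) := by fun_prop
  have mw : Measurable fun z => ENNReal.ofReal (W z) := by fun_prop
  refine st_num (Ia := ∫⁻ z, ENNReal.ofReal (P z * W z) ∂μ)
    (Ib := ∫⁻ z, ENNReal.ofReal (-P z * W z) ∂μ) hk0 hk1 hη hM ?_ h1 ?_ ?_ ?_ ?_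
  · rw [← lintegral_add_right _ mb, ← lintegral_add_right _ ma]
    refine lintegral_congr_ae ?_
    filter_upwards [hW0] with z hz
    have h1z := hP1 z
    rcases le_total 0 (P z) with h | h
    · rw [ENNReal.ofReal_of_nonpos (show -P z * W z ≤ 0 by nlinarith), add_zero,
        ← ENNReal.ofReal_add hz (by positivity)]
      congr 1; ring
    · rw [ENNReal.ofReal_of_nonpos (show P z * W z ≤ 0 by nlinarith), add_zero,
        ← ENNReal.ofReal_add (by nlinarith) (by nlinarith)]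
      congr 1; ring
  · rw [← lintegral_const_mul _ mb, ← lintegral_const_mul _ mw,
      ← lintegral_add_right _ (mb.const_mul _), ← lintegral_add_left mb]
    refine lintegral_mono_ae ?_
    filter_upwards [hW0] with z hz
    rcases le_total 0 (P z) with h | h
    · have e0 : -P z * W z ≤ 0 := by nlinarith
      have e1 : -P z * W z * (if z ∈ G then 1 - k else 1) ≤ 0 := by
        split_ifs <;> nlinarith
      rw [ENNReal.ofReal_of_nonpos e1, ENNReal.ofReal_of_nonpos e0]; simp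
    · have e0 : 0 ≤ -P z * W z := by nlinarith
      have e1 : 0 ≤ -P z * W z * (if z ∈ G then 1 - k else 1) := by
        split_ifs <;> nlinarith
      rw [← ENNReal.ofReal_mul hk0.le, ← ENNReal.ofReal_mul (by positivity),
        ← ENNReal.ofReal_add e1 (by positivity), ← ENNReal.ofReal_add e0 (by positivity)]
      refine ENNReal.ofReal_le_ofReal ?_
      split_ifs with hz'
      · have : 0 ≤ η / 4 * k * W z := by positivity
        nlinarith
      · have h3 := hPG z hz'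
        have h4 : -P z * W z ≤ η / 4 * W z := mul_le_mul_of_nonneg_right (by linarith) hz
        nlinarith
  · refine h2.trans (add_le_add_left (le_of_eq ?_) _)
    rw [← lintegral_add_right _ mb]
    refine lintegral_congr_ae ?_
    filter_upwards [hW0] with z hz
    rcases le_total 0 (P z) with h | h
    · rw [ENNReal.ofReal_of_nonpos (show -P z * W z ≤ 0 by nlinarith), add_zero, abs_of_nonneg h]
    · rw [ENNReal.ofReal_of_nonpos (show P z * W z ≤ 0 by nlinarith), zero_add, abs_of_nonpos h]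
  · refine lintegral_mono_ae ?_
    filter_upwards [hW0] with z hz
    have h1z := hP1 z
    exact ENNReal.ofReal_le_ofReal (by nlinarith)
  · refine lintegral_mono_ae ?_
    filter_upwards [hW0] with z hz
    rcases le_total 0 (P z) with h | h
    · have e1 : -P z * W z * (if z ∈ G then 1 - k else 1) ≤ 0 := by
        have e0 : -P z * W z ≤ 0 := by nlinarith
        split_ifs <;> nlinarith
      rw [ENNReal.ofReal_of_nonpos e1]; simp
    · have e0 : 0 ≤ -P z * W z := by nlinarith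
      refine ENNReal.ofReal_le_ofReal ?_
      split_ifs <;> nlinarith

/-- the critical level -/
def stU (c : ℝ) (f : ℂ → ℂ) (z : ℂ) : ℝ :=
  ‖deriv f z‖ ^ 2 * (1 - ‖z‖ ^ 2) ^ (1 - c) / ((1 + c) ^ 2 * ‖z‖ ^ 2)

theorem stG_stF {c : ℝ} (hc : -1 < c) (f : ℂ → ℂ) {z : ℂ} (hz : z ∈ ball (0 : ℂ) 1) :
    stG c f (stF c f z) z = stU c f z := by
  have h : ‖z‖ < 1 := by simpa using hz
  have hd : 0 < 1 - ‖z‖ ^ 2 := by nlinarith [norm_nonneg z]
  unfold stG stF stU
  rw [sub_add_cancel_left, norm_neg, norm_div, norm_mul, norm_mul, Complex.norm_real,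
    Complex.norm_real, RCLike.norm_conj, Real.norm_of_nonneg hd.le,
    Real.norm_of_nonneg (by linarith : (0 : ℝ) ≤ 1 + c)]
  have e : (1 - ‖z‖ ^ 2) ^ (1 - c) = (1 - ‖z‖ ^ 2) ^ 2 / (1 - ‖z‖ ^ 2) ^ (1 + c) := by
    rw [← Real.rpow_natCast (1 - ‖z‖ ^ 2) 2, ← Real.rpow_sub hd]; congr 1; push_cast; ring
  rw [e, div_pow, mul_pow, mul_pow]; ring

theorem stU_pos {c : ℝ} (hc : -1 < c) {f : ℂ → ℂ} {z : ℂ} (hz : z ∈ ball (0 : ℂ) 1) (h0 : z ≠ 0)
    (hf : deriv f z ≠ 0) : 0 < stU c f z := by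
  have h : ‖z‖ < 1 := by simpa using hz
  have hd : 0 < 1 - ‖z‖ ^ 2 := by nlinarith [norm_nonneg z]
  have h1 : 0 < ‖z‖ := norm_pos_iff.2 h0
  have h2 : 0 < ‖deriv f z‖ := norm_pos_iff.2 hf
  have h3 : 0 < 1 + c := by linarith
  unfold stU; positivity

theorem stJ_mul {b : ℝ} (hb : 0 < b) {f : ℂ → ℂ} {z : ℂ} (hz : z ∈ ball (0 : ℂ) 1) (h0 : z ≠ 0)
    (hf : deriv f z ≠ 0) :
    stJ ((1 + 2 * b) / 3) f z *
        ((1 + (1 + 2 * b) / 3)⁻¹ * stU ((1 + 2 * b) / 3) f z ^ (-(3 / 2) : ℝ)) =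
      (‖stX ((1 + 2 * b) / 3) f z‖ ^ 2 - 1) * stW b f z := by
  have h : ‖z‖ < 1 := by simpa using hz
  have hd : 0 < 1 - ‖z‖ ^ 2 := by nlinarith [norm_nonneg z]
  have h1 : 0 < ‖z‖ := norm_pos_iff.2 h0
  have h2 : 0 < ‖deriv f z‖ := norm_pos_iff.2 hf
  set c := (1 + 2 * b) / 3 with hc
  have h3 : 0 < 1 + c := by rw [hc]; linarith
  have e : stU c f z ^ (-(3 / 2) : ℝ) =
      ((‖deriv f z‖ / ((1 + c) * ‖z‖)) ^ 3)⁻¹ * (1 - ‖z‖ ^ 2) ^ (b - 1) := by
    have e1 : stU c f z = (‖deriv f z‖ / ((1 + c) * ‖z‖)) ^ 2 * (1 - ‖z‖ ^ 2) ^ (1 - c) := by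
      unfold stU; field_simp
    have hx : 0 < ‖deriv f z‖ / ((1 + c) * ‖z‖) := by positivity
    rw [e1, Real.mul_rpow (by positivity) (by positivity), ← Real.rpow_mul hd.le,
      ← Real.rpow_natCast _ 2, ← Real.rpow_mul hx.le,
      ← Real.rpow_natCast (‖deriv f z‖ / ((1 + c) * ‖z‖)) 3, ← Real.rpow_neg hx.le]
    congr 2
    · push_cast; ring
    · rw [hc]; ring
  rw [e]; unfold stJ stW; field_simp

theorem stJ_pos_iff {c : ℝ} (hc : -1 < c) {f : ℂ → ℂ} {z : ℂ} (h0 : z ≠ 0)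
    (hf : deriv f z ≠ 0) : (0 < stJ c f z ↔ 0 < ‖stX c f z‖ ^ 2 - 1) ∧
      (stJ c f z < 0 ↔ ‖stX c f z‖ ^ 2 - 1 < 0) := by
  have h1 : 0 < ‖z‖ := norm_pos_iff.2 h0
  have h2 : 0 < ‖deriv f z‖ := norm_pos_iff.2 hf
  have h3 : 0 < 1 + c := by linarith
  have e : stJ c f z = (‖deriv f z‖ ^ 2 / ((1 + c) ^ 2 * ‖z‖ ^ 4)) * (‖stX c f z‖ ^ 2 - 1) := by
    unfold stJ; ring
  have hq : 0 < ‖deriv f z‖ ^ 2 / ((1 + c) ^ 2 * ‖z‖ ^ 4) := by positivity
  rw [e]
  exact ⟨mul_pos_iff_of_pos_left hq, by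
    constructor
    · intro h; by_contra h'; exact absurd h (not_lt.2 (mul_nonneg hq.le (not_lt.1 h')))
    · intro h; exact mul_neg_of_pos_of_neg hq h⟩

theorem stGain (hMD : MinDepth) (hND : NonDeg) : StGain := by
  classical
  intro K
  obtain ⟨η₀, hη₀, C, hC⟩ := hND K
  set η := min η₀ 1 with hη
  have hη0 : 0 < η := lt_min hη₀ one_pos
  have hη1 : η ≤ 1 := min_le_right _ _
  obtain ⟨δ₁, hδ₁, hD⟩ := hMD K (η / 8) (by positivity)
  set q := Real.exp δ₁ ^ (-(3 / 2) : ℝ) with hq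
  have hq0 : 0 < q := by positivity
  have hq1 : q < 1 := Real.rpow_lt_one_of_one_lt_of_neg (Real.one_lt_exp_iff.2 hδ₁) (by norm_num)
  refine ⟨(1 - q) * η / 4, by have : 0 < 1 - q := by linarith
                              positivity, by nlinarith, C, ?_⟩
  intro b f hb1 hb2 hf h1 hS hM
  set c := (1 + 2 * b) / 3 with hc
  have hc1 : 1 / 3 ≤ c := by rw [hc]; linarith
  have hc2 : c ≤ 1 / 2 := by rw [hc]; linarith
  have hc0 : -1 < c := by linarith
  have hb0 : 0 < b := by linarith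
  have mX := measurable_stX c f
  have mU : Measurable (stU c f) := by
    unfold stU
    have h1 : Measurable (deriv f) := measurable_deriv f
    fun_prop
  set G : Set ℂ := {z | ‖stX c f z‖ ≤ 1 - η / 8} with hG
  have mG : MeasurableSet G := measurableSet_le mX.norm measurable_const
  have key := st_abs (μ := volume.restrict (ball (0 : ℂ) 1)) (P := fun z => ‖stX c f z‖ ^ 2 - 1)
    (W := stW b f) (G := G) (k := 1 - q) (η := η) (C := C) (by fun_prop) (measurable_stW b f) mG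
    (by linarith) (by linarith) hη0
    ((ae_restrict_mem measurableSet_ball).mono fun z hz => stW_nonneg b f hz)
    (fun z => by have := sq_nonneg ‖stX c f z‖; linarith)
    (fun z hz => by
      have h : 1 - η / 8 < ‖stX c f z‖ := by simpa [hG] using hz
      nlinarith) hM ?_ ?_
  · simpa only [sub_add_cancel, stM] using key
  · let φ : ℂ → ℝ := fun z => (1 + c)⁻¹ * stU c f z ^ (-(3 / 2) : ℝ)
    have mφ : Measurable φ := by fun_prop
    have mκ : Measurable fun z => if z ∈ G then q else (1 : ℝ) :=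
      Measurable.ite mG measurable_const measurable_const
    have hs := hS (fun z => ENNReal.ofReal (φ z))
      (fun z => ENNReal.ofReal (φ z * if z ∈ G then q else 1)) (by fun_prop)
      (mφ.mul mκ).ennreal_ofReal ?_
    · have mJ := measurable_stJ c f
      have mS1 : MeasurableSet {z | z ∈ ball (0 : ℂ) 1 ∧ 0 < stJ c f z} :=
        measurableSet_ball.inter (measurableSet_lt measurable_const mJ)
      have mS2 : MeasurableSet {z | z ∈ ball (0 : ℂ) 1 ∧ stJ c f z < 0} :=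
        measurableSet_ball.inter (measurableSet_lt mJ measurable_const)
      refine le_trans ?_ (hs.trans ?_)
      · rw [← lintegral_indicator mS1, ← lintegral_indicator measurableSet_ball]
        refine lintegral_mono fun z => ?_
        by_cases hz : z ∈ ball (0 : ℂ) 1
        · rw [indicator_of_mem hz]
          by_cases h0 : z = 0
          · subst h0; simp [stW]
          by_cases hJ : 0 < stJ c f z
          · rw [indicator_of_mem (show z ∈ {z | z ∈ ball (0 : ℂ) 1 ∧ 0 < stJ c f z} from ⟨hz, hJ⟩),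
              ← ENNReal.ofReal_mul hJ.le, stJ_mul hb0 hz h0 (hf.ne z hz)]
          · rw [(stJ_pos_iff hc0 h0 (hf.ne z hz)).1] at hJ
            rw [ENNReal.ofReal_of_nonpos
              (mul_nonpos_of_nonpos_of_nonneg (not_lt.1 hJ) (stW_nonneg b f hz))]
            exact zero_le
        · rw [indicator_of_notMem hz]; exact zero_le
      · rw [← lintegral_indicator mS2, ← lintegral_indicator measurableSet_ball]
        refine lintegral_mono fun z => ?_
        by_cases hz : z ∈ {z | z ∈ ball (0 : ℂ) 1 ∧ stJ c f z < 0}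
        · rw [indicator_of_mem hz, indicator_of_mem hz.1]
          have h0 : z ≠ 0 := by
            rintro rfl
            have := hz.2
            simp [stJ] at this
          rw [← ENNReal.ofReal_mul (by linarith [hz.2])]
          refine le_of_eq ?_
          congr 1
          have e := stJ_mul hb0 hz.1 h0 (hf.ne z hz.1)
          have e2 : (if z ∈ G then 1 - (1 - q) else (1 : ℝ)) = if z ∈ G then q else 1 := by
            split_ifs <;> ring
          rw [e2, neg_mul (‖stX c f z‖ ^ 2 - 1), ← e]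
          simp only [φ]; ring
        · rw [indicator_of_notMem hz]; exact zero_le
    · rintro s hs m hm hs0 hm0 hF hJs hJm hle ⟨D, hD1, hsD, hmD, hDs⟩
      refine ENNReal.ofReal_le_ofReal ?_
      have hus := stU_pos hc0 hs hs0 (hf.ne s hs)
      have hum := stU_pos hc0 hm hm0 (hf.ne m hm)
      have es := stG_stF hc0 f hs
      have em := stG_stF hc0 f hm
      have h3 : 0 < (1 + c)⁻¹ := inv_pos.2 (by linarith)
      simp only [φ]
      rw [mul_assoc]
      refine mul_le_mul_of_nonneg_left ?_ h3.le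
      split_ifs with hmG
      · obtain ⟨ρ, hρ, hin, hsph⟩ := hD c f hc1 hc2 hf m hm hm0 hmG
        have hsout : ρ ≤ dist s m := by
          by_contra hlt
          have h4 := hin s (mem_closedBall.2 (not_le.1 hlt).le)
          have h5 := (stJ_pos_iff hc0 hs0 (hf.ne s hs)).1.1 hJs
          nlinarith [norm_nonneg (stX c f s)]
        obtain ⟨w, hwD, hw⟩ := hD1.intermediate_value hmD hsD (f := fun z => dist z m)
          (by fun_prop) (show ρ ∈ Icc (dist m m) (dist s m) from ⟨by simpa using hρ.le, hsout⟩)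
        have h6 := hsph w (mem_sphere.2 hw)
        have h7 := (hDs hwD).2
        rw [em, ← hF] at h6
        rw [es] at h7
        have h8 : Real.exp δ₁ * stU c f m ≤ stU c f s := h6.trans h7
        calc stU c f s ^ (-(3 / 2) : ℝ) ≤ (Real.exp δ₁ * stU c f m) ^ (-(3 / 2) : ℝ) :=
              Real.rpow_le_rpow_of_nonpos (by positivity) h8 (by norm_num)
          _ = _ := by rw [Real.mul_rpow (Real.exp_pos _).le hum.le, mul_comm]
      · rw [mul_one]
        rw [es, hF, em] at hle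
        exact Real.rpow_le_rpow_of_nonpos hum hle (by norm_num)
  · refine le_trans ?_ (hC b c f hb1 hb2 hc1 hc2 hf h1)
    exact mul_le_mul_left (ENNReal.ofReal_le_ofReal (min_le_left _ _)) _

end Crest.Agent.R131
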