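import Mathlib

/-!
# Row 131: a doubling (Fubini) lemma for weights with a Harnack property (helper79)
-/

set_option autoImplicit false

open MeasureTheory Set Metric
open scoped ENNReal

namespace Crest.Agent.R131

theorem d_compare {z z0 : ℂ} {ρ : ℝ} (hρ : ρ ≤ 1 / 8) (h0 : ‖z0‖ < 1)
    (h : ‖z - z0‖ < ρ * (1 - ‖z0‖ ^ 2)) :
    ‖z‖ < 1 ∧ (1 - ‖z0‖ ^ 2) ≤ 2 * (1 - ‖z‖ ^ 2) ∧ (1 - ‖z‖ ^ 2) ≤ 2 * (1 - ‖z0‖ ^ 2) := by
  have a0 := norm_nonneg z0
  have a1 := norm_nonneg z
  have hd : 0 < 1 - ‖z0‖ ^ 2 := by nlinarith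
  have h8 : ‖z - z0‖ < (1 - ‖z0‖ ^ 2) / 8 := by nlinarith
  have t1 : ‖z‖ ≤ ‖z0‖ + ‖z - z0‖ := by
    have := norm_add_le z0 (z - z0); simpa using this
  have t2 : ‖z0‖ ≤ ‖z‖ + ‖z - z0‖ := by
    have := norm_sub_le z (z - z0); simpa using this
  have e0 := norm_nonneg (z - z0)
  refine ⟨by nlinarith, by nlinarith, by nlinarith⟩

/-- **Doubling**: if near every point of `A` there is a hyperbolic ball inside `N`, then the
weight of `A` is controlled by the weight of `N`. -/
theorem doubling (W : ℂ → ℝ≥0∞) (hW : Measurable W) (A N : Set ℂ) (hA : MeasurableSet A)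
    (hN : MeasurableSet N) (hA1 : A ⊆ ball 0 1) (ρ η : ℝ) (hη : 0 < η) (hρ : ρ ≤ 1 / 8)
    (H : ℝ≥0∞)
    (hH : ∀ z0 ∈ A, ∀ z, ‖z - z0‖ < ρ * (1 - ‖z0‖ ^ 2) → W z0 ≤ H * W z)
    (hb : ∀ z0 ∈ A, ∃ z1, ball z1 (η * (1 - ‖z0‖ ^ 2)) ⊆ N ∩ ball z0 (ρ * (1 - ‖z0‖ ^ 2))) :
    ∫⁻ z in A, W z ≤ H * ENNReal.ofReal (1 / η ^ 2) * ∫⁻ z in N, W z := by
  classical
  set K : ℂ → ℂ → ℝ≥0∞ := fun z0 z =>
    if ‖z0‖ < 1 ∧ ‖z - z0‖ < ρ * (1 - ‖z0‖ ^ 2) then
      ENNReal.ofReal (1 / (Real.pi * η ^ 2 * (1 - ‖z0‖ ^ 2) ^ 2)) else 0 with hK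
  have hKm : Measurable (fun p : ℂ × ℂ => K p.1 p.2) := by
    refine Measurable.ite ?_ ?_ measurable_const
    · have m1 : MeasurableSet {p : ℂ × ℂ | ‖p.1‖ < 1} :=
        measurableSet_lt (by fun_prop) measurable_const
      have m2 : MeasurableSet {p : ℂ × ℂ | ‖p.2 - p.1‖ < ρ * (1 - ‖p.1‖ ^ 2)} :=
        measurableSet_lt (by fun_prop) (by fun_prop)
      exact m1.inter m2
    · refine ENNReal.measurable_ofReal.comp ?_
      fun_prop
  -- pointwise bound
  have h1 : ∀ z0 ∈ A, W z0 ≤ H * ∫⁻ z in N, K z0 z * W z := by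
    intro z0 hz0
    obtain ⟨z1, hz1⟩ := hb z0 hz0
    have h0 : ‖z0‖ < 1 := by simpa using hA1 hz0
    have hd : 0 < 1 - ‖z0‖ ^ 2 := by nlinarith [norm_nonneg z0]
    set c : ℝ := 1 / (Real.pi * η ^ 2 * (1 - ‖z0‖ ^ 2) ^ 2) with hc
    have hc0 : 0 < c := by have := Real.pi_pos; positivity
    have hv : ENNReal.ofReal c * volume (ball z1 (η * (1 - ‖z0‖ ^ 2))) = 1 := by
      rw [Complex.volume_ball, ← ENNReal.ofReal_pow (by positivity),
        ← ENNReal.ofReal_coe_nnreal, ← ENNReal.ofReal_mul (by positivity),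
        ← ENNReal.ofReal_mul hc0.le, NNReal.coe_real_pi, ← ENNReal.ofReal_one]
      congr 1
      have := Real.pi_pos
      rw [hc]; field_simp
    calc W z0 = ∫⁻ _ in ball z1 (η * (1 - ‖z0‖ ^ 2)), ENNReal.ofReal c * W z0 := by
          rw [setLIntegral_const, mul_right_comm, hv, one_mul]
      _ ≤ ∫⁻ z in ball z1 (η * (1 - ‖z0‖ ^ 2)), H * (K z0 z * W z) := by
          refine setLIntegral_mono' measurableSet_ball fun z hz => ?_
          have hz' : ‖z - z0‖ < ρ * (1 - ‖z0‖ ^ 2) := by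
            simpa [dist_eq_norm] using (hz1 hz).2
          have : K z0 z = ENNReal.ofReal c := by simp only [hK]; rw [if_pos ⟨h0, hz'⟩]
          rw [this, mul_left_comm]
          exact mul_le_mul_right (hH z0 hz0 z hz') _
      _ ≤ ∫⁻ z in N, H * (K z0 z * W z) :=
          lintegral_mono_set fun z hz => (hz1 hz).1
      _ = H * ∫⁻ z in N, K z0 z * W z := by
          rw [lintegral_const_mul]
          exact (hKm.comp (measurable_const.prodMk measurable_id)).mul hW
  -- the kernel has bounded mass in the first variable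
  have h2 : ∀ z, ∫⁻ z0 in A, K z0 z ≤ ENNReal.ofReal (1 / η ^ 2) := by
    intro z
    by_cases hz : ‖z‖ < 1
    · have hd : 0 < 1 - ‖z‖ ^ 2 := by nlinarith [norm_nonneg z]
      set c : ℝ := 4 / (Real.pi * η ^ 2 * (1 - ‖z‖ ^ 2) ^ 2) with hc
      have hc0 : 0 < c := by have := Real.pi_pos; positivity
      calc ∫⁻ z0 in A, K z0 z ≤ ∫⁻ z0, K z0 z := setLIntegral_le_lintegral _ _
        _ ≤ ∫⁻ z0, (ball z ((1 - ‖z‖ ^ 2) / 4)).indicator (fun _ => ENNReal.ofReal c) z0 := by
          refine lintegral_mono fun z0 => ?_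
          simp only [hK]
          split_ifs with h
          · obtain ⟨-, e1, e2⟩ := d_compare hρ h.1 h.2
            have hd0 : 0 < 1 - ‖z0‖ ^ 2 := by nlinarith [norm_nonneg z0, h.1]
            have hm : z0 ∈ ball z ((1 - ‖z‖ ^ 2) / 4) := by
              rw [mem_ball, dist_comm, dist_eq_norm]
              nlinarith [h.2]
            rw [indicator_of_mem hm]
            refine ENNReal.ofReal_le_ofReal ?_
            have := Real.pi_pos
            rw [hc, div_le_div_iff₀ (by positivity) (by positivity)]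
            have e3 : (1 - ‖z‖ ^ 2) ^ 2 ≤ 4 * (1 - ‖z0‖ ^ 2) ^ 2 := by nlinarith
            have : 0 < Real.pi * η ^ 2 := by positivity
            nlinarith
          · exact zero_le
        _ = ENNReal.ofReal c * volume (ball z ((1 - ‖z‖ ^ 2) / 4)) := by
          rw [lintegral_indicator measurableSet_ball, setLIntegral_const]
        _ ≤ ENNReal.ofReal (1 / η ^ 2) := by
          rw [Complex.volume_ball, ← ENNReal.ofReal_pow (by positivity),
            ← ENNReal.ofReal_coe_nnreal, ← ENNReal.ofReal_mul (by positivity),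
            ← ENNReal.ofReal_mul hc0.le, NNReal.coe_real_pi]
          refine ENNReal.ofReal_le_ofReal ?_
          have := Real.pi_pos
          have e : c * (((1 - ‖z‖ ^ 2) / 4) ^ 2 * Real.pi) = 1 / (4 * η ^ 2) := by
            rw [hc]; field_simp
          rw [e]
          exact one_div_le_one_div_of_le (by positivity) (by nlinarith [sq_nonneg η])
    · have : ∀ z0, K z0 z = 0 := fun z0 => by
        simp only [hK]
        rw [if_neg]
        rintro ⟨h0, h⟩
        exact hz (d_compare hρ h0 h).1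
      simp [this]
  calc ∫⁻ z in A, W z ≤ ∫⁻ z0 in A, H * ∫⁻ z in N, K z0 z * W z :=
        setLIntegral_mono' hA h1
    _ = H * ∫⁻ z0 in A, ∫⁻ z in N, K z0 z * W z := by
        rw [lintegral_const_mul]
        exact (hKm.mul (hW.comp measurable_snd)).lintegral_prod_right'
    _ = H * ∫⁻ z in N, ∫⁻ z0 in A, K z0 z * W z := by
        rw [lintegral_lintegral_swap]
        exact (hKm.mul (hW.comp measurable_snd)).aemeasurable
    _ ≤ H * ∫⁻ z in N, ENNReal.ofReal (1 / η ^ 2) * W z := by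
        refine mul_le_mul_right (setLIntegral_mono' hN fun z _ => ?_) _
        rw [lintegral_mul_const]
        · exact mul_le_mul_left (h2 z) _
        · exact hKm.comp (measurable_id.prodMk measurable_const)
    _ = H * ENNReal.ofReal (1 / η ^ 2) * ∫⁻ z in N, W z := by
        rw [lintegral_const_mul _ hW, mul_assoc]

end Crest.Agent.R131
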