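import Mathlib

/-!
# Row 131, strictness: the maximum principle lemma (helper24)

For `h` holomorphic in the disc and `P = c |z|² + (1 - |z|²) h`, `|P|` cannot stay close to `1`
on a small hyperbolic ball near the circle.
-/

set_option autoImplicit false

open Metric Filter Topology Complex

noncomputable section

namespace Crest.Agent.R131.SM

theorem second_nonneg {ψ ψ' : ℝ → ℝ} {m : ℝ} (hmin : IsLocalMin ψ 0)
    (h1 : ∀ᶠ t in 𝓝 (0 : ℝ), HasDerivAt ψ (ψ' t) t) (h2 : HasDerivAt ψ' m 0) :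
    ψ' 0 = 0 ∧ 0 ≤ m := by
  have h0 : ψ' 0 = 0 := hmin.hasDerivAt_eq_zero h1.self_of_nhds
  refine ⟨h0, ?_⟩
  by_contra hm
  push Not at hm
  set χ : ℝ → ℝ := fun t => ψ t + (-m / 4) * t ^ 2 with hχ
  have hd : ∀ᶠ t in 𝓝 (0 : ℝ), HasDerivAt χ (ψ' t + (-m / 4) * (2 * t)) t := by
    filter_upwards [h1] with t ht
    have : HasDerivAt (fun t : ℝ => t ^ 2) (2 * t) t := by simpa using hasDerivAt_pow 2 t
    exact ht.add (this.const_mul _)
  have hde : deriv χ =ᶠ[𝓝 0] fun t => ψ' t + (-m / 4) * (2 * t) := by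
    filter_upwards [hd] with t ht using ht.deriv
  have h3 : HasDerivAt (fun t => ψ' t + (-m / 4) * (2 * t)) (m + (-m / 4) * 2) 0 := by
    have : HasDerivAt (fun t : ℝ => 2 * t) 2 0 := by simpa using (hasDerivAt_id (0 : ℝ)).const_mul 2
    exact h2.add (this.const_mul _)
  have h4 : deriv (deriv χ) 0 < 0 := by
    rw [hde.deriv_eq, h3.deriv]; linarith
  have h5 : deriv χ 0 = 0 := by
    rw [hd.self_of_nhds.deriv, h0]; ring
  have hmax := isLocalMax_of_deriv_deriv_neg h4 h5 hd.self_of_nhds.continuousAt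
  have : ∀ᶠ t in 𝓝 (0 : ℝ), t = 0 := by
    filter_upwards [hmax, hmin] with t a b
    simp only [hχ] at a
    have : (-m / 4) * t ^ 2 ≤ 0 := by nlinarith
    have h6 : t ^ 2 ≤ 0 := by
      by_contra h7
      push Not at h7
      have : 0 < (-m / 4) * t ^ 2 := mul_pos (by linarith) h7
      linarith
    exact pow_eq_zero_iff (two_ne_zero) |>.1 (le_antisymm h6 (sq_nonneg t))
  have h7 : ∀ᶠ t in 𝓝[≠] (0 : ℝ), t = 0 := this.filter_mono nhdsWithin_le_nhds
  obtain ⟨t, ht, ht'⟩ := (h7.and self_mem_nhdsWithin).exists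
  exact ht' ht

/-- the algebraic core -/
theorem alg {z P U G : ℂ} {c : ℝ} (hc0 : 0 ≤ c) (hc1 : c ≤ 3 / 4) (hs : normSq z ≤ 1)
    (hd : 17 / 20 ≤ normSq z) (hN1 : 99 / 100 ≤ normSq P) (hN2 : normSq P ≤ 101 / 100)
    (hG : ‖G‖ ≤ 3 / 80)
    (hU : U * (starRingEnd ℂ) P = G - (starRingEnd ℂ) z * P * (c - (starRingEnd ℂ) P)) :
    2 * ((c - P) * (starRingEnd ℂ) P).re - 2 * (z * (U * (starRingEnd ℂ) P)).re + normSq U
      + normSq z * normSq (c - P) ≤ -(1 / 4) := by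
  have hz : ‖z‖ ≤ 1 := by
    rw [normSq_eq_norm_sq] at hs; nlinarith [norm_nonneg z]
  have hP1 : 99 / 100 ≤ ‖P‖ := by
    rw [normSq_eq_norm_sq] at hN1; nlinarith [norm_nonneg P]
  have hP2 : ‖P‖ ≤ 101 / 100 := by
    rw [normSq_eq_norm_sq] at hN2; nlinarith [norm_nonneg P]
  have hcP : ‖(c : ℂ) - P‖ ≤ 176 / 100 := by
    calc ‖(c : ℂ) - P‖ ≤ ‖(c : ℂ)‖ + ‖P‖ := norm_sub_le _ _
      _ ≤ 176 / 100 := by rw [Complex.norm_real, Real.norm_of_nonneg hc0]; linarith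
  have hcP' : ‖(c : ℂ) - (starRingEnd ℂ) P‖ = ‖(c : ℂ) - P‖ := by
    rw [← Complex.norm_conj ((c : ℂ) - P)]; simp
  have hUn : ‖U‖ * ‖P‖ ≤ ‖G‖ + ‖z‖ * ‖P‖ * ‖(c : ℂ) - P‖ := by
    have := congrArg norm hU
    rw [norm_mul, Complex.norm_conj] at this
    rw [this]
    refine (norm_sub_le _ _).trans ?_
    rw [norm_mul, norm_mul, Complex.norm_conj, hcP']
  have hU2 : ‖U‖ ≤ 4 / 100 + ‖z‖ * ‖(c : ℂ) - P‖ := by
    by_contra hh
    push Not at hh
    have : (4 / 100 + ‖z‖ * ‖(c : ℂ) - P‖) * ‖P‖ < ‖U‖ * ‖P‖ :=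
      mul_lt_mul_of_pos_right hh (by linarith)
    nlinarith
  have hzc : ‖z‖ * ‖(c : ℂ) - P‖ ≤ 176 / 100 := by
    nlinarith [norm_nonneg z, norm_nonneg ((c : ℂ) - P)]
  have hU3 : normSq U ≤ normSq z * normSq (c - P) + 15 / 100 := by
    rw [normSq_eq_norm_sq, normSq_eq_norm_sq, normSq_eq_norm_sq, ← mul_pow]
    have h0 : 0 ≤ ‖z‖ * ‖(c : ℂ) - P‖ := by positivity
    nlinarith [norm_nonneg U]
  have hzG : -(3 / 80) ≤ (z * G).re := by
    have h1 : |(z * G).re| ≤ ‖z * G‖ := Complex.abs_re_le_norm _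
    rw [norm_mul] at h1
    have h2 : ‖z‖ * ‖G‖ ≤ 3 / 80 := by nlinarith [norm_nonneg z, norm_nonneg G]
    linarith [neg_abs_le (z * G).re]
  have hre : P.re ≤ 101 / 100 := (Complex.re_le_norm P).trans hP2
  rw [hU]
  have e1 : ((c - P) * (starRingEnd ℂ) P).re = c * P.re - normSq P := by
    simp [normSq_apply]; ring
  have e2 : (z * (G - (starRingEnd ℂ) z * P * (c - (starRingEnd ℂ) P))).re
      = (z * G).re - normSq z * (c * P.re - normSq P) := by
    simp [normSq_apply]; ring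
  have e3 : normSq ((c : ℂ) - P) = c ^ 2 - 2 * c * P.re + normSq P := by
    simp [normSq_apply]; ring
  rw [e1, e2]
  rw [e3] at hU3 ⊢
  have h8 : (1 - normSq z) * (c * P.re) ≤ 3 / 20 * (3 / 4 * (101 / 100)) := by
    have : c * P.re ≤ 3 / 4 * (101 / 100) := by nlinarith
    nlinarith
  have h9 : normSq z * c ^ 2 ≤ 9 / 16 := by nlinarith
  nlinarith

theorem hd_re {F G : ℝ → ℂ} {F' G' : ℂ} {t : ℝ} (hF : HasDerivAt F F' t) (hG : HasDerivAt G G' t) :
    HasDerivAt (fun t => (F t * (starRingEnd ℂ) (G t)).re)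
      ((F' * (starRingEnd ℂ) (G t) + F t * (starRingEnd ℂ) G').re) t := by
  have h1 : HasDerivAt (fun t => (starRingEnd ℂ) (G t)) ((starRingEnd ℂ) G') t := hG.star
  exact Complex.reCLM.hasFDerivAt.comp_hasDerivAt t (hF.mul h1)

theorem hd_line {h : ℂ → ℂ} {h' z e : ℂ} {t : ℝ} (hh : HasDerivAt h h' (z + t * e)) :
    HasDerivAt (fun t : ℝ => h (z + t * e)) (h' * e) t := by
  have h1 : HasDerivAt (fun u : ℂ => z + u * e) e (t : ℂ) := by
    simpa using ((hasDerivAt_id (t : ℂ)).mul_const e).const_add z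
  exact (HasDerivAt.comp (t : ℂ) hh h1).comp_ofReal

/-- `|c |z|² + (1 - |z|²) h z|² - 1` -/
def Q (c : ℝ) (h : ℂ → ℂ) (z : ℂ) : ℝ :=
  ‖((c * ‖z‖ ^ 2 : ℝ) : ℂ) + ((1 - ‖z‖ ^ 2 : ℝ) : ℂ) * h z‖ ^ 2 - 1

def Pc (c : ℝ) (h : ℂ → ℂ) (z : ℂ) : ℂ :=
  c * (z * (starRingEnd ℂ) z) + (1 - z * (starRingEnd ℂ) z) * h z

theorem Q_eq (c : ℝ) (h : ℂ → ℂ) (z : ℂ) :
    Q c h z = (Pc c h z * (starRingEnd ℂ) (Pc c h z)).re - 1 := by
  unfold Q Pc
  rw [Complex.mul_conj, Complex.mul_conj, Complex.ofReal_re, normSq_eq_norm_sq, normSq_eq_norm_sq]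
  push_cast; rfl

theorem dir {c k : ℝ} {h : ℂ → ℂ} (hh : DifferentiableOn ℂ h (ball 0 1)) {z z0 : ℂ}
    (hz : z ∈ ball (0 : ℂ) 1)
    (hmin : IsLocalMin (fun w => Q c h w + k * ‖w - z0‖ ^ 2) z) (e : ℂ) :
    let P1 : ℂ := (c - h z) * (e * (starRingEnd ℂ) z + z * (starRingEnd ℂ) e)
      + (1 - z * (starRingEnd ℂ) z) * (deriv h z * e)
    let P2 : ℂ := (c - h z) * (2 * (e * (starRingEnd ℂ) e))
      - 2 * (deriv h z * e) * (e * (starRingEnd ℂ) z + z * (starRingEnd ℂ) e)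
      + (1 - z * (starRingEnd ℂ) z) * (deriv (deriv h) z * e * e)
    (P1 * (starRingEnd ℂ) (Pc c h z)).re + k * (e * (starRingEnd ℂ) (z - z0)).re = 0 ∧
      0 ≤ (P2 * (starRingEnd ℂ) (Pc c h z)).re + normSq P1 + k * normSq e := by
  intro P1 P2
  have han : AnalyticOnNhd ℂ h (ball 0 1) := hh.analyticOnNhd isOpen_ball
  have hcont : Continuous fun t : ℝ => z + t * e := by fun_prop
  have hw : ∀ t : ℝ, HasDerivAt (fun t : ℝ => z + t * e) e t := fun t => by
    simpa using hd_line (h := id) (z := z) (e := e) (t := t) (hasDerivAt_id _)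
  have hwc : ∀ t : ℝ, HasDerivAt (fun t : ℝ => (starRingEnd ℂ) (z + t * e))
      ((starRingEnd ℂ) e) t := fun t => (hw t).star
  have hev : ∀ᶠ t : ℝ in 𝓝 0, z + t * e ∈ ball (0 : ℂ) 1 := by
    apply hcont.continuousAt.eventually (isOpen_ball.mem_nhds _)
    simpa using hz
  set p1 : ℝ → ℂ := fun t => (c - h (z + t * e)) * (e * (starRingEnd ℂ) (z + t * e)
      + (z + t * e) * (starRingEnd ℂ) e)
      + (1 - (z + t * e) * (starRingEnd ℂ) (z + t * e)) * (deriv h (z + t * e) * e) with hp1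
  have hP : ∀ t : ℝ, z + t * e ∈ ball (0 : ℂ) 1 →
      HasDerivAt (fun t : ℝ => Pc c h (z + t * e)) (p1 t) t := by
    intro t ht
    have a1 := hd_line (han _ ht).differentiableAt.hasDerivAt
    have a2 := (hw t).mul (hwc t)
    have a3 := (a2.const_mul (c : ℂ)).add ((a2.const_sub 1).mul a1)
    refine (a3.congr_deriv ?_)
    simp only [hp1, Pi.mul_apply]; ring
  have hz0 : z + ((0 : ℝ) : ℂ) * e = z := by simp
  have hP2 : HasDerivAt p1 P2 0 := by
    have ht : z + ((0 : ℝ) : ℂ) * e ∈ ball (0 : ℂ) 1 := by rw [hz0]; exact hz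
    have a1 := hd_line (han _ ht).differentiableAt.hasDerivAt
    have a4 := hd_line (han.deriv _ ht).differentiableAt.hasDerivAt
    have a2 := (hw 0).mul (hwc 0)
    have a5 := ((hwc 0).const_mul e).add ((hw 0).mul_const ((starRingEnd ℂ) e))
    have a3 := ((a1.const_sub (c : ℂ)).mul a5).add ((a2.const_sub 1).mul (a4.mul_const e))
    refine (a3.congr_deriv ?_)
    simp only [P2, Pi.add_apply, Pi.mul_apply, hz0]; ring
  have hmin' : IsLocalMin (fun t : ℝ => (Pc c h (z + t * e) * (starRingEnd ℂ) (Pc c h (z + t * e))).re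
      - 1 + k * ((z + t * e - z0) * (starRingEnd ℂ) (z + t * e - z0)).re) 0 := by
    have h1 : IsLocalMin (fun w => Q c h w + k * ‖w - z0‖ ^ 2) (z + ((0 : ℝ) : ℂ) * e) := by
      rw [hz0]; exact hmin
    have h2 := h1.comp_continuous (g := fun t : ℝ => z + t * e) hcont.continuousAt
    convert h2 using 1
    funext t
    simp only [Function.comp, Q_eq]
    rw [Complex.mul_conj (z + t * e - z0), Complex.ofReal_re, normSq_eq_norm_sq]
  have hsec := second_nonneg (ψ' := fun t : ℝ =>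
      (p1 t * (starRingEnd ℂ) (Pc c h (z + t * e)) + Pc c h (z + t * e) * (starRingEnd ℂ) (p1 t)).re
      + k * (e * (starRingEnd ℂ) (z + t * e - z0) + (z + t * e - z0) * (starRingEnd ℂ) e).re)
    (m := 2 * ((P2 * (starRingEnd ℂ) (Pc c h z)).re + normSq P1 + k * normSq e)) hmin' ?_ ?_
  · obtain ⟨b1, b2⟩ := hsec
    have e0 : p1 0 = P1 := by simp only [hp1, P1, hz0]
    simp only [hz0, e0] at b1
    refine ⟨?_, by linarith⟩
    simp only [Complex.add_re, Complex.mul_re, Complex.conj_re, Complex.conj_im] at b1 ⊢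
    linarith
  · filter_upwards [hev] with t ht
    exact ((hd_re (hP t ht) (hP t ht)).sub_const 1).add
      ((hd_re ((hw t).sub_const z0) ((hw t).sub_const z0)).const_mul k)
  · have ht : z + ((0 : ℝ) : ℂ) * e ∈ ball (0 : ℂ) 1 := by rw [hz0]; exact hz
    have e0 : p1 0 = P1 := by simp only [hp1, P1, hz0]
    have a1 := hd_re hP2 (hP 0 ht)
    have a2 := hd_re (hP 0 ht) hP2
    have a3 := hd_re (hasDerivAt_const (0 : ℝ) e) ((hw 0).sub_const z0)
    have a4 := hd_re ((hw 0).sub_const z0) (hasDerivAt_const (0 : ℝ) e)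
    have a5 := (a1.add a2).add ((a3.add a4).const_mul k)
    refine HasDerivAt.congr_deriv (a5.congr_of_eventuallyEq (Eventually.of_forall fun t => ?_)) ?_
    · simp only [Complex.add_re, Pi.add_apply]
    · simp only [hz0, e0, normSq_apply, Complex.add_re, Complex.mul_re, Complex.conj_re,
        Complex.conj_im, map_zero, Complex.zero_re, Complex.zero_im]
      ring

/-- **the maximum principle lemma** -/
theorem strict_max {c ρ : ℝ} (hc0 : 0 ≤ c) (hc1 : c ≤ 3 / 4) (hρ0 : 0 < ρ) (hρ1 : ρ ≤ 1 / 4)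
    {h : ℂ → ℂ} (hh : DifferentiableOn ℂ h (ball 0 1)) {z0 : ℂ} (h0 : 9 / 10 ≤ ‖z0‖ ^ 2)
    (h1 : ‖z0‖ < 1) :
    ρ ^ 2 / 25 ≤ Q c h z0 ∨
      ∃ z ∈ closedBall z0 (ρ * (1 - ‖z0‖ ^ 2)), Q c h z ≤ -(ρ ^ 2 / 25) := by
  by_contra hcon
  push Not at hcon
  obtain ⟨hq0, hq⟩ := hcon
  set d0 : ℝ := 1 - ‖z0‖ ^ 2 with hd0
  have hn0 := norm_nonneg z0
  have hd0p : 0 < d0 := by nlinarith
  have hd0s : d0 ≤ 1 / 10 := by linarith
  have hsub : closedBall z0 (ρ * d0) ⊆ ball 0 1 := by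
    intro z hz
    rw [mem_closedBall, dist_eq_norm] at hz
    rw [mem_ball, dist_zero_right]
    have : ‖z‖ ≤ ‖z0‖ + ‖z - z0‖ := by
      calc ‖z‖ = ‖z0 + (z - z0)‖ := by ring_nf
        _ ≤ _ := norm_add_le _ _
    have : ρ * d0 ≤ 1 / 4 * d0 := mul_le_mul_of_nonneg_right hρ1 hd0p.le
    nlinarith
  set k : ℝ := 1 / (10 * d0 ^ 2) with hk
  have hkp : 0 < k := by positivity
  have hkd : k * d0 ^ 2 = 1 / 10 := by rw [hk]; field_simp
  have hcont : ContinuousOn (fun w => Q c h w + k * ‖w - z0‖ ^ 2) (closedBall z0 (ρ * d0)) := by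
    have := hh.continuousOn.mono hsub
    unfold Q
    fun_prop
  obtain ⟨z, hz, hmin⟩ := (isCompact_closedBall z0 (ρ * d0)).exists_isMinOn
    ⟨z0, mem_closedBall_self (by positivity)⟩ hcont
  have hle : Q c h z + k * ‖z - z0‖ ^ 2 ≤ Q c h z0 := by
    have := hmin (mem_closedBall_self (by positivity : 0 ≤ ρ * d0))
    simpa using this
  have hqz := hq z hz
  have hzb := hsub hz
  rw [mem_closedBall, dist_eq_norm] at hz
  have hlt : ‖z - z0‖ < ρ * d0 := by
    by_contra hh'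
    have e : ‖z - z0‖ = ρ * d0 := le_antisymm hz (not_lt.1 hh')
    rw [e, mul_pow] at hle
    have : k * (ρ ^ 2 * d0 ^ 2) = ρ ^ 2 / 10 := by
      calc k * (ρ ^ 2 * d0 ^ 2) = ρ ^ 2 * (k * d0 ^ 2) := by ring
        _ = _ := by rw [hkd]; ring
    nlinarith [sq_pos_of_pos hρ0]
  have hloc : IsLocalMin (fun w => Q c h w + k * ‖w - z0‖ ^ 2) z :=
    hmin.isLocalMin (mem_of_superset (isOpen_ball.mem_nhds (by
      rw [mem_ball, dist_eq_norm]; exact hlt)) ball_subset_closedBall)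
  obtain ⟨a1, a2⟩ := dir hh hzb hloc 1
  obtain ⟨b1, b2⟩ := dir hh hzb hloc I
  have hz1 : ‖z‖ < 1 := by simpa using hzb
  set d : ℝ := 1 - normSq z with hd
  have hρd : ρ * d0 ≤ 1 / 4 * d0 := mul_le_mul_of_nonneg_right hρ1 hd0p.le
  have hdp : 0 < d := by rw [hd, normSq_eq_norm_sq]; nlinarith [norm_nonneg z]
  have hdd : d ≤ 3 / 2 * d0 := by
    have : ‖z0‖ ≤ ‖z‖ + ‖z - z0‖ := by
      calc ‖z0‖ = ‖z - (z - z0)‖ := by ring_nf
        _ ≤ _ := norm_sub_le _ _
    rw [hd, normSq_eq_norm_sq]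
    nlinarith [norm_nonneg z, norm_nonneg (z - z0)]
  have hρ2 : ρ ^ 2 ≤ 1 / 16 := by nlinarith
  have hN : normSq (Pc c h z) = Q c h z + 1 := by
    rw [Q_eq, Complex.mul_conj, Complex.ofReal_re]; ring
  have hkz : 0 ≤ k * ‖z - z0‖ ^ 2 := by positivity
  have hzz : z * (starRingEnd ℂ) z = 1 - (d : ℂ) := by
    rw [Complex.mul_conj, hd]; push_cast; ring
  have hPA : (c : ℂ) - Pc c h z = d * (c - h z) := by
    unfold Pc; rw [hzz]; ring
  have key := alg (z := z) (P := Pc c h z)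
    (U := d * ((starRingEnd ℂ) z * (c - h z) + d * deriv h z))
    (G := -(d * k : ℝ) * (starRingEnd ℂ) (z - z0)) hc0 hc1 (by linarith) (by linarith)
    (by linarith) (by linarith) ?_ ?_
  · rw [hPA] at key
    rw [hzz] at a2 b2
    set P := Pc c h z
    set A := (c : ℂ) - h z
    have hs : z.re * z.re + z.im * z.im = 1 - d := by rw [hd, normSq_apply]; ring
    have h2 : 0 ≤ d ^ 2 * (((P.re * (4 * A.re - 4 * (z * deriv h z).re)
        + P.im * (4 * A.im - 4 * (z * deriv h z).im))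
        + 2 * normSq ((starRingEnd ℂ) z * A + d * deriv h z) + 2 * normSq (z * A)) + 2 * k) := by
      apply mul_nonneg (sq_nonneg _)
      have := add_nonneg a2 b2
      convert this using 1
      simp [normSq_apply]
      ring
    have h3 : d ^ 2 * k ≤ 9 / 40 := by
      have h6 : d ^ 2 ≤ (3 / 2 * d0) ^ 2 := pow_le_pow_left₀ hdp.le hdd 2
      have h7 := mul_le_mul_of_nonneg_right h6 hkp.le
      nlinarith
    have h4 : d ^ 2 * ((P.re * (4 * A.re - 4 * (z * deriv h z).re)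
        + P.im * (4 * A.im - 4 * (z * deriv h z).im))
        + 2 * normSq ((starRingEnd ℂ) z * A + d * deriv h z) + 2 * normSq (z * A))
        = 2 * (2 * (d * A * (starRingEnd ℂ) P).re
          - 2 * (z * (d * ((starRingEnd ℂ) z * A + d * deriv h z) * (starRingEnd ℂ) P)).re
          + normSq (d * ((starRingEnd ℂ) z * A + d * deriv h z))
          + normSq z * normSq (d * A)) := by
      simp [normSq_apply]
      linear_combination (4 * d * (A.re * P.re + A.im * P.im)) * hs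
    nlinarith
  · rw [norm_mul, norm_neg, Complex.norm_real, Complex.norm_conj,
      Real.norm_of_nonneg (by positivity)]
    have h5 : d * ‖z - z0‖ ≤ 3 / 2 * d0 * (1 / 4 * d0) :=
      mul_le_mul hdd (by linarith) (norm_nonneg _) (by positivity)
    nlinarith
  · have hPA' : (c : ℂ) - (starRingEnd ℂ) (Pc c h z) = d * (starRingEnd ℂ) (c - h z) := by
      have := congrArg (starRingEnd ℂ) hPA
      simpa using this
    rw [hPA']
    rw [hzz] at a1 b1
    set P := Pc c h z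
    set A := (c : ℂ) - h z
    apply Complex.ext
    · simp at a1 ⊢
      linear_combination d * a1
    · simp at b1 ⊢
      linear_combination (-d) * b1

end Crest.Agent.R131.SM
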