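import Crest.Agent.R131.StDefs
import Crest.Agent.R131.StrLip
import Crest.Agent.R131.StrDouble
import Crest.Agent.R131.StrictMax

/-! Row 131, part (B2) (helper25): `| |X|² - 1 |` is not small on average. -/

set_option autoImplicit false

open MeasureTheory Set Metric
open scoped ENNReal

noncomputable section

namespace Crest.Agent.R131

namespace N25

theorem harn {K m : ℝ} {f : ℂ → ℂ} (h : StOK K f) {S : Set ℂ} (hS : Convex ℝ S) (hm : 0 < m)
    (hSm : ∀ x ∈ S, ‖x‖ < 1 ∧ m ≤ 1 - ‖x‖ ^ 2) {z w : ℂ} (hz : z ∈ S) (hw : w ∈ S) :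
    ‖deriv f w‖ ≤ Real.exp (K / m * ‖w - z‖) * ‖deriv f z‖ := by
  set γ : ℝ → ℂ := fun t => z + (t : ℂ) * (w - z) with hγ
  have hγS : ∀ t ∈ Icc (0 : ℝ) 1, γ t ∈ S := by
    intro t ht
    have := hS.add_smul_sub_mem hz hw ht
    simpa [hγ] using this
  have hγb : ∀ t ∈ Icc (0 : ℝ) 1, γ t ∈ ball (0 : ℂ) 1 := fun t ht =>
    mem_ball_zero_iff.2 (hSm _ (hγS t ht)).1
  have hf1 : DifferentiableOn ℂ (deriv f) (ball 0 1) := h.diff.deriv isOpen_ball
  have hder : ∀ t ∈ Icc (0 : ℝ) 1, HasDerivAt (fun t => deriv f (γ t))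
      (deriv (deriv f) (γ t) * (w - z)) t := by
    intro t ht
    have h1 : HasDerivAt (deriv f) (deriv (deriv f) (γ t)) (γ t) :=
      ((hf1 _ (hγb t ht)).differentiableAt (isOpen_ball.mem_nhds (hγb t ht))).hasDerivAt
    have h2 : HasDerivAt (fun s : ℂ => z + s * (w - z)) (w - z) (t : ℂ) := by
      simpa using ((hasDerivAt_id (t : ℂ)).mul_const (w - z)).const_add z
    exact (h1.comp (t : ℂ) h2).comp_ofReal
  have hg := norm_le_gronwallBound_of_norm_deriv_right_le (f := fun t => deriv f (γ t))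
    (f' := fun t => deriv (deriv f) (γ t) * (w - z)) (δ := ‖deriv f z‖)
    (K := K / m * ‖w - z‖) (ε := 0) (a := 0) (b := 1)
    (fun t ht => (hder t ht).continuousAt.continuousWithinAt)
    (fun t ht => (hder t (Ico_subset_Icc_self ht)).hasDerivWithinAt)
    (by simp [hγ])
    (fun t ht => by
      have ht' := Ico_subset_Icc_self ht
      have h1 := h.pre _ (hγb t ht')
      have h2 := (hSm _ (hγS t ht')).2
      have h3 : m * ‖deriv (deriv f) (γ t)‖ ≤ K * ‖deriv f (γ t)‖ := by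
        nlinarith [norm_nonneg (deriv (deriv f) (γ t))]
      have h4 : ‖deriv (deriv f) (γ t)‖ ≤ K / m * ‖deriv f (γ t)‖ := by
        rw [div_mul_eq_mul_div, le_div_iff₀ hm]; linarith
      rw [norm_mul, add_zero]
      calc _ ≤ K / m * ‖deriv f (γ t)‖ * ‖w - z‖ := by gcongr
        _ = _ := by ring) 1 ⟨zero_le_one, le_rfl⟩
  rw [gronwallBound_ε0] at hg
  simpa [hγ, mul_comm] using hg

theorem K_nonneg {K : ℝ} {f : ℂ → ℂ} (h : StOK K f) : 0 ≤ K := by
  have h0 : (0 : ℂ) ∈ ball (0 : ℂ) 1 := mem_ball_self one_pos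
  have h1 := h.pre 0 h0
  have h2 : 0 < ‖deriv f 0‖ := norm_pos_iff.2 (h.ne 0 h0)
  have h3 : 0 ≤ K * ‖deriv f 0‖ := le_trans (by simp) h1
  exact nonneg_of_mul_nonneg_left h3 h2

theorem W_harn {K b : ℝ} {f : ℂ → ℂ} (h : StOK K f) (hb0 : 0 ≤ b) (hb1 : b ≤ 1) {z0 z : ℂ}
    (h0 : 9 / 10 ≤ ‖z0‖ ^ 2) (h1 : ‖z0‖ < 1) (hz : ‖z - z0‖ < 1 / 8 * (1 - ‖z0‖ ^ 2)) :
    stW b f z0 ≤ 4 * Real.exp (K / 4) * stW b f z := by
  have hK := K_nonneg h
  have a0 := norm_nonneg z0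
  have hd : 0 < 1 - ‖z0‖ ^ 2 := by nlinarith
  set d0 := 1 - ‖z0‖ ^ 2 with hd0
  obtain ⟨g1, g2, g3⟩ := Lip.geo h1 (z := z) (by linarith)
  have hh := harn h (convex_closedBall z0 (d0 / 8)) (m := d0 / 2) (by positivity)
    (fun x hx => by
      rw [mem_closedBall, dist_eq_norm] at hx
      obtain ⟨k1, k2, _⟩ := Lip.geo h1 (z := x) (by linarith)
      exact ⟨k1, k2⟩) (z := z0) (w := z) (mem_closedBall_self (by positivity))
    (by rw [mem_closedBall, dist_eq_norm]; linarith)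
  have he : Real.exp (K / (d0 / 2) * ‖z - z0‖) ≤ Real.exp (K / 4) := by
    apply Real.exp_le_exp.2
    calc K / (d0 / 2) * ‖z - z0‖ ≤ K / (d0 / 2) * (1 / 8 * d0) := by gcongr
      _ = K / 4 := by field_simp; ring
  have p0 : 0 < ‖deriv f z0‖ := norm_pos_iff.2 (h.ne z0 (by simpa using h1))
  have p1 : 0 < ‖deriv f z‖ := norm_pos_iff.2 (h.ne z (by simpa using g1))
  have t1 : ‖deriv f z0‖⁻¹ ≤ Real.exp (K / 4) * ‖deriv f z‖⁻¹ := by
    rw [← div_eq_mul_inv, le_div_iff₀ p1, inv_mul_le_iff₀ p0]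
    calc ‖deriv f z‖ ≤ Real.exp (K / 4) * ‖deriv f z0‖ := hh.trans (by gcongr)
      _ = _ := mul_comm _ _
  have hdz : 0 < 1 - ‖z‖ ^ 2 := by linarith
  have t2 : d0 ^ (b - 1) ≤ 2 * (1 - ‖z‖ ^ 2) ^ (b - 1) := by
    calc d0 ^ (b - 1) ≤ ((1 - ‖z‖ ^ 2) / 2) ^ (b - 1) :=
          Real.rpow_le_rpow_of_nonpos (by positivity) (by linarith) (by linarith)
      _ = (1 - ‖z‖ ^ 2) ^ (b - 1) * 2 ^ (1 - b) := by
          rw [Real.div_rpow hdz.le (by norm_num), div_eq_mul_inv, ← Real.rpow_neg (by norm_num)]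
          congr 2; ring
      _ ≤ (1 - ‖z‖ ^ 2) ^ (b - 1) * 2 ^ (1 : ℝ) := by
          gcongr
          · norm_num
          · linarith
      _ = _ := by rw [Real.rpow_one]; ring
  have hz0 : 1 / 2 ≤ ‖z0‖ := by nlinarith
  have hzp : 0 < ‖z‖ := by
    have : ‖z0‖ ≤ ‖z‖ + ‖z - z0‖ := by
      calc ‖z0‖ = ‖z - (z - z0)‖ := by ring_nf
        _ ≤ _ := norm_sub_le _ _
    nlinarith
  have t3 : ‖z0‖⁻¹ ≤ 2 * ‖z‖⁻¹ := by
    rw [← div_eq_mul_inv, le_div_iff₀ hzp, inv_mul_le_iff₀ (by linarith)]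
    linarith
  unfold stW
  calc ‖deriv f z0‖⁻¹ * d0 ^ (b - 1) * ‖z0‖⁻¹
      ≤ (Real.exp (K / 4) * ‖deriv f z‖⁻¹) * (2 * (1 - ‖z‖ ^ 2) ^ (b - 1)) * (2 * ‖z‖⁻¹) := by
        gcongr
    _ = _ := by ring

theorem W_inner {K b : ℝ} {f : ℂ → ℂ} (h : StOK K f) (hb0 : 0 ≤ b) (hb1 : b ≤ 1)
    (hf0 : deriv f 0 = 1) {z : ℂ} (hz : ‖z‖ ^ 2 ≤ 9 / 10) :
    stW b f z ≤ 10 * Real.exp (10 * K) * ‖z‖⁻¹ := by
  have hK := K_nonneg h
  have az := norm_nonneg z
  have hz1 : ‖z‖ < 1 := by nlinarith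
  have hh := harn h (convex_closedBall (0 : ℂ) ‖z‖) (m := 1 / 10) (by norm_num)
    (fun x hx => by
      rw [mem_closedBall_zero_iff] at hx
      have := norm_nonneg x
      exact ⟨by linarith, by nlinarith⟩) (z := z) (w := 0) (by simp) (by simp)
  rw [hf0, norm_one] at hh
  have he : Real.exp (K / (1 / 10) * ‖0 - z‖) ≤ Real.exp (10 * K) := by
    apply Real.exp_le_exp.2
    rw [zero_sub, norm_neg]
    nlinarith
  have p1 : 0 < ‖deriv f z‖ := norm_pos_iff.2 (h.ne z (by simpa using hz1))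
  have t1 : ‖deriv f z‖⁻¹ ≤ Real.exp (10 * K) := by
    rw [inv_le_iff_one_le_mul₀ p1]
    exact hh.trans (by gcongr)
  have t2 : (1 - ‖z‖ ^ 2) ^ (b - 1) ≤ 10 := by
    calc (1 - ‖z‖ ^ 2) ^ (b - 1) ≤ (1 / 10 : ℝ) ^ (b - 1) :=
          Real.rpow_le_rpow_of_nonpos (by norm_num) (by linarith) (by linarith)
      _ ≤ (1 / 10 : ℝ) ^ (-1 : ℝ) :=
          Real.rpow_le_rpow_of_exponent_ge (by norm_num) (by norm_num) (by linarith)
      _ = 10 := by rw [Real.rpow_neg_one]; norm_num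
  unfold stW
  have : 0 ≤ (1 - ‖z‖ ^ 2) ^ (b - 1) := Real.rpow_nonneg (by nlinarith) _
  calc ‖deriv f z‖⁻¹ * (1 - ‖z‖ ^ 2) ^ (b - 1) * ‖z‖⁻¹ ≤ Real.exp (10 * K) * 10 * ‖z‖⁻¹ := by
        gcongr
    _ = _ := by ring

theorem inv_fin : ∫⁻ z in ball (0 : ℂ) 1, ENNReal.ofReal ‖z‖⁻¹ ≠ ⊤ := by
  have h : IntegrableOn (fun z : ℂ => ‖z‖⁻¹) (ball 0 1) volume := by
    refine integrableOn_ball_of_norm_le_rpow (C := 1) (α := 1) (by simp) (by simp) ?_ ?_
    · exact Filter.Eventually.of_forall fun z => by simp [Real.rpow_neg_one]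
    · exact (measurable_norm.inv).aestronglyMeasurable
  exact h.lintegral_lt_top.ne

end N25

open N25 in
theorem nonDeg : NonDeg := by
  intro K
  by_cases hK : 0 ≤ K
  swap
  · exact ⟨1, one_pos, 0, fun b c f _ _ _ _ h _ => absurd (K_nonneg h) hK⟩
  have hL := Lip.L2_pos hK
  set δ : ℝ := 1 / 12800 with hδ
  set η : ℝ := min (1 / 16) (δ / Lip.L2 K) with hη
  have hη0 : 0 < η := lt_min (by norm_num) (by positivity)
  have hη1 : η ≤ 1 / 16 := min_le_left _ _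
  have hη2 : Lip.L2 K * η ≤ δ := by
    have : η ≤ δ / Lip.L2 K := min_le_right _ _
    rw [le_div_iff₀ hL] at this; linarith
  set H : ℝ := 4 * Real.exp (K / 4) with hH
  have hH0 : 0 < H := by positivity
  set e : ℝ := δ * η ^ 2 / H with he
  have he0 : 0 < e := by positivity
  set J : ℝ := (∫⁻ z in ball (0 : ℂ) 1, ENNReal.ofReal ‖z‖⁻¹).toReal with hJ
  have hJ0 : 0 ≤ J := ENNReal.toReal_nonneg
  refine ⟨e, he0, e * (10 * Real.exp (10 * K) * J), fun b c f hb0 hb1 hc0 hc1 h hf0 => ?_⟩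
  set φ : ℂ → ℂ := fun z => deriv (deriv f) z / deriv f z with hφ
  have hf1 : DifferentiableOn ℂ (deriv f) (ball 0 1) := h.diff.deriv isOpen_ball
  have hφd : DifferentiableOn ℂ φ (ball 0 1) := (hf1.deriv isOpen_ball).div hf1 h.ne
  have hφb : ∀ z ∈ ball (0 : ℂ) 1, (1 - ‖z‖ ^ 2) * ‖φ z‖ ≤ K := by
    intro z hz
    have p1 : 0 < ‖deriv f z‖ := norm_pos_iff.2 (h.ne z hz)
    simp only [hφ, norm_div]
    rw [← mul_div_assoc, div_le_iff₀ p1]
    exact h.pre z hz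
  have hX : ∀ z, stX c f z = Lip.PP φ c z := fun z => rfl
  set W : ℂ → ℝ≥0∞ := fun z => ENNReal.ofReal (stW b f z) with hW
  have hWm : Measurable W := (measurable_stW b f).ennreal_ofReal
  set A : Set ℂ := {z | 9 / 10 ≤ ‖z‖ ^ 2} ∩ ball 0 1 with hA
  set N : Set ℂ := {z | δ ≤ |‖stX c f z‖ ^ 2 - 1|} ∩ ball 0 1 with hN
  have hAm : MeasurableSet A :=
    (measurableSet_le measurable_const (measurable_norm.pow_const 2)).inter measurableSet_ball
  have hNm : MeasurableSet N := by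
    have := measurable_stX c f
    exact (measurableSet_le measurable_const (by fun_prop)).inter measurableSet_ball
  have hD := doubling W hWm A N hAm hNm inter_subset_right (1 / 8) η hη0 le_rfl (ENNReal.ofReal H)
    (fun z0 hz0 z hz => by
      simp only [hW]
      rw [← ENNReal.ofReal_mul hH0.le]
      exact ENNReal.ofReal_le_ofReal
        (W_harn h (by linarith) (by linarith) hz0.1 (by simpa using hz0.2) hz))
    (fun z0 hz0 => by
      have h1 : ‖z0‖ < 1 := by simpa using hz0.2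
      have a0 := norm_nonneg z0
      have hd : 0 < 1 - ‖z0‖ ^ 2 := by nlinarith
      have key : ∃ z1, ‖z1 - z0‖ ≤ 1 / 16 * (1 - ‖z0‖ ^ 2) ∧
          2 * δ ≤ |‖Lip.PP φ c z1‖ ^ 2 - 1| := by
        have hq : ∀ z, SM.Q c (fun z => z * φ z) z = ‖Lip.PP φ c z‖ ^ 2 - 1 := by
          intro z; unfold SM.Q Lip.PP; rw [mul_assoc]
        rcases SM.strict_max (c := c) (ρ := 1 / 16) (by linarith) (by linarith)
          (by norm_num) (by norm_num) (h := fun z => z * φ z)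
          (differentiableOn_id.mul hφd) hz0.1 h1 with h2 | ⟨z1, h2, h3⟩
        · refine ⟨z0, by rw [sub_self, norm_zero]; positivity, ?_⟩
          rw [hq] at h2
          refine le_trans ?_ (le_abs_self _)
          rw [hδ]; linarith
        · refine ⟨z1, by rwa [mem_closedBall, dist_eq_norm] at h2, ?_⟩
          rw [hq] at h3
          refine le_trans ?_ (neg_le_abs _)
          rw [hδ]; linarith
      obtain ⟨z1, k1, k2⟩ := key
      refine ⟨z1, fun z hz => ?_⟩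
      rw [mem_ball, dist_eq_norm] at hz
      obtain ⟨s1, s2⟩ := Lip.subdisc (c := c) (by linarith) (by linarith) hφd hφb le_rfl hη1 hη2
        h1 k1 hz
      have s3 := (Lip.geo h1 (z := z) (by linarith)).1
      refine ⟨⟨?_, by simpa using s3⟩, by rw [mem_ball, dist_eq_norm]; linarith⟩
      show δ ≤ |‖stX c f z‖ ^ 2 - 1|
      rw [hX]
      have := abs_sub_abs_le_abs_sub (‖Lip.PP φ c z1‖ ^ 2 - 1) (‖Lip.PP φ c z‖ ^ 2 - 1)
      have e1 : ‖Lip.PP φ c z1‖ ^ 2 - 1 - (‖Lip.PP φ c z‖ ^ 2 - 1) =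
          -(‖Lip.PP φ c z‖ ^ 2 - ‖Lip.PP φ c z1‖ ^ 2) := by ring
      rw [e1, abs_neg] at this
      linarith)
  set I : ℝ≥0∞ := ∫⁻ z in ball (0 : ℂ) 1, ENNReal.ofReal (|‖stX c f z‖ ^ 2 - 1| * stW b f z)
    with hI
  have hNI : ENNReal.ofReal δ * ∫⁻ z in N, W z ≤ I := by
    rw [← lintegral_const_mul _ hWm]
    calc ∫⁻ z in N, ENNReal.ofReal δ * W z
        ≤ ∫⁻ z in N, ENNReal.ofReal (|‖stX c f z‖ ^ 2 - 1| * stW b f z) := by
          refine setLIntegral_mono' hNm fun z hz => ?_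
          simp only [hW]
          rw [← ENNReal.ofReal_mul (by norm_num [hδ])]
          exact ENNReal.ofReal_le_ofReal (mul_le_mul_of_nonneg_right hz.1 (stW_nonneg b f hz.2))
      _ ≤ I := lintegral_mono_set inter_subset_right
  have hAI : ENNReal.ofReal e * ∫⁻ z in A, W z ≤ I := by
    calc ENNReal.ofReal e * ∫⁻ z in A, W z
        ≤ ENNReal.ofReal e * (ENNReal.ofReal H * ENNReal.ofReal (1 / η ^ 2) * ∫⁻ z in N, W z) := by
          gcongr
      _ = ENNReal.ofReal δ * ∫⁻ z in N, W z := by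
          rw [← mul_assoc, ← ENNReal.ofReal_mul hH0.le, ← ENNReal.ofReal_mul he0.le]
          congr 2
          rw [he]; field_simp
      _ ≤ I := hNI
  have hin : ∫⁻ z in ball (0 : ℂ) 1 \ A, W z ≤ ENNReal.ofReal (10 * Real.exp (10 * K) * J) := by
    calc ∫⁻ z in ball (0 : ℂ) 1 \ A, W z
        ≤ ∫⁻ z in ball (0 : ℂ) 1 \ A,
            ENNReal.ofReal (10 * Real.exp (10 * K)) * ENNReal.ofReal ‖z‖⁻¹ := by
          refine setLIntegral_mono' (measurableSet_ball.diff hAm) fun z hz => ?_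
          simp only [hW]
          rw [← ENNReal.ofReal_mul (by positivity)]
          refine ENNReal.ofReal_le_ofReal (W_inner h (by linarith) (by linarith) hf0 ?_)
          by_contra hc
          exact hz.2 ⟨(not_le.1 hc).le, hz.1⟩
      _ ≤ ∫⁻ z in ball (0 : ℂ) 1,
            ENNReal.ofReal (10 * Real.exp (10 * K)) * ENNReal.ofReal ‖z‖⁻¹ :=
          lintegral_mono_set sdiff_subset
      _ = _ := by
          rw [lintegral_const_mul' _ _ ENNReal.ofReal_ne_top,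
            ENNReal.ofReal_mul (by positivity : 0 ≤ 10 * Real.exp (10 * K)), hJ,
            ENNReal.ofReal_toReal inv_fin]
  have hsplit : stM b f ≤ (∫⁻ z in A, W z) + ∫⁻ z in ball (0 : ℂ) 1 \ A, W z := by
    unfold stM
    refine le_trans (lintegral_mono_set ?_) (lintegral_union_le _ _ _)
    intro z hz
    by_cases hzA : z ∈ A
    · exact Or.inl hzA
    · exact Or.inr ⟨hz, hzA⟩
  calc ENNReal.ofReal e * stM b f
      ≤ ENNReal.ofReal e * ((∫⁻ z in A, W z) + ∫⁻ z in ball (0 : ℂ) 1 \ A, W z) := by gcongr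
    _ = ENNReal.ofReal e * (∫⁻ z in A, W z) +
          ENNReal.ofReal e * ∫⁻ z in ball (0 : ℂ) 1 \ A, W z := mul_add _ _ _
    _ ≤ I + ENNReal.ofReal e * ENNReal.ofReal (10 * Real.exp (10 * K) * J) := by gcongr
    _ = _ := by rw [← ENNReal.ofReal_mul he0.le]

end Crest.Agent.R131
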