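import Crest.Agent.R131.Wt87A

/-!
# Row 131, weights (helper87), part B: two integrations by parts in the radius
-/

set_option autoImplicit false

open MeasureTheory Set Metric
open scoped ENNReal ComplexConjugate

noncomputable section

namespace Crest.Agent.R131.W87

theorem polar (F : ℂ → ℝ) (hF : ContinuousOn F (ball 0 1 \ {0}))
    (h0 : ∀ z ∈ ball (0 : ℂ) 1, 0 ≤ F z) :
    ∫⁻ z in ball (0 : ℂ) 1, ENNReal.ofReal (F z) =
      ∫⁻ r in Ioo (0 : ℝ) 1, ENNReal.ofReal (r * ∫ θ in (-Real.pi)..Real.pi, F (pt r θ)) := by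
  have hmem : ∀ r ∈ Ioo (0 : ℝ) 1, ∀ θ, pt r θ ∈ ball (0 : ℂ) 1 \ {0} := by
    intro r hr θ
    refine ⟨pt_mem (by rw [abs_of_pos hr.1]; exact hr.2) θ, fun h => ?_⟩
    have := norm_pt r θ
    rw [mem_singleton_iff.1 h, norm_zero, abs_of_pos hr.1] at this
    exact hr.1.ne this
  have hsym : ∀ p : ℝ × ℝ, Complex.polarCoord.symm p = pt p.1 p.2 := by
    intro p
    rw [Complex.polarCoord_symm_apply, pt, Complex.exp_mul_I]
    simp
  rw [← lintegral_indicator measurableSet_ball, ← Complex.lintegral_comp_polarCoord_symm]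
  have hS : MeasurableSet (Ioo (0 : ℝ) 1 ×ˢ Ioo (-Real.pi) Real.pi) :=
    measurableSet_Ioo.prod measurableSet_Ioo
  have e1 : ∫⁻ p in polarCoord.target, ENNReal.ofReal p.1 •
      (ball (0 : ℂ) 1).indicator (fun z => ENNReal.ofReal (F z)) (Complex.polarCoord.symm p) =
      ∫⁻ p in Ioo (0 : ℝ) 1 ×ˢ Ioo (-Real.pi) Real.pi,
        ENNReal.ofReal (p.1 * F (pt p.1 p.2)) := by
    rw [← lintegral_indicator hS, ← lintegral_indicator polarCoord.open_target.measurableSet]
    refine lintegral_congr fun p => ?_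
    by_cases hp : p ∈ Ioo (0 : ℝ) 1 ×ˢ Ioo (-Real.pi) Real.pi
    · have hp' : p ∈ polarCoord.target := ⟨hp.1.1, hp.2⟩
      rw [indicator_of_mem hp, indicator_of_mem hp', hsym,
        indicator_of_mem (hmem _ hp.1 _).1, smul_eq_mul, ENNReal.ofReal_mul hp.1.1.le]
    · rw [indicator_of_notMem hp]
      by_cases hp' : p ∈ polarCoord.target
      · rw [indicator_of_mem hp', hsym, indicator_of_notMem, smul_zero]
        intro h
        have h1 : ‖pt p.1 p.2‖ < 1 := by simpa using h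
        rw [norm_pt, abs_of_pos hp'.1] at h1
        exact hp ⟨⟨hp'.1, h1⟩, hp'.2⟩
      · rw [indicator_of_notMem hp']
  rw [e1]
  have hc : ContinuousOn (fun p : ℝ × ℝ => p.1 * F (pt p.1 p.2))
      (Ioo (0 : ℝ) 1 ×ˢ Ioo (-Real.pi) Real.pi) := by
    refine continuousOn_fst.mul (hF.comp (f := fun p : ℝ × ℝ => pt p.1 p.2) ?_ ?_)
    · exact Continuous.continuousOn (by unfold pt; fun_prop)
    · exact fun p hp => hmem _ hp.1 _
  have hm : AEMeasurable (fun p : ℝ × ℝ => ENNReal.ofReal (p.1 * F (pt p.1 p.2)))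
      ((volume.restrict (Ioo (0 : ℝ) 1)).prod (volume.restrict (Ioo (-Real.pi) Real.pi))) := by
    rw [Measure.prod_restrict]
    exact (hc.aemeasurable hS).ennreal_ofReal
  rw [Measure.volume_eq_prod, ← Measure.prod_restrict, lintegral_prod _ hm]
  refine setLIntegral_congr_fun measurableSet_Ioo fun r hr => ?_
  have hcr : Continuous fun θ => r * F (pt r θ) :=
    continuous_const.mul (hF.comp_continuous (cont_pt r) (hmem r hr))
  have hpi : -Real.pi ≤ Real.pi := by linarith [Real.pi_pos]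
  simp only
  rw [← intervalIntegral.integral_const_mul, intervalIntegral.integral_of_le hpi,
    integral_Ioc_eq_integral_Ioo, ofReal_integral_eq_lintegral_ofReal]
  · exact (hcr.integrableOn_Icc).mono_set Ioo_subset_Icc_self
  · exact Filter.Eventually.of_forall fun θ => mul_nonneg hr.1.le (h0 _ (hmem r hr θ).1)

/-- the radial weight -/
def om (τ b r : ℝ) : ℝ := r ^ (τ - 1) * (1 - r ^ 2) ^ (b - 1)

theorem om_nonneg (τ b : ℝ) {r : ℝ} (hr : r ∈ Icc (0 : ℝ) 1) : 0 ≤ om τ b r := by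
  have : 0 ≤ 1 - r ^ 2 := by nlinarith [hr.1, hr.2]
  have := hr.1
  unfold om; positivity

theorem om_int {τ b : ℝ} (hτ : 0 < τ) (hb : 0 < b) : IntervalIntegrable (om τ b) volume 0 1 := by
  refine IntervalIntegrable.trans (b := 1 / 2) ?_ ?_
  · refine (intervalIntegral.intervalIntegrable_rpow' (by linarith)).mul_continuousOn ?_
    refine ContinuousOn.rpow_const (by fun_prop) fun x hx => Or.inl ?_
    rw [uIcc_of_le (by norm_num)] at hx
    nlinarith [hx.1, hx.2]
  · have h1 : IntervalIntegrable (fun r : ℝ => (1 - r) ^ (b - 1)) volume (1 / 2) 1 := by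
      have := (intervalIntegral.intervalIntegrable_rpow' (a := 1 / 2) (b := 0)
        (r := b - 1) (by linarith)).comp_sub_left 1
      norm_num at this ⊢
      exact this
    have h2 : ContinuousOn (fun r : ℝ => r ^ (τ - 1) * (1 + r) ^ (b - 1)) (uIcc (1 / 2) 1) := by
      rw [uIcc_of_le (by norm_num)]
      refine ContinuousOn.mul (ContinuousOn.rpow_const (by fun_prop) fun x hx => Or.inl ?_)
        (ContinuousOn.rpow_const (by fun_prop) fun x hx => Or.inl ?_)
      · linarith [hx.1]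
      · linarith [hx.1]
    refine (h1.continuousOn_mul h2).congr ?_
    intro r hr
    rw [uIoc_of_le (by norm_num)] at hr
    have : 1 - r ^ 2 = (1 + r) * (1 - r) := by ring
    simp only [om]
    rw [this, Real.mul_rpow (by linarith [hr.1]) (by linarith [hr.2]), mul_assoc]

theorem om_mul_int {τ b : ℝ} (hτ : 0 < τ) (hb : 0 < b) {φ : ℝ → ℝ}
    (hφ : ContinuousOn φ (Icc 0 1)) :
    IntervalIntegrable (fun r => om τ b r * φ r) volume 0 1 :=
  (om_int hτ hb).mul_continuousOn (by rwa [uIcc_of_le zero_le_one])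

theorem lint_om {τ b : ℝ} (hτ : 0 < τ) (hb : 0 < b) {φ : ℝ → ℝ}
    (hφ : ContinuousOn φ (Icc 0 1)) (h0 : ∀ r ∈ Icc (0 : ℝ) 1, 0 ≤ φ r) :
    ∫⁻ r in Ioo (0 : ℝ) 1, ENNReal.ofReal (om τ b r * φ r) =
      ENNReal.ofReal (∫ r in (0 : ℝ)..1, om τ b r * φ r) := by
  rw [intervalIntegral.integral_of_le zero_le_one, integral_Ioc_eq_integral_Ioo,
    ofReal_integral_eq_lintegral_ofReal]
  · exact ((intervalIntegrable_iff_integrableOn_Ioo_of_le zero_le_one).1 (om_mul_int hτ hb hφ))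
  · filter_upwards [ae_restrict_mem measurableSet_Ioo] with r hr
    exact mul_nonneg (om_nonneg τ b (Ioo_subset_Icc_self hr)) (h0 r (Ioo_subset_Icc_self hr))

/-- integration by parts against the weight -/
theorem ibp {τ b : ℝ} (hτ : 0 < τ) (hb : 0 < b) {u u' : ℝ → ℝ} (hu : ContinuousOn u (Icc 0 1))
    (hu' : ContinuousOn u' (Icc 0 1)) (hd : ∀ r ∈ Ioo (0 : ℝ) 1, HasDerivAt u (u' r / r) r) :
    ∫ r in (0 : ℝ)..1, om τ b r *
      ((τ * (1 - r ^ 2) - 2 * b * r ^ 2) * u r + (1 - r ^ 2) * u' r) = 0 := by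
  have hc : ContinuousOn (fun r : ℝ => r ^ τ * (1 - r ^ 2) ^ b * u r) (Icc 0 1) :=
    ((ContinuousOn.rpow_const (by fun_prop) fun x _ => Or.inr hτ.le).mul
      (ContinuousOn.rpow_const (by fun_prop) fun x _ => Or.inr hb.le)).mul hu
  have h := intervalIntegral.integral_eq_sub_of_hasDerivAt_of_le zero_le_one hc
    (f' := fun r => om τ b r * ((τ * (1 - r ^ 2) - 2 * b * r ^ 2) * u r + (1 - r ^ 2) * u' r)) ?_
    (om_mul_int hτ hb ((ContinuousOn.mul (by fun_prop) hu).add (ContinuousOn.mul (by fun_prop) hu')))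
  · rw [h]; simp [Real.zero_rpow hτ.ne', Real.zero_rpow hb.ne']
  · intro r hr
    have hd0 : 0 < 1 - r ^ 2 := by nlinarith [hr.1, hr.2]
    have h1 : HasDerivAt (fun r : ℝ => r ^ τ) (τ * r ^ (τ - 1)) r :=
      Real.hasDerivAt_rpow_const (Or.inl hr.1.ne')
    have h2 : HasDerivAt (fun r : ℝ => 1 - r ^ 2) (-(2 * r)) r := by
      simpa using (hasDerivAt_pow 2 r).const_sub 1
    have h3 := h2.rpow_const (p := b) (Or.inl hd0.ne')
    refine HasDerivAt.congr_deriv ((h1.mul h3).mul (hd r hr)) ?_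
    have e1 : r ^ τ = r ^ (τ - 1) * r := by
      rw [← Real.rpow_add_one hr.1.ne']; simp
    have e2 : (1 - r ^ 2) ^ b = (1 - r ^ 2) ^ (b - 1) * (1 - r ^ 2) := by
      rw [← Real.rpow_add_one hd0.ne']; simp
    have := hr.1.ne'
    simp only [om, Pi.mul_apply, e1, e2]
    field_simp
    ring

/-- the polynomial `Θ` -/
def Th (τ c b r : ℝ) : ℝ :=
  c ^ 2 * (r ^ 2) ^ 2 -
    (τ * (1 - r ^ 2) - 2 * b * r ^ 2) / 2 *
      ((4 * (b + 1) / τ ^ 2 - 4 * c / τ) * r ^ 2 - 2 / τ * (1 - r ^ 2)) -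
    r ^ 2 * (1 - r ^ 2) * ((4 * (b + 1) / τ ^ 2 - 4 * c / τ) + 2 / τ)

theorem main_id {τ b : ℝ} (c : ℝ) (hτ : 0 < τ) (hb : 0 < b) {g : ℂ → ℂ} {R : ℝ} (hR : 1 < R)
    (h : DifferentiableOn ℂ g (ball 0 R)) :
    ∫ r in (0 : ℝ)..1, om τ b r * ((c * r ^ 2) ^ 2 * mm g r -
      2 * (c * r ^ 2) * (2 / τ * (1 - r ^ 2)) * AA g r + (2 / τ * (1 - r ^ 2)) ^ 2 * BB g r) =
      ∫ r in (0 : ℝ)..1, om τ b r * (Th τ c b r * mm g r) := by
  have cm := mm_cont hR h
  have cA := AA_cont hR h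
  have cB := BB_cont hR h
  set p := 4 * (b + 1) / τ ^ 2 - 4 * c / τ with hp
  have i1 := ibp hτ hb (u := fun r => (1 - r ^ 2) * AA g r)
    (u' := fun r => -(2 * r ^ 2) * AA g r + (1 - r ^ 2) * (2 * BB g r))
    (ContinuousOn.mul (by fun_prop) cA)
    ((ContinuousOn.mul (by fun_prop) cA).add
      (ContinuousOn.mul (by fun_prop) (continuousOn_const.mul cB))) (by
      intro r hr
      have h2 : HasDerivAt (fun r : ℝ => 1 - r ^ 2) (-(2 * r)) r := by
        simpa using (hasDerivAt_pow 2 r).const_sub 1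
      refine HasDerivAt.congr_deriv (h2.mul (AA_deriv h hr.1 (by linarith [hr.2]))) ?_
      have := hr.1.ne'
      field_simp)
  have i2 := ibp hτ hb (u := fun r => (p * r ^ 2 - 2 / τ * (1 - r ^ 2)) * mm g r)
    (u' := fun r => 2 * r ^ 2 * (p + 2 / τ) * mm g r +
      (p * r ^ 2 - 2 / τ * (1 - r ^ 2)) * (2 * AA g r))
    (ContinuousOn.mul (by fun_prop) cm)
    ((ContinuousOn.mul (by fun_prop) cm).add
      (ContinuousOn.mul (by fun_prop) (continuousOn_const.mul cA))) (by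
      intro r hr
      have h1 : HasDerivAt (fun r : ℝ => r ^ 2) (2 * r) r := by
        simpa using hasDerivAt_pow 2 r
      have h2 := (h1.const_mul p).sub ((h1.const_sub 1).const_mul (2 / τ))
      refine HasDerivAt.congr_deriv (h2.mul (mm_deriv h hr.1 (by linarith [hr.2]))) ?_
      have := hr.1.ne'
      simp only [Pi.sub_apply]
      field_simp
      ring)
  have j0 := om_mul_int hτ hb (φ := fun r => Th τ c b r * mm g r)
    (ContinuousOn.mul (by unfold Th; fun_prop) cm)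
  have j1 := om_mul_int hτ hb (φ := fun r => (τ * (1 - r ^ 2) - 2 * b * r ^ 2) *
    ((1 - r ^ 2) * AA g r) + (1 - r ^ 2) * (-(2 * r ^ 2) * AA g r + (1 - r ^ 2) * (2 * BB g r)))
    ((ContinuousOn.mul (by fun_prop) (ContinuousOn.mul (by fun_prop) cA)).add
      (ContinuousOn.mul (by fun_prop) ((ContinuousOn.mul (by fun_prop) cA).add
        (ContinuousOn.mul (by fun_prop) (continuousOn_const.mul cB)))))
  have j2 := om_mul_int hτ hb (φ := fun r => (τ * (1 - r ^ 2) - 2 * b * r ^ 2) *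
    ((p * r ^ 2 - 2 / τ * (1 - r ^ 2)) * mm g r) + (1 - r ^ 2) *
      (2 * r ^ 2 * (p + 2 / τ) * mm g r + (p * r ^ 2 - 2 / τ * (1 - r ^ 2)) * (2 * AA g r)))
    ((ContinuousOn.mul (by fun_prop) (ContinuousOn.mul (by fun_prop) cm)).add
      (ContinuousOn.mul (by fun_prop) ((ContinuousOn.mul (by fun_prop) cm).add
        (ContinuousOn.mul (by fun_prop) (continuousOn_const.mul cA)))))
  have key := intervalIntegral.integral_add (j0.add (j1.const_mul (2 / τ ^ 2))) (j2.const_mul (1 / 2))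
  rw [intervalIntegral.integral_add j0 (j1.const_mul (2 / τ ^ 2)),
    intervalIntegral.integral_const_mul, intervalIntegral.integral_const_mul, i1, i2] at key
  simp only [mul_zero, add_zero] at key
  rw [← key]
  refine intervalIntegral.integral_congr fun r _ => ?_
  have := hτ.ne'
  simp only [Th, hp]
  field_simp
  ring

theorem Th_lower {τ b : ℝ} (c : ℝ) (hτ : 0 < τ) (hb : 0 < b) : ∃ K : ℝ, 0 < K ∧
    ∀ r ∈ Icc (0 : ℝ) 1,
      (c - 2 * b / τ) ^ 2 + 4 * b / τ ^ 2 - K * (1 - r ^ 2) ≤ Th τ c b r := by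
  set p := 4 * (b + 1) / τ ^ 2 - 4 * c / τ with hp
  set T := (c - 2 * b / τ) ^ 2 + 4 * b / τ ^ 2 with hT
  have hc : ContinuousOn (fun s : ℝ => -(T * (1 + s)) - b * (2 / τ) * s -
      τ / 2 * (p * s - 2 / τ * (1 - s)) - s * (p + 2 / τ)) (Icc 0 1) := by fun_prop
  obtain ⟨M, hM⟩ := isCompact_Icc.exists_bound_of_continuousOn hc
  refine ⟨max M 1, lt_of_lt_of_le one_pos (le_max_right _ _), fun r hr => ?_⟩
  have hs : r ^ 2 ∈ Icc (0 : ℝ) 1 := ⟨by positivity, by nlinarith [hr.1, hr.2]⟩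
  have h1 := (abs_le.1 (hM _ hs)).1
  have h2 : M ≤ max M 1 := le_max_left _ _
  have e : Th τ c b r = T + (1 - r ^ 2) * (-(T * (1 + r ^ 2)) - b * (2 / τ) * r ^ 2 -
      τ / 2 * (p * r ^ 2 - 2 / τ * (1 - r ^ 2)) - r ^ 2 * (p + 2 / τ)) := by
    have := hτ.ne'
    simp only [Th, hp, hT]
    field_simp
    ring
  rw [e]
  nlinarith [hs.2]

theorem lint_mass {τ b : ℝ} (hτ : 0 < τ) (hb : 0 < b) {g : ℂ → ℂ} {R : ℝ} (hR : 1 < R)
    (h : DifferentiableOn ℂ g (ball 0 R)) (α β : ℝ → ℝ) (hα : Continuous α) (hβ : Continuous β) :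
    ∫⁻ z in ball (0 : ℂ) 1, ENNReal.ofReal (‖(α ‖z‖ : ℂ) * g z - (β ‖z‖ : ℂ) * NN g z‖ ^ 2 *
      (1 - ‖z‖ ^ 2) ^ (b - 1) * ‖z‖ ^ (τ - 2)) =
      ENNReal.ofReal (∫ r in (0 : ℝ)..1, om τ b r *
        (α r ^ 2 * mm g r - 2 * α r * β r * AA g r + β r ^ 2 * BB g r)) := by
  have hsub : ball (0 : ℂ) 1 \ {0} ⊆ ball 0 R := diff_subset.trans (ball_subset_ball hR.le)
  have hd : ∀ z ∈ ball (0 : ℂ) 1, 0 < 1 - ‖z‖ ^ 2 := by
    intro z hz
    have h : ‖z‖ < 1 := by simpa using hz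
    nlinarith [norm_nonneg z]
  rw [polar, ← lint_om hτ hb]
  · refine setLIntegral_congr_fun measurableSet_Ioo fun r hr => ?_
    have hr' : |r| < R := by rw [abs_of_pos hr.1]; linarith [hr.2]
    simp only [norm_pt, abs_of_pos hr.1]
    rw [intervalIntegral.integral_mul_const, intervalIntegral.integral_mul_const, quad_eq h hr']
    congr 1
    have e1 : r ^ (τ - 1) = r ^ (τ - 2) * r := by
      rw [← Real.rpow_add_one hr.1.ne']; congr 1; ring
    simp only [om, e1]
    ring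
  · exact (((hα.pow 2).continuousOn.mul (mm_cont hR h)).sub
      (((continuous_const.mul hα).mul hβ).continuousOn.mul (AA_cont hR h))).add
      ((hβ.pow 2).continuousOn.mul (BB_cont hR h))
  · intro r hr
    have hr' : |r| < R := by rw [abs_of_nonneg hr.1]; linarith [hr.2]
    rw [← quad_eq h hr']
    exact intervalIntegral.integral_nonneg (by linarith [Real.pi_pos]) fun _ _ => by positivity
  · refine ContinuousOn.mul (ContinuousOn.mul (ContinuousOn.pow (ContinuousOn.norm ?_) 2)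
      (ContinuousOn.rpow_const (by fun_prop) fun z hz => Or.inl (hd z hz.1).ne'))
      (ContinuousOn.rpow_const (by fun_prop) fun z hz => Or.inl (norm_ne_zero_iff.2 hz.2))
    exact (ContinuousOn.mul (Continuous.continuousOn (by fun_prop)) (h.continuousOn.mono hsub)).sub
      (ContinuousOn.mul (Continuous.continuousOn (by fun_prop))
        ((diff_NN h).continuousOn.mono hsub))
  · intro z hz
    have := hd z hz
    positivity

theorem tail_lower {τ b : ℝ} (hτ : 0 < τ) (hτ2 : τ ≤ 2) (hb : 0 < b) {r : ℝ} (h0 : 0 < r)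
    (h1 : r < 1) : (1 - r) ^ b / (2 * b) ≤ ∫ t in r..1, om τ b t := by
  have hi2 : IntervalIntegrable (om 2 b) volume r 1 :=
    (om_int two_pos hb).mono_set (by
      rw [uIcc_of_le h1.le, uIcc_of_le zero_le_one]; exact Icc_subset_Icc_left h0.le)
  have hi : IntervalIntegrable (om τ b) volume r 1 :=
    (om_int hτ hb).mono_set (by
      rw [uIcc_of_le h1.le, uIcc_of_le zero_le_one]; exact Icc_subset_Icc_left h0.le)
  have hc : ContinuousOn (fun t : ℝ => -((1 - t ^ 2) ^ b / (2 * b))) (Icc r 1) :=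
    ((ContinuousOn.rpow_const (by fun_prop) fun x _ => Or.inr hb.le).div_const _).neg
  have e := intervalIntegral.integral_eq_sub_of_hasDerivAt_of_le h1.le hc (f' := om 2 b) (by
    intro t ht
    have ht0 : 0 < t := h0.trans ht.1
    have hd0 : 0 < 1 - t ^ 2 := by nlinarith [ht.2]
    have h2 : HasDerivAt (fun r : ℝ => 1 - r ^ 2) (-(2 * t)) t := by
      simpa using (hasDerivAt_pow 2 t).const_sub 1
    have h3 := ((h2.rpow_const (p := b) (Or.inl hd0.ne')).div_const (2 * b)).neg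
    refine HasDerivAt.congr_deriv h3 ?_
    have := hb.ne'
    simp only [om]
    rw [show (2 : ℝ) - 1 = 1 by norm_num, Real.rpow_one]
    field_simp) hi2
  have m : ∫ t in r..1, om 2 b t ≤ ∫ t in r..1, om τ b t := by
    refine intervalIntegral.integral_mono_on h1.le hi2 hi fun t ht => ?_
    have ht0 : 0 < t := lt_of_lt_of_le h0 ht.1
    have hd0 : 0 ≤ 1 - t ^ 2 := by nlinarith [ht.2]
    exact mul_le_mul_of_nonneg_right
      (Real.rpow_le_rpow_of_exponent_ge ht0 ht.2 (by linarith)) (by positivity)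
  refine le_trans ?_ m
  rw [e]
  have : (1 - r) ^ b ≤ (1 - r ^ 2) ^ b :=
    Real.rpow_le_rpow (by linarith) (by nlinarith) hb.le
  simp only [one_pow, sub_self, Real.zero_rpow hb.ne', zero_div, neg_zero, zero_sub, neg_neg]
  gcongr

end Crest.Agent.R131.W87

namespace Crest.Agent.R131

open W87

/-- **Weights.** -/
theorem weights87 (τ c b η : ℝ) (hτ : 0 < τ) (hτ2 : τ ≤ 2) (hb : 0 < b) (hη : η ≤ 1)
    (hθ : 0 < (c - 2 * b / τ) ^ 2 + 4 * b / τ ^ 2 - 1 + η) :
    ∃ K : ℝ, 0 < K ∧ ∃ r₀ : ℝ, r₀ < 1 ∧ ∀ (g : ℂ → ℂ) (R : ℝ), 1 < R →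
      DifferentiableOn ℂ g (ball 0 R) → ∀ C₀ M₀ : ℝ, 0 ≤ C₀ →
      (∀ z : ℂ, ‖z‖ ≤ r₀ → ‖g z‖ ^ 2 ≤ M₀) → 0 ≤ M₀ →
      ∫⁻ z in ball (0 : ℂ) 1, ENNReal.ofReal (‖((c * ‖z‖ ^ 2 : ℝ) : ℂ) * g z -
          ((2 / τ * (1 - ‖z‖ ^ 2) : ℝ) : ℂ) * (z * deriv g z)‖ ^ 2 *
          (1 - ‖z‖ ^ 2) ^ (b - 1) * ‖z‖ ^ (τ - 2)) ≤
        ENNReal.ofReal (1 - η) * (∫⁻ z in ball (0 : ℂ) 1,
          ENNReal.ofReal (‖g z‖ ^ 2 * (1 - ‖z‖ ^ 2) ^ (b - 1) * ‖z‖ ^ (τ - 2))) +
          ENNReal.ofReal C₀ →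
      ∀ r : ℝ, 1 / 2 ≤ r → r < 1 →
        ∫⁻ θ in Ioc (-Real.pi) Real.pi,
          ENNReal.ofReal (‖g ((r : ℂ) * Complex.exp ((θ : ℂ) * Complex.I))‖ ^ 2) ≤
          ENNReal.ofReal (K * (C₀ + M₀) * (1 - r) ^ (-b)) := by
  obtain ⟨K, hK, hTh⟩ := Th_lower c hτ hb
  set T := (c - 2 * b / τ) ^ 2 + 4 * b / τ ^ 2 with hT
  set γ := T - 1 + η with hγ
  set Ω := ∫ r in (0 : ℝ)..1, om τ b r with hΩ
  have hΩ0 : 0 ≤ Ω := intervalIntegral.integral_nonneg zero_le_one fun r hr => om_nonneg τ b hr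
  have hpi := Real.pi_pos
  refine ⟨4 * b / γ * (1 + 2 * Real.pi * K * Ω), by positivity, 1 - γ / (4 * K),
    by have : 0 < γ / (4 * K) := by positivity
       linarith, fun g R hR h C₀ M₀ hC hM hM0 H r hr1 hr2 => ?_⟩
  have cm := mm_cont hR h
  have m0 : ∀ r ∈ Icc (0 : ℝ) 1, 0 ≤ mm g r := fun r hr =>
    mm_nonneg h (by rw [abs_of_nonneg hr.1]; linarith [hr.2])
  have e1 := lint_mass hτ hb hR h (fun r => c * r ^ 2) (fun r => 2 / τ * (1 - r ^ 2))
    (by fun_prop) (by fun_prop)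
  have e2 := lint_mass hτ hb hR h (fun _ => 1) (fun _ => 0) (by fun_prop) (by fun_prop)
  rw [main_id c hτ hb hR h] at e1
  simp only [Complex.ofReal_one, one_mul, Complex.ofReal_zero, zero_mul, sub_zero, one_pow,
    mul_zero, ne_eq, OfNat.ofNat_ne_zero, not_false_eq_true, zero_pow, add_zero] at e2
  set W := ∫ r in (0 : ℝ)..1, om τ b r * mm g r with hW
  have hW0 : 0 ≤ W := intervalIntegral.integral_nonneg zero_le_one fun r hr =>
    mul_nonneg (om_nonneg τ b hr) (m0 r hr)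
  simp only [NN] at e1
  rw [e1, e2, ← ENNReal.ofReal_mul (by linarith),
    ← ENNReal.ofReal_add (mul_nonneg (by linarith) hW0) hC,
    ENNReal.ofReal_le_ofReal_iff (add_nonneg (mul_nonneg (by linarith) hW0) hC)] at H
  have iW := om_mul_int hτ hb cm
  have low : (T - γ / 2) * W - 2 * Real.pi * K * M₀ * Ω ≤
      ∫ r in (0 : ℝ)..1, om τ b r * (Th τ c b r * mm g r) := by
    rw [hW, hΩ, ← intervalIntegral.integral_const_mul, ← intervalIntegral.integral_const_mul,
      ← intervalIntegral.integral_sub (iW.const_mul _) ((om_int hτ hb).const_mul _)]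
    refine intervalIntegral.integral_mono_on zero_le_one
      ((iW.const_mul _).sub ((om_int hτ hb).const_mul _))
      (om_mul_int hτ hb (ContinuousOn.mul (by unfold Th; fun_prop) cm)) fun t ht => ?_
    have h1 := mul_le_mul_of_nonneg_right (hTh t ht) (m0 t ht)
    have h2 : K * (1 - t ^ 2) * mm g t ≤ γ / 2 * mm g t + 2 * Real.pi * K * M₀ := by
      have hm := m0 t ht
      by_cases htr : t ≤ 1 - γ / (4 * K)
      · have h3 : mm g t ≤ 2 * Real.pi * M₀ := by
          have ht' : |t| < R := by rw [abs_of_nonneg ht.1]; linarith [ht.2]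
          rw [mm_eq h ht']
          refine le_trans (intervalIntegral.integral_mono_on (g := fun _ => M₀) (by linarith)
            (((cont_comp h ht').norm.pow 2).intervalIntegrable _ _) intervalIntegrable_const
            fun θ _ => hM _ (by rw [norm_pt, abs_of_nonneg ht.1]; exact htr)) ?_
          simp only [intervalIntegral.integral_const, smul_eq_mul]
          linarith
        have h4 : K * (1 - t ^ 2) * mm g t ≤ K * mm g t := by
          have : 0 ≤ K * t ^ 2 * mm g t := by positivity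
          nlinarith
        have h5 : K * mm g t ≤ K * (2 * Real.pi * M₀) := mul_le_mul_of_nonneg_left h3 hK.le
        have h6 : 0 ≤ γ / 2 * mm g t := by positivity
        nlinarith
      · have h3 : 1 - t < γ / (4 * K) := by linarith [not_le.1 htr]
        rw [lt_div_iff₀ (by positivity)] at h3
        have h4 : K * (1 - t ^ 2) ≤ γ / 2 := by
          have : 0 ≤ K * (1 - t) ^ 2 := by positivity
          nlinarith
        have h5 := mul_le_mul_of_nonneg_right h4 hm
        have h6 : 0 ≤ 2 * Real.pi * K * M₀ := by positivity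
        linarith
    have h3 : (T - γ / 2) * mm g t - 2 * Real.pi * K * M₀ ≤ Th τ c b t * mm g t := by
      nlinarith
    have h4 := mul_le_mul_of_nonneg_left h3 (om_nonneg τ b ht)
    nlinarith
  have hWle : γ / 2 * W ≤ (1 + 2 * Real.pi * K * Ω) * (C₀ + M₀) := by
    have : 0 ≤ 2 * Real.pi * K * Ω * C₀ := by positivity
    have e : (T - γ / 2) * W - (1 - η) * W = γ / 2 * W := by rw [hγ]; ring
    nlinarith
  have hr0 : 0 < r := by linarith
  have hrI : r ∈ Icc (0 : ℝ) 1 := ⟨hr0.le, hr2.le⟩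
  have hsub : uIcc r 1 ⊆ uIcc 0 1 := by
    rw [uIcc_of_le hr2.le, uIcc_of_le zero_le_one]; exact Icc_subset_Icc_left hr0.le
  have tl : mm g r * ((1 - r) ^ b / (2 * b)) ≤ W := by
    refine le_trans (mul_le_mul_of_nonneg_left (tail_lower hτ hτ2 hb hr0 hr2) (m0 r hrI)) ?_
    rw [← intervalIntegral.integral_const_mul]
    refine le_trans (intervalIntegral.integral_mono_on hr2.le
      (((om_int hτ hb).mono_set hsub).const_mul _) (iW.mono_set hsub) fun t ht => ?_) ?_
    · have ht' : t ∈ Icc (0 : ℝ) 1 := ⟨hr0.le.trans ht.1, ht.2⟩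
      rw [mul_comm]
      exact mul_le_mul_of_nonneg_left (mm_mono hR h hrI ht' ht.1) (om_nonneg τ b ht')
    · refine intervalIntegral.integral_mono_interval hr0.le hr2.le le_rfl ?_ iW
      filter_upwards [ae_restrict_mem measurableSet_Ioc] with t ht
      exact mul_nonneg (om_nonneg τ b (Ioc_subset_Icc_self ht)) (m0 t (Ioc_subset_Icc_self ht))
  have hr' : |r| < R := by rw [abs_of_pos hr0]; linarith
  have e3 : ∫⁻ θ in Ioc (-Real.pi) Real.pi,
      ENNReal.ofReal (‖g ((r : ℂ) * Complex.exp ((θ : ℂ) * Complex.I))‖ ^ 2) =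
      ENNReal.ofReal (mm g r) := by
    rw [mm_eq h hr', intervalIntegral.integral_of_le (by linarith),
      ofReal_integral_eq_lintegral_ofReal]
    · rfl
    · exact (((cont_comp h hr').norm.pow 2).integrableOn_Icc).mono_set Ioc_subset_Icc_self
    · exact Filter.Eventually.of_forall fun θ => by positivity
  rw [e3]
  refine ENNReal.ofReal_le_ofReal ?_
  have hp : 0 < (1 - r) ^ b := Real.rpow_pos_of_pos (by linarith) b
  rw [Real.rpow_neg (by linarith), ← div_eq_mul_inv, le_div_iff₀ hp]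
  have e4 : mm g r * (1 - r) ^ b = 4 * b / γ * (γ / 2 * (mm g r * ((1 - r) ^ b / (2 * b)))) := by
    field_simp
    norm_num
  rw [e4, mul_assoc]
  refine mul_le_mul_of_nonneg_left (le_trans ?_ hWle) (by positivity)
  exact mul_le_mul_of_nonneg_left tl (by positivity)

end Crest.Agent.R131
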