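import Crest.Agent.R131.StFin13
import Crest.Agent.R131.Wt87
import Crest.Agent.R131.StGain
import Crest.Agent.R131.StN
import Crest.Agent.R131.StDepth
import Crest.Agent.R131.Bridge

/-! Row 131: final assembly of S0177 and S0178 (helper35, hedge). -/

set_option autoImplicit false

open MeasureTheory Set Metric
open scoped ENNReal

namespace Crest.Agent.R131.F35

theorem wts (τ c b η : ℝ) (hτ : 0 < τ) (hτ2 : τ ≤ 2) (hb : 0 < b) (hη : η ≤ 1)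
    (hθ : 0 < (c - 2 * b / τ) ^ 2 + 4 * b / τ ^ 2 - 1 + η) : F13.Wts τ c b η := by
  obtain ⟨K, hK, r₀, hr₀, h⟩ := weights87 τ c b η hτ hτ2 hb hη hθ
  refine ⟨K, hK, max r₀ 0, max_lt hr₀ one_pos, fun g R hR hg C₀ M₀ hC hM hI => ?_⟩
  refine h g R hR hg C₀ M₀ hC (fun z hz => hM z (hz.trans (le_max_left _ _)))
    ((sq_nonneg _).trans (hM 0 (by simp))) ?_
  simpa only [mul_assoc] using hI

theorem fin77 :
    ∃ ε : ℝ, 0 < ε ∧ ε < 1 / 4 ∧ ∃ C : ℝ, ∀ f : ℂ → ℂ,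
      DifferentiableOn ℂ f (Metric.ball 0 1) → Set.InjOn f (Metric.ball 0 1) → f 0 = 0 →
      deriv f 0 = 1 → ∀ r : ℝ, 1 / 2 ≤ r → r < 1 →
        ∫⁻ θ in Set.Ioc (-Real.pi) Real.pi,
            (‖deriv f ((r : ℂ) * Complex.exp ((θ : ℂ) * Complex.I))‖ₑ)⁻¹ ≤
          ENNReal.ofReal (2 * Real.pi * C * (1 - r) ^ (-(1 / 4 : ℝ) + ε)) :=
  F13.s77_of (stGain minDepth nonDeg) fun c b η hb _ hη hθ =>
    wts 1 c b η one_pos (by norm_num) hb (by linarith) hθ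

theorem le_of_parts (X W : ℂ → ℝ) (hX : Measurable X) (hW : Measurable W)
    (hX0 : ∀ z, 0 ≤ X z) (hW0 : ∀ z ∈ ball (0 : ℂ) 1, 0 ≤ W z)
    (h : ∫⁻ z in ball (0 : ℂ) 1, ENNReal.ofReal ((X z - 1) * W z) ≤
      ∫⁻ z in ball (0 : ℂ) 1, ENNReal.ofReal ((1 - X z) * W z)) :
    ∫⁻ z in ball (0 : ℂ) 1, ENNReal.ofReal (X z * W z) ≤
      ∫⁻ z in ball (0 : ℂ) 1, ENNReal.ofReal (W z) := by
  by_cases hM : ∫⁻ z in ball (0 : ℂ) 1, ENNReal.ofReal (W z) = ⊤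
  · rw [hM]; exact le_top
  have hN : ∫⁻ z in ball (0 : ℂ) 1, ENNReal.ofReal ((1 - X z) * W z) ≠ ⊤ := by
    refine ne_top_of_le_ne_top hM (setLIntegral_mono' measurableSet_ball fun z hz => ?_)
    refine ENNReal.ofReal_le_ofReal ?_
    nlinarith [mul_nonneg (hX0 z) (hW0 z hz)]
  refine (ENNReal.add_le_add_iff_right hN).1 (le_trans (le_of_eq ?_) (add_le_add le_rfl h))
  rw [← lintegral_add_left (by fun_prop), ← lintegral_add_left (by fun_prop)]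
  refine setLIntegral_congr_fun measurableSet_ball fun z hz => ?_
  have h0 := hW0 z hz
  have h1 := hX0 z
  rcases le_total (X z) 1 with hc | hc
  · have e1 : (X z - 1) * W z ≤ 0 := mul_nonpos_of_nonpos_of_nonneg (by linarith) h0
    simp only [ENNReal.ofReal_of_nonpos e1, add_zero]
    rw [← ENNReal.ofReal_add (mul_nonneg h1 h0) (mul_nonneg (by linarith) h0)]
    congr 1
    ring
  · have e1 : (1 - X z) * W z ≤ 0 := mul_nonpos_of_nonpos_of_nonneg (by linarith) h0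
    simp only [ENNReal.ofReal_of_nonpos e1, add_zero]
    rw [← ENNReal.ofReal_add h0 (mul_nonneg (by linarith) h0)]
    congr 1
    ring

theorem fin78 (ε : ℝ) (hε : 0 < ε) :
    ∃ C : ℝ, ∀ f : ℂ → ℂ,
      DifferentiableOn ℂ f (Metric.ball 0 1) → Set.InjOn f (Metric.ball 0 1) → f 0 = 0 →
      deriv f 0 = 1 → ∀ r : ℝ, 1 / 2 ≤ r → r < 1 →
        ∫⁻ θ in Set.Ioc (-Real.pi) Real.pi,
            (‖deriv f ((r : ℂ) * Complex.exp ((θ : ℂ) * Complex.I))‖ₑ)⁻¹ ^ 2 ≤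
          ENNReal.ofReal (2 * Real.pi * C * (1 - r) ^ (-1 - ε)) := by
  set b : ℝ := 1 + ε with hb
  set c : ℝ := 1 + ε / 2 with hc
  obtain ⟨K, hK, r₀, hr₀, hw⟩ := wts 2 c b 0 two_pos le_rfl (by linarith) (by norm_num) (by
    have := sq_nonneg (c - 2 * b / 2)
    have e : 4 * b / 2 ^ 2 - 1 + 0 = ε := by rw [hb]; ring
    linarith)
  refine Dilate.dilate (fun w => (‖w‖ₑ)⁻¹ ^ 2) (-1 - ε) (by linarith)
    ⟨K * (0 + Real.exp (50000 / (1 - r₀)) ^ 2), fun f R hR hf hinj h0 h1 r hr1 hr2 => ?_⟩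
  have hsub : ball (0 : ℂ) 1 ⊆ ball 0 R := ball_subset_ball hR.le
  have hf' := hf.mono hsub
  have hinj' := hinj.mono hsub
  have hne : ∀ z ∈ ball (0 : ℂ) R, deriv f z ≠ 0 := fun z hz =>
    Lib.Complex.deriv_ne_zero_of_injOn isOpen_ball hf hinj hz
  obtain ⟨g, hg, hg2, hg3⟩ := exists_root f R hf hinj 1
  have hg1 : ∀ z ∈ ball (0 : ℂ) R, ‖g z‖ ^ 2 = ‖deriv f z‖⁻¹ ^ 2 := fun z hz => by
    rw [hg2 z hz, Real.rpow_neg (norm_nonneg _), inv_pow, ← Real.rpow_natCast]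
    norm_num
  have hS := star_W1 f R hR hf hinj c 1 b (by linarith) (by norm_num) (by rw [hb, hc]; ring)
  have hP := le_of_parts (fun z => ‖sX f c z‖ ^ 2) (bW f 1 b)
    (by have := measurable_sX36 f c; fun_prop) (measurable_bW f 1 b) (fun z => by positivity)
    (fun z hz => bW_nonneg f 1 b hz) hS
  have eM : (∫⁻ z in ball (0 : ℂ) 1, ENNReal.ofReal
      (‖g z‖ ^ 2 * (1 - ‖z‖ ^ 2) ^ (b - 1) * ‖z‖ ^ ((2 : ℝ) - 2))) =
      ∫⁻ z in ball (0 : ℂ) 1, ENNReal.ofReal (bW f 1 b z) := by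
    refine setLIntegral_congr_fun measurableSet_ball fun z hz => ?_
    simp only [bW]
    rw [hg2 z (hsub hz), mul_assoc, mul_one]
  have eA : (∫⁻ z in ball (0 : ℂ) 1, ENNReal.ofReal
      (‖((c * ‖z‖ ^ 2 : ℝ) : ℂ) * g z -
          ((2 / 2 * (1 - ‖z‖ ^ 2) : ℝ) : ℂ) * z * deriv g z‖ ^ 2 *
        (1 - ‖z‖ ^ 2) ^ (b - 1) * ‖z‖ ^ ((2 : ℝ) - 2))) =
      ∫⁻ z in ball (0 : ℂ) 1, ENNReal.ofReal (‖sX f c z‖ ^ 2 * bW f 1 b z) := by
    refine setLIntegral_congr_fun measurableSet_ball fun z hz => ?_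
    have e := root_X (c := c) one_ne_zero (hg3 z (hsub hz))
    have e2 : (2 / 2 * (1 - ‖z‖ ^ 2) : ℝ) = (1 - ‖z‖ ^ 2) / 1 := by ring
    simp only [bW]
    rw [e2, e, norm_mul, mul_pow, hg2 z (hsub hz), mul_one]
    congr 1
    ring
  have hfinal := hw g R hR hg 0 (Real.exp (50000 / (1 - r₀)) ^ 2) le_rfl
    (fun z hz => by
      rw [hg1 z (hsub (mem_ball_zero_iff.2 (hz.trans_lt hr₀)))]
      have := F13.inv_deriv_le hf' hinj' h1 hr₀ hz
      gcongr)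
    (by rw [eA, eM]; simpa using hP) r hr1 hr2
  have eb : -b = -1 - ε := by rw [hb]; ring
  rw [eb] at hfinal
  refine le_trans (le_of_eq ?_) hfinal
  refine lintegral_congr fun θ => ?_
  have hz : (r : ℂ) * Complex.exp ((θ : ℂ) * Complex.I) ∈ ball (0 : ℂ) R := by
    rw [mem_ball_zero_iff, norm_mul, Complex.norm_exp_ofReal_mul_I, Complex.norm_real,
      Real.norm_eq_abs, abs_of_nonneg (by linarith)]
    linarith
  rw [hg1 _ hz, ENNReal.ofReal_pow (by positivity),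
    ENNReal.ofReal_inv_of_pos (norm_pos_iff.2 (hne _ hz)), ofReal_norm]

end Crest.Agent.R131.F35
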