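import Crest.Agent.R131.StDefs
import Crest.Agent.R131.Dilate
import Crest.Agent.R131.Dist13
import Crest.Agent.R131.Univ

/-! Row 131: the final step of S0177 from `StGain`, `StarP` and the weight lemma (helper51). -/

set_option autoImplicit false

open MeasureTheory Set Metric
open scoped ENNReal

noncomputable section

namespace Crest.Agent.R131.F51

/-- the weight lemma at `α = 1/2` -/
def WeightsH : Prop :=
  ∀ c b η : ℝ, 0 < b → 0 < (c - 2 * b) ^ 2 + 4 * b - 1 + η →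
    ∃ r0 : ℝ, 0 < r0 ∧ r0 < 1 ∧ ∃ C : ℝ, 0 < C ∧ ∀ (g : ℂ → ℂ) (R K L : ℝ), 1 < R →
      DifferentiableOn ℂ g (ball 0 R) → 0 ≤ K → (∀ z : ℂ, ‖z‖ ≤ r0 → ‖g z‖ ^ 2 ≤ L) →
      ∫ z in ball (0 : ℂ) 1, (‖((c * ‖z‖ ^ 2 : ℝ) : ℂ) * g z -
          ((2 * (1 - ‖z‖ ^ 2) : ℝ) : ℂ) * z * deriv g z‖ ^ 2 - (1 - η) * ‖g z‖ ^ 2) *
          ((1 - ‖z‖ ^ 2) ^ (b - 1) * ‖z‖⁻¹) ≤ K →
      ∀ r : ℝ, 1 / 2 ≤ r → r < 1 →
        ∫ θ in (-Real.pi)..Real.pi, ‖g ((r : ℂ) * Complex.exp ((θ : ℂ) * Complex.I))‖ ^ 2 ≤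
          C * (K + L) * (1 - r) ^ (-b)

theorem int_w {b : ℝ} (hb : 0 < b) :
    IntegrableOn (fun z : ℂ => (1 - ‖z‖ ^ 2) ^ (b - 1) * ‖z‖⁻¹) (ball 0 1) := by
  rw [integrableOn_fun_norm_addHaar volume (f := fun y : ℝ => (1 - y ^ 2) ^ (b - 1) * y⁻¹)]
  have h1 : IntervalIntegrable (fun y : ℝ => (1 - y) ^ (b - 1)) volume 0 1 := by
    have := (intervalIntegral.intervalIntegrable_rpow' (r := b - 1) (a := 1) (b := 0)
      (by linarith)).comp_sub_left 1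
    simpa using this
  have h2 : IntervalIntegrable (fun y : ℝ => (1 - y) ^ (b - 1) * ((1 + y) ^ (b - 1)))
      volume 0 1 := by
    refine h1.mul_continuousOn (ContinuousOn.rpow_const (by fun_prop) ?_)
    intro y hy
    rw [uIcc_of_le zero_le_one] at hy
    left; linarith [hy.1]
  rw [intervalIntegrable_iff_integrableOn_Ioo_of_le zero_le_one] at h2
  refine h2.congr_fun (fun y hy => ?_) measurableSet_Ioo
  have e : 1 - y ^ 2 = (1 - y) * (1 + y) := by ring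
  simp only [Complex.finrank_real_complex, smul_eq_mul]
  rw [e, Real.mul_rpow (by linarith [hy.2]) (by linarith [hy.1])]
  have := hy.1.ne'
  field_simp
  norm_num
  ring

theorem int_mul {b : ℝ} (hb : 0 < b) (u : ℂ → ℝ) (hu : ContinuousOn u (closedBall 0 1)) :
    IntegrableOn (fun z : ℂ => u z * ((1 - ‖z‖ ^ 2) ^ (b - 1) * ‖z‖⁻¹)) (ball 0 1) := by
  obtain ⟨C, hC⟩ := (isCompact_closedBall (0 : ℂ) 1).exists_bound_of_continuousOn hu
  refine Integrable.bdd_mul (c := C) (int_w hb)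
    ((hu.mono ball_subset_closedBall).aestronglyMeasurable measurableSet_ball) ?_
  filter_upwards [ae_restrict_mem measurableSet_ball] with z hz
  exact hC z (ball_subset_closedBall hz)

/-- the inverse square root of `f'` -/
theorem root {f : ℂ → ℂ} {R : ℝ} (hf : DifferentiableOn ℂ f (ball 0 R))
    (hinj : InjOn f (ball 0 R)) :
    ∃ g : ℂ → ℂ, DifferentiableOn ℂ g (ball 0 R) ∧ ∀ z ∈ ball (0 : ℂ) R,
      ‖g z‖ ^ 2 = ‖deriv f z‖⁻¹ ∧
        deriv g z = -(1 / 2) * (deriv (deriv f) z / deriv f z) * g z := by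
  have h0 : ∀ z ∈ ball (0 : ℂ) R, deriv f z ≠ 0 := fun z hz =>
    Crest.Agent.Lib.Complex.deriv_ne_zero_of_injOn isOpen_ball hf hinj hz
  obtain ⟨L, hL, he, hd⟩ := univ_exists_log (hf.deriv isOpen_ball) h0
  refine ⟨fun z => Complex.exp (-(1 / 2) * L z), (hL.const_mul _).cexp, fun z hz => ⟨?_, ?_⟩⟩
  · rw [← he z hz, ← norm_pow, ← norm_inv, ← Complex.exp_nat_mul, ← Complex.exp_neg]
    congr 2
    push_cast; ring
  · have := (((hd z hz).const_mul (-(1 / 2) : ℂ)).cexp).deriv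
    rw [this]; ring

theorem fin_big (hW : WeightsH) (hG : StGain)
    (hstar : ∀ (c : ℝ) (f : ℂ → ℂ) (R : ℝ), 1 < R → DifferentiableOn ℂ f (ball 0 R) →
      InjOn f (ball 0 R) → -1 < c → StarP c f) :
    ∃ ε : ℝ, 0 < ε ∧ ε < 1 / 4 ∧ ∃ C : ℝ, ∀ (f : ℂ → ℂ) (R : ℝ), 1 < R →
      DifferentiableOn ℂ f (ball 0 R) →
      InjOn f (ball 0 R) → f 0 = 0 → deriv f 0 = 1 → ∀ r : ℝ, 1 / 2 ≤ r → r < 1 →
        ∫⁻ θ in Ioc (-Real.pi) Real.pi,
            (‖deriv f ((r : ℂ) * Complex.exp ((θ : ℂ) * Complex.I))‖ₑ)⁻¹ ≤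
          ENNReal.ofReal (C * (1 - r) ^ (-(1 / 4 : ℝ) + ε)) := by
  obtain ⟨η, hη, hη2, C0, hC0⟩ := hG 100000
  set b : ℝ := 1 / 4 - η / 16 with hb
  set c : ℝ := (1 + 2 * b) / 3 with hc
  have hb0 : 0 < b := by rw [hb]; linarith
  obtain ⟨r0, hr0, hr1, C, hC, hw⟩ := hW c b η hb0 (by
    have := sq_nonneg (c - 2 * b)
    have : 4 * b - 1 + η = 3 * η / 4 := by rw [hb]; ring
    linarith)
  refine ⟨η / 16, by linarith, by linarith,
    C * (max C0 0 + Real.exp (50000 / (1 - r0))), fun f R hR hf hinj h0 h1 r hr hr' => ?_⟩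
  have hsub : ball (0 : ℂ) 1 ⊆ ball 0 R := ball_subset_ball hR.le
  have hsub' : closedBall (0 : ℂ) 1 ⊆ ball 0 R := closedBall_subset_ball hR
  have hf1 := hf.mono hsub
  have hi1 := hinj.mono hsub
  obtain ⟨g, hg, hgp⟩ := root hf hinj
  have hne : ∀ z ∈ ball (0 : ℂ) R, deriv f z ≠ 0 := fun z hz =>
    Crest.Agent.Lib.Complex.deriv_ne_zero_of_injOn isOpen_ball hf hinj hz
  have hOK : StOK 100000 f := ⟨hf1, fun z hz => hne z (hsub hz), dist13 f hf1 hi1⟩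
  have hgc : ContinuousOn g (closedBall 0 1) := hg.continuousOn.mono hsub'
  have hgc' : ContinuousOn (deriv g) (closedBall 0 1) :=
    (hg.deriv isOpen_ball).continuousOn.mono hsub'
  set w : ℂ → ℝ := fun z => (1 - ‖z‖ ^ 2) ^ (b - 1) * ‖z‖⁻¹ with hwdef
  set u : ℂ → ℝ := fun z => ‖((c * ‖z‖ ^ 2 : ℝ) : ℂ) * g z -
          ((2 * (1 - ‖z‖ ^ 2) : ℝ) : ℂ) * z * deriv g z‖ ^ 2 with hu
  have huc : ContinuousOn u (closedBall 0 1) := by
    rw [hu]
    refine ContinuousOn.pow (ContinuousOn.norm (ContinuousOn.sub (ContinuousOn.mul ?_ hgc)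
      (ContinuousOn.mul (ContinuousOn.mul ?_ continuousOn_id) hgc'))) 2
    · exact (by fun_prop : Continuous fun z : ℂ => ((c * ‖z‖ ^ 2 : ℝ) : ℂ)).continuousOn
    · exact (by fun_prop : Continuous fun z : ℂ => ((2 * (1 - ‖z‖ ^ 2) : ℝ) : ℂ)).continuousOn
  have hI1 : IntegrableOn (fun z => u z * w z) (ball 0 1) := int_mul hb0 u huc
  have hI2 : IntegrableOn (fun z => ‖g z‖ ^ 2 * w z) (ball 0 1) :=
    int_mul hb0 (fun z => ‖g z‖ ^ 2) (hgc.norm.pow 2)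
  have hw0 : ∀ z ∈ ball (0 : ℂ) 1, 0 ≤ w z := by
    intro z hz
    have h : ‖z‖ < 1 := by simpa using hz
    have : 0 ≤ 1 - ‖z‖ ^ 2 := by nlinarith [norm_nonneg z]
    simp only [hwdef]; positivity
  have e2 : ∀ z ∈ ball (0 : ℂ) 1, stW b f z = ‖g z‖ ^ 2 * w z := by
    intro z hz
    rw [(hgp z (hsub hz)).1]; simp only [stW, hwdef]; ring
  have e1 : ∀ z ∈ ball (0 : ℂ) 1, ‖stX c f z‖ ^ 2 * stW b f z = u z * w z := by
    intro z hz
    rw [e2 z hz, ← mul_assoc, ← mul_pow, ← norm_mul]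
    simp only [hu]
    rw [(hgp z (hsub hz)).2]
    congr 3
    simp only [stX]; push_cast; ring
  have hM : stM b f = ENNReal.ofReal (∫ z in ball (0 : ℂ) 1, ‖g z‖ ^ 2 * w z) := by
    rw [ofReal_integral_eq_lintegral_ofReal hI2 (by
      filter_upwards [ae_restrict_mem measurableSet_ball] with z hz
      exact mul_nonneg (sq_nonneg _) (hw0 z hz))]
    exact setLIntegral_congr_fun measurableSet_ball (fun z hz => by simp only [e2 z hz])
  have hA : (∫⁻ z in ball (0 : ℂ) 1, ENNReal.ofReal (‖stX c f z‖ ^ 2 * stW b f z)) =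
      ENNReal.ofReal (∫ z in ball (0 : ℂ) 1, u z * w z) := by
    rw [ofReal_integral_eq_lintegral_ofReal hI1 (by
      filter_upwards [ae_restrict_mem measurableSet_ball] with z hz
      exact mul_nonneg (sq_nonneg _) (hw0 z hz))]
    exact setLIntegral_congr_fun measurableSet_ball (fun z hz => by simp only [e1 z hz])
  have hA0 : 0 ≤ ∫ z in ball (0 : ℂ) 1, u z * w z :=
    setIntegral_nonneg measurableSet_ball fun z hz => mul_nonneg (sq_nonneg _) (hw0 z hz)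
  have hM0 : 0 ≤ ∫ z in ball (0 : ℂ) 1, ‖g z‖ ^ 2 * w z :=
    setIntegral_nonneg measurableSet_ball fun z hz => mul_nonneg (sq_nonneg _) (hw0 z hz)
  have key := hC0 b f (by rw [hb]; linarith) (by rw [hb]; linarith) hOK h1
    (hstar _ f R hR hf hinj (by linarith)) (by rw [hM]; exact ENNReal.ofReal_ne_top)
  rw [← hc, hA, hM] at key
  have key2 : (∫ z in ball (0 : ℂ) 1, u z * w z) + η * ∫ z in ball (0 : ℂ) 1, ‖g z‖ ^ 2 * w z ≤
      (∫ z in ball (0 : ℂ) 1, ‖g z‖ ^ 2 * w z) + max C0 0 := by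
    have h2 : ENNReal.ofReal C0 ≤ ENNReal.ofReal (max C0 0) :=
      ENNReal.ofReal_le_ofReal (le_max_left _ _)
    have h3 := key.trans (add_le_add le_rfl h2)
    rw [← ENNReal.ofReal_mul hη.le, ← ENNReal.ofReal_add hA0 (mul_nonneg hη.le hM0),
      ← ENNReal.ofReal_add hM0 (le_max_right _ _),
      ENNReal.ofReal_le_ofReal_iff (add_nonneg hM0 (le_max_right _ _))] at h3
    exact h3
  have hL : ∀ z : ℂ, ‖z‖ ≤ r0 → ‖g z‖ ^ 2 ≤ Real.exp (50000 / (1 - r0)) := by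
    intro z hz
    have hzb : z ∈ ball (0 : ℂ) R := by
      rw [mem_ball_zero_iff]; linarith
    rw [(hgp z hzb).1]
    have h2 := harnack13 f hf1 hi1 hr1 (z := z) (w := 0) hz (by simpa using hr0.le)
    rw [h1, norm_one, zero_sub, norm_neg] at h2
    have hp : 0 < ‖deriv f z‖ := norm_pos_iff.2 (hne z hzb)
    rw [inv_le_iff_one_le_mul₀ hp]
    refine h2.trans (mul_le_mul_of_nonneg_right (Real.exp_le_exp.2 ?_) hp.le)
    have : 0 ≤ 50000 / (1 - r0) := div_nonneg (by norm_num) (by linarith)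
    nlinarith [norm_nonneg z]
  have hmain := hw g R (max C0 0) _ hR hg (le_max_right _ _) hL (by
    have e3 : (∫ z in ball (0 : ℂ) 1, (u z - (1 - η) * ‖g z‖ ^ 2) * w z) =
        (∫ z in ball (0 : ℂ) 1, u z * w z) - (1 - η) * ∫ z in ball (0 : ℂ) 1, ‖g z‖ ^ 2 * w z := by
      rw [← integral_const_mul, ← integral_sub hI1 (hI2.const_mul _)]
      congr 1; funext z; ring
    refine le_of_eq_of_le e3 ?_
    linarith) r hr hr'
  have hmem : ∀ θ : ℝ, (r : ℂ) * Complex.exp ((θ : ℂ) * Complex.I) ∈ closedBall (0 : ℂ) 1 := by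
    intro θ
    rw [mem_closedBall_zero_iff, norm_mul, Complex.norm_exp_ofReal_mul_I, mul_one,
      Complex.norm_real, Real.norm_eq_abs, abs_of_nonneg (by linarith)]
    exact hr'.le
  have hcont : Continuous fun θ : ℝ =>
      ‖g ((r : ℂ) * Complex.exp ((θ : ℂ) * Complex.I))‖ ^ 2 :=
    ((hgc.comp_continuous (by fun_prop) hmem).norm).pow 2
  have hpi : -Real.pi ≤ Real.pi := by linarith [Real.pi_pos]
  rw [intervalIntegral.integral_of_le hpi] at hmain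
  have e4 : -(1 / 4 : ℝ) + η / 16 = -b := by rw [hb]; ring
  rw [e4]
  refine le_trans (le_of_eq ?_) (ENNReal.ofReal_le_ofReal hmain)
  rw [ofReal_integral_eq_lintegral_ofReal (hcont.integrableOn_Icc.mono_set Ioc_subset_Icc_self)
    (Filter.Eventually.of_forall fun θ => sq_nonneg _)]
  refine lintegral_congr fun θ => ?_
  have hz := hsub' (hmem θ)
  rw [(hgp _ hz).1, ENNReal.ofReal_inv_of_pos (norm_pos_iff.2 (hne _ hz)), ofReal_norm]

/-- the literal statement S0177 -/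
theorem fin51 (hW : WeightsH) (hG : StGain)
    (hstar : ∀ (c : ℝ) (f : ℂ → ℂ) (R : ℝ), 1 < R → DifferentiableOn ℂ f (ball 0 R) →
      InjOn f (ball 0 R) → -1 < c → StarP c f) :
    ∃ ε : ℝ, 0 < ε ∧ ε < 1 / 4 ∧ ∃ C : ℝ, ∀ f : ℂ → ℂ,
      DifferentiableOn ℂ f (Metric.ball 0 1) → Set.InjOn f (Metric.ball 0 1) → f 0 = 0 →
      deriv f 0 = 1 → ∀ r : ℝ, 1 / 2 ≤ r → r < 1 →
        ∫⁻ θ in Set.Ioc (-Real.pi) Real.pi,
            (‖deriv f ((r : ℂ) * Complex.exp ((θ : ℂ) * Complex.I))‖ₑ)⁻¹ ≤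
          ENNReal.ofReal (2 * Real.pi * C * (1 - r) ^ (-(1 / 4 : ℝ) + ε)) := by
  obtain ⟨ε, h1, h2, h⟩ := fin_big hW hG hstar
  exact ⟨ε, h1, h2, Dilate.dilate (fun w => (‖w‖ₑ)⁻¹) _ (by linarith) h⟩

end Crest.Agent.R131.F51
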