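import Mathlib

/-!
# Row 131: weighted moments on the disc by integration by parts in polar coordinates (helper44)
-/

set_option autoImplicit false

open MeasureTheory Set Metric Real

noncomputable section

namespace Crest.Agent.R131.Ibp

/-- the radial weight -/
def wt (a β r : ℝ) : ℝ := r ^ a * (1 - r ^ 2) ^ β

/-- the point with polar coordinates `r, θ` -/
def pt (r θ : ℝ) : ℂ := (r : ℂ) * (Real.cos θ + Real.sin θ * Complex.I)

/-- the weighted integral over the disc -/
def J (H : ℂ → ℝ) (a β : ℝ) : ℝ := ∫ z in ball (0 : ℂ) 1, H z * wt a β ‖z‖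

theorem norm_unit (θ : ℝ) : ‖((Real.cos θ : ℂ) + Real.sin θ * Complex.I)‖ = 1 := by
  have := Complex.norm_cos_add_sin_mul_I θ
  simpa using this

theorem norm_pt (r θ : ℝ) : ‖pt r θ‖ = |r| := by
  simp only [pt, norm_mul, norm_unit, mul_one, Complex.norm_real, Real.norm_eq_abs]

theorem cont_pt : Continuous fun p : ℝ × ℝ => pt p.1 p.2 := by
  unfold pt; fun_prop

theorem meas_wt (a β : ℝ) : Measurable (wt a β) := by
  unfold wt; fun_prop

theorem wt_nonneg (a β : ℝ) {r : ℝ} (h0 : 0 ≤ r) (h1 : r ≤ 1) : 0 ≤ wt a β r :=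
  mul_nonneg (Real.rpow_nonneg h0 _) (Real.rpow_nonneg (by nlinarith) _)

theorem int_wt {a β : ℝ} (ha : -2 < a) (hβ : -1 < β) :
    IntegrableOn (fun r => r * wt a β r) (Ioo 0 1) := by
  have h1 : IntervalIntegrable (fun r : ℝ => r * wt a β r) volume 0 (1 / 2) := by
    have h := (intervalIntegral.intervalIntegrable_rpow' (a := 0) (b := 1 / 2) (r := a + 1)
      (by linarith)).mul_continuousOn (g := fun r : ℝ => (1 - r ^ 2) ^ β) (by
        apply ContinuousOn.rpow_const (by fun_prop)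
        intro x hx
        rw [uIcc_of_le (by norm_num)] at hx
        left; nlinarith [hx.1, hx.2])
    refine h.congr ?_
    intro x hx
    rw [uIoc_of_le (by norm_num)] at hx
    simp only [wt]
    rw [Real.rpow_add_one hx.1.ne']; ring
  have h2 : IntervalIntegrable (fun r : ℝ => r * wt a β r) volume (1 / 2) 1 := by
    have h0 : IntervalIntegrable (fun r : ℝ => (1 - r) ^ β) volume (1 / 2) 1 := by
      have := (intervalIntegral.intervalIntegrable_rpow' (a := 1 / 2) (b := 0) (r := β)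
        hβ).comp_sub_left 1
      norm_num at this ⊢
      exact this
    have h := h0.mul_continuousOn (g := fun r : ℝ => r * r ^ a * (1 + r) ^ β) (by
      refine ContinuousOn.mul (ContinuousOn.mul (by fun_prop) ?_) ?_
      · apply ContinuousOn.rpow_const (by fun_prop)
        intro x hx
        rw [uIcc_of_le (by norm_num)] at hx
        left; linarith [hx.1]
      · apply ContinuousOn.rpow_const (by fun_prop)
        intro x hx
        rw [uIcc_of_le (by norm_num)] at hx
        left; linarith [hx.1])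
    refine h.congr ?_
    intro x hx
    rw [uIoc_of_le (by norm_num)] at hx
    simp only [wt]
    rw [show 1 - x ^ 2 = (1 - x) * (1 + x) by ring,
      Real.mul_rpow (by linarith [hx.2]) (by linarith [hx.1])]
    ring
  have := h1.trans h2
  rw [intervalIntegrable_iff_integrableOn_Ioo_of_le (by norm_num)] at this
  exact this

/-- the integrand in polar coordinates -/
def Pz (H : ℂ → ℝ) (a β : ℝ) (p : ℝ × ℝ) : ℝ := p.1 * wt a β p.1 * H (pt p.1 p.2)

theorem int_Pz {H : ℂ → ℝ} (hH : ContinuousOn H (closedBall 0 1)) {a β : ℝ} (ha : -2 < a)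
    (hβ : -1 < β) : IntegrableOn (Pz H a β) (Ioo 0 1 ×ˢ Ioo (-π) π) := by
  obtain ⟨K, hK⟩ := (isCompact_closedBall (0 : ℂ) 1).exists_bound_of_continuousOn hH
  have hm : MeasurableSet (Ioo (0 : ℝ) 1 ×ˢ Ioo (-π) π) := measurableSet_Ioo.prod measurableSet_Ioo
  have h1 : IntegrableOn (fun p : ℝ × ℝ => (p.1 * wt a β p.1) * (1 : ℝ))
      (Ioo 0 1 ×ˢ Ioo (-π) π) := by
    rw [IntegrableOn, Measure.volume_eq_prod, ← Measure.prod_restrict]
    exact Integrable.mul_prod (int_wt ha hβ) (integrable_const (1 : ℝ))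
  have hc : ContinuousOn (fun p : ℝ × ℝ => H (pt p.1 p.2)) (Ioo 0 1 ×ˢ Ioo (-π) π) := by
    refine hH.comp cont_pt.continuousOn ?_
    intro p hp
    rw [mem_closedBall_zero_iff, norm_pt, abs_of_pos hp.1.1]
    exact hp.1.2.le
  have h2 := h1.mul_bdd (c := K) (hc.aestronglyMeasurable hm) (by
    rw [ae_restrict_iff' hm]
    refine Filter.Eventually.of_forall fun p hp => hK _ ?_
    rw [mem_closedBall_zero_iff, norm_pt, abs_of_pos hp.1.1]
    exact hp.1.2.le)
  refine h2.congr ?_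
  exact Filter.Eventually.of_forall fun p => by simp [Pz]

theorem ind_polar (H : ℂ → ℝ) (a β : ℝ) {p : ℝ × ℝ} (hp : p ∈ polarCoord.target) :
    p.1 • (ball (0 : ℂ) 1).indicator (fun z => H z * wt a β ‖z‖) (Complex.polarCoord.symm p) =
      (Ioo (0 : ℝ) 1 ×ˢ Ioo (-π) π).indicator (Pz H a β) p := by
  have hp1 : 0 < p.1 := hp.1
  have hp2 : p.2 ∈ Ioo (-π) π := hp.2
  have e : Complex.polarCoord.symm p = pt p.1 p.2 := by
    rw [Complex.polarCoord_symm_apply]; rfl
  rw [e]
  by_cases h : p.1 < 1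
  · rw [indicator_of_mem (by rw [mem_ball_zero_iff, norm_pt, abs_of_pos hp1]; exact h),
      indicator_of_mem (by exact ⟨⟨hp1, h⟩, hp2⟩), norm_pt, abs_of_pos hp1]
    simp only [Pz, smul_eq_mul]; ring
  · rw [indicator_of_notMem (by rw [mem_ball_zero_iff, norm_pt, abs_of_pos hp1]; exact h),
      indicator_of_notMem (fun hh => h hh.1.2), smul_zero]

theorem J_eq (H : ℂ → ℝ) (a β : ℝ) :
    J H a β = ∫ p in Ioo (0 : ℝ) 1 ×ˢ Ioo (-π) π, Pz H a β p := by
  have hm : MeasurableSet (Ioo (0 : ℝ) 1 ×ˢ Ioo (-π) π) := measurableSet_Ioo.prod measurableSet_Ioo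
  unfold J
  rw [← integral_indicator measurableSet_ball, ← Complex.integral_comp_polarCoord_symm,
    setIntegral_congr_fun polarCoord.open_target.measurableSet
      (fun p hp => ind_polar H a β hp), setIntegral_indicator hm, inter_eq_right.mpr]
  intro p hp
  exact ⟨hp.1.1, hp.2⟩

theorem int_J {H : ℂ → ℝ} (hH : ContinuousOn H (closedBall 0 1)) {a β : ℝ} (ha : -2 < a)
    (hβ : -1 < β) : IntegrableOn (fun z => H z * wt a β ‖z‖) (ball (0 : ℂ) 1) := by
  have hm : MeasurableSet (Ioo (0 : ℝ) 1 ×ˢ Ioo (-π) π) := measurableSet_Ioo.prod measurableSet_Ioo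
  have hme : AEStronglyMeasurable (fun z => H z * wt a β ‖z‖) (volume.restrict (ball (0 : ℂ) 1)) :=
    ((hH.mono ball_subset_closedBall).aestronglyMeasurable measurableSet_ball).mul
      ((meas_wt a β).comp measurable_norm).aestronglyMeasurable
  refine ⟨hme, ?_⟩
  have hI := (int_Pz hH ha hβ).2
  rw [HasFiniteIntegral] at hI ⊢
  rw [← lintegral_indicator measurableSet_ball, ← Complex.lintegral_comp_polarCoord_symm]
  rw [← lintegral_indicator hm] at hI
  refine lt_of_le_of_lt ?_ hI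
  refine le_trans ?_ (setLIntegral_le_lintegral polarCoord.target _)
  refine setLIntegral_mono' polarCoord.open_target.measurableSet fun p hp => le_of_eq ?_
  have h := congrArg (fun x : ℝ => ‖x‖ₑ) (ind_polar H a β hp)
  have hp1 : 0 < p.1 := hp.1
  simp only [enorm_smul, enorm_indicator_eq_indicator_enorm] at h
  rw [← h, smul_eq_mul, Real.enorm_eq_ofReal hp1.le]

/-- radial integration by parts -/
theorem radial {H H' : ℂ → ℝ} (hH : ContinuousOn H (closedBall 0 1))
    (hH' : ContinuousOn H' (closedBall 0 1))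
    (hd : ∀ θ r : ℝ, 0 < r → r < 1 → HasDerivAt (fun t => H (pt t θ)) (H' (pt r θ) / r) r)
    {a β : ℝ} (ha : -2 < a) (hβ : 0 < β) :
    J H' a β = 2 * β * J H (a + 2) (β - 1) - (a + 2) * J H a β := by
  have i1 := int_Pz hH' ha (β := β) (by linarith)
  have i2 := int_Pz hH (a := a + 2) (β := β - 1) (by linarith) (by linarith)
  have i3 := int_Pz hH ha (β := β) (by linarith)
  have i4 : IntegrableOn (fun p => Pz H' a β p - 2 * β * Pz H (a + 2) (β - 1) p +
      (a + 2) * Pz H a β p) (Ioo 0 1 ×ˢ Ioo (-π) π) :=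
    (i1.sub (i2.const_mul _)).add (i3.const_mul _)
  have key : ∫ p in Ioo (0 : ℝ) 1 ×ˢ Ioo (-π) π, (Pz H' a β p - 2 * β * Pz H (a + 2) (β - 1) p +
      (a + 2) * Pz H a β p) = 0 := by
    rw [IntegrableOn, Measure.volume_eq_prod, ← Measure.prod_restrict] at i4
    rw [Measure.volume_eq_prod, ← Measure.prod_restrict, integral_prod_symm _ i4]
    refine (integral_congr_ae (g := fun _ => 0) ?_).trans (by simp)
    filter_upwards [i4.prod_left_ae] with θ hθ
    have hc : ContinuousOn (fun t : ℝ => wt (a + 2) β t * H (pt t θ)) (Icc 0 1) := by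
      refine ContinuousOn.mul ?_ ?_
      · unfold wt
        refine ContinuousOn.mul ?_ ?_
        · exact ContinuousOn.rpow_const (by fun_prop) fun x _ => Or.inr (by linarith)
        · exact ContinuousOn.rpow_const (by fun_prop) fun x _ => Or.inr hβ.le
      · refine hH.comp (cont_pt.comp (by fun_prop : Continuous fun t : ℝ => (t, θ))).continuousOn ?_
        intro t ht
        simp only [Function.comp, mem_closedBall_zero_iff, norm_pt, abs_of_nonneg ht.1]
        exact ht.2
    have hder : ∀ r ∈ Ioo (0 : ℝ) 1, HasDerivAt (fun t : ℝ => wt (a + 2) β t * H (pt t θ))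
        (Pz H' a β (r, θ) - 2 * β * Pz H (a + 2) (β - 1) (r, θ) + (a + 2) * Pz H a β (r, θ)) r := by
      intro r hr
      have hr0 : 0 < r := hr.1
      have hd1 : 0 < 1 - r ^ 2 := by nlinarith [hr.2]
      have e1 : HasDerivAt (fun t : ℝ => t ^ (a + 2)) ((a + 2) * r ^ (a + 2 - 1)) r :=
        Real.hasDerivAt_rpow_const (Or.inl hr0.ne')
      have e2 : HasDerivAt (fun t : ℝ => (1 - t ^ 2) ^ β)
          ((-(2 * r)) * β * (1 - r ^ 2) ^ (β - 1)) r := by
        have : HasDerivAt (fun t : ℝ => 1 - t ^ 2) (-(2 * r)) r := by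
          simpa using (hasDerivAt_pow 2 r).const_sub 1
        exact this.rpow_const (Or.inl hd1.ne')
      have e3 := (e1.mul e2).mul (hd θ r hr0 hr.2)
      refine e3.congr_deriv ?_
      simp only [Pz, wt, Pi.mul_apply]
      rw [show a + 2 - 1 = a + 1 by ring, Real.rpow_add_one hr0.ne', Real.rpow_add hr0,
        Real.rpow_two]
      field_simp
      ring
    have := intervalIntegral.integral_eq_sub_of_hasDerivAt_of_le (by norm_num) hc hder
      (by rw [intervalIntegrable_iff_integrableOn_Ioo_of_le (by norm_num)]; exact hθ)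
    rw [intervalIntegral.integral_of_le (by norm_num), integral_Ioc_eq_integral_Ioo] at this
    rw [this]
    simp [wt, Real.zero_rpow hβ.ne', Real.zero_rpow (show a + 2 ≠ 0 by linarith)]
  have i5 : IntegrableOn (fun p => Pz H' a β p - 2 * β * Pz H (a + 2) (β - 1) p)
      (Ioo 0 1 ×ˢ Ioo (-π) π) := i1.sub (i2.const_mul _)
  rw [integral_add i5 (i3.const_mul _), integral_sub i1 (i2.const_mul _),
    integral_const_mul, integral_const_mul] at key
  rw [J_eq, J_eq, J_eq]
  linarith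

/-- angular integration by parts -/
theorem angular {H H' : ℂ → ℝ} (hH' : ContinuousOn H' (closedBall 0 1))
    (hd : ∀ θ r : ℝ, 0 < r → r < 1 → HasDerivAt (fun t => H (pt r t)) (H' (pt r θ)) θ)
    {a β : ℝ} (ha : -2 < a) (hβ : -1 < β) : J H' a β = 0 := by
  have i4 := int_Pz hH' ha hβ
  rw [J_eq]
  rw [IntegrableOn, Measure.volume_eq_prod, ← Measure.prod_restrict] at i4
  rw [Measure.volume_eq_prod, ← Measure.prod_restrict, integral_prod _ i4]
  refine (setIntegral_congr_fun measurableSet_Ioo (g := fun _ => 0) ?_).trans (by simp)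
  intro r hr
  have hc : Continuous fun t : ℝ => H' (pt r t) := by
    refine hH'.comp_continuous (cont_pt.comp (by fun_prop : Continuous fun t : ℝ => (r, t))) ?_
    intro t
    simp only [Function.comp, mem_closedBall_zero_iff, norm_pt, abs_of_pos hr.1]
    exact hr.2.le
  have := intervalIntegral.integral_eq_sub_of_hasDerivAt (a := -π) (b := π)
    (fun t _ => hd t r hr.1 hr.2) (hc.intervalIntegrable _ _)
  rw [intervalIntegral.integral_of_le (by linarith [Real.pi_pos]), integral_Ioc_eq_integral_Ioo]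
    at this
  simp only [Pz]
  rw [integral_const_mul, this]
  simp [pt]

/-- `z g'(z)` -/
def th (g : ℂ → ℂ) (z : ℂ) : ℂ := z * deriv g z

/-- the real part of `P * conj Q` -/
def B (P Q : ℂ → ℂ) (z : ℂ) : ℝ := (P z * (starRingEnd ℂ) (Q z)).re

theorem diff_th {g : ℂ → ℂ} {R : ℝ} (hg : DifferentiableOn ℂ g (ball 0 R)) :
    DifferentiableOn ℂ (th g) (ball 0 R) :=
  differentiableOn_id.mul (hg.deriv isOpen_ball)

theorem cont_B {P Q : ℂ → ℂ} {R : ℝ} (hR : 1 < R) (hP : DifferentiableOn ℂ P (ball 0 R))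
    (hQ : DifferentiableOn ℂ Q (ball 0 R)) : ContinuousOn (B P Q) (closedBall 0 1) := by
  have h1 := hP.continuousOn.mono (closedBall_subset_ball hR)
  have h2 := hQ.continuousOn.mono (closedBall_subset_ball hR)
  exact Complex.continuous_re.comp_continuousOn
    (h1.mul (Complex.continuous_conj.comp_continuousOn h2))

theorem hd_comp {P : ℂ → ℂ} {R : ℝ} (hP : DifferentiableOn ℂ P (ball 0 R)) {γ : ℝ → ℂ} {γ' : ℂ}
    {t : ℝ} (hγ : HasDerivAt γ γ' t) (hm : γ t ∈ ball (0 : ℂ) R) :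
    HasDerivAt (fun u => P (γ u)) (deriv P (γ t) * γ') t := by
  have h := (hP.differentiableAt (isOpen_ball.mem_nhds hm)).hasDerivAt
  exact h.comp t hγ

theorem hd_pair {P Q : ℂ → ℂ} {R : ℝ} (hP : DifferentiableOn ℂ P (ball 0 R))
    (hQ : DifferentiableOn ℂ Q (ball 0 R)) {γ : ℝ → ℂ} {γ' : ℂ}
    {t : ℝ} (hγ : HasDerivAt γ γ' t) (hm : γ t ∈ ball (0 : ℂ) R) :
    HasDerivAt (fun u => P (γ u) * (starRingEnd ℂ) (Q (γ u)))
      (deriv P (γ t) * γ' * (starRingEnd ℂ) (Q (γ t)) +
        P (γ t) * (starRingEnd ℂ) (deriv Q (γ t) * γ')) t :=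
  (hd_comp hP hγ hm).mul (hd_comp hQ hγ hm).star

theorem mem_pt {R r : ℝ} (hR : 1 < R) (θ : ℝ) (h0 : 0 < r) (h1 : r < 1) :
    pt r θ ∈ ball (0 : ℂ) R := by
  rw [mem_ball_zero_iff, norm_pt, abs_of_pos h0]; linarith

theorem J_add {H H' : ℂ → ℝ} (hH : ContinuousOn H (closedBall 0 1))
    (hH' : ContinuousOn H' (closedBall 0 1)) {a β : ℝ} (ha : -2 < a) (hβ : -1 < β) (u v : ℝ) :
    J (fun z => u * H z + v * H' z) a β = u * J H a β + v * J H' a β := by
  unfold J
  rw [← integral_const_mul, ← integral_const_mul,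
    ← integral_add ((int_J hH ha hβ).const_mul u) ((int_J hH' ha hβ).const_mul v)]
  congr 1; ext z; ring

/-- the symmetric rule -/
theorem ang_B {P Q : ℂ → ℂ} {R : ℝ} (hR : 1 < R) (hP : DifferentiableOn ℂ P (ball 0 R))
    (hQ : DifferentiableOn ℂ Q (ball 0 R)) {a β : ℝ} (ha : -2 < a) (hβ : -1 < β) :
    J (B (th P) Q) a β = J (B P (th Q)) a β := by
  have c1 := cont_B hR (diff_th hP) hQ
  have c2 := cont_B hR hP (diff_th hQ)
  have h := angular (H := fun z => (P z * (starRingEnd ℂ) (Q z)).im)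
    (H' := fun z => 1 * B (th P) Q z + (-1) * B P (th Q) z)
    ((c1.const_smul (1 : ℝ)).add (c2.const_smul (-1 : ℝ))) (fun θ r h0 h1 => by
      have hγ : HasDerivAt (fun t => pt r t) (Complex.I * pt r θ) θ := by
        unfold pt
        have := (((Real.hasDerivAt_cos θ).ofReal_comp).add
          (((Real.hasDerivAt_sin θ).ofReal_comp).mul_const Complex.I)).const_mul (r : ℂ)
        refine this.congr_deriv ?_
        push_cast
        linear_combination (-(r : ℂ) * Complex.sin θ) * Complex.I_mul_I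
      have h2 := Complex.imCLM.hasFDerivAt.comp_hasDerivAt θ
        (hd_pair hP hQ hγ (mem_pt hR θ h0 h1))
      refine h2.congr_deriv ?_
      simp only [B, th, Complex.imCLM_apply, map_mul, Complex.conj_I, Complex.add_im,
        Complex.mul_im, Complex.mul_re, Complex.I_re, Complex.I_im, Complex.neg_re,
        Complex.neg_im, Complex.conj_re, Complex.conj_im]
      ring) ha hβ
  rw [J_add c1 c2 ha hβ] at h
  linarith

/-- the radial rule -/
theorem rad_B {P Q : ℂ → ℂ} {R : ℝ} (hR : 1 < R) (hP : DifferentiableOn ℂ P (ball 0 R))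
    (hQ : DifferentiableOn ℂ Q (ball 0 R)) {a β : ℝ} (ha : -2 < a) (hβ : 0 < β) :
    J (B P (th Q)) a β = β * J (B P Q) (a + 2) (β - 1) - (a + 2) / 2 * J (B P Q) a β := by
  have c1 := cont_B hR (diff_th hP) hQ
  have c2 := cont_B hR hP (diff_th hQ)
  have h := radial (H := B P Q) (H' := fun z => 1 * B (th P) Q z + 1 * B P (th Q) z)
    (cont_B hR hP hQ) ((c1.const_smul (1 : ℝ)).add (c2.const_smul (1 : ℝ))) (fun θ r h0 h1 => by
      have hγ : HasDerivAt (fun t => pt t θ) (pt r θ * ((r⁻¹ : ℝ) : ℂ)) r := by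
        unfold pt
        have := ((hasDerivAt_id r).ofReal_comp).mul_const
          ((Real.cos θ : ℂ) + Real.sin θ * Complex.I)
        refine this.congr_deriv ?_
        have : (r : ℂ) ≠ 0 := by exact_mod_cast h0.ne'
        push_cast
        field_simp
      have h2 := Complex.reCLM.hasFDerivAt.comp_hasDerivAt r
        (hd_pair hP hQ hγ (mem_pt hR θ h0 h1))
      refine h2.congr_deriv ?_
      simp only [B, th, Complex.reCLM_apply, map_mul, Complex.add_re,
        Complex.mul_im, Complex.mul_re, Complex.ofReal_re, Complex.ofReal_im,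
        Complex.conj_re, Complex.conj_im, div_eq_mul_inv]
      ring) ha hβ
  rw [J_add c1 c2 ha (by linarith), ang_B hR hP hQ ha (by linarith)] at h
  linarith

theorem ae_ne : ∀ᵐ z ∂(volume.restrict (ball (0 : ℂ) 1)), 0 < ‖z‖ ∧ ‖z‖ < 1 := by
  have h1 : ∀ᵐ z ∂(volume.restrict (ball (0 : ℂ) 1)), z ≠ 0 :=
    ae_restrict_of_ae (by simp [ae_iff])
  filter_upwards [h1, ae_restrict_mem measurableSet_ball] with z hz hb
  exact ⟨norm_pos_iff.mpr hz, mem_ball_zero_iff.mp hb⟩

theorem wt_s (a β : ℝ) {r : ℝ} (h0 : 0 < r) : wt (a + 2) β r = r ^ 2 * wt a β r := by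
  unfold wt; rw [Real.rpow_add h0, Real.rpow_two]; ring

theorem wt_d (a β : ℝ) {r : ℝ} (h0 : 0 < r) (h1 : r < 1) :
    wt a (β + 1) r = (1 - r ^ 2) * wt a β r := by
  unfold wt; rw [Real.rpow_add_one (by nlinarith)]; ring

theorem J_shift {H : ℂ → ℝ} (hH : ContinuousOn H (closedBall 0 1)) {a β : ℝ} (ha : -2 < a)
    (hβ : -1 < β) : J H (a + 2) β = J H a β - J H a (β + 1) := by
  unfold J
  rw [← integral_sub (int_J hH ha hβ) (int_J hH ha (by linarith))]
  refine integral_congr_ae ?_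
  filter_upwards [ae_ne] with z hz
  rw [wt_s a β hz.1, wt_d a β hz.1 hz.2]; ring

theorem J_mono {H : ℂ → ℝ} (hH : ContinuousOn H (closedBall 0 1)) (h0 : ∀ z, 0 ≤ H z) {a β : ℝ}
    (ha : -2 < a) (hβ : -1 < β) : 0 ≤ J H a (β + 1) ∧ J H a (β + 1) ≤ J H a β := by
  have p : ∀ a β : ℝ, 0 ≤ J H a β := fun a β => by
    refine integral_nonneg_of_ae ?_
    filter_upwards [ae_ne] with z hz
    exact mul_nonneg (h0 z) (wt_nonneg _ _ hz.1.le hz.2.le)
  have := J_shift hH ha hβ
  exact ⟨p _ _, by linarith [p (a + 2) β]⟩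

theorem B_self (g : ℂ → ℂ) (z : ℂ) : B g g z = ‖g z‖ ^ 2 := by
  simp only [B, Complex.mul_conj, Complex.ofReal_re, Complex.normSq_eq_norm_sq]

theorem B_comm (P Q : ℂ → ℂ) : B P Q = B Q P := by
  ext z
  simp only [B, Complex.mul_re, Complex.conj_re, Complex.conj_im]; ring

/-- the quadratic form -/
def Qf (g : ℂ → ℂ) (c lam : ℝ) (z : ℂ) : ℝ :=
  ‖((c * ‖z‖ ^ 2 : ℝ) : ℂ) * g z - ((lam * (1 - ‖z‖ ^ 2) : ℝ) : ℂ) * (z * deriv g z)‖ ^ 2 -
    ‖g z‖ ^ 2

theorem Qf_eq (g : ℂ → ℂ) (c lam : ℝ) (z : ℂ) :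
    Qf g c lam z = (c * ‖z‖ ^ 2) ^ 2 * B g g z -
      2 * (c * ‖z‖ ^ 2) * (lam * (1 - ‖z‖ ^ 2)) * B g (th g) z +
      (lam * (1 - ‖z‖ ^ 2)) ^ 2 * B (th g) (th g) z - B g g z := by
  unfold Qf
  generalize c * ‖z‖ ^ 2 = u
  generalize lam * (1 - ‖z‖ ^ 2) = v
  simp only [B, th, ← Complex.normSq_eq_norm_sq, Complex.normSq_apply, Complex.sub_re,
    Complex.sub_im, Complex.mul_re, Complex.mul_im, Complex.ofReal_re, Complex.ofReal_im,
    Complex.conj_re, Complex.conj_im]
  ring

theorem cont_Qf {g : ℂ → ℂ} {R : ℝ} (hR : 1 < R) (hg : DifferentiableOn ℂ g (ball 0 R))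
    (c lam : ℝ) : ContinuousOn (Qf g c lam) (closedBall 0 1) := by
  have c0 := cont_B hR hg hg
  have c1 := cont_B hR hg (diff_th hg)
  have c2 := cont_B hR (diff_th hg) (diff_th hg)
  refine ContinuousOn.congr ?_ fun z _ => Qf_eq g c lam z
  exact (((ContinuousOn.mul (by fun_prop) c0).sub (ContinuousOn.mul (by fun_prop) c1)).add
    (ContinuousOn.mul (by fun_prop) c2)).sub c0

/-- **The moment identity.** -/
theorem mom {g : ℂ → ℂ} {R : ℝ} (hR : 1 < R) (hg : DifferentiableOn ℂ g (ball 0 R))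
    (c lam : ℝ) {a b : ℝ} (ha : -2 < a) (hb : 0 < b) :
    J (Qf g c lam) a (b - 1) =
      ((c - lam * b) ^ 2 + lam ^ 2 * b - 1) * J (B g g) a (b - 1) +
      (-2 * c ^ 2 + (lam ^ 2 * (b + 1) - 2 * c * lam) * (-2 * b - (a + 4) / 2) -
        lam ^ 2 * ((a + 2) / 2) * (b + 1)) * J (B g g) a b +
      (c ^ 2 + (lam ^ 2 * (b + 1) - 2 * c * lam) * (b + (a + 4) / 2) +
        lam ^ 2 * ((a + 2) / 2) * (b + 1 + (a + 2) / 2)) * J (B g g) a (b + 1) := by
  have dt := diff_th hg
  have c0 := cont_B hR hg hg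
  have c1 := cont_B hR hg dt
  have c2 := cont_B hR dt dt
  have e0 : J (Qf g c lam) a (b - 1) = c ^ 2 * J (B g g) (a + 2 + 2) (b - 1) -
      2 * c * lam * J (B g (th g)) (a + 2) b + lam ^ 2 * J (B (th g) (th g)) a (b + 1) -
      J (B g g) a (b - 1) := by
    have i1 := (int_J c0 (a := a + 2 + 2) (β := b - 1) (by linarith) (by linarith)).const_mul
      (c ^ 2)
    have i2 := (int_J c1 (a := a + 2) (β := b) (by linarith) (by linarith)).const_mul
      (2 * c * lam)
    have i3 := (int_J c2 (a := a) (β := b + 1) (by linarith) (by linarith)).const_mul (lam ^ 2)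
    have i4 := int_J c0 (a := a) (β := b - 1) (by linarith) (by linarith)
    unfold J
    rw [← integral_const_mul, ← integral_const_mul, ← integral_const_mul, ← integral_sub i1 i2,
      ← integral_add (f := fun z => c ^ 2 * (B g g z * wt (a + 2 + 2) (b - 1) ‖z‖) -
        2 * c * lam * (B g (th g) z * wt (a + 2) b ‖z‖)) (i1.sub i2) i3,
      ← integral_sub (f := fun z => c ^ 2 * (B g g z * wt (a + 2 + 2) (b - 1) ‖z‖) -
        2 * c * lam * (B g (th g) z * wt (a + 2) b ‖z‖) +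
        lam ^ 2 * (B (th g) (th g) z * wt a (b + 1) ‖z‖)) ((i1.sub i2).add i3) i4]
    refine integral_congr_ae ?_
    filter_upwards [ae_ne] with z hz
    have w1 : wt a b ‖z‖ = (1 - ‖z‖ ^ 2) * wt a (b - 1) ‖z‖ := by
      rw [← wt_d a (b - 1) hz.1 hz.2, sub_add_cancel]
    rw [Qf_eq, wt_s _ _ hz.1, wt_s _ _ hz.1, wt_s _ _ hz.1, wt_d a b hz.1 hz.2, w1]
    ring
  have r1 := rad_B hR hg hg (a := a + 2) (β := b) (by linarith) hb
  have r2 := rad_B hR dt hg (a := a) (β := b + 1) ha (by linarith)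
  have r3 := rad_B hR hg hg (a := a) (β := b + 1) ha (by linarith)
  rw [B_comm (th g) g] at r2
  simp only [add_sub_cancel_right] at r2 r3
  have s1 := J_shift c0 (a := a + 2) (β := b - 1) (by linarith) (by linarith)
  have s2 := J_shift c0 (a := a) (β := b - 1) ha (by linarith)
  have s3 := J_shift c0 (a := a) (β := b) ha (by linarith)
  simp only [sub_add_cancel] at s1 s2
  rw [e0, r2, r1, r3, s1, s2, s3]
  ring

/-- the moment inequality: the constant `K` depends on the parameters only -/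
theorem mom_ge (c lam : ℝ) {a b : ℝ} (ha : -2 < a) (hb : 0 < b) :
    ∃ K : ℝ, 0 ≤ K ∧ ∀ (g : ℂ → ℂ) (R : ℝ), 1 < R → DifferentiableOn ℂ g (ball 0 R) →
      ((c - lam * b) ^ 2 + lam ^ 2 * b - 1) * J (B g g) a (b - 1) - K * J (B g g) a b ≤
        J (Qf g c lam) a (b - 1) := by
  set k1 := (-2 * c ^ 2 + (lam ^ 2 * (b + 1) - 2 * c * lam) * (-2 * b - (a + 4) / 2) -
        lam ^ 2 * ((a + 2) / 2) * (b + 1)) with hk1
  set k2 := (c ^ 2 + (lam ^ 2 * (b + 1) - 2 * c * lam) * (b + (a + 4) / 2) +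
        lam ^ 2 * ((a + 2) / 2) * (b + 1 + (a + 2) / 2)) with hk2
  refine ⟨|k1| + |k2|, by positivity, fun g R hR hg => ?_⟩
  rw [mom hR hg c lam ha hb, ← hk1, ← hk2]
  obtain ⟨h1, h2⟩ := J_mono (cont_B hR hg hg) (fun z => by rw [B_self]; positivity) ha
    (β := b) (by linarith)
  nlinarith [neg_abs_le k1, neg_abs_le k2, abs_nonneg k1, abs_nonneg k2,
    mul_le_mul_of_nonneg_right (neg_abs_le k1) (h1.trans h2),
    mul_le_mul_of_nonneg_right (neg_abs_le k2) h1,
    mul_le_mul_of_nonneg_left h2 (abs_nonneg k2)]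

end Crest.Agent.R131.Ibp
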