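import Crest.Agent.R131.Bridge
import Crest.Agent.R131.Ibp44
import Crest.Agent.R131.Pars57
import Crest.Agent.R131.Dist13
import Crest.Agent.R131.Dilate

set_option autoImplicit false
open MeasureTheory Set Metric Filter Topology Real
open scoped ENNReal

namespace Crest.Agent.R131.F36

open Crest.Agent.R131.Ibp

/-- the circle mean of `|g|^2` -/
noncomputable def mm (g : ℂ → ℂ) (r : ℝ) : ℝ :=
  ∫ θ in (-π)..π, ‖g ((r : ℂ) * Complex.exp ((θ : ℂ) * Complex.I))‖ ^ 2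

theorem mm_nonneg (g : ℂ → ℂ) (r : ℝ) : 0 ≤ mm g r :=
  intervalIntegral.integral_nonneg (by linarith [Real.pi_pos]) fun _ _ => by positivity

theorem mm_mono {g : ℂ → ℂ} {R : ℝ} (hg : DifferentiableOn ℂ g (ball 0 R)) {r s : ℝ}
    (hr : 0 ≤ r) (hrs : r ≤ s) (hs : s < R) : mm g r ≤ mm g s := by
  have h1 := p57_circle0 g R hg r hr (hrs.trans_lt hs)
  have h2 := p57_circle0 g R hg s (hr.trans hrs) hs
  refine hasSum_le (fun n => ?_) h1 h2
  have := Real.pi_pos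
  gcongr

theorem pt_eq (r θ : ℝ) : pt r θ = (r : ℂ) * Complex.exp ((θ : ℂ) * Complex.I) := by
  unfold pt
  rw [Complex.exp_mul_I]; push_cast; ring

theorem J_polar {g : ℂ → ℂ} {R : ℝ} (hR : 1 < R) (hg : DifferentiableOn ℂ g (ball 0 R))
    {a β : ℝ} (ha : -2 < a) (hβ : -1 < β) :
    IntegrableOn (fun ρ => ρ * wt a β ρ * mm g ρ) (Ioo (0 : ℝ) 1) ∧
      J (B g g) a β = ∫ ρ in Ioo (0 : ℝ) 1, ρ * wt a β ρ * mm g ρ := by
  have i4 := int_Pz (cont_B hR hg hg) ha hβ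
  rw [J_eq]
  rw [IntegrableOn, Measure.volume_eq_prod, ← Measure.prod_restrict] at i4
  have e : ∀ ρ : ℝ, ∫ θ in Ioo (-π) π, Pz (B g g) a β (ρ, θ) = ρ * wt a β ρ * mm g ρ := by
    intro ρ
    unfold Pz mm
    dsimp only
    rw [integral_const_mul, intervalIntegral.integral_of_le (by linarith [Real.pi_pos]),
      integral_Ioc_eq_integral_Ioo]
    simp only [B_self, pt_eq]
  refine ⟨?_, ?_⟩
  · have := i4.integral_prod_left
    simp only [e] at this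
    exact this
  · rw [Measure.volume_eq_prod, ← Measure.prod_restrict, integral_prod _ i4]
    simp only [e]

theorem rpow_ge_of_mem {x y e : ℝ} (hy : 0 < y) (h1 : y / 2 ≤ x) (h2 : x ≤ 2 * y) :
    (2 : ℝ) ^ (-|e|) * y ^ e ≤ x ^ e := by
  have hx : 0 < x := by linarith
  rcases le_total 0 e with he | he
  · rw [abs_of_nonneg he, Real.rpow_neg (by norm_num), ← Real.inv_rpow (by norm_num),
      ← Real.mul_rpow (by norm_num) hy.le]
    exact Real.rpow_le_rpow (by positivity) (by linarith) he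
  · rw [abs_of_nonpos he, neg_neg, ← Real.mul_rpow (by norm_num) hy.le]
    exact Real.rpow_le_rpow_of_nonpos hx h2 he

theorem means36 {a b : ℝ} (ha : -2 < a) (hb : 0 < b) :
    ∃ C : ℝ, 0 < C ∧ ∀ (g : ℂ → ℂ) (R : ℝ), 1 < R → DifferentiableOn ℂ g (ball 0 R) →
      ∀ r : ℝ, 1 / 2 ≤ r → r < 1 → mm g r ≤ C * J (B g g) a (b - 1) * (1 - r) ^ (-b) := by
  set k : ℝ := (1 / 2) * ((2 : ℝ) ^ (-|a|) * (2 : ℝ) ^ (-|b - 1|)) with hk
  have hk0 : 0 < k := by positivity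
  refine ⟨2 / k, by positivity, fun g R hR hg r hr1 hr2 => ?_⟩
  obtain ⟨hI, hJ⟩ := J_polar hR hg ha (β := b - 1) (by linarith)
  have hd : 0 < 1 - r := by linarith
  have hsub : Ioo r ((1 + r) / 2) ⊆ Ioo (0 : ℝ) 1 := fun x hx =>
    ⟨by linarith [hx.1], by linarith [hx.2]⟩
  have h1 : ∫ ρ in Ioo r ((1 + r) / 2), ρ * wt a (b - 1) ρ * mm g ρ ≤ J (B g g) a (b - 1) := by
    rw [hJ]
    refine setIntegral_mono_set hI ?_ hsub.eventuallyLE
    refine (ae_restrict_iff' measurableSet_Ioo).2 (Eventually.of_forall fun x hx => ?_)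
    exact mul_nonneg (mul_nonneg hx.1.le (wt_nonneg _ _ hx.1.le hx.2.le)) (mm_nonneg _ _)
  have h2 : ∫ _ in Ioo r ((1 + r) / 2), k * (1 - r) ^ (b - 1) * mm g r ≤
      ∫ ρ in Ioo r ((1 + r) / 2), ρ * wt a (b - 1) ρ * mm g ρ := by
    refine setIntegral_mono_on (integrableOn_const (by simp)) (hI.mono_set hsub)
      measurableSet_Ioo fun x hx => ?_
    have hx1 := hx.1
    have hx2 := hx.2
    have e1 : (2 : ℝ) ^ (-|a|) * (1 : ℝ) ^ a ≤ x ^ a :=
      rpow_ge_of_mem one_pos (by linarith) (by linarith)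
    have e2 : (2 : ℝ) ^ (-|b - 1|) * (1 - r) ^ (b - 1) ≤ (1 - x ^ 2) ^ (b - 1) :=
      rpow_ge_of_mem hd (by nlinarith) (by nlinarith)
    rw [Real.one_rpow, mul_one] at e1
    have e3 := mm_mono hg (r := r) (s := x) (by linarith) hx1.le (by linarith)
    have e4 := mm_nonneg g r
    have hx0 : 0 < x := by linarith
    have hx3 : 0 ≤ 1 - x ^ 2 := by nlinarith
    unfold wt
    calc k * (1 - r) ^ (b - 1) * mm g r
        = (1 / 2) * ((2 : ℝ) ^ (-|a|) * ((2 : ℝ) ^ (-|b - 1|) * (1 - r) ^ (b - 1))) * mm g r := by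
          rw [hk]; ring
      _ ≤ x * (x ^ a * (1 - x ^ 2) ^ (b - 1)) * mm g x := by
          gcongr
          linarith
  rw [setIntegral_const, smul_eq_mul, Real.volume_real_Ioo_of_le (by linarith)] at h2
  have e : (1 - r) ^ (b - 1) = ((1 - r) ^ (-b))⁻¹ / (1 - r) := by
    rw [← Real.rpow_neg hd.le, neg_neg, Real.rpow_sub_one hd.ne']
  have hp := Real.rpow_pos_of_pos hd (-b)
  have h3 : k / 2 * mm g r / (1 - r) ^ (-b) ≤ J (B g g) a (b - 1) := by
    refine le_trans (le_of_eq ?_) (h2.trans h1)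
    rw [e]; field_simp; ring
  rw [div_le_iff₀ hp] at h3
  calc mm g r = 2 / k * (k / 2 * mm g r) := by field_simp
    _ ≤ 2 / k * (J (B g g) a (b - 1) * (1 - r) ^ (-b)) := by gcongr
    _ = _ := by ring

theorem absorb {g : ℂ → ℂ} {R : ℝ} (hR : 1 < R) (hg : DifferentiableOn ℂ g (ball 0 R))
    {a b r0 L : ℝ} (ha : -2 < a) (hb : 0 < b) (h0 : 0 < r0) (h1 : r0 < 1)
    (hL : ∀ z : ℂ, ‖z‖ ≤ r0 → ‖g z‖ ^ 2 ≤ L) :
    J (B g g) a b ≤ (1 - r0 ^ 2) * J (B g g) a (b - 1) + L * J (fun _ => 1) a b := by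
  have c0 := cont_B hR hg hg
  have i1 := int_J c0 ha (β := b) (by linarith)
  have i2 := int_J c0 ha (β := b - 1) (by linarith)
  have i3 := int_J (H := fun _ => 1) continuousOn_const ha (β := b) (by linarith)
  have hL0 : 0 ≤ L := le_trans (by positivity) (hL 0 (by simpa using h0.le))
  unfold J
  rw [← integral_const_mul, ← integral_const_mul,
    ← integral_add (i2.const_mul _) (i3.const_mul _)]
  refine integral_mono_ae i1 ((i2.const_mul _).add (i3.const_mul _)) ?_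
  filter_upwards [ae_ne] with z hz
  have w1 := wt_nonneg a (b - 1) hz.1.le hz.2.le
  have w2 := wt_nonneg a b hz.1.le hz.2.le
  have e := wt_d a (b - 1) hz.1 hz.2
  rw [sub_add_cancel] at e
  rw [B_self]
  have hδ : 0 ≤ 1 - r0 ^ 2 := by nlinarith
  by_cases hzr : ‖z‖ ≤ r0
  · have := mul_le_mul_of_nonneg_right (hL z hzr) w2
    have : 0 ≤ (1 - r0 ^ 2) * (‖g z‖ ^ 2 * wt a (b - 1) ‖z‖) := by positivity
    linarith
  · have h2 : 1 - ‖z‖ ^ 2 ≤ 1 - r0 ^ 2 := by nlinarith [not_le.1 hzr]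
    have h3 := mul_le_mul_of_nonneg_right h2 (mul_nonneg (sq_nonneg ‖g z‖) w1)
    have : 0 ≤ L * (1 * wt a b ‖z‖) := by positivity
    rw [e] at this ⊢
    nlinarith

/-- **The weights.** -/
theorem wt36 (c lam a b eta : ℝ) (ha : -2 < a) (hb : 0 < b)
    (hθ : 0 < (c - lam * b) ^ 2 + lam ^ 2 * b - 1 + eta) :
    ∃ r0 C : ℝ, 0 < r0 ∧ r0 < 1 ∧ 0 < C ∧ ∀ (g : ℂ → ℂ) (R K L : ℝ), 1 < R →
      DifferentiableOn ℂ g (ball 0 R) → 0 ≤ K → (∀ z : ℂ, ‖z‖ ≤ r0 → ‖g z‖ ^ 2 ≤ L) →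
      J (Qf g c lam) a (b - 1) + eta * J (B g g) a (b - 1) ≤ K →
      ∀ r : ℝ, 1 / 2 ≤ r → r < 1 → mm g r ≤ C * (K + L) * (1 - r) ^ (-b) := by
  obtain ⟨K0, hK0, hmom⟩ := mom_ge c lam ha hb
  obtain ⟨C1, hC1, hmean⟩ := means36 ha hb
  set t := (c - lam * b) ^ 2 + lam ^ 2 * b - 1 + eta with ht
  set δ : ℝ := min (1 / 2) (t / (4 * (K0 + 1))) with hδ
  have hδ0 : 0 < δ := lt_min (by norm_num) (by positivity)
  have hδ1 : δ ≤ 1 / 2 := min_le_left _ _
  have hδ2 : δ * (4 * (K0 + 1)) ≤ t := (le_div_iff₀ (by positivity)).1 (min_le_right _ _)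
  have hJ1 : 0 ≤ J (fun _ => 1) a b := by
    have := (J_mono (H := fun _ => 1) continuousOn_const (fun _ => zero_le_one) ha
      (β := b - 1) (by linarith)).1
    rwa [sub_add_cancel] at this
  set J1 := J (fun _ => 1) a b with hJ1d
  refine ⟨1 - δ, C1 * (2 / t * (1 + K0 * J1)), by linarith, by linarith, by positivity,
    fun g R K L hR hg hK hL hQ r hr1 hr2 => ?_⟩
  have hL0 : 0 ≤ L := le_trans (by positivity) (hL 0 (by simp; linarith))
  have h1 := hmom g R hR hg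
  have h2 := absorb hR hg ha hb (r0 := 1 - δ) (by linarith) (by linarith) hL
  have hM : 0 ≤ J (B g g) a (b - 1) := by
    obtain ⟨p1, p2⟩ := J_mono (cont_B hR hg hg) (fun z => by rw [B_self]; positivity) ha
      (β := b - 1) (by linarith)
    exact p1.trans p2
  set M := J (B g g) a (b - 1) with hMd
  have h3 : K0 * (1 - (1 - δ) ^ 2) ≤ t / 2 := by nlinarith
  have h4 := mul_le_mul_of_nonneg_left h2 hK0
  have h5 := mul_le_mul_of_nonneg_right h3 hM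
  have h6 : t / 2 * M ≤ K + K0 * J1 * L := by
    have : t * M = ((c - lam * b) ^ 2 + lam ^ 2 * b - 1) * M + eta * M := by rw [ht]; ring
    nlinarith
  have h7 : M ≤ 2 / t * (1 + K0 * J1) * (K + L) := by
    have : K + K0 * J1 * L ≤ (1 + K0 * J1) * (K + L) := by
      have := mul_nonneg (mul_nonneg hK0 hJ1) hK
      nlinarith
    calc M = 2 / t * (t / 2 * M) := by field_simp
      _ ≤ 2 / t * ((1 + K0 * J1) * (K + L)) :=
          mul_le_mul_of_nonneg_left (h6.trans this) (by positivity)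
      _ = _ := by ring
  have hp := Real.rpow_pos_of_pos (show 0 < 1 - r by linarith) (-b)
  calc mm g r ≤ C1 * M * (1 - r) ^ (-b) := hmean g R hR hg r hr1 hr2
    _ ≤ C1 * (2 / t * (1 + K0 * J1) * (K + L)) * (1 - r) ^ (-b) := by gcongr
    _ = _ := by ring

theorem mem_circ {r R : ℝ} (h0 : 0 ≤ r) (hr : r < R) (θ : ℝ) :
    (r : ℂ) * Complex.exp ((θ : ℂ) * Complex.I) ∈ ball (0 : ℂ) R := by
  rw [mem_ball_zero_iff, norm_mul, Complex.norm_exp_ofReal_mul_I, mul_one, Complex.norm_real,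
    Real.norm_of_nonneg h0]
  exact hr

theorem lint_eq_mm {g : ℂ → ℂ} {R : ℝ} (hg : DifferentiableOn ℂ g (ball 0 R)) {r : ℝ}
    (h0 : 0 ≤ r) (hr : r < R) :
    ∫⁻ θ in Ioc (-π) π, ENNReal.ofReal (‖g ((r : ℂ) * Complex.exp ((θ : ℂ) * Complex.I))‖ ^ 2) =
      ENNReal.ofReal (mm g r) := by
  have hc : Continuous fun θ : ℝ => ‖g ((r : ℂ) * Complex.exp ((θ : ℂ) * Complex.I))‖ ^ 2 :=
    (hg.continuousOn.comp_continuous (by fun_prop) (mem_circ h0 hr)).norm.pow 2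
  unfold mm
  rw [intervalIntegral.integral_of_le (by linarith [Real.pi_pos]),
    ofReal_integral_eq_lintegral_ofReal (hc.integrableOn_Icc.mono_set Ioc_subset_Icc_self)
      (Eventually.of_forall fun θ => by positivity)]

theorem Qf_wt {f g : ℂ → ℂ} {c al b : ℝ} (hal : al ≠ 0) {z : ℂ}
    (h1 : ‖g z‖ ^ 2 = ‖deriv f z‖ ^ (-(2 * al)))
    (h2 : deriv g z = -(al : ℂ) * (deriv (deriv f) z / deriv f z) * g z) :
    Qf g c (1 / al) z * wt (2 * al - 2) (b - 1) ‖z‖ = (‖sX f c z‖ ^ 2 - 1) * bW f al b z := by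
  have h := root_X (c := c) hal h2
  have e : ((c * ‖z‖ ^ 2 : ℝ) : ℂ) * g z - ((1 / al * (1 - ‖z‖ ^ 2) : ℝ) : ℂ) * (z * deriv g z) =
      sX f c z * g z := by
    rw [← h]; push_cast; ring
  unfold Qf wt bW
  rw [e, norm_mul, mul_pow, h1]
  ring

theorem B_wt {f g : ℂ → ℂ} {al b : ℝ} {z : ℂ}
    (h1 : ‖g z‖ ^ 2 = ‖deriv f z‖ ^ (-(2 * al))) :
    B g g z * wt (2 * al - 2) (b - 1) ‖z‖ = bW f al b z := by
  unfold wt bW
  rw [B_self, h1]
  ring

theorem integral_le_of_lint {h : ℂ → ℝ} {μ : Measure ℂ} (hi : Integrable h μ)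
    (H : ∫⁻ z, ENNReal.ofReal (h z) ∂μ ≤ ∫⁻ z, ENNReal.ofReal (-h z) ∂μ) : ∫ z, h z ∂μ ≤ 0 := by
  rw [integral_eq_lintegral_pos_part_sub_lintegral_neg_part hi, sub_nonpos]
  exact ENNReal.toReal_mono hi.neg.lintegral_lt_top.ne H

theorem low_bound {f : ℂ → ℂ} (hf : DifferentiableOn ℂ f (ball 0 1)) (hinj : InjOn f (ball 0 1))
    (h1 : deriv f 0 = 1) {r0 al : ℝ} (h0 : 0 < r0) (hr : r0 < 1) (hal : 0 ≤ al) {z : ℂ}
    (hz : ‖z‖ ≤ r0) :
    ‖deriv f z‖ ^ (-(2 * al)) ≤ (Real.exp (50000 / (1 - r0)))⁻¹ ^ (-(2 * al)) := by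
  have h := harnack13 f hf hinj hr (z := z) (w := 0) hz (by simpa using h0.le)
  rw [h1, norm_one, zero_sub, norm_neg] at h
  have hd : 0 < 1 - r0 := by linarith
  have h2 : Real.exp (50000 / (1 - r0) * ‖z‖) ≤ Real.exp (50000 / (1 - r0)) := by
    refine Real.exp_le_exp.2 ?_
    have : 0 ≤ 50000 / (1 - r0) := by positivity
    nlinarith [norm_nonneg z]
  refine Real.rpow_le_rpow_of_nonpos (by positivity) ?_ (by linarith)
  rw [inv_le_iff_one_le_mul₀' (Real.exp_pos _)]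
  exact h.trans (mul_le_mul_of_nonneg_right h2 (norm_nonneg _))

/-- **Means of `|f'|^(-2 al)` for maps univalent on a larger disc.** -/
theorem means_neg (c al b : ℝ) (hc : -1 < c) (hal : 0 < al) (hb0 : 0 < b)
    (hb : b - 1 = -((1 + al) * (1 - c)))
    (hθ : 0 < (c - 1 / al * b) ^ 2 + (1 / al) ^ 2 * b - 1) :
    ∃ C : ℝ, ∀ (f : ℂ → ℂ) (R : ℝ), 1 < R → DifferentiableOn ℂ f (ball 0 R) →
      InjOn f (ball 0 R) → deriv f 0 = 1 → ∀ r : ℝ, 1 / 2 ≤ r → r < 1 →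
        ∫⁻ θ in Ioc (-π) π, ENNReal.ofReal
            (‖deriv f ((r : ℂ) * Complex.exp ((θ : ℂ) * Complex.I))‖ ^ (-(2 * al))) ≤
          ENNReal.ofReal (C * (1 - r) ^ (-b)) := by
  have ha : -2 < 2 * al - 2 := by linarith
  obtain ⟨r0, C, h0, h1, hC, H⟩ := wt36 c (1 / al) (2 * al - 2) b 0 ha hb0 (by simpa using hθ)
  refine ⟨C * (0 + (Real.exp (50000 / (1 - r0)))⁻¹ ^ (-(2 * al))),
    fun f R hR hf hinj hf1 r hr1 hr2 => ?_⟩
  obtain ⟨g, hg, hg1, hg2⟩ := exists_root f R hf hinj al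
  have hsub : ball (0 : ℂ) 1 ⊆ ball 0 R := ball_subset_ball hR.le
  have hQ : J (Qf g c (1 / al)) (2 * al - 2) (b - 1) ≤ 0 := by
    have S := star_W1 f R hR hf hinj c al b hc (by linarith) hb
    refine integral_le_of_lint (int_J (cont_Qf hR hg c (1 / al)) ha (by linarith)) ?_
    rw [setLIntegral_congr_fun measurableSet_ball
      (g := fun z => ENNReal.ofReal ((‖sX f c z‖ ^ 2 - 1) * bW f al b z))
      (fun z hz => by simp only [Qf_wt hal.ne' (hg1 z (hsub hz)) (hg2 z (hsub hz))]),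
      setLIntegral_congr_fun measurableSet_ball
      (f := fun z => ENNReal.ofReal (-(Qf g c (1 / al) z * wt (2 * al - 2) (b - 1) ‖z‖)))
      (g := fun z => ENNReal.ofReal ((1 - ‖sX f c z‖ ^ 2) * bW f al b z))
      (fun z hz => by
        simp only [Qf_wt hal.ne' (hg1 z (hsub hz)) (hg2 z (hsub hz))]
        congr 1; ring)]
    exact S
  have H2 := H g R 0 _ hR hg le_rfl (fun z hz => by
    rw [hg1 z (mem_ball_zero_iff.2 (by linarith))]
    exact low_bound (hf.mono hsub) (hinj.mono hsub) hf1 h0 h1 hal.le hz)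
    (by simpa using hQ) r hr1 hr2
  calc _ = ∫⁻ θ in Ioc (-π) π,
        ENNReal.ofReal (‖g ((r : ℂ) * Complex.exp ((θ : ℂ) * Complex.I))‖ ^ 2) := by
        refine lintegral_congr fun θ => ?_
        rw [hg1 _ (mem_circ (by linarith) (by linarith) θ)]
    _ = ENNReal.ofReal (mm g r) := lint_eq_mm hg (by linarith) (by linarith)
    _ ≤ _ := ENNReal.ofReal_le_ofReal H2

theorem inv_sq_eq {w : ℂ} (hw : w ≠ 0) :
    (‖w‖ₑ)⁻¹ ^ 2 = ENNReal.ofReal (‖w‖ ^ (-(2 * (1 : ℝ)))) := by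
  have h := norm_pos_iff.2 hw
  rw [← ofReal_norm, ← ENNReal.ofReal_inv_of_pos h, ← ENNReal.ofReal_pow (by positivity),
    mul_one, Real.rpow_neg h.le, Real.rpow_two, inv_pow]

/-- **S0178.** -/
theorem fin78 (ε : ℝ) (hε : 0 < ε) :
    ∃ C : ℝ, ∀ f : ℂ → ℂ,
      DifferentiableOn ℂ f (Metric.ball 0 1) → Set.InjOn f (Metric.ball 0 1) → f 0 = 0 →
      deriv f 0 = 1 → ∀ r : ℝ, 1 / 2 ≤ r → r < 1 →
        ∫⁻ θ in Set.Ioc (-Real.pi) Real.pi,
            (‖deriv f ((r : ℂ) * Complex.exp ((θ : ℂ) * Complex.I))‖ₑ)⁻¹ ^ 2 ≤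
          ENNReal.ofReal (2 * Real.pi * C * (1 - r) ^ (-1 - ε)) := by
  refine Dilate.dilate (fun w => (‖w‖ₑ)⁻¹ ^ 2) (-1 - ε) (by linarith) ?_
  obtain ⟨C, hC⟩ := means_neg (1 + ε / 2) 1 (1 + ε) (by linarith) one_pos (by linarith)
    (by ring) (by nlinarith [sq_nonneg (1 + ε / 2 - 1 / 1 * (1 + ε))])
  refine ⟨C, fun f R hR hf hinj _ hf1 r hr1 hr2 => ?_⟩
  have H := hC f R hR hf hinj hf1 r hr1 hr2
  rw [show -(1 + ε) = -1 - ε by ring] at H
  refine le_trans (le_of_eq (lintegral_congr fun θ => ?_)) H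
  exact inv_sq_eq (Crest.Agent.Lib.Complex.deriv_ne_zero_of_injOn isOpen_ball hf hinj
    (mem_circ (by linarith) (by linarith) θ))

end Crest.Agent.R131.F36
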