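import Crest.Agent.R131.Star
import Crest.Agent.R131.StDefs

set_option autoImplicit false
open MeasureTheory Set Metric Filter Topology
open scoped ENNReal ComplexConjugate

namespace Crest.Agent.R131

theorem stX_eq (c : ℝ) (f : ℂ → ℂ) (z : ℂ) : stX c f z = sX f c z := by
  unfold stX sX; rw [mul_div_assoc]

theorem stJ_eq (c : ℝ) (f : ℂ → ℂ) (z : ℂ) : stJ c f z = sJ f c z := by
  unfold stJ sJ; rw [stX_eq]

theorem stF_eq (c : ℝ) (f : ℂ → ℂ) (z : ℂ) : stF c f z = sF f c z := rfl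

theorem stG_eq (c : ℝ) (f : ℂ → ℂ) (a z : ℂ) : stG c f a z = sG f c a z := rfl

theorem starP (c : ℝ) (f : ℂ → ℂ) (R : ℝ) (hR : 1 < R) (hf : DifferentiableOn ℂ f (ball 0 R))
    (hinj : InjOn f (ball 0 R)) (hc : -1 < c) : StarP c f := by
  intro Φ₁ Φ₂ h₁ h₂ hp
  simp only [stJ_eq]
  refine star' f R hR hf hinj c hc Φ₁ Φ₂ h₁ h₂ ?_
  intro a s m hs hm hs0 hm0 hsa hma hJs hJm hG hC
  subst hsa
  exact hp s hs m hm hs0 hm0 hma.symm (by rwa [stJ_eq]) (by rwa [stJ_eq]) hG hC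

end Crest.Agent.R131
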