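import Crest.Agent.R131.Wt87
import Crest.Agent.R131.Bridge
import Crest.Agent.R131.Dist13
import Crest.Agent.R131.Dilate
import Crest.Agent.R131.StStar
import Crest.Agent.R131.StGain
import Crest.Agent.R131.StN
import Crest.Agent.R131.StDepth

/-! Row 131 (helper87): the final assembly of S0177 and S0178. -/

set_option autoImplicit false

open MeasureTheory Set Metric
open scoped ENNReal

noncomputable section

namespace Crest.Agent.R131.F87

theorem mass_fin {al b : ℝ} (hal : 0 < al) (hb : 0 < b) {f : ℂ → ℂ} {R : ℝ} (hR : 1 < R)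
    (hf : DifferentiableOn ℂ f (ball 0 R)) (hinj : InjOn f (ball 0 R)) :
    ∫⁻ z in ball (0 : ℂ) 1, ENNReal.ofReal (bW f al b z) ≠ ⊤ := by
  obtain ⟨g, hg, h1, -⟩ := exists_root f R hf hinj al
  have e := W87.lint_mass (τ := 2 * al) (by linarith) hb hR hg (fun _ => 1) (fun _ => 0)
    (by fun_prop) (by fun_prop)
  have e2 : ∫⁻ z in ball (0 : ℂ) 1, ENNReal.ofReal (bW f al b z) = _ :=
    Eq.trans (setLIntegral_congr_fun measurableSet_ball fun z hz => by
      simp only [bW, Complex.ofReal_one, one_mul, Complex.ofReal_zero, zero_mul, sub_zero,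
        h1 z (ball_subset_ball hR.le hz), mul_assoc]) e
  rw [e2]
  exact ENNReal.ofReal_ne_top

theorem weightsF (al c b η : ℝ) (hal : 0 < al) (hal1 : al ≤ 1) (hb : 0 < b) (hη : η ≤ 1)
    (hθ : 0 < (c - 2 * b / (2 * al)) ^ 2 + 4 * b / (2 * al) ^ 2 - 1 + η) (C₀ : ℝ) (hC : 0 ≤ C₀) :
    ∃ K : ℝ, ∀ (f : ℂ → ℂ) (R : ℝ), 1 < R → DifferentiableOn ℂ f (ball 0 R) →
      InjOn f (ball 0 R) → deriv f 0 = 1 →
      ∫⁻ z in ball (0 : ℂ) 1, ENNReal.ofReal (‖sX f c z‖ ^ 2 * bW f al b z) ≤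
        ENNReal.ofReal (1 - η) * (∫⁻ z in ball (0 : ℂ) 1, ENNReal.ofReal (bW f al b z)) +
          ENNReal.ofReal C₀ →
      ∀ r : ℝ, 1 / 2 ≤ r → r < 1 →
        ∫⁻ θ in Ioc (-Real.pi) Real.pi, ENNReal.ofReal
          (‖deriv f ((r : ℂ) * Complex.exp ((θ : ℂ) * Complex.I))‖ ^ (-(2 * al))) ≤
          ENNReal.ofReal (K * (1 - r) ^ (-b)) := by
  obtain ⟨K, hK, r₀, hr₀, H⟩ := weights87 (2 * al) c b η (by linarith) (by linarith) hb hη hθ
  refine ⟨K * (C₀ + Real.exp (50000 / (1 - r₀)) ^ (2 * al)), fun f R hR hf hinj h1 hI r hr1 hr2 => ?_⟩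
  obtain ⟨g, hg, g1, g2⟩ := exists_root f R hf hinj al
  have hsub : ball (0 : ℂ) 1 ⊆ ball 0 R := ball_subset_ball hR.le
  have := H g R hR hg C₀ (Real.exp (50000 / (1 - r₀)) ^ (2 * al)) hC ?_ (by positivity) ?_ r hr1 hr2
  · refine le_trans (le_of_eq (lintegral_congr fun θ => ?_)) this
    rw [g1]
    exact W87.pt_mem (r := r) (by rw [abs_of_pos (by linarith)]; linarith) θ
  · intro z hz
    have hz1 : ‖z‖ < 1 := lt_of_le_of_lt hz hr₀
    have hzb : z ∈ ball (0 : ℂ) 1 := by simpa using hz1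
    have h := harnack13 f (hf.mono hsub) (hinj.mono hsub) hr₀ (z := z) (w := 0) hz
      (by simpa using (norm_nonneg z).trans hz)
    rw [h1, norm_one, zero_sub, norm_neg] at h
    have hp : 0 < 1 - r₀ := by linarith
    have h2 : Real.exp (50000 / (1 - r₀) * ‖z‖) ≤ Real.exp (50000 / (1 - r₀)) :=
      Real.exp_le_exp.2 (mul_le_of_le_one_right (by positivity) hz1.le)
    have h3 : 1 ≤ Real.exp (50000 / (1 - r₀)) * ‖deriv f z‖ :=
      h.trans (mul_le_mul_of_nonneg_right h2 (norm_nonneg _))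
    have h4 : 0 < ‖deriv f z‖ := by
      rcases (norm_nonneg (deriv f z)).eq_or_lt with h0 | h0
      · rw [← h0] at h3; norm_num at h3
      · exact h0
    rw [g1 z (hsub hzb), Real.rpow_neg h4.le, ← Real.inv_rpow h4.le]
    refine Real.rpow_le_rpow (by positivity) ?_ (by linarith)
    rw [inv_le_iff_one_le_mul₀ h4]
    exact h3
  · convert hI using 1
    · refine setLIntegral_congr_fun measurableSet_ball fun z hz => ?_
      have e := root_X (f := f) (g := g) (c := c) hal.ne' (g2 z (hsub hz))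
      have e2 : ((2 / (2 * al) * (1 - ‖z‖ ^ 2) : ℝ) : ℂ) * (z * deriv g z) =
          (((1 - ‖z‖ ^ 2) / al : ℝ) : ℂ) * z * deriv g z := by
        rw [← mul_assoc]
        congr 3
        field_simp
      rw [e2, e, norm_mul, mul_pow, g1 z (hsub hz), bW]
      congr 1
      ring
    · congr 2
      refine setLIntegral_congr_fun measurableSet_ball fun z hz => ?_
      rw [g1 z (hsub hz), bW, mul_assoc]

theorem sq_le {X W : ℂ → ℝ} (hX : Measurable X) (hW : Measurable W)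
    (hX0 : ∀ z, 0 ≤ X z) (hW0 : ∀ z ∈ ball (0 : ℂ) 1, 0 ≤ W z)
    (hM : ∫⁻ z in ball (0 : ℂ) 1, ENNReal.ofReal (W z) ≠ ⊤)
    (h : ∫⁻ z in ball (0 : ℂ) 1, ENNReal.ofReal ((X z - 1) * W z) ≤
      ∫⁻ z in ball (0 : ℂ) 1, ENNReal.ofReal ((1 - X z) * W z)) :
    ∫⁻ z in ball (0 : ℂ) 1, ENNReal.ofReal (X z * W z) ≤
      ∫⁻ z in ball (0 : ℂ) 1, ENNReal.ofReal (W z) := by
  have hb : ∫⁻ z in ball (0 : ℂ) 1, ENNReal.ofReal ((1 - X z) * W z) ≠ ⊤ := by
    refine ne_top_of_le_ne_top hM (setLIntegral_mono' measurableSet_ball fun z hz => ?_)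
    exact ENNReal.ofReal_le_ofReal (by nlinarith [hX0 z, hW0 z hz])
  have e : (∫⁻ z in ball (0 : ℂ) 1, ENNReal.ofReal (X z * W z)) +
      ∫⁻ z in ball (0 : ℂ) 1, ENNReal.ofReal ((1 - X z) * W z) =
      (∫⁻ z in ball (0 : ℂ) 1, ENNReal.ofReal (W z)) +
      ∫⁻ z in ball (0 : ℂ) 1, ENNReal.ofReal ((X z - 1) * W z) := by
    rw [← lintegral_add_left (by fun_prop), ← lintegral_add_left (by fun_prop)]
    refine setLIntegral_congr_fun measurableSet_ball fun z hz => ?_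
    have h0 := hW0 z hz
    have h1 := hX0 z
    rcases le_total (X z) 1 with h2 | h2
    · rw [← ENNReal.ofReal_add (by positivity) (by nlinarith),
        ENNReal.ofReal_of_nonpos (p := (X z - 1) * W z) (by nlinarith), add_zero]
      congr 1; ring
    · rw [← ENNReal.ofReal_add h0 (by nlinarith),
        ENNReal.ofReal_of_nonpos (p := (1 - X z) * W z) (by nlinarith), add_zero]
      congr 1; ring
  refine (ENNReal.add_le_add_iff_right hb).1 ?_
  rw [e]
  gcongr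

theorem enorm_inv_pow {w : ℂ} (hw : w ≠ 0) (n : ℕ) :
    (‖w‖ₑ)⁻¹ ^ n = ENNReal.ofReal (‖w‖ ^ (-(n : ℝ))) := by
  have h : 0 < ‖w‖ := norm_pos_iff.2 hw
  rw [← ofReal_norm, ← ENNReal.ofReal_inv_of_pos h, ← ENNReal.ofReal_pow (by positivity),
    Real.rpow_neg h.le, Real.rpow_natCast, inv_pow]

theorem d_ne {f : ℂ → ℂ} {R r : ℝ} (hR : 1 < R) (hf : DifferentiableOn ℂ f (ball 0 R))
    (hinj : InjOn f (ball 0 R)) (h1 : deriv f 0 = 1) {z : ℂ} (hz : ‖z‖ ≤ r) (hr : r < 1) :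
    deriv f z ≠ 0 := by
  have hsub : ball (0 : ℂ) 1 ⊆ ball 0 R := ball_subset_ball hR.le
  have h := harnack13 f (hf.mono hsub) (hinj.mono hsub) hr (z := z) (w := 0) hz
    (by simpa using (norm_nonneg z).trans hz)
  intro h0
  rw [h1, h0] at h
  norm_num at h

theorem s78 (ε : ℝ) (hε : 0 < ε) :
    ∃ C : ℝ, ∀ f : ℂ → ℂ,
      DifferentiableOn ℂ f (Metric.ball 0 1) → Set.InjOn f (Metric.ball 0 1) → f 0 = 0 →
      deriv f 0 = 1 → ∀ r : ℝ, 1 / 2 ≤ r → r < 1 →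
        ∫⁻ θ in Set.Ioc (-Real.pi) Real.pi,
            (‖deriv f ((r : ℂ) * Complex.exp ((θ : ℂ) * Complex.I))‖ₑ)⁻¹ ^ 2 ≤
          ENNReal.ofReal (2 * Real.pi * C * (1 - r) ^ (-1 - ε)) := by
  refine Crest.Agent.R131.Dilate.dilate (fun w => (‖w‖ₑ)⁻¹ ^ 2) (-1 - ε) (by linarith) ?_
  obtain ⟨K, H⟩ := weightsF 1 (1 + ε / 2) (1 + ε) 0 one_pos le_rfl (by linarith) zero_le_one
    (by nlinarith [sq_nonneg (1 + ε / 2 - 2 * (1 + ε) / (2 * 1))]) 0 le_rfl
  refine ⟨K, fun f R hR hf hinj _ h1 r hr1 hr2 => ?_⟩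
  have h := H f R hR hf hinj h1 ?_ r hr1 hr2
  · rw [show -1 - ε = -(1 + ε) by ring]
    refine le_trans (le_of_eq (lintegral_congr fun θ => ?_)) h
    refine (enorm_inv_pow (d_ne hR hf hinj h1 (r := r)
      (le_of_eq ((W87.norm_pt r θ).trans (abs_of_pos (by linarith)))) hr2) 2).trans ?_
    norm_num [W87.pt]
  · simp only [sub_zero, ENNReal.ofReal_one, one_mul, ENNReal.ofReal_zero, add_zero]
    exact sq_le ((measurable_sX36 f _).norm.pow_const 2) (measurable_bW f _ _)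
      (fun z => by positivity) (fun z hz => bW_nonneg f _ _ hz)
      (mass_fin one_pos (by linarith) hR hf hinj)
      (star_W1 f R hR hf hinj _ 1 _ (by linarith) (by norm_num) (by ring))

theorem stW_eq (b : ℝ) (f : ℂ → ℂ) (z : ℂ) : stW b f z = bW f (1 / 2) b z := by
  simp only [stW, bW]
  rw [show -(2 * (1 / 2 : ℝ)) = -1 by norm_num, show 2 * (1 / 2 : ℝ) - 2 = -1 by norm_num,
    Real.rpow_neg_one, Real.rpow_neg_one, mul_assoc]

theorem s77 :
    ∃ ε : ℝ, 0 < ε ∧ ε < 1 / 4 ∧ ∃ C : ℝ, ∀ f : ℂ → ℂ,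
      DifferentiableOn ℂ f (Metric.ball 0 1) → Set.InjOn f (Metric.ball 0 1) → f 0 = 0 →
      deriv f 0 = 1 → ∀ r : ℝ, 1 / 2 ≤ r → r < 1 →
        ∫⁻ θ in Set.Ioc (-Real.pi) Real.pi,
            (‖deriv f ((r : ℂ) * Complex.exp ((θ : ℂ) * Complex.I))‖ₑ)⁻¹ ≤
          ENNReal.ofReal (2 * Real.pi * C * (1 - r) ^ (-(1 / 4 : ℝ) + ε)) := by
  obtain ⟨η, hη, hη2, C, hG⟩ := stGain minDepth nonDeg 100000
  refine ⟨η / 10, by positivity, by linarith, ?_⟩
  refine Crest.Agent.R131.Dilate.dilate (fun w => (‖w‖ₑ)⁻¹) (-(1 / 4 : ℝ) + η / 10) (by linarith) ?_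
  set b : ℝ := 1 / 4 - η / 10 with hb
  have hb0 : 0 < b := by rw [hb]; linarith
  obtain ⟨K, H⟩ := weightsF (1 / 2) ((1 + 2 * b) / 3) b η (by norm_num) (by norm_num) hb0
    (by linarith) (by
      have := sq_nonneg ((1 + 2 * b) / 3 - 2 * b / (2 * (1 / 2)))
      have e : 4 * b / (2 * (1 / 2)) ^ 2 = 1 - 4 * η / 10 := by rw [hb]; ring
      rw [e]; linarith) (max C 0) (le_max_right _ _)
  refine ⟨K, fun f R hR hf hinj _ h1 r hr1 hr2 => ?_⟩
  have hsub : ball (0 : ℂ) 1 ⊆ ball 0 R := ball_subset_ball hR.le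
  have h := H f R hR hf hinj h1 ?_ r hr1 hr2
  · rw [show -(1 / 4 : ℝ) + η / 10 = -b by rw [hb]; ring]
    refine le_trans (le_of_eq (lintegral_congr fun θ => ?_)) h
    have := enorm_inv_pow (d_ne hR hf hinj h1 (r := r)
      (le_of_eq ((W87.norm_pt r θ).trans (abs_of_pos (by linarith)))) hr2) 1
    rw [pow_one] at this
    refine this.trans ?_
    norm_num [W87.pt]
  · have hok : StOK 100000 f := ⟨hf.mono hsub,
      fun z hz => d_ne hR hf hinj h1 le_rfl (by simpa using hz),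
      fun z hz => dist13 f (hf.mono hsub) (hinj.mono hsub) z hz⟩
    have hM : stM b f = ∫⁻ z in ball (0 : ℂ) 1, ENNReal.ofReal (bW f (1 / 2) b z) := by
      simp only [stM, stW_eq]
    have hfin : stM b f ≠ ⊤ := by rw [hM]; exact mass_fin (by norm_num) hb0 hR hf hinj
    have h2 := hG b f (by rw [hb]; linarith) (by rw [hb]; linarith) hok h1
      (starP _ f R hR hf hinj (by linarith)) hfin
    simp only [stW_eq, stX_eq] at h2
    rw [← hM]
    have hfin2 : ENNReal.ofReal η * stM b f ≠ ⊤ := ENNReal.mul_ne_top ENNReal.ofReal_ne_top hfin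
    refine (ENNReal.add_le_add_iff_right hfin2).1 (h2.trans ?_)
    rw [add_right_comm, ← add_mul, ← ENNReal.ofReal_add (by linarith) hη.le, sub_add_cancel,
      ENNReal.ofReal_one, one_mul]
    gcongr
    exact le_max_left _ _

end Crest.Agent.R131.F87
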