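import Mathlib

/-!
# Row 131: integration by parts on the unit disc (helper27)
-/

set_option autoImplicit false

open MeasureTheory Metric Set

noncomputable section

namespace Crest.Agent.R131

theorem integral_fderiv_disc_one (ψ : ℂ → ℂ) (L : ℂ → ℂ →L[ℝ] ℂ)
    (hc : ContinuousOn ψ (closedBall 0 1)) (h0 : ∀ z : ℂ, ‖z‖ = 1 → ψ z = 0)
    (hd : ∀ z ∈ ball (0 : ℂ) 1, HasFDerivAt ψ (L z) z)
    (hi : IntegrableOn (fun z => L z 1) (ball 0 1)) :
    ∫ z in ball (0 : ℂ) 1, L z 1 = 0 := by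
  set Φ : ℂ → ℂ := (ball (0 : ℂ) 1).indicator fun z => L z 1 with hΦ
  have hΦi : Integrable Φ := (integrable_indicator_iff measurableSet_ball).2 hi
  rw [← integral_indicator measurableSet_ball]
  have hmp := Complex.volume_preserving_equiv_real_prod.symm
  have he := Complex.measurableEquivRealProd.symm.measurableEmbedding
  rw [← hmp.integral_comp he]
  have hi2 : Integrable (fun p : ℝ × ℝ => Φ (Complex.measurableEquivRealProd.symm p))
      ((volume : Measure ℝ).prod volume) := (hmp.integrable_comp_emb he).2 hΦi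
  change ∫ p : ℝ × ℝ, Φ (Complex.measurableEquivRealProd.symm p) ∂(volume.prod volume) = 0
  rw [integral_prod_symm _ hi2]
  refine integral_eq_zero_of_ae ?_
  filter_upwards [hi2.prod_left_ae] with y hy
  have hsym : ∀ x : ℝ, Complex.measurableEquivRealProd.symm (x, y) = (x : ℂ) + y * Complex.I :=
    fun x => by apply Complex.ext <;> simp
  simp only [hsym] at hy ⊢
  have hn : ∀ x : ℝ, ‖(x : ℂ) + y * Complex.I‖ ^ 2 = x ^ 2 + y ^ 2 := fun x => by
    rw [Complex.sq_norm, Complex.normSq_add_mul_I]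
  have hmem : ∀ x : ℝ, (x : ℂ) + y * Complex.I ∈ ball (0 : ℂ) 1 ↔ x ^ 2 + y ^ 2 < 1 := fun x => by
    rw [mem_ball_zero_iff, ← hn, sq_lt_one_iff₀ (norm_nonneg _)]
  by_cases hy1 : 1 ≤ y ^ 2
  · simp only [Pi.zero_apply]
    refine integral_eq_zero_of_ae (Filter.Eventually.of_forall fun x => ?_)
    exact indicator_of_notMem (fun h => by have := (hmem x).1 h; nlinarith [sq_nonneg x]) _
  push Not at hy1
  set a := Real.sqrt (1 - y ^ 2) with ha
  have ha2 : a ^ 2 = 1 - y ^ 2 := Real.sq_sqrt (by linarith)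
  have ha0 : 0 ≤ a := Real.sqrt_nonneg _
  have hmem2 : ∀ x : ℝ, (x : ℂ) + y * Complex.I ∈ ball (0 : ℂ) 1 ↔ x ∈ Ioo (-a) a := fun x => by
    rw [hmem, mem_Ioo, ← abs_lt, ← sq_lt_sq₀ (abs_nonneg x) ha0, sq_abs, ha2]
    constructor <;> intro h <;> linarith
  have hfun : (fun x : ℝ => Φ ((x : ℂ) + y * Complex.I)) =
      (Ioo (-a) a).indicator fun x : ℝ => L ((x : ℂ) + y * Complex.I) 1 := by
    funext x
    by_cases hx : x ∈ Ioo (-a) a
    · rw [indicator_of_mem hx, hΦ, indicator_of_mem ((hmem2 x).2 hx)]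
    · rw [indicator_of_notMem hx, hΦ, indicator_of_notMem fun h => hx ((hmem2 x).1 h)]
  rw [hfun] at hy ⊢
  have haa : -a ≤ a := by linarith
  simp only [Pi.zero_apply]
  rw [integral_indicator measurableSet_Ioo, ← integral_Ioc_eq_integral_Ioo,
    ← intervalIntegral.integral_of_le haa,
    intervalIntegral.integral_eq_sub_of_hasDerivAt_of_le
      (f := fun x : ℝ => ψ ((x : ℂ) + y * Complex.I)) haa]
  · have e1 : ∀ x : ℝ, x ^ 2 = a ^ 2 → ψ ((x : ℂ) + y * Complex.I) = 0 := fun x hx =>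
      h0 _ ((sq_eq_sq₀ (norm_nonneg _) zero_le_one).1 (by rw [hn, hx, ha2]; ring))
    rw [e1 a rfl, e1 (-a) (by ring), sub_zero]
  · refine hc.comp (by fun_prop) fun x hx => ?_
    rw [mem_closedBall_zero_iff, ← sq_le_one_iff₀ (norm_nonneg _), hn]
    have : x ^ 2 ≤ a ^ 2 := sq_le_sq' hx.1 hx.2
    linarith
  · intro x hx
    have h1 : HasDerivAt (fun x : ℝ => (x : ℂ) + y * Complex.I) 1 x :=
      (Complex.ofRealCLM.hasDerivAt (x := x)).add_const _
    exact (hd _ ((hmem2 x).2 hx)).comp_hasDerivAt x h1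
  · rw [intervalIntegrable_iff_integrableOn_Ioo_of_le haa]
    exact (integrable_indicator_iff measurableSet_Ioo).1 hy

/-- the integral over the disc of a directional derivative of a function vanishing on the
circle is zero -/
theorem integral_fderiv_disc (ψ : ℂ → ℂ) (L : ℂ → ℂ →L[ℝ] ℂ)
    (hc : ContinuousOn ψ (closedBall 0 1)) (h0 : ∀ z : ℂ, ‖z‖ = 1 → ψ z = 0)
    (hd : ∀ z ∈ ball (0 : ℂ) 1, HasFDerivAt ψ (L z) z) (v : ℂ) (hv : ‖v‖ = 1)
    (hi : IntegrableOn (fun z => L z v) (ball 0 1)) :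
    ∫ z in ball (0 : ℂ) 1, L z v = 0 := by
  set u : Circle := ⟨v, by simpa [Submonoid.unitSphere] using hv⟩ with hu
  have hR : ∀ z : ℂ, rotation u z = v * z := fun z => rfl
  have hmp : MeasurePreserving (rotation u) volume volume := (rotation u).measurePreserving
  have he : MeasurableEmbedding (rotation u) := (rotation u).toHomeomorph.measurableEmbedding
  have hn : ∀ z : ℂ, ‖v * z‖ = ‖z‖ := fun z => by rw [norm_mul, hv, one_mul]
  have hpre : (rotation u) ⁻¹' ball (0 : ℂ) 1 = ball 0 1 := by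
    ext z; rw [mem_preimage, mem_ball_zero_iff, mem_ball_zero_iff, hR, hn]
  set M : ℂ →L[ℝ] ℂ := (rotation u).toContinuousLinearEquiv.toContinuousLinearMap with hM
  have hM1 : M 1 = v := by rw [hM]; change rotation u 1 = v; rw [hR, mul_one]
  have key := integral_fderiv_disc_one (fun z => ψ (v * z)) (fun z => (L (v * z)).comp M)
    (hc.comp (by fun_prop) fun z hz => by simpa [hv] using hz)
    (fun z hz => h0 _ (by rw [hn, hz]))
    (fun z hz => (hd (v * z) (by simpa [hv] using hz)).comp z M.hasFDerivAt)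
    (by
      simp only [ContinuousLinearMap.comp_apply, hM1]
      have := (hmp.integrableOn_comp_preimage he (f := fun z => L z v) (s := ball 0 1)).2 hi
      rwa [hpre] at this)
  simp only [ContinuousLinearMap.comp_apply, hM1] at key
  rw [← hmp.setIntegral_preimage_emb he, hpre]
  exact key

/-- `(1 - |z|²)^(b-1)` is integrable on the disc for `b > 0` -/
theorem integrableOn_d_rpow {b : ℝ} (hb : 0 < b) :
    IntegrableOn (fun z : ℂ => (1 - ‖z‖ ^ 2) ^ (b - 1)) (ball 0 1) := by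
  rw [integrableOn_fun_norm_addHaar volume (f := fun y : ℝ => (1 - y ^ 2) ^ (b - 1))]
  have h1 : IntervalIntegrable (fun y : ℝ => (1 - y) ^ (b - 1)) volume 0 1 := by
    have := (intervalIntegral.intervalIntegrable_rpow' (r := b - 1) (a := 1) (b := 0)
      (by linarith)).comp_sub_left 1
    simpa using this
  have h2 : IntervalIntegrable (fun y : ℝ => (1 - y) ^ (b - 1) * (y * (1 + y) ^ (b - 1)))
      volume 0 1 := by
    refine h1.mul_continuousOn (continuousOn_id.mul (ContinuousOn.rpow_const (by fun_prop) ?_))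
    intro y hy
    rw [uIcc_of_le zero_le_one] at hy
    left; linarith [hy.1]
  rw [intervalIntegrable_iff_integrableOn_Ioo_of_le zero_le_one] at h2
  refine h2.congr_fun (fun y hy => ?_) measurableSet_Ioo
  have e : 1 - y ^ 2 = (1 - y) * (1 + y) := by ring
  simp only [Complex.finrank_real_complex, smul_eq_mul]
  rw [e, Real.mul_rpow (by linarith [hy.2]) (by linarith [hy.1])]
  ring

/-- a function continuous on the closed disc times `(1 - |z|²)^(b-1)` is integrable -/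
theorem integrableOn_mul_d_rpow {b : ℝ} (hb : 0 < b) {E : Type*} [NormedAddCommGroup E]
    [NormedSpace ℝ E] (w : ℂ → E) (hw : ContinuousOn w (closedBall 0 1)) :
    IntegrableOn (fun z : ℂ => ((1 - ‖z‖ ^ 2) ^ (b - 1) : ℝ) • w z) (ball 0 1) := by
  obtain ⟨C, hC⟩ := (isCompact_closedBall (0 : ℂ) 1).exists_bound_of_continuousOn hw
  refine (integrableOn_d_rpow hb).smul_of_top_left ?_
  refine memLp_top_of_bound
    ((hw.mono ball_subset_closedBall).aestronglyMeasurable measurableSet_ball) C ?_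
  filter_upwards [ae_restrict_mem measurableSet_ball] with z hz
  exact hC z (ball_subset_closedBall hz)

theorem hasFDerivAt_d (z : ℂ) :
    HasFDerivAt (fun z : ℂ => 1 - ‖z‖ ^ 2) (-(2 • innerSL ℝ z)) z :=
  ((hasStrictFDerivAt_norm_sq z).hasFDerivAt).const_sub 1

/-- weighted integration by parts: `∫ (d ∂_v u - 2 b ⟪z, v⟫ u) d^(b-1) = 0`, `d = 1 - |z|²` -/
theorem ibp_weight {b : ℝ} (hb : 0 < b) (u : ℂ → ℂ) (L : ℂ → ℂ →L[ℝ] ℂ)
    (hc : ContinuousOn u (closedBall 0 1)) (hd : ∀ z ∈ ball (0 : ℂ) 1, HasFDerivAt u (L z) z)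
    (v : ℂ) (hv : ‖v‖ = 1) (hL : ContinuousOn (fun z => L z v) (closedBall 0 1)) :
    ∫ z in ball (0 : ℂ) 1, ((1 - ‖z‖ ^ 2) ^ (b - 1) : ℝ) •
      (((1 - ‖z‖ ^ 2 : ℝ) : ℂ) * L z v -
        ((2 * b * ((starRingEnd ℂ) z * v).re : ℝ) : ℂ) * u z) = 0 := by
  have hpos : ∀ z ∈ ball (0 : ℂ) 1, 0 < 1 - ‖z‖ ^ 2 := fun z hz => by
    have := mem_ball_zero_iff.1 hz
    nlinarith [norm_nonneg z]
  have hder : ∀ z ∈ ball (0 : ℂ) 1, HasFDerivAt (fun z : ℂ => ((1 - ‖z‖ ^ 2) ^ b : ℝ) • u z)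
      (((1 - ‖z‖ ^ 2) ^ b : ℝ) • L z +
        ((b * (1 - ‖z‖ ^ 2) ^ (b - 1)) • (-(2 • innerSL ℝ z))).smulRight (u z)) z :=
    fun z hz => ((hasFDerivAt_d z).rpow_const (Or.inl (hpos z hz).ne')).smul (hd z hz)
  have heq : ∀ z ∈ ball (0 : ℂ) 1, (((1 - ‖z‖ ^ 2) ^ b : ℝ) • L z +
        ((b * (1 - ‖z‖ ^ 2) ^ (b - 1)) • (-(2 • innerSL ℝ z))).smulRight (u z)) v =
      ((1 - ‖z‖ ^ 2) ^ (b - 1) : ℝ) • (((1 - ‖z‖ ^ 2 : ℝ) : ℂ) * L z v -
        ((2 * b * ((starRingEnd ℂ) z * v).re : ℝ) : ℂ) * u z) := fun z hz => by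
    have e : (1 - ‖z‖ ^ 2) ^ b = (1 - ‖z‖ ^ 2) ^ (b - 1) * (1 - ‖z‖ ^ 2) := by
      rw [← Real.rpow_add_one (hpos z hz).ne']; congr 1; ring
    have e2 : (inner ℝ z v : ℝ) = ((starRingEnd ℂ) z * v).re := by
      rw [Complex.inner, mul_comm]
    simp only [add_apply, smul_apply,
      ContinuousLinearMap.smulRight_apply, neg_apply, innerSL_apply_apply,
      e2, e, Complex.real_smul, smul_eq_mul, nsmul_eq_mul]
    push_cast
    ring
  rw [← setIntegral_congr_fun measurableSet_ball heq]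
  refine integral_fderiv_disc _ _ ?_ ?_ hder v hv ?_
  · exact (ContinuousOn.rpow_const (by fun_prop) fun _ _ => Or.inr hb.le).smul hc
  · intro z hz
    simp [hz, Real.zero_rpow hb.ne']
  · refine (integrableOn_mul_d_rpow hb _ ?_).congr_fun (fun z hz => (heq z hz).symm)
      measurableSet_ball
    exact (ContinuousOn.mul (by fun_prop) hL).sub (ContinuousOn.mul (by fun_prop) hc)

/-- the Wirtinger form: with `A = ∂u/∂z`, i.e. `2 A = L 1 - i L i`,
`∫ (d A - b conj z u) d^(b-1) = 0` -/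
theorem ibp_dz {b : ℝ} (hb : 0 < b) (u : ℂ → ℂ) (A B : ℂ → ℂ) (L : ℂ → ℂ →L[ℝ] ℂ)
    (hc : ContinuousOn u (closedBall 0 1)) (hd : ∀ z ∈ ball (0 : ℂ) 1, HasFDerivAt u (L z) z)
    (hL : ∀ z v, L z v = A z * v + B z * (starRingEnd ℂ) v)
    (hA : ContinuousOn A (closedBall 0 1)) (hB : ContinuousOn B (closedBall 0 1)) :
    ∫ z in ball (0 : ℂ) 1, ((1 - ‖z‖ ^ 2) ^ (b - 1) : ℝ) •
      (((1 - ‖z‖ ^ 2 : ℝ) : ℂ) * A z - b * (starRingEnd ℂ) z * u z) = 0 := by
  have hL1 : ∀ v : ℂ, ContinuousOn (fun z => L z v) (closedBall 0 1) := fun v => by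
    simp only [hL]; exact (hA.mul continuousOn_const).add (hB.mul continuousOn_const)
  have h1 := ibp_weight hb u L hc hd 1 (by simp) (hL1 1)
  have h2 := ibp_weight hb u L hc hd Complex.I (by simp) (hL1 _)
  have hi : ∀ v : ℂ, IntegrableOn (fun z : ℂ => ((1 - ‖z‖ ^ 2) ^ (b - 1) : ℝ) •
      (((1 - ‖z‖ ^ 2 : ℝ) : ℂ) * L z v -
        ((2 * b * ((starRingEnd ℂ) z * v).re : ℝ) : ℂ) * u z)) (ball 0 1) := fun v =>
    integrableOn_mul_d_rpow hb _
      ((ContinuousOn.mul (by fun_prop) (hL1 v)).sub (ContinuousOn.mul (by fun_prop) hc))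
  have h3 := integral_sub ((hi 1).const_mul (1 / 2)) ((hi Complex.I).const_mul (Complex.I / 2))
  rw [integral_const_mul, integral_const_mul, h1, h2, mul_zero, mul_zero, sub_zero] at h3
  refine Eq.trans (setIntegral_congr_fun measurableSet_ball fun z _ => ?_) h3
  have ez : (starRingEnd ℂ) z = (z.re : ℂ) - z.im * Complex.I := by
    apply Complex.ext <;> simp
  have e1 : ((starRingEnd ℂ) z * 1).re = z.re := by simp
  have e2 : ((starRingEnd ℂ) z * Complex.I).re = z.im := by simp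
  simp only [hL, e1, e2, Complex.real_smul, map_one, Complex.conj_I]
  rw [ez]
  push_cast
  linear_combination (((1 - ‖z‖ ^ 2) ^ (b - 1) : ℝ) : ℂ) * (1 - (‖z‖ : ℂ) ^ 2) * (A z - B z) / 2 *
    Complex.I_mul_I

end Crest.Agent.R131
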