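import Crest.Agent.R131.StStar
import Crest.Agent.R131.Ibp27
import Crest.Agent.R131.Univ
import Crest.Agent.R131.Dist13
import Crest.Agent.R131.Dilate
import Crest.Agent.Lib.Complex.Univalent

/-! Row 131: final assembly of S0177 and S0178 from the weight lemma (hedge, helper1). -/

set_option autoImplicit false

open MeasureTheory Set Metric
open scoped ENNReal ComplexConjugate

noncomputable section

namespace Crest.Agent.R131.FinH1

/-- the weight lemma -/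
def WtP : Prop := ∀ c b al η : ℝ, 0 < al → 0 < b → 0 < (c - b / al) ^ 2 + b / al ^ 2 - 1 + η →
  ∃ r0 : ℝ, 0 < r0 ∧ r0 < 1 ∧ ∃ C : ℝ, 0 < C ∧ ∀ (g : ℂ → ℂ) (R K L : ℝ), 1 < R →
    DifferentiableOn ℂ g (ball 0 R) → 0 ≤ K → (∀ z : ℂ, ‖z‖ ≤ r0 → ‖g z‖ ^ 2 ≤ L) →
    (∫ z in ball (0 : ℂ) 1,
      (‖((c * ‖z‖ ^ 2 : ℝ) : ℂ) * g z - (((1 - ‖z‖ ^ 2) / al : ℝ) : ℂ) * z * deriv g z‖ ^ 2 -
        (1 - η) * ‖g z‖ ^ 2) * ((1 - ‖z‖ ^ 2) ^ (b - 1) * ‖z‖ ^ (2 * al - 2))) ≤ K →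
    ∀ r : ℝ, 1 / 2 ≤ r → r < 1 →
      ∫ θ in (-Real.pi)..Real.pi, ‖g ((r : ℂ) * Complex.exp ((θ : ℂ) * Complex.I))‖ ^ 2 ≤
        C * (K + L) * (1 - r) ^ (-b)

/-- the weight lemma, restricted range -/
def WtQ : Prop := ∀ c b al η : ℝ, 0 < al → al ≤ 1 → η ≤ 1 → 0 < b → 0 < (c - b / al) ^ 2 + b / al ^ 2 - 1 + η →
  ∃ r0 : ℝ, 0 < r0 ∧ r0 < 1 ∧ ∃ C : ℝ, 0 < C ∧ ∀ (g : ℂ → ℂ) (R K L : ℝ), 1 < R →
    DifferentiableOn ℂ g (ball 0 R) → 0 ≤ K → (∀ z : ℂ, ‖z‖ ≤ r0 → ‖g z‖ ^ 2 ≤ L) →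
    (∫ z in ball (0 : ℂ) 1,
      (‖((c * ‖z‖ ^ 2 : ℝ) : ℂ) * g z - (((1 - ‖z‖ ^ 2) / al : ℝ) : ℂ) * z * deriv g z‖ ^ 2 -
        (1 - η) * ‖g z‖ ^ 2) * ((1 - ‖z‖ ^ 2) ^ (b - 1) * ‖z‖ ^ (2 * al - 2))) ≤ K →
    ∀ r : ℝ, 1 / 2 ≤ r → r < 1 →
      ∫ θ in (-Real.pi)..Real.pi, ‖g ((r : ℂ) * Complex.exp ((θ : ℂ) * Complex.I))‖ ^ 2 ≤
        C * (K + L) * (1 - r) ^ (-b)

theorem WtP.toQ (h : WtP) : WtQ := fun c b al η h1 _ _ h2 h3 => h c b al η h1 h2 h3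

theorem wt_int {b e : ℝ} (hb : 0 < b) (he : -2 < e) :
    IntegrableOn (fun z : ℂ => (1 - ‖z‖ ^ 2) ^ (b - 1) * ‖z‖ ^ e) (ball 0 1) := by
  have h1 : IntegrableOn (fun z : ℂ => ‖z‖ ^ e) (ball 0 1) := by
    refine integrableOn_ball_of_norm_le_rpow (C := 1) (α := -e) (by simp) (by simp; linarith) ?_ ?_
    · refine Filter.Eventually.of_forall fun z => ?_
      rw [Real.norm_of_nonneg (Real.rpow_nonneg (norm_nonneg _) _), neg_neg, one_mul]
    · exact (by fun_prop : Measurable fun z : ℂ => ‖z‖ ^ e).aestronglyMeasurable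
  have h2 := integrableOn_d_rpow hb
  refine Integrable.mono' ((h1.const_mul (1 + (3 / 4) ^ (b - 1))).add
    (h2.const_mul (1 + (1 / 2) ^ e))) ?_ ?_
  · exact (by fun_prop : Measurable fun z : ℂ =>
      (1 - ‖z‖ ^ 2) ^ (b - 1) * ‖z‖ ^ e).aestronglyMeasurable
  · refine (ae_restrict_iff' measurableSet_ball).2 (Filter.Eventually.of_forall fun z hz => ?_)
    have hz1 : ‖z‖ < 1 := by simpa using hz
    have hz0 := norm_nonneg z
    have hd : 0 < 1 - ‖z‖ ^ 2 := by nlinarith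
    have p1 : 0 ≤ (1 - ‖z‖ ^ 2) ^ (b - 1) := Real.rpow_nonneg hd.le _
    have p2 : 0 ≤ ‖z‖ ^ e := Real.rpow_nonneg hz0 _
    have p3 : (0 : ℝ) ≤ (3 / 4) ^ (b - 1) := by positivity
    have p4 : (0 : ℝ) ≤ (1 / 2) ^ e := by positivity
    rw [Real.norm_of_nonneg (mul_nonneg p1 p2)]
    simp only [Pi.add_apply]
    rcases le_total ‖z‖ (1 / 2) with h | h
    · have : (1 - ‖z‖ ^ 2) ^ (b - 1) ≤ 1 + (3 / 4) ^ (b - 1) := by
        rcases le_total 0 (b - 1) with h' | h'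
        · have := Real.rpow_le_one hd.le (by nlinarith) h'
          linarith
        · have := Real.rpow_le_rpow_of_nonpos (by norm_num : (0 : ℝ) < 3 / 4)
            (by nlinarith : 3 / 4 ≤ 1 - ‖z‖ ^ 2) h'
          linarith
      have := mul_le_mul_of_nonneg_right this p2
      have : 0 ≤ (1 + (1 / 2) ^ e) * (1 - ‖z‖ ^ 2) ^ (b - 1) := by positivity
      linarith
    · have : ‖z‖ ^ e ≤ 1 + (1 / 2) ^ e := by
        rcases le_total 0 e with h' | h'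
        · have := Real.rpow_le_one hz0 hz1.le h'
          linarith
        · have := Real.rpow_le_rpow_of_nonpos (by norm_num : (0 : ℝ) < 1 / 2) h h'
          linarith
      have := mul_le_mul_of_nonneg_left this p1
      have : 0 ≤ (1 + (3 / 4) ^ (b - 1)) * ‖z‖ ^ e := by positivity
      linarith

theorem mul_wt_int {b e : ℝ} (hb : 0 < b) (he : -2 < e) {h : ℂ → ℝ}
    (hh : ContinuousOn h (closedBall 0 1)) :
    IntegrableOn (fun z : ℂ => h z * ((1 - ‖z‖ ^ 2) ^ (b - 1) * ‖z‖ ^ e)) (ball 0 1) := by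
  obtain ⟨C, hC⟩ := (isCompact_closedBall (0 : ℂ) 1).exists_bound_of_continuousOn hh
  refine Integrable.bdd_mul (c := C) (wt_int hb he)
    ((hh.mono ball_subset_closedBall).aestronglyMeasurable measurableSet_ball) ?_
  exact (ae_restrict_iff' measurableSet_ball).2
    (Filter.Eventually.of_forall fun z hz => hC z (ball_subset_closedBall hz))

section
variable {f : ℂ → ℂ} {R : ℝ}

theorem ne_R (hf : DifferentiableOn ℂ f (ball 0 R)) (hinj : InjOn f (ball 0 R)) :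
    ∀ z ∈ ball (0 : ℂ) R, deriv f z ≠ 0 := fun _ hz =>
  Crest.Agent.Lib.Complex.deriv_ne_zero_of_injOn isOpen_ball hf hinj hz

theorem cont_pow (hR : 1 < R) (hf : DifferentiableOn ℂ f (ball 0 R)) (hinj : InjOn f (ball 0 R))
    (t : ℝ) : ContinuousOn (fun z => ‖deriv f z‖ ^ t) (closedBall 0 1) := by
  have hs : closedBall (0 : ℂ) 1 ⊆ ball 0 R := closedBall_subset_ball hR
  exact ((hf.deriv isOpen_ball).continuousOn.mono hs).norm.rpow_const fun z hz =>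
    Or.inl (norm_ne_zero_iff.2 (ne_R hf hinj z (hs hz)))

theorem cont_X (hR : 1 < R) (hf : DifferentiableOn ℂ f (ball 0 R)) (hinj : InjOn f (ball 0 R))
    (c : ℝ) : ContinuousOn (stX c f) (closedBall 0 1) := by
  have hs : closedBall (0 : ℂ) 1 ⊆ ball 0 R := closedBall_subset_ball hR
  have h1 := (hf.deriv isOpen_ball).continuousOn.mono hs
  have h2 := ((hf.deriv isOpen_ball).deriv isOpen_ball).continuousOn.mono hs
  have h3 := h2.div h1 fun z hz => ne_R hf hinj z (hs hz)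
  unfold stX
  refine ContinuousOn.add (by fun_prop) (ContinuousOn.mul (by fun_prop) h3)

end

theorem core (hW : WtQ) (c b al η : ℝ) (hal : 0 < al) (hal1 : al ≤ 1) (hη1 : η ≤ 1) (hb : 0 < b)
    (hθ : 0 < (c - b / al) ^ 2 + b / al ^ 2 - 1 + η) (K : ℝ) (hK : 0 ≤ K) :
    ∃ C : ℝ, ∀ (f : ℂ → ℂ) (R : ℝ), 1 < R → DifferentiableOn ℂ f (ball 0 R) →
      InjOn f (ball 0 R) → deriv f 0 = 1 →
      (∫ z in ball (0 : ℂ) 1, ((‖stX c f z‖ ^ 2 - (1 - η)) * ‖deriv f z‖ ^ (-(2 * al))) *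
        ((1 - ‖z‖ ^ 2) ^ (b - 1) * ‖z‖ ^ (2 * al - 2))) ≤ K →
      ∀ r : ℝ, 1 / 2 ≤ r → r < 1 →
        ∫⁻ θ in Ioc (-Real.pi) Real.pi, ENNReal.ofReal
            (‖deriv f ((r : ℂ) * Complex.exp ((θ : ℂ) * Complex.I))‖ ^ (-(2 * al))) ≤
          ENNReal.ofReal (C * (1 - r) ^ (-b)) := by
  obtain ⟨r0, hr0, hr1, C, hC, H⟩ := hW c b al η hal hal1 hη1 hb hθ
  refine ⟨C * (K + Real.exp (50000 / (1 - r0)) ^ (2 * al)), fun f R hR hf hinj h1 hint r hr2 hr3 => ?_⟩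
  obtain ⟨L, hL, hexp, hLd⟩ := univ_exists_log (hf.deriv isOpen_ball) (ne_R hf hinj)
  have hs : ball (0 : ℂ) 1 ⊆ ball 0 R := ball_subset_ball hR.le
  set g : ℂ → ℂ := fun z => Complex.exp (-(al : ℂ) * L z) with hg
  have hgd : DifferentiableOn ℂ g (ball 0 R) := (hL.const_mul _).cexp
  have hgn : ∀ z ∈ ball (0 : ℂ) R, ‖g z‖ ^ 2 = ‖deriv f z‖ ^ (-(2 * al)) := by
    intro z hz
    rw [← hexp z hz, hg]
    simp only [Complex.norm_exp]
    rw [← Real.exp_mul, sq, ← Real.exp_add]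
    congr 1
    simp; ring
  have hg' : ∀ z ∈ ball (0 : ℂ) R,
      deriv g z = g z * (-(al : ℂ) * (deriv (deriv f) z / deriv f z)) := fun z hz =>
    (((hLd z hz).const_mul (-(al : ℂ))).cexp).deriv
  have key := H g R K (Real.exp (50000 / (1 - r0)) ^ (2 * al)) hR hgd hK ?_ ?_ r hr2 hr3
  · have hr0' : 0 < r := by linarith
    have hmem : ∀ θ : ℝ, (r : ℂ) * Complex.exp ((θ : ℂ) * Complex.I) ∈ ball (0 : ℂ) R := by
      intro θ
      rw [mem_ball_zero_iff, norm_mul, Complex.norm_exp_ofReal_mul_I, mul_one,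
        Complex.norm_real, Real.norm_of_nonneg hr0'.le]
      linarith
    have hc : Continuous fun θ : ℝ => ‖g ((r : ℂ) * Complex.exp ((θ : ℂ) * Complex.I))‖ ^ 2 :=
      ((hgd.continuousOn.comp_continuous (by fun_prop) hmem).norm).pow 2
    have hpi : -Real.pi ≤ Real.pi := by linarith [Real.pi_pos]
    rw [intervalIntegral.integral_of_le hpi] at key
    simp_rw [← hgn _ (hmem _)]
    rw [← ofReal_integral_eq_lintegral_ofReal
      ((hc.integrableOn_Icc).mono_set Ioc_subset_Icc_self)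
      (Filter.Eventually.of_forall fun θ => by positivity)]
    exact ENNReal.ofReal_le_ofReal key
  · intro z hz
    have hzR : z ∈ ball (0 : ℂ) R := mem_ball_zero_iff.2 (by linarith)
    have hp : 0 < ‖deriv f z‖ := norm_pos_iff.2 (ne_R hf hinj z hzR)
    have hh := harnack13 f (hf.mono hs) (hinj.mono hs) hr1 (z := z) (w := 0) hz
      (by simpa using hr0.le)
    rw [h1, norm_one, zero_sub, norm_neg] at hh
    have h2 : Real.exp (50000 / (1 - r0) * ‖z‖) ≤ Real.exp (50000 / (1 - r0)) := by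
      apply Real.exp_le_exp.2
      have : 0 ≤ 50000 / (1 - r0) := div_nonneg (by norm_num) (by linarith)
      nlinarith
    have h3 : ‖deriv f z‖⁻¹ ≤ Real.exp (50000 / (1 - r0)) := by
      rw [inv_le_iff_one_le_mul₀ hp]
      nlinarith
    rw [hgn z hzR, Real.rpow_neg hp.le, ← Real.inv_rpow hp.le]
    exact Real.rpow_le_rpow (inv_pos.2 hp).le h3 (by linarith)
  · refine le_trans (le_of_eq ?_) hint
    refine setIntegral_congr_fun measurableSet_ball fun z hz => ?_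
    have hzR := hs hz
    have hal' : (al : ℂ) ≠ 0 := by exact_mod_cast hal.ne'
    have e : ((c * ‖z‖ ^ 2 : ℝ) : ℂ) * g z - (((1 - ‖z‖ ^ 2) / al : ℝ) : ℂ) * z * deriv g z =
        stX c f z * g z := by
      rw [hg' z hzR]; unfold stX; push_cast; field_simp; ring
    rw [e, norm_mul, mul_pow, hgn z hzR]; ring

theorem fin77q (hW : WtQ) (hG : StGain) :
    ∃ ε : ℝ, 0 < ε ∧ ε < 1 / 4 ∧ ∃ C : ℝ, ∀ f : ℂ → ℂ,
      DifferentiableOn ℂ f (Metric.ball 0 1) → Set.InjOn f (Metric.ball 0 1) → f 0 = 0 →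
      deriv f 0 = 1 → ∀ r : ℝ, 1 / 2 ≤ r → r < 1 →
        ∫⁻ θ in Set.Ioc (-Real.pi) Real.pi,
            (‖deriv f ((r : ℂ) * Complex.exp ((θ : ℂ) * Complex.I))‖ₑ)⁻¹ ≤
          ENNReal.ofReal (2 * Real.pi * C * (1 - r) ^ (-(1 / 4 : ℝ) + ε)) := by
  obtain ⟨η, hη0, hη1, C0, hG⟩ := hG 100000
  refine ⟨η / 16, by linarith, by linarith, ?_⟩
  refine Dilate.dilate (fun w => (‖w‖ₑ)⁻¹) _ (by linarith) ?_
  set b : ℝ := 1 / 4 - η / 16 with hb
  have hb0 : 0 < b := by rw [hb]; linarith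
  obtain ⟨C, hC⟩ := core hW ((1 + 2 * b) / 3) b (1 / 2) η (by norm_num) (by norm_num) (by linarith) hb0
    (by have := sq_nonneg ((1 + 2 * b) / 3 - b / (1 / 2))
        have e : b / (1 / 2) ^ 2 = 1 - η / 4 := by rw [hb]; ring
        rw [e]; linarith) |C0| (abs_nonneg _)
  refine ⟨C, fun f R hR hf hinj _ h1 r hr1 hr2 => ?_⟩
  have hs : ball (0 : ℂ) 1 ⊆ ball 0 R := ball_subset_ball hR.le
  have hOK : StOK 100000 f := ⟨hf.mono hs, fun z hz => ne_R hf hinj z (hs hz),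
    fun z hz => dist13 f (hf.mono hs) (hinj.mono hs) z hz⟩
  set c : ℝ := (1 + 2 * b) / 3 with hc
  have eW : ∀ z : ℂ, stW b f z = ‖deriv f z‖ ^ (-(2 * (1 / 2 : ℝ))) *
      ((1 - ‖z‖ ^ 2) ^ (b - 1) * ‖z‖ ^ (2 * (1 / 2 : ℝ) - 2)) := by
    intro z
    unfold stW
    rw [show -(2 * (1 / 2 : ℝ)) = -1 by norm_num, show 2 * (1 / 2 : ℝ) - 2 = -1 by norm_num,
      Real.rpow_neg_one, Real.rpow_neg_one]; ring
  have i1 : IntegrableOn (stW b f) (ball 0 1) := by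
    have := mul_wt_int hb0 (e := 2 * (1 / 2 : ℝ) - 2) (by norm_num)
      (cont_pow hR hf hinj (-(2 * (1 / 2 : ℝ))))
    exact this.congr_fun (fun z _ => (eW z).symm) measurableSet_ball
  have i2 : IntegrableOn (fun z => ‖stX c f z‖ ^ 2 * stW b f z) (ball 0 1) := by
    have := mul_wt_int hb0 (e := 2 * (1 / 2 : ℝ) - 2) (by norm_num)
      (((cont_X hR hf hinj c).norm.pow 2).mul (cont_pow hR hf hinj (-(2 * (1 / 2 : ℝ)))))
    refine this.congr_fun (fun z _ => ?_) measurableSet_ball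
    simp only [eW, Pi.mul_apply, Pi.pow_apply]; ring
  have n1 : 0 ≤ᵐ[volume.restrict (ball (0 : ℂ) 1)] stW b f :=
    (ae_restrict_iff' measurableSet_ball).2
      (Filter.Eventually.of_forall fun z hz => stW_nonneg b f hz)
  have n2 : 0 ≤ᵐ[volume.restrict (ball (0 : ℂ) 1)] fun z => ‖stX c f z‖ ^ 2 * stW b f z :=
    (ae_restrict_iff' measurableSet_ball).2
      (Filter.Eventually.of_forall fun z hz => mul_nonneg (sq_nonneg _) (stW_nonneg b f hz))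
  have eM : stM b f = ENNReal.ofReal (∫ z in ball (0 : ℂ) 1, stW b f z) :=
    (ofReal_integral_eq_lintegral_ofReal i1 n1).symm
  have hg := hG b f (by rw [hb]; linarith) (by rw [hb]; linarith) hOK h1
    (starP c f R hR hf hinj (by rw [hc]; linarith)) (by rw [eM]; exact ENNReal.ofReal_ne_top)
  have m1 : 0 ≤ ∫ z in ball (0 : ℂ) 1, stW b f z := integral_nonneg_of_ae n1
  have m2 : 0 ≤ ∫ z in ball (0 : ℂ) 1, ‖stX c f z‖ ^ 2 * stW b f z := integral_nonneg_of_ae n2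
  rw [← ofReal_integral_eq_lintegral_ofReal i2 n2, eM, ← ENNReal.ofReal_mul hη0.le,
    ← ENNReal.ofReal_add m2 (by positivity)] at hg
  have hg2 := hg.trans (add_le_add le_rfl (ENNReal.ofReal_le_ofReal (le_abs_self C0)))
  rw [← ENNReal.ofReal_add m1 (abs_nonneg _),
    ENNReal.ofReal_le_ofReal_iff (by positivity)] at hg2
  have key := hC f R hR hf hinj h1 (by
    have e : (∫ z in ball (0 : ℂ) 1, ((‖stX c f z‖ ^ 2 - (1 - η)) *
        ‖deriv f z‖ ^ (-(2 * (1 / 2 : ℝ)))) *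
        ((1 - ‖z‖ ^ 2) ^ (b - 1) * ‖z‖ ^ (2 * (1 / 2 : ℝ) - 2))) =
        (∫ z in ball (0 : ℂ) 1, ‖stX c f z‖ ^ 2 * stW b f z) -
          (1 - η) * ∫ z in ball (0 : ℂ) 1, stW b f z := by
      rw [← integral_const_mul, ← integral_sub i2 (i1.const_mul _)]
      congr 1; ext z; rw [eW]; ring
    rw [e]; linarith) r hr1 hr2
  have hr0' : 0 < r := by linarith
  have hmem : ∀ θ : ℝ, (r : ℂ) * Complex.exp ((θ : ℂ) * Complex.I) ∈ ball (0 : ℂ) R := by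
    intro θ
    rw [mem_ball_zero_iff, norm_mul, Complex.norm_exp_ofReal_mul_I, mul_one,
      Complex.norm_real, Real.norm_of_nonneg hr0'.le]
    linarith
  rw [show -(1 / 4 : ℝ) + η / 16 = -b by rw [hb]; ring]
  refine le_trans (le_of_eq (lintegral_congr fun θ => ?_)) key
  have hp := norm_pos_iff.2 (ne_R hf hinj _ (hmem θ))
  rw [show -(2 * (1 / 2 : ℝ)) = -1 by norm_num, Real.rpow_neg_one, ENNReal.ofReal_inv_of_pos hp,
    ofReal_norm]

/-- the critical level -/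
def lev (c : ℝ) (f : ℂ → ℂ) (z : ℂ) : ℝ :=
  ‖((1 - ‖z‖ ^ 2 : ℝ) : ℂ) * deriv f z / (((1 + c : ℝ) : ℂ) * conj z)‖ ^ 2 /
    (1 - ‖z‖ ^ 2) ^ (1 + c)

theorem stG_lev (c : ℝ) (f : ℂ → ℂ) (z : ℂ) : stG c f (stF c f z) z = lev c f z := by
  unfold stG stF lev
  rw [sub_add_cancel_left, norm_neg]

theorem lev_eq {c : ℝ} (hc : -1 < c) (f : ℂ → ℂ) {z : ℂ} (hz : z ∈ ball (0 : ℂ) 1) :
    lev c f z = (1 - ‖z‖ ^ 2) ^ 2 * ‖deriv f z‖ ^ 2 / ((1 + c) ^ 2 * ‖z‖ ^ 2) /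
      (1 - ‖z‖ ^ 2) ^ (1 + c) := by
  have hz1 : ‖z‖ < 1 := by simpa using hz
  have hd : 0 < 1 - ‖z‖ ^ 2 := by nlinarith [norm_nonneg z]
  unfold lev
  rw [norm_div, norm_mul, norm_mul, Complex.norm_real, Complex.norm_real, Complex.norm_conj,
    Real.norm_of_nonneg hd.le, Real.norm_of_nonneg (by linarith), div_pow, mul_pow, mul_pow]

theorem star2 {c : ℝ} (hc : 1 / 2 < c) {f : ℂ → ℂ} {R : ℝ} (hR : 1 < R)
    (hf : DifferentiableOn ℂ f (ball 0 R)) (hinj : InjOn f (ball 0 R)) :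
    (∫ z in ball (0 : ℂ) 1, ((‖stX c f z‖ ^ 2 - (1 - 0)) * ‖deriv f z‖ ^ (-(2 * (1 : ℝ)))) *
        ((1 - ‖z‖ ^ 2) ^ ((2 * c - 1) - 1) * ‖z‖ ^ (2 * (1 : ℝ) - 2))) ≤ 0 := by
  have hs : ball (0 : ℂ) 1 ⊆ ball 0 R := ball_subset_ball hR.le
  set φ : ℂ → ℝ := fun z => ((‖stX c f z‖ ^ 2 - (1 - 0)) * ‖deriv f z‖ ^ (-(2 * (1 : ℝ)))) *
        ((1 - ‖z‖ ^ 2) ^ ((2 * c - 1) - 1) * ‖z‖ ^ (2 * (1 : ℝ) - 2)) with hφ
  have hi : IntegrableOn φ (ball 0 1) :=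
    mul_wt_int (by linarith) (by norm_num)
      ((((cont_X hR hf hinj c).norm.pow 2).sub continuousOn_const).mul (cont_pow hR hf hinj _))
  set Φ : ℂ → ℝ := fun z => 1 / ((1 + c) ^ 2 * lev c f z ^ 2) with hΦ
  have hΦm : Measurable fun z => ENNReal.ofReal (Φ z) := by
    have h1 : Measurable (deriv f) := measurable_deriv f
    have h2 : Measurable fun z : ℂ => conj z := Complex.continuous_conj.measurable
    simp only [hΦ, lev]
    fun_prop
  have hΦ0 : ∀ z, 0 ≤ Φ z := fun z => by simp only [hΦ]; positivity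
  have hlev : ∀ z ∈ ball (0 : ℂ) 1, z ≠ 0 → 0 < lev c f z := by
    intro z hz hz0
    have hz1 : ‖z‖ < 1 := by simpa using hz
    have hd : 0 < 1 - ‖z‖ ^ 2 := by nlinarith [norm_nonneg z]
    have hp := norm_pos_iff.2 (ne_R hf hinj z (hs hz))
    have hp2 := norm_pos_iff.2 hz0
    have : 0 < 1 + c := by linarith
    rw [lev_eq (by linarith) f hz]; positivity
  have hJ : ∀ z ∈ ball (0 : ℂ) 1, z ≠ 0 → stJ c f z * Φ z = φ z := by
    intro z hz hz0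
    have hz1 : ‖z‖ < 1 := by simpa using hz
    have hd : 0 < 1 - ‖z‖ ^ 2 := by nlinarith [norm_nonneg z]
    have hp := norm_pos_iff.2 (ne_R hf hinj z (hs hz))
    have hp2 := norm_pos_iff.2 hz0
    have hc1 : 0 < 1 + c := by linarith
    have hD : 0 < (1 - ‖z‖ ^ 2) ^ (1 + c) := Real.rpow_pos_of_pos hd _
    have e1 : (1 - ‖z‖ ^ 2) ^ ((2 * c - 1) - 1) =
        ((1 - ‖z‖ ^ 2) ^ (1 + c)) ^ 2 / (1 - ‖z‖ ^ 2) ^ 4 := by
      rw [← Real.rpow_natCast ((1 - ‖z‖ ^ 2) ^ (1 + c)) 2, ← Real.rpow_natCast (1 - ‖z‖ ^ 2) 4,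
        ← Real.rpow_mul hd.le, ← Real.rpow_sub hd]
      congr 1; push_cast; ring
    have e2 : ‖deriv f z‖ ^ (-(2 * (1 : ℝ))) = 1 / ‖deriv f z‖ ^ 2 := by
      rw [Real.rpow_neg hp.le, mul_one, Real.rpow_two, one_div]
    simp only [hΦ, hφ]
    rw [lev_eq (by linarith) f hz, e1, e2, show 2 * (1 : ℝ) - 2 = 0 by norm_num, Real.rpow_zero]
    unfold stJ
    field_simp
    ring
  have hJ0 : stJ c f 0 = 0 := by simp [stJ]
  have hst := starP c f R hR hf hinj (by linarith) _ _ hΦm hΦm (by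
    intro s hs' m hm hs0 hm0 hF _ _ hG _
    rw [stG_lev, hF, stG_lev] at hG
    apply ENNReal.ofReal_le_ofReal
    have := hlev m hm hm0
    have hc1 : 0 < 1 + c := by linarith
    simp only [hΦ]
    gcongr)
  have mJ := measurable_stJ c f
  have m1 : MeasurableSet {z | z ∈ ball (0 : ℂ) 1 ∧ 0 < stJ c f z} :=
    measurableSet_ball.inter (measurableSet_lt measurable_const mJ)
  have m2 : MeasurableSet {z | z ∈ ball (0 : ℂ) 1 ∧ stJ c f z < 0} :=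
    measurableSet_ball.inter (measurableSet_lt mJ measurable_const)
  have a1 : ∫⁻ z in ball (0 : ℂ) 1, ENNReal.ofReal (φ z) ≤
      ∫⁻ z in {z | z ∈ ball (0 : ℂ) 1 ∧ 0 < stJ c f z},
        ENNReal.ofReal (stJ c f z) * ENNReal.ofReal (Φ z) := by
    rw [← lintegral_indicator measurableSet_ball, ← lintegral_indicator m1]
    refine lintegral_mono fun z => ?_
    by_cases hz : z ∈ ball (0 : ℂ) 1
    · rw [indicator_of_mem hz]
      by_cases hz0 : z = 0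
      · subst hz0
        rw [ENNReal.ofReal_eq_zero.2]
        · exact bot_le
        · simp only [hφ, stX]
          refine mul_nonpos_of_nonpos_of_nonneg (mul_nonpos_of_nonpos_of_nonneg (by simp)
            (by positivity)) (by simp)
      · rw [← hJ z hz hz0]
        by_cases h : 0 < stJ c f z
        · rw [indicator_of_mem (show z ∈ {z | z ∈ ball (0 : ℂ) 1 ∧ 0 < stJ c f z} from ⟨hz, h⟩),
            ENNReal.ofReal_mul h.le]
        · rw [ENNReal.ofReal_eq_zero.2 (mul_nonpos_of_nonpos_of_nonneg (not_lt.1 h) (hΦ0 z))]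
          exact bot_le
    · rw [indicator_of_notMem hz]; exact bot_le
  have a2 : ∫⁻ z in {z | z ∈ ball (0 : ℂ) 1 ∧ stJ c f z < 0},
        ENNReal.ofReal (-stJ c f z) * ENNReal.ofReal (Φ z) ≤
      ∫⁻ z in ball (0 : ℂ) 1, ENNReal.ofReal (-φ z) := by
    refine le_trans (le_of_eq ?_) (lintegral_mono_set (fun z hz => hz.1 :
      {z | z ∈ ball (0 : ℂ) 1 ∧ stJ c f z < 0} ⊆ ball 0 1))
    refine setLIntegral_congr_fun m2 fun z hz => ?_
    have hz0 : z ≠ 0 := by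
      rintro rfl
      exact absurd hz.2 (by rw [hJ0]; exact lt_irrefl _)
    rw [← hJ z hz.1 hz0, ← ENNReal.ofReal_mul (by linarith [hz.2]), neg_mul]
  rw [integral_eq_lintegral_pos_part_sub_lintegral_neg_part hi, sub_nonpos]
  exact ENNReal.toReal_mono hi.neg.lintegral_lt_top.ne (a1.trans (hst.trans a2))

theorem fin78q (hW : WtQ) (ε : ℝ) (hε : 0 < ε) :
    ∃ C : ℝ, ∀ f : ℂ → ℂ,
      DifferentiableOn ℂ f (Metric.ball 0 1) → Set.InjOn f (Metric.ball 0 1) → f 0 = 0 →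
      deriv f 0 = 1 → ∀ r : ℝ, 1 / 2 ≤ r → r < 1 →
        ∫⁻ θ in Set.Ioc (-Real.pi) Real.pi,
            (‖deriv f ((r : ℂ) * Complex.exp ((θ : ℂ) * Complex.I))‖ₑ)⁻¹ ^ 2 ≤
          ENNReal.ofReal (2 * Real.pi * C * (1 - r) ^ (-1 - ε)) := by
  refine Dilate.dilate (fun w => (‖w‖ₑ)⁻¹ ^ 2) _ (by linarith) ?_
  obtain ⟨C, hC⟩ := core hW (1 + ε / 2) (2 * (1 + ε / 2) - 1) 1 0 one_pos le_rfl zero_le_one (by linarith)
    (by nlinarith [sq_nonneg (1 + ε / 2 - (2 * (1 + ε / 2) - 1) / 1)]) 0 le_rfl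
  refine ⟨C, fun f R hR hf hinj _ h1 r hr1 hr2 => ?_⟩
  have key := hC f R hR hf hinj h1 (star2 (by linarith) hR hf hinj) r hr1 hr2
  have hr0' : 0 < r := by linarith
  have hmem : ∀ θ : ℝ, (r : ℂ) * Complex.exp ((θ : ℂ) * Complex.I) ∈ ball (0 : ℂ) R := by
    intro θ
    rw [mem_ball_zero_iff, norm_mul, Complex.norm_exp_ofReal_mul_I, mul_one,
      Complex.norm_real, Real.norm_of_nonneg hr0'.le]
    linarith
  rw [show -1 - ε = -(2 * (1 + ε / 2) - 1) by ring]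
  refine le_trans (le_of_eq (lintegral_congr fun θ => ?_)) key
  have hp := norm_pos_iff.2 (ne_R hf hinj _ (hmem θ))
  rw [Real.rpow_neg hp.le, mul_one, Real.rpow_two, ← inv_pow, ENNReal.ofReal_pow (inv_pos.2 hp).le,
    ENNReal.ofReal_inv_of_pos hp, ofReal_norm]

theorem fin77 (hW : WtP) (hG : StGain) :
    ∃ ε : ℝ, 0 < ε ∧ ε < 1 / 4 ∧ ∃ C : ℝ, ∀ f : ℂ → ℂ,
      DifferentiableOn ℂ f (Metric.ball 0 1) → Set.InjOn f (Metric.ball 0 1) → f 0 = 0 →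
      deriv f 0 = 1 → ∀ r : ℝ, 1 / 2 ≤ r → r < 1 →
        ∫⁻ θ in Set.Ioc (-Real.pi) Real.pi,
            (‖deriv f ((r : ℂ) * Complex.exp ((θ : ℂ) * Complex.I))‖ₑ)⁻¹ ≤
          ENNReal.ofReal (2 * Real.pi * C * (1 - r) ^ (-(1 / 4 : ℝ) + ε)) :=
  fin77q hW.toQ hG

theorem fin78 (hW : WtP) (ε : ℝ) (hε : 0 < ε) :
    ∃ C : ℝ, ∀ f : ℂ → ℂ,
      DifferentiableOn ℂ f (Metric.ball 0 1) → Set.InjOn f (Metric.ball 0 1) → f 0 = 0 →
      deriv f 0 = 1 → ∀ r : ℝ, 1 / 2 ≤ r → r < 1 →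
        ∫⁻ θ in Set.Ioc (-Real.pi) Real.pi,
            (‖deriv f ((r : ℂ) * Complex.exp ((θ : ℂ) * Complex.I))‖ₑ)⁻¹ ^ 2 ≤
          ENNReal.ofReal (2 * Real.pi * C * (1 - r) ^ (-1 - ε)) :=
  fin78q hW.toQ ε hε

end Crest.Agent.R131.FinH1
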