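import Crest.Agent.R131.FinH1
import Crest.Agent.R131.Wt87

/-! Row 131: the weight lemma in the form used by `FinH1`. -/

set_option autoImplicit false

open MeasureTheory Set Metric
open scoped ENNReal ComplexConjugate

noncomputable section

namespace Crest.Agent.R131.FinH1

theorem wtQ : WtQ := by
  intro c b al η hal hal1 hη1 hb hθ
  have hθ' : 0 < (c - 2 * b / (2 * al)) ^ 2 + 4 * b / (2 * al) ^ 2 - 1 + η := by
    have e1 : 2 * b / (2 * al) = b / al := by field_simp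
    have e2 : 4 * b / (2 * al) ^ 2 = b / al ^ 2 := by field_simp; ring
    rw [e1, e2]; exact hθ
  obtain ⟨K0, hK0, r0, hr0, H⟩ := weights87 (2 * al) c b η (by linarith) (by linarith) hb hη1 hθ'
  refine ⟨max r0 (1 / 2), lt_max_of_lt_right (by norm_num), max_lt hr0 (by norm_num), K0, hK0,
    fun g R K L hR hg hK hL hint r hr1 hr2 => ?_⟩
  have hL0 : 0 ≤ L := le_trans (sq_nonneg _) (hL 0 (by simp))
  have hs : closedBall (0 : ℂ) 1 ⊆ ball 0 R := closedBall_subset_ball hR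
  have c1 : ContinuousOn g (closedBall 0 1) := hg.continuousOn.mono hs
  have c2 : ContinuousOn (deriv g) (closedBall 0 1) := (hg.deriv isOpen_ball).continuousOn.mono hs
  set A : ℂ → ℝ := fun z => ‖((c * ‖z‖ ^ 2 : ℝ) : ℂ) * g z -
    (((1 - ‖z‖ ^ 2) / al : ℝ) : ℂ) * z * deriv g z‖ ^ 2 with hA
  set w : ℂ → ℝ := fun z => (1 - ‖z‖ ^ 2) ^ (b - 1) * ‖z‖ ^ (2 * al - 2) with hw
  have cA : ContinuousOn A (closedBall 0 1) :=
    (((by fun_prop : ContinuousOn (fun z : ℂ => ((c * ‖z‖ ^ 2 : ℝ) : ℂ)) (closedBall 0 1)).mul c1).sub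
      ((by fun_prop : ContinuousOn (fun z : ℂ => (((1 - ‖z‖ ^ 2) / al : ℝ) : ℂ) * z)
        (closedBall 0 1)).mul c2)).norm.pow 2
  have i1 : IntegrableOn (fun z => A z * w z) (ball 0 1) := mul_wt_int hb (by linarith) cA
  have i2 : IntegrableOn (fun z => ‖g z‖ ^ 2 * w z) (ball 0 1) :=
    mul_wt_int hb (by linarith) (c1.norm.pow 2)
  have w0 : ∀ z ∈ ball (0 : ℂ) 1, 0 ≤ w z := by
    intro z hz
    have hz1 : ‖z‖ < 1 := by simpa using hz
    have hd : 0 < 1 - ‖z‖ ^ 2 := by nlinarith [norm_nonneg z]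
    simp only [hw]; positivity
  have n1 : 0 ≤ᵐ[volume.restrict (ball (0 : ℂ) 1)] fun z => A z * w z :=
    (ae_restrict_iff' measurableSet_ball).2
      (Filter.Eventually.of_forall fun z hz => mul_nonneg (sq_nonneg _) (w0 z hz))
  have n2 : 0 ≤ᵐ[volume.restrict (ball (0 : ℂ) 1)] fun z => ‖g z‖ ^ 2 * w z :=
    (ae_restrict_iff' measurableSet_ball).2
      (Filter.Eventually.of_forall fun z hz => mul_nonneg (sq_nonneg _) (w0 z hz))
  have m2 : 0 ≤ ∫ z in ball (0 : ℂ) 1, ‖g z‖ ^ 2 * w z := integral_nonneg_of_ae n2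
  have e : (∫ z in ball (0 : ℂ) 1, (A z - (1 - η) * ‖g z‖ ^ 2) * w z) =
      (∫ z in ball (0 : ℂ) 1, A z * w z) - (1 - η) * ∫ z in ball (0 : ℂ) 1, ‖g z‖ ^ 2 * w z := by
    rw [← integral_const_mul, ← integral_sub i1 (i2.const_mul _)]
    congr 1; ext z; ring
  have hint' : (∫ z in ball (0 : ℂ) 1, (A z - (1 - η) * ‖g z‖ ^ 2) * w z) ≤ K := hint
  rw [e] at hint'
  have key := H g R hR hg K L hK (fun z hz => hL z (hz.trans (le_max_left _ _))) hL0 (by
    have e1 : ∀ z : ℂ, ‖((c * ‖z‖ ^ 2 : ℝ) : ℂ) * g z -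
          ((2 / (2 * al) * (1 - ‖z‖ ^ 2) : ℝ) : ℂ) * (z * deriv g z)‖ ^ 2 *
          (1 - ‖z‖ ^ 2) ^ (b - 1) * ‖z‖ ^ (2 * al - 2) = A z * w z := by
      intro z
      have : (2 / (2 * al) * (1 - ‖z‖ ^ 2) : ℝ) = (1 - ‖z‖ ^ 2) / al := by field_simp
      simp only [hA, hw]
      rw [this, mul_assoc (((1 - ‖z‖ ^ 2) / al : ℝ) : ℂ), mul_assoc]
    have e2 : ∀ z : ℂ, ‖g z‖ ^ 2 * (1 - ‖z‖ ^ 2) ^ (b - 1) * ‖z‖ ^ (2 * al - 2) =
        ‖g z‖ ^ 2 * w z := fun z => by simp only [hw]; ring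
    simp_rw [e1, e2]
    rw [← ofReal_integral_eq_lintegral_ofReal i1 n1, ← ofReal_integral_eq_lintegral_ofReal i2 n2,
      ← ENNReal.ofReal_mul (by linarith), ← ENNReal.ofReal_add (mul_nonneg (by linarith) m2) hK]
    exact ENNReal.ofReal_le_ofReal (by linarith)) r hr1 hr2
  have hr0' : 0 < r := by linarith
  have hmem : ∀ θ : ℝ, (r : ℂ) * Complex.exp ((θ : ℂ) * Complex.I) ∈ ball (0 : ℂ) R := by
    intro θ
    rw [mem_ball_zero_iff, norm_mul, Complex.norm_exp_ofReal_mul_I, mul_one,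
      Complex.norm_real, Real.norm_of_nonneg hr0'.le]
    linarith
  have hc : Continuous fun θ : ℝ => ‖g ((r : ℂ) * Complex.exp ((θ : ℂ) * Complex.I))‖ ^ 2 :=
    ((hg.continuousOn.comp_continuous (by fun_prop) hmem).norm).pow 2
  have hpi : -Real.pi ≤ Real.pi := by linarith [Real.pi_pos]
  rw [intervalIntegral.integral_of_le hpi]
  rw [← ofReal_integral_eq_lintegral_ofReal
      ((hc.integrableOn_Icc).mono_set Ioc_subset_Icc_self)
      (Filter.Eventually.of_forall fun θ => by positivity)] at key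
  have : 0 < 1 - r := by linarith
  exact (ENNReal.ofReal_le_ofReal_iff (by positivity)).1 key

end Crest.Agent.R131.FinH1
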