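import Mathlib
import Crest.Agent.Lib.Complex.Univalent

/-!
Row 131: the area statement for `t ≤ 0` from the circle-mean bound for the inverse square.
-/

set_option autoImplicit false

open MeasureTheory Metric Set
open scoped ENNReal

namespace Crest.Agent.R131.Glue76

/-- Polar coordinates bound on the annulus `1/2 ≤ |w| < 1`. -/
theorem annulus_le (g : ℂ → ℝ≥0∞) :
    ∫⁻ w in {w : ℂ | 1 / 2 ≤ ‖w‖ ∧ ‖w‖ < 1}, g w ≤
      ∫⁻ r in Ico (1 / 2 : ℝ) 1, ∫⁻ θ in Ioc (-Real.pi) Real.pi,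
        g ((r : ℂ) * Complex.exp ((θ : ℂ) * Complex.I)) := by
  have hm : MeasurableSet {w : ℂ | 1 / 2 ≤ ‖w‖ ∧ ‖w‖ < 1} :=
    (measurableSet_le measurable_const measurable_norm).inter
      (measurableSet_lt measurable_norm measurable_const)
  rw [← lintegral_indicator hm, ← Complex.lintegral_comp_polarCoord_symm]
  have hT : MeasurableSet (Ico (1 / 2 : ℝ) 1 ×ˢ Ioc (-Real.pi) Real.pi) :=
    measurableSet_Ico.prod measurableSet_Ioc
  calc ∫⁻ p in polarCoord.target, ENNReal.ofReal p.1 •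
          indicator {w : ℂ | 1 / 2 ≤ ‖w‖ ∧ ‖w‖ < 1} g (Complex.polarCoord.symm p)
      ≤ ∫⁻ p in polarCoord.target, indicator (Ico (1 / 2 : ℝ) 1 ×ˢ Ioc (-Real.pi) Real.pi)
          (fun p : ℝ × ℝ => g ((p.1 : ℂ) * Complex.exp ((p.2 : ℂ) * Complex.I))) p := by
        apply setLIntegral_mono' polarCoord.open_target.measurableSet
        intro p hp
        have hp1 : 0 < p.1 := hp.1
        have hp2 : p.2 ∈ Ioo (-Real.pi) Real.pi := hp.2
        have he : Complex.polarCoord.symm p = (p.1 : ℂ) * Complex.exp ((p.2 : ℂ) * Complex.I) := by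
          rw [Complex.polarCoord_symm_apply, Complex.exp_mul_I]
          simp
        have hn : ‖(p.1 : ℂ) * Complex.exp ((p.2 : ℂ) * Complex.I)‖ = p.1 := by
          rw [norm_mul, Complex.norm_exp_ofReal_mul_I, mul_one, Complex.norm_real,
            Real.norm_of_nonneg hp1.le]
        rw [he]
        by_cases h : 1 / 2 ≤ p.1 ∧ p.1 < 1
        · rw [indicator_of_mem (by rw [mem_ofPred_eq, hn]; exact h),
            indicator_of_mem (show p ∈ Ico (1 / 2 : ℝ) 1 ×ˢ Ioc (-Real.pi) Real.pi from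
              ⟨h, hp2.1, hp2.2.le⟩), smul_eq_mul]
          calc _ ≤ 1 * g ((p.1 : ℂ) * Complex.exp ((p.2 : ℂ) * Complex.I)) := by
                gcongr
                exact ENNReal.ofReal_le_one.2 h.2.le
            _ = _ := one_mul _
        · rw [indicator_of_notMem (by rw [mem_ofPred_eq, hn]; exact h)]
          simp
    _ ≤ ∫⁻ p, indicator (Ico (1 / 2 : ℝ) 1 ×ˢ Ioc (-Real.pi) Real.pi)
          (fun p : ℝ × ℝ => g ((p.1 : ℂ) * Complex.exp ((p.2 : ℂ) * Complex.I))) p :=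
        setLIntegral_le_lintegral _ _
    _ = ∫⁻ p in (Ico (1 / 2 : ℝ) 1 ×ˢ Ioc (-Real.pi) Real.pi),
          g ((p.1 : ℂ) * Complex.exp ((p.2 : ℂ) * Complex.I)) := lintegral_indicator hT _
    _ ≤ _ := by
        rw [Measure.volume_eq_prod, ← Measure.prod_restrict]
        exact lintegral_prod_le _

theorem rpow_le_split {y A τ : ℝ} (hy : 0 < y) (hA : 0 < A) (h0 : 0 ≤ τ) (h2 : τ ≤ 2) :
    y ^ τ ≤ A ^ τ + A ^ (τ - 2) * y ^ 2 := by
  have h1 : 0 ≤ A ^ τ := Real.rpow_nonneg hA.le _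
  have h3 : 0 ≤ A ^ (τ - 2) * y ^ 2 := by positivity
  rcases le_total y A with h | h
  · have := Real.rpow_le_rpow hy.le h h0
    linarith
  · have h4 : y ^ (τ - 2) ≤ A ^ (τ - 2) := Real.rpow_le_rpow_of_nonpos hA h (by linarith)
    have h5 : y ^ τ = y ^ (τ - 2) * y ^ 2 := by
      rw [← Real.rpow_natCast, ← Real.rpow_add hy]; norm_num
    have h6 : y ^ (τ - 2) * y ^ 2 ≤ A ^ (τ - 2) * y ^ 2 := by gcongr
    linarith

theorem lint_one_sub_rpow {s : ℝ} (hs : -1 < s) (K : ℝ) :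
    ∫⁻ r in Ico (1 / 2 : ℝ) 1, ENNReal.ofReal (K * (1 - r) ^ s) < ⊤ := by
  have h1 : IntervalIntegrable (fun x : ℝ => x ^ s) volume (1 - 1 / 2) (1 - 1) :=
    intervalIntegral.intervalIntegrable_rpow' hs
  have h2 := (h1.comp_sub_left 1).const_mul K
  have h3 : IntegrableOn (fun r : ℝ => K * (1 - r) ^ s) (Ico (1 / 2 : ℝ) 1) := by
    have h4 : IntegrableOn (fun r : ℝ => K * (1 - r) ^ s) (Icc (1 / 2 : ℝ) 1) := by
      rw [← intervalIntegrable_iff_integrableOn_Icc_of_le (by norm_num)]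
      convert h2 using 1 <;> norm_num
    exact h4.mono_set Ico_subset_Icc_self
  exact h3.lintegral_lt_top

/-- The statement of S0178. -/
def St78 : Prop := ∀ ε : ℝ, 0 < ε →
    ∃ C : ℝ, ∀ f : ℂ → ℂ,
      DifferentiableOn ℂ f (Metric.ball 0 1) → Set.InjOn f (Metric.ball 0 1) → f 0 = 0 →
      deriv f 0 = 1 → ∀ r : ℝ, 1 / 2 ≤ r → r < 1 →
        ∫⁻ θ in Set.Ioc (-Real.pi) Real.pi,
            (‖deriv f ((r : ℂ) * Complex.exp ((θ : ℂ) * Complex.I))‖ₑ)⁻¹ ^ 2 ≤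
          ENNReal.ofReal (2 * Real.pi * C * (1 - r) ^ (-1 - ε))

theorem inner_lt_top (f : ℂ → ℂ) (hf : DifferentiableOn ℂ f (ball 0 1))
    (hinj : InjOn f (ball 0 1)) (t : ℝ) :
    ∫⁻ w in closedBall (0 : ℂ) (1 / 2), ‖deriv f w‖ₑ ^ t < ⊤ := by
  have hsub : closedBall (0 : ℂ) (1 / 2) ⊆ ball 0 1 := closedBall_subset_ball (by norm_num)
  have hc : ContinuousOn (deriv f) (ball 0 1) := (hf.deriv isOpen_ball).continuousOn
  have hne : ∀ w ∈ ball (0 : ℂ) 1, deriv f w ≠ 0 := fun w hw =>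
    Crest.Agent.Lib.Complex.deriv_ne_zero_of_injOn isOpen_ball hf hinj hw
  have hc2 : ContinuousOn (fun w => ‖deriv f w‖ ^ t) (closedBall (0 : ℂ) (1 / 2)) :=
    (hc.mono hsub).norm.rpow_const fun w hw => Or.inl (norm_ne_zero_iff.2 (hne w (hsub hw)))
  have hi : IntegrableOn (fun w => ‖deriv f w‖ ^ t) (closedBall (0 : ℂ) (1 / 2)) :=
    hc2.integrableOn_compact (isCompact_closedBall _ _)
  refine lt_of_le_of_lt (le_of_eq ?_) hi.lintegral_lt_top
  refine setLIntegral_congr_fun measurableSet_closedBall fun w hw => ?_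
  have := norm_pos_iff.2 (hne w (hsub hw))
  show ‖deriv f w‖ₑ ^ t = ENNReal.ofReal (‖deriv f w‖ ^ t)
  rw [← ofReal_norm, ENNReal.ofReal_rpow_of_pos this]

theorem neg_norm (h78 : St78) (f : ℂ → ℂ) (hf : DifferentiableOn ℂ f (ball 0 1))
    (hinj : InjOn f (ball 0 1)) (h0 : f 0 = 0) (h1 : deriv f 0 = 1) (t : ℝ) (ht₁ : -2 < t)
    (ht₂ : t ≤ 0) : ∫⁻ w in ball (0 : ℂ) 1, ‖deriv f w‖ₑ ^ t < ⊤ := by
  set ε : ℝ := (1 + t / 2) / 2 with hε
  have hε0 : 0 < ε := by rw [hε]; linarith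
  obtain ⟨C, hC⟩ := h78 ε hε0
  have hne : ∀ w ∈ ball (0 : ℂ) 1, deriv f w ≠ 0 := fun w hw =>
    Crest.Agent.Lib.Complex.deriv_ne_zero_of_injOn isOpen_ball hf hinj hw
  have hsub : ball (0 : ℂ) 1 ⊆ closedBall (0 : ℂ) (1 / 2) ∪ {w : ℂ | 1 / 2 ≤ ‖w‖ ∧ ‖w‖ < 1} := by
    intro w hw
    rw [mem_ball_zero_iff] at hw
    rcases le_total ‖w‖ (1 / 2) with h | h
    · left; exact mem_closedBall_zero_iff.2 h
    · right; exact ⟨h, hw⟩
  refine lt_of_le_of_lt ((lintegral_mono_set hsub).trans (lintegral_union_le _ _ _)) ?_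
  refine ENNReal.add_lt_top.2 ⟨inner_lt_top f hf hinj t, ?_⟩
  refine lt_of_le_of_lt (annulus_le _) ?_
  have key : ∀ r ∈ Ico (1 / 2 : ℝ) 1, ∫⁻ θ in Ioc (-Real.pi) Real.pi,
      ‖deriv f ((r : ℂ) * Complex.exp ((θ : ℂ) * Complex.I))‖ₑ ^ t ≤
      ENNReal.ofReal (2 * Real.pi * (1 - r) ^ (t / 2)) +
        ENNReal.ofReal (2 * Real.pi * C * (1 - r) ^ (t / 2 - ε)) := by
    intro r hr
    have hr1 : 0 < 1 - r := by linarith [hr.2]
    have hr0 : 0 < r := by linarith [hr.1]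
    set A : ℝ := (1 - r) ^ (-(1 / 2 : ℝ)) with hA
    have hA0 : 0 < A := Real.rpow_pos_of_pos hr1 _
    have hpt : ∀ θ : ℝ, ‖deriv f ((r : ℂ) * Complex.exp ((θ : ℂ) * Complex.I))‖ₑ ^ t ≤
        ENNReal.ofReal (A ^ (-t)) + ENNReal.ofReal (A ^ (-t - 2)) *
          (‖deriv f ((r : ℂ) * Complex.exp ((θ : ℂ) * Complex.I))‖ₑ)⁻¹ ^ 2 := by
      intro θ
      set w : ℂ := (r : ℂ) * Complex.exp ((θ : ℂ) * Complex.I) with hw
      have hwb : w ∈ ball (0 : ℂ) 1 := by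
        rw [mem_ball_zero_iff, hw, norm_mul, Complex.norm_exp_ofReal_mul_I, mul_one,
          Complex.norm_real, Real.norm_of_nonneg hr0.le]
        exact hr.2
      have hp : 0 < ‖deriv f w‖ := norm_pos_iff.2 (hne w hwb)
      have h5 := rpow_le_split (inv_pos.2 hp) hA0 (τ := -t) (by linarith) (by linarith)
      rw [Real.inv_rpow hp.le, ← Real.rpow_neg hp.le, neg_neg] at h5
      rw [← ofReal_norm, ENNReal.ofReal_rpow_of_pos hp,
        ← ENNReal.ofReal_inv_of_pos hp, ← ENNReal.ofReal_pow (inv_pos.2 hp).le,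
        ← ENNReal.ofReal_mul (Real.rpow_nonneg hA0.le _),
        ← ENNReal.ofReal_add (Real.rpow_nonneg hA0.le _) (by positivity)]
      exact ENNReal.ofReal_le_ofReal h5
    refine (lintegral_mono hpt).trans ?_
    rw [lintegral_add_left measurable_const, lintegral_const_mul' _ _ ENNReal.ofReal_ne_top]
    have e1 : A ^ (-t) = (1 - r) ^ (t / 2) := by
      rw [hA, ← Real.rpow_mul hr1.le]; congr 1; ring
    have e2 : A ^ (-t - 2) * (2 * Real.pi * C * (1 - r) ^ (-1 - ε)) =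
        2 * Real.pi * C * (1 - r) ^ (t / 2 - ε) := by
      rw [hA, ← Real.rpow_mul hr1.le]
      have : (1 - r) ^ (t / 2 - ε) = (1 - r) ^ (-(1 / 2 : ℝ) * (-t - 2)) * (1 - r) ^ (-1 - ε) := by
        rw [← Real.rpow_add hr1]; congr 1; ring
      rw [this]; ring
    apply add_le_add
    · rw [setLIntegral_const, Real.volume_Ioc, e1,
        ← ENNReal.ofReal_mul (Real.rpow_nonneg hr1.le _)]
      apply le_of_eq; congr 1; ring
    · rw [← e2, ENNReal.ofReal_mul (Real.rpow_nonneg hA0.le _)]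
      gcongr
      exact hC f hf hinj h0 h1 r hr.1 hr.2
  refine lt_of_le_of_lt (setLIntegral_mono' measurableSet_Ico key) ?_
  rw [lintegral_add_left (by fun_prop)]
  exact ENNReal.add_lt_top.2 ⟨lint_one_sub_rpow (by linarith) _,
    lint_one_sub_rpow (by rw [hε]; linarith) _⟩

theorem neg_part (h78 : St78) (f : ℂ → ℂ) (hf : DifferentiableOn ℂ f (ball 0 1))
    (hinj : InjOn f (ball 0 1)) (t : ℝ) (ht₁ : -2 < t)
    (ht₂ : t ≤ 0) : ∫⁻ w in ball (0 : ℂ) 1, ‖deriv f w‖ₑ ^ t < ⊤ := by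
  have hc : deriv f 0 ≠ 0 :=
    Crest.Agent.Lib.Complex.deriv_ne_zero_of_injOn isOpen_ball hf hinj (mem_ball_self one_pos)
  set c := deriv f 0 with hcdef
  have hd : ∀ w, deriv (fun z => (f z - f 0) / c) w = deriv f w / c := by
    intro w
    rw [deriv_div_const, deriv_sub_const]
  have h := neg_norm h78 (fun z => (f z - f 0) / c) ((hf.sub_const _).div_const _)
    (fun a ha b hb hab => hinj ha hb (by
      have := (div_left_inj' hc).1 hab
      exact sub_left_inj.1 this))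
    (by simp) (by rw [hd, div_self hc]) t ht₁ ht₂
  have he : ∀ w, ‖deriv f w‖ₑ ^ t =
      ‖c‖ₑ ^ t * ‖deriv (fun z => (f z - f 0) / c) w‖ₑ ^ t := by
    intro w
    rw [← ENNReal.mul_rpow_of_ne_top enorm_ne_top enorm_ne_top, ← enorm_mul, hd,
      mul_div_cancel₀ _ hc]
  simp_rw [he]
  have hct : ‖c‖ₑ ^ t ≠ ⊤ := by
    rw [← ofReal_norm, ENNReal.ofReal_rpow_of_pos (norm_pos_iff.2 hc)]
    exact ENNReal.ofReal_ne_top
  rw [lintegral_const_mul' _ _ hct]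
  exact ENNReal.mul_lt_top hct.lt_top h

/-- S0176 from S0178 and the positive part. -/
theorem s0176_of (h78 : St78)
    (hpos : ∀ f : ℂ → ℂ, DifferentiableOn ℂ f (ball 0 1) → InjOn f (ball 0 1) →
      ∀ t : ℝ, 0 < t → t < 2 / 3 → ∫⁻ w in ball (0 : ℂ) 1, ‖deriv f w‖ₑ ^ t < ⊤)
    (f : ℂ → ℂ) (hf : DifferentiableOn ℂ f (ball 0 1)) (hinj : InjOn f (ball 0 1))
    (t : ℝ) (ht₁ : -2 < t) (ht₂ : t < 2 / 3) :
    ∫⁻ w in ball (0 : ℂ) 1, ‖deriv f w‖ₑ ^ t < ⊤ := by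
  rcases le_or_gt t 0 with h | h
  · exact neg_part h78 f hf hinj t ht₁ h
  · exact hpos f hf hinj t h ht₂

end Crest.Agent.R131.Glue76
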