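import Crest.Agent.R131.Star
import Crest.Agent.Lib.Complex.Univalent

set_option autoImplicit false
open MeasureTheory Set Metric Filter Topology
open scoped ENNReal ComplexConjugate

namespace Crest.Agent.R131.G96

/-- the critical level `u = |f'|^2 d^(1-c) / |z|^2`. -/
noncomputable def gU (f : ℂ → ℂ) (c : ℝ) (z : ℂ) : ℝ :=
  ‖deriv f z‖ ^ 2 * (1 - ‖z‖ ^ 2) ^ (1 - c) / ‖z‖ ^ 2

/-- the weight `W = |f'|^(-τ) d^(b-1) |z|^(τ-2)`. -/
noncomputable def gW (f : ℂ → ℂ) (τ b : ℝ) (z : ℂ) : ℝ :=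
  ‖deriv f z‖ ^ (-τ) * (1 - ‖z‖ ^ 2) ^ (b - 1) * ‖z‖ ^ (τ - 2)

theorem g_d_pos {z : ℂ} (hz : z ∈ ball (0 : ℂ) 1) : 0 < 1 - ‖z‖ ^ 2 := by
  have h : ‖z‖ < 1 := by simpa using hz
  nlinarith [norm_nonneg z]

theorem gW_nonneg (f : ℂ → ℂ) (τ b : ℝ) {z : ℂ} (hz : z ∈ ball (0 : ℂ) 1) : 0 ≤ gW f τ b z := by
  have := g_d_pos hz
  unfold gW; positivity

theorem gU_pos (f : ℂ → ℂ) (c : ℝ) {z : ℂ} (hz : z ∈ ball (0 : ℂ) 1) (hz0 : z ≠ 0)
    (hf : deriv f z ≠ 0) : 0 < gU f c z := by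
  have := g_d_pos hz
  have h1 : 0 < ‖z‖ := norm_pos_iff.2 hz0
  have h2 : 0 < ‖deriv f z‖ := norm_pos_iff.2 hf
  unfold gU; positivity

theorem measurable_gU (f : ℂ → ℂ) (c : ℝ) : Measurable (gU f c) := by
  unfold gU
  have h := measurable_deriv f
  exact ((h.norm.pow_const 2).mul
    ((measurable_const.sub (measurable_norm.pow_const 2)).pow_const _)).div
    (measurable_norm.pow_const 2)

theorem measurable_gW (f : ℂ → ℂ) (τ b : ℝ) : Measurable (gW f τ b) := by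
  unfold gW
  have h := measurable_deriv f
  exact ((h.norm.pow_const _).mul
    ((measurable_const.sub (measurable_norm.pow_const 2)).pow_const _)).mul
    (measurable_norm.pow_const _)

theorem measurable_sX96 (f : ℂ → ℂ) (c : ℝ) : Measurable (sX f c) := by
  unfold sX
  have h := measurable_deriv f
  have h2 := measurable_deriv (deriv f)
  have h3 : Measurable fun z : ℂ => ((c * ‖z‖ ^ 2 : ℝ) : ℂ) :=
    Complex.measurable_ofReal.comp (measurable_const.mul (measurable_norm.pow_const 2))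
  have h4 : Measurable fun z : ℂ => ((1 - ‖z‖ ^ 2 : ℝ) : ℂ) :=
    Complex.measurable_ofReal.comp (measurable_const.sub (measurable_norm.pow_const 2))
  exact h3.add (((h4.mul measurable_id).mul h2).div h)

theorem sG_crit (f : ℂ → ℂ) {c : ℝ} (hc : -1 < c) {a z : ℂ} (hz : z ∈ ball (0 : ℂ) 1)
    (hz0 : z ≠ 0) (ha : sF f c z = a) : sG f c a z = gU f c z / (1 + c) ^ 2 := by
  have hd := g_d_pos hz
  have h1 : 0 < ‖z‖ := norm_pos_iff.2 hz0
  have hc1 : 0 < 1 + c := by linarith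
  have e : f z - a = -(((1 - ‖z‖ ^ 2 : ℝ) : ℂ) * deriv f z / (((1 + c : ℝ) : ℂ) * conj z)) := by
    rw [← ha]; unfold sF; ring
  have en : ‖f z - a‖ = (1 - ‖z‖ ^ 2) * ‖deriv f z‖ / ((1 + c) * ‖z‖) := by
    rw [e, norm_neg, norm_div, norm_mul, norm_mul, Complex.norm_real, Complex.norm_real,
      Complex.norm_conj, Real.norm_of_nonneg hd.le, Real.norm_of_nonneg hc1.le]
  have hp : (1 - ‖z‖ ^ 2) ^ (1 - c) * (1 - ‖z‖ ^ 2) ^ (1 + c) = (1 - ‖z‖ ^ 2) ^ 2 := by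
    rw [← Real.rpow_add hd, show (1 - c) + (1 + c) = ((2 : ℕ) : ℝ) by push_cast; ring,
      Real.rpow_natCast]
  have hq : 0 < (1 - ‖z‖ ^ 2) ^ (1 + c) := Real.rpow_pos_of_pos hd _
  unfold sG gU
  rw [en, div_pow, mul_pow, mul_pow, ← hp]
  field_simp

theorem sJ_mul (f : ℂ → ℂ) {c τ b : ℝ} (hc : -1 < c) (hb : b = 1 - (1 + τ / 2) * (1 - c)) {z : ℂ}
    (hz : z ∈ ball (0 : ℂ) 1) (hz0 : z ≠ 0) (hf : deriv f z ≠ 0) :
    sJ f c z * gU f c z ^ (-(1 + τ / 2)) = (‖sX f c z‖ ^ 2 - 1) * gW f τ b z / (1 + c) ^ 2 := by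
  have hd := g_d_pos hz
  have h1 : 0 < ‖z‖ := norm_pos_iff.2 hz0
  have h2 : 0 < ‖deriv f z‖ := norm_pos_iff.2 hf
  have hc1 : 0 < 1 + c := by linarith
  have e1 : gU f c z ^ (-(1 + τ / 2)) =
      (‖deriv f z‖ ^ (-τ) / ‖deriv f z‖ ^ 2) * (1 - ‖z‖ ^ 2) ^ (b - 1) *
        (‖z‖ ^ (τ - 2) * ‖z‖ ^ 4) := by
    unfold gU
    generalize 1 - ‖z‖ ^ 2 = d at hd ⊢
    rw [Real.div_rpow (by positivity) (by positivity), Real.mul_rpow (by positivity) (by positivity),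
      ← Real.rpow_natCast ‖deriv f z‖ 2, ← Real.rpow_natCast ‖z‖ 2, ← Real.rpow_natCast ‖z‖ 4,
      ← Real.rpow_mul h2.le, ← Real.rpow_mul h1.le, ← Real.rpow_mul hd.le, ← Real.rpow_sub h2,
      ← Real.rpow_add h1, div_eq_mul_inv, ← Real.rpow_neg h1.le]
    congr 1
    · congr 1
      · congr 1; push_cast; ring
      · congr 1; rw [hb]; ring
    · congr 1; push_cast; ring
  rw [e1]
  unfold sJ gW
  field_simp

theorem sJ_pos_iff (f : ℂ → ℂ) {c : ℝ} (hc : -1 < c) {z : ℂ} (hz0 : z ≠ 0)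
    (hf : deriv f z ≠ 0) : 0 < sJ f c z ↔ 1 < ‖sX f c z‖ ^ 2 := by
  have h1 : 0 < ‖z‖ := norm_pos_iff.2 hz0
  have h2 : 0 < ‖deriv f z‖ := norm_pos_iff.2 hf
  have hc1 : 0 < 1 + c := by linarith
  unfold sJ
  rw [div_pos_iff_of_pos_right (by positivity), mul_pos_iff_of_pos_left (by positivity), sub_pos]

theorem sJ_neg_iff (f : ℂ → ℂ) {c : ℝ} (hc : -1 < c) {z : ℂ} (hz0 : z ≠ 0)
    (hf : deriv f z ≠ 0) : sJ f c z < 0 ↔ ‖sX f c z‖ ^ 2 < 1 := by
  have h1 : 0 < ‖z‖ := norm_pos_iff.2 hz0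
  have h2 : 0 < ‖deriv f z‖ := norm_pos_iff.2 hf
  have hc1 : 0 < 1 + c := by linarith
  have h3 : 0 < ‖deriv f z‖ ^ 2 / ((1 + c) ^ 2 * ‖z‖ ^ 4) := by positivity
  have e : sJ f c z = ‖deriv f z‖ ^ 2 / ((1 + c) ^ 2 * ‖z‖ ^ 4) * (‖sX f c z‖ ^ 2 - 1) := by
    unfold sJ; ring
  rw [e]
  constructor
  · intro h; by_contra h'; push Not at h'
    exact absurd h (not_lt.2 (mul_nonneg h3.le (by linarith)))
  · intro h; exact mul_neg_of_pos_of_neg h3 (by linarith)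

/-- STAR in weight form, with multipliers `ψ₁` (on saddles) and `ψ₂` (on minima). -/
theorem star_PW (f : ℂ → ℂ) (R : ℝ) (hR : 1 < R) (hf : DifferentiableOn ℂ f (ball 0 R))
    (hinj : InjOn f (ball 0 R)) (c τ b : ℝ) (hc : -1 < c) (hb : b = 1 - (1 + τ / 2) * (1 - c))
    (ψ₁ ψ₂ : ℂ → ℝ≥0∞) (h₁ : Measurable ψ₁) (h₂ : Measurable ψ₂)
    (hpair : ∀ a s m : ℂ, s ∈ ball (0 : ℂ) 1 → m ∈ ball (0 : ℂ) 1 → s ≠ 0 → m ≠ 0 →
      sF f c s = a → sF f c m = a → 1 < ‖sX f c s‖ ^ 2 → ‖sX f c m‖ ^ 2 < 1 →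
      sG f c a m ≤ sG f c a s →
      (∃ C : Set ℂ, IsPreconnected C ∧ s ∈ C ∧ m ∈ C ∧
        C ⊆ {z | z ∈ ball (0 : ℂ) 1 ∧ sG f c a z ≤ sG f c a s}) →
      ENNReal.ofReal (sG f c a s ^ (-(1 + τ / 2))) * ψ₁ s ≤
        ENNReal.ofReal (sG f c a m ^ (-(1 + τ / 2))) * ψ₂ m) :
    ∫⁻ z in ball (0 : ℂ) 1, ENNReal.ofReal ((‖sX f c z‖ ^ 2 - 1) * gW f τ b z) * ψ₁ z ≤
      ∫⁻ z in ball (0 : ℂ) 1, ENNReal.ofReal ((1 - ‖sX f c z‖ ^ 2) * gW f τ b z) * ψ₂ z := by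
  have hc1 : 0 < 1 + c := by linarith
  have hne : ∀ z ∈ ball (0 : ℂ) 1, deriv f z ≠ 0 := fun z hz =>
    Crest.Agent.Lib.Complex.deriv_ne_zero_of_injOn isOpen_ball hf hinj
      (ball_subset_ball hR.le hz)
  set e : ℝ := -(1 + τ / 2) with he
  set k : ℝ := (1 + c) ^ 2 with hk
  have hk0 : 0 < k := by positivity
  have hmJ : Measurable (sJ f c) := by
    unfold sJ
    exact (((measurable_deriv f).norm.pow_const 2).mul
      (((measurable_sX96 f c).norm.pow_const 2).sub measurable_const)).div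
      (measurable_const.mul (measurable_norm.pow_const 4))
  have hΦ : Measurable fun z => ENNReal.ofReal (k * gU f c z ^ e) :=
    (measurable_const.mul ((measurable_gU f c).pow_const e)).ennreal_ofReal
  have key := star' f R hR hf hinj c hc (fun z => ENNReal.ofReal (k * gU f c z ^ e) * ψ₁ z)
    (fun z => ENNReal.ofReal (k * gU f c z ^ e) * ψ₂ z) (hΦ.mul h₁) (hΦ.mul h₂) (by
      intro a s m hs hm hs0 hm0 hsa hma hJs hJm hG hC
      have h := hpair a s m hs hm hs0 hm0 hsa hma ((sJ_pos_iff f hc hs0 (hne s hs)).1 hJs)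
        ((sJ_neg_iff f hc hm0 (hne m hm)).1 hJm) hG hC
      have t : ∀ z ∈ ball (0 : ℂ) 1, z ≠ 0 → sF f c z = a →
          ENNReal.ofReal (k * gU f c z ^ e) =
            ENNReal.ofReal (k * k ^ e) * ENNReal.ofReal (sG f c a z ^ e) := by
        intro z hz hz0 hza
        have hu := gU_pos f c hz hz0 (hne z hz)
        rw [← ENNReal.ofReal_mul (by positivity), sG_crit f hc hz hz0 hza, ← hk,
          Real.div_rpow hu.le hk0.le]
        congr 1
        have : 0 < k ^ e := Real.rpow_pos_of_pos hk0 e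
        field_simp
      rw [t s hs hs0 hsa, t m hm hm0 hma, mul_assoc, mul_assoc]
      exact mul_le_mul_right h _)
  have hs1 : MeasurableSet {z | z ∈ ball (0 : ℂ) 1 ∧ 0 < sJ f c z} :=
    measurableSet_ball.inter (measurableSet_lt measurable_const hmJ)
  have hs2 : MeasurableSet {z | z ∈ ball (0 : ℂ) 1 ∧ sJ f c z < 0} :=
    measurableSet_ball.inter (measurableSet_lt hmJ measurable_const)
  have h0 : ∀ᵐ z : ℂ, z ≠ 0 := by
    have : (volume : Measure ℂ) {0} = 0 := measure_singleton 0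
    exact measure_eq_zero_iff_ae_notMem.1 this
  have main : ∀ z ∈ ball (0 : ℂ) 1, z ≠ 0 →
      sJ f c z * (k * gU f c z ^ e) = (‖sX f c z‖ ^ 2 - 1) * gW f τ b z := by
    intro z hz hz0
    have := sJ_mul f hc hb hz hz0 (hne z hz)
    rw [← he, ← hk] at this
    calc sJ f c z * (k * gU f c z ^ e) = k * (sJ f c z * gU f c z ^ e) := by ring
      _ = _ := by rw [this]; field_simp
  refine le_trans (le_of_eq ?_) (key.trans (le_of_eq ?_))
  · rw [← lintegral_indicator hs1, ← lintegral_indicator measurableSet_ball]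
    refine lintegral_congr_ae ?_
    filter_upwards [h0] with z hz0
    by_cases hz : z ∈ ball (0 : ℂ) 1
    · rw [indicator_of_mem hz]
      by_cases hJ : 0 < sJ f c z
      · rw [indicator_of_mem (show z ∈ {z | z ∈ ball (0 : ℂ) 1 ∧ 0 < sJ f c z} from ⟨hz, hJ⟩),
          ← mul_assoc, ← ENNReal.ofReal_mul hJ.le, main z hz hz0]
      · rw [indicator_of_notMem (fun h => hJ h.2)]
        have h1 : ‖sX f c z‖ ^ 2 - 1 ≤ 0 := by
          have := (sJ_pos_iff f hc hz0 (hne z hz)).not.1 hJ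
          linarith [not_lt.1 this]
        rw [ENNReal.ofReal_eq_zero.2 (mul_nonpos_of_nonpos_of_nonneg h1 (gW_nonneg f τ b hz)),
          zero_mul]
    · rw [indicator_of_notMem hz, indicator_of_notMem (fun h => hz h.1)]
  · rw [← lintegral_indicator hs2, ← lintegral_indicator measurableSet_ball]
    refine lintegral_congr_ae ?_
    filter_upwards [h0] with z hz0
    by_cases hz : z ∈ ball (0 : ℂ) 1
    · rw [indicator_of_mem hz]
      by_cases hJ : sJ f c z < 0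
      · rw [indicator_of_mem (show z ∈ {z | z ∈ ball (0 : ℂ) 1 ∧ sJ f c z < 0} from ⟨hz, hJ⟩),
          ← mul_assoc, ← ENNReal.ofReal_mul (by linarith), neg_mul, main z hz hz0]
        congr 2; ring
      · rw [indicator_of_notMem (fun h => hJ h.2)]
        have h1 : 1 - ‖sX f c z‖ ^ 2 ≤ 0 := by
          have := (sJ_neg_iff f hc hz0 (hne z hz)).not.1 hJ
          linarith [not_lt.1 this]
        rw [ENNReal.ofReal_eq_zero.2 (mul_nonpos_of_nonpos_of_nonneg h1 (gW_nonneg f τ b hz)),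
          zero_mul]
    · rw [indicator_of_notMem hz, indicator_of_notMem (fun h => hz h.1)]

/-- STAR in weight form. -/
theorem star_PW1 (f : ℂ → ℂ) (R : ℝ) (hR : 1 < R) (hf : DifferentiableOn ℂ f (ball 0 R))
    (hinj : InjOn f (ball 0 R)) (c τ b : ℝ) (hc : -1 < c) (hτ : 0 < τ)
    (hb : b = 1 - (1 + τ / 2) * (1 - c)) :
    ∫⁻ z in ball (0 : ℂ) 1, ENNReal.ofReal ((‖sX f c z‖ ^ 2 - 1) * gW f τ b z) ≤
      ∫⁻ z in ball (0 : ℂ) 1, ENNReal.ofReal ((1 - ‖sX f c z‖ ^ 2) * gW f τ b z) := by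
  have hc1 : 0 < 1 + c := by linarith
  have h := star_PW f R hR hf hinj c τ b hc hb (fun _ => 1) (fun _ => 1) measurable_const
    measurable_const (by
      intro a s m hs hm hs0 hm0 hsa hma _ _ hG _
      rw [mul_one, mul_one]
      have hm' : 0 < sG f c a m := by
        rw [sG_crit f hc hm hm0 hma]
        have := gU_pos f c hm hm0 (Crest.Agent.Lib.Complex.deriv_ne_zero_of_injOn isOpen_ball hf
          hinj (ball_subset_ball hR.le hm))
        positivity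
      exact ENNReal.ofReal_le_ofReal (Real.rpow_le_rpow_of_nonpos hm' hG (by linarith)))
  simpa using h

end Crest.Agent.R131.G96
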