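import Mathlib
import Crest.Agent.Lib.Complex.Univalent

/-!
Near-sharp growth of univalent maps of the disc, from the integral means of `1/f'` and a weak
bound for `f''/f'`.
-/

set_option autoImplicit false

open Metric Set Filter Topology MeasureTheory

namespace Crest.Agent.R131

/-- Cauchy's formula as a pointwise bound by the mean over a circle. -/
theorem g88_cauchy (g : ℂ → ℂ) (R : ℝ) (hg : DifferentiableOn ℂ g (closedBall 0 R)) (z : ℂ)
    (hz : ‖z‖ < R) :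
    ENNReal.ofReal (2 * Real.pi * ‖g z‖) ≤ ENNReal.ofReal (R / (R - ‖z‖)) *
      ∫⁻ θ in Set.Ioc (-Real.pi) Real.pi, ‖g ((R : ℂ) * Complex.exp ((θ : ℂ) * Complex.I))‖ₑ := by
  have hR : 0 < R := lt_of_le_of_lt (norm_nonneg z) hz
  have hz' : z ∈ ball (0 : ℂ) R := by simpa using hz
  have h1 := hg.circleIntegral_sub_inv_smul hz'
  have hper : Function.Periodic (fun θ : ℝ => deriv (circleMap 0 R) θ •
      ((circleMap 0 R θ - z)⁻¹ • g (circleMap 0 R θ))) (2 * Real.pi) := by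
    intro θ
    simp only [deriv_circleMap, periodic_circleMap 0 R θ]
  have h2 : (∮ w in C(0, R), (w - z)⁻¹ • g w) = ∫ θ in (-Real.pi)..Real.pi,
      deriv (circleMap 0 R) θ • ((circleMap 0 R θ - z)⁻¹ • g (circleMap 0 R θ)) := by
    have := hper.intervalIntegral_add_eq 0 (-Real.pi)
    rw [zero_add, show -Real.pi + 2 * Real.pi = Real.pi by ring] at this
    exact this
  rw [h2, intervalIntegral.integral_of_le (by linarith [Real.pi_pos])] at h1
  have h3 : ENNReal.ofReal (2 * Real.pi * ‖g z‖) = ‖(2 * Real.pi * Complex.I : ℂ) • g z‖ₑ := by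
    rw [← ofReal_norm]
    congr 1
    simp [abs_of_pos Real.pi_pos]
  rw [h3, ← h1]
  refine (enorm_integral_le_lintegral_enorm _).trans ?_
  rw [← lintegral_const_mul' _ _ ENNReal.ofReal_ne_top]
  refine lintegral_mono fun θ => ?_
  have hc : circleMap 0 R θ = (R : ℂ) * Complex.exp ((θ : ℂ) * Complex.I) := by
    simp [circleMap]
  have hn : ‖circleMap 0 R θ‖ = R := by simp [abs_of_pos hR]
  have hlow : R - ‖z‖ ≤ ‖circleMap 0 R θ - z‖ := by
    have := norm_sub_norm_le (circleMap 0 R θ) z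
    linarith
  have hpos : 0 < R - ‖z‖ := by linarith
  simp only
  rw [← hc, ← ofReal_norm, ← ofReal_norm,
    ← ENNReal.ofReal_mul (by positivity)]
  refine ENNReal.ofReal_le_ofReal ?_
  rw [norm_smul, norm_smul, deriv_circleMap, norm_mul, hn, Complex.norm_I, mul_one, norm_inv,
    ← mul_assoc]
  refine mul_le_mul_of_nonneg_right ?_ (norm_nonneg _)
  rw [div_eq_mul_inv]
  exact mul_le_mul_of_nonneg_left (inv_anti₀ hpos hlow) hR.le

/-- Lower bound for the derivative of a univalent map from the means of `1/f'^2`. -/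
theorem g88_lower
    (h178 : ∀ ε : ℝ, 0 < ε → ∃ C : ℝ, ∀ f : ℂ → ℂ,
      DifferentiableOn ℂ f (Metric.ball 0 1) → Set.InjOn f (Metric.ball 0 1) → f 0 = 0 →
      deriv f 0 = 1 → ∀ r : ℝ, 1 / 2 ≤ r → r < 1 →
        ∫⁻ θ in Set.Ioc (-Real.pi) Real.pi,
            (‖deriv f ((r : ℂ) * Complex.exp ((θ : ℂ) * Complex.I))‖ₑ)⁻¹ ^ 2 ≤
          ENNReal.ofReal (2 * Real.pi * C * (1 - r) ^ (-1 - ε)))
    (k : ℂ → ℂ) (hk : DifferentiableOn ℂ k (ball 0 1)) (hinj : InjOn k (ball 0 1))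
    (δ : ℝ) (hδ : 0 < δ) :
    ∃ C : ℝ, ∀ z ∈ ball (0 : ℂ) 1, (1 - ‖z‖) ^ ((1 : ℝ) + δ) * ‖deriv k z‖⁻¹ ≤ C := by
  obtain ⟨C, hC⟩ := h178 (2 * δ) (by positivity)
  have hne : ∀ z ∈ ball (0 : ℂ) 1, deriv k z ≠ 0 := fun z hz =>
    Crest.Agent.Lib.Complex.deriv_ne_zero_of_injOn isOpen_ball hk hinj hz
  have h0 : (0 : ℂ) ∈ ball (0 : ℂ) 1 := by simp
  set a := deriv k 0 with ha
  have ha0 : a ≠ 0 := hne 0 h0
  set f : ℂ → ℂ := fun z => (k z - k 0) / a with hf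
  have hfd : DifferentiableOn ℂ f (ball 0 1) := (hk.sub_const _).div_const _
  have hfi : InjOn f (ball 0 1) := by
    intro x hx y hy hxy
    apply hinj hx hy
    have : (k x - k 0) / a = (k y - k 0) / a := hxy
    field_simp at this
    linear_combination this
  have hder : ∀ z, deriv f z = deriv k z / a := by
    intro z
    simp only [hf, deriv_div_const, deriv_sub_const]
  have hC' := hC f hfd hfi (by simp [hf]) (by rw [hder, ← ha, div_self ha0])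
  set g : ℂ → ℂ := fun z => ((deriv f z)⁻¹) ^ 2 with hg
  have hgd : DifferentiableOn ℂ g (ball 0 1) := by
    refine DifferentiableOn.pow (DifferentiableOn.inv (hfd.deriv isOpen_ball) ?_) 2
    intro z hz
    rw [hder]
    exact div_ne_zero (hne z hz) ha0
  refine ⟨‖a‖⁻¹ * Real.sqrt (|C| * 2 ^ (2 + 2 * δ)), fun z hz => ?_⟩
  have hz1 : ‖z‖ < 1 := by simpa using hz
  have hz0 := norm_nonneg z
  set R : ℝ := (1 + ‖z‖) / 2 with hR
  have hR1 : R < 1 := by rw [hR]; linarith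
  have hR2 : 1 / 2 ≤ R := by rw [hR]; linarith
  have hzR : ‖z‖ < R := by rw [hR]; linarith
  have hsub : closedBall (0 : ℂ) R ⊆ ball 0 1 := closedBall_subset_ball hR1
  have h1 := g88_cauchy g R (hgd.mono hsub) z hzR
  have h2 : ∫⁻ θ in Set.Ioc (-Real.pi) Real.pi,
      ‖g ((R : ℂ) * Complex.exp ((θ : ℂ) * Complex.I))‖ₑ = ∫⁻ θ in Set.Ioc (-Real.pi) Real.pi,
        (‖deriv f ((R : ℂ) * Complex.exp ((θ : ℂ) * Complex.I))‖ₑ)⁻¹ ^ 2 := by
    refine lintegral_congr fun θ => ?_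
    have hm : (R : ℂ) * Complex.exp ((θ : ℂ) * Complex.I) ∈ ball (0 : ℂ) 1 := by
      simp [abs_of_pos (show 0 < R by linarith), hR1]
    have hne' : deriv f ((R : ℂ) * Complex.exp ((θ : ℂ) * Complex.I)) ≠ 0 := by
      rw [hder]; exact div_ne_zero (hne _ hm) ha0
    simp only [hg]
    rw [enorm_pow, enorm_inv hne']
  rw [h2] at h1
  have h3 := h1.trans (mul_le_mul_right (hC' R hR2 hR1) _)
  set d : ℝ := 1 - ‖z‖ with hd
  have hd0 : 0 < d := by rw [hd]; linarith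
  have e1 : R - ‖z‖ = d / 2 := by rw [hR, hd]; ring
  have e2 : 1 - R = d / 2 := by rw [hR, hd]; ring
  rw [e1, e2, ← ENNReal.ofReal_mul (by positivity)] at h3
  have hp : 0 < (d / 2) ^ (-1 - 2 * δ) := Real.rpow_pos_of_pos (by positivity) _
  have h4 : 2 * Real.pi * ‖g z‖ ≤ 1 / (d / 2) * (2 * Real.pi * |C| * (d / 2) ^ (-1 - 2 * δ)) := by
    have hb : R / (d / 2) * (2 * Real.pi * C * (d / 2) ^ (-1 - 2 * δ)) ≤
        1 / (d / 2) * (2 * Real.pi * |C| * (d / 2) ^ (-1 - 2 * δ)) := by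
      have hpi := Real.pi_pos
      calc R / (d / 2) * (2 * Real.pi * C * (d / 2) ^ (-1 - 2 * δ))
          ≤ R / (d / 2) * (2 * Real.pi * |C| * (d / 2) ^ (-1 - 2 * δ)) := by
            gcongr
            exact le_abs_self C
        _ ≤ _ := by gcongr
    exact (ENNReal.ofReal_le_ofReal_iff (by positivity)).1
      (h3.trans (ENNReal.ofReal_le_ofReal hb))
  have h5 : ‖g z‖ ≤ |C| * (d / 2) ^ (-2 - 2 * δ) := by
    have e3 : (d / 2) ^ (-2 - 2 * δ) = 1 / (d / 2) * (d / 2) ^ (-1 - 2 * δ) := by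
      rw [show -2 - 2 * δ = -1 + (-1 - 2 * δ) by ring, Real.rpow_add (by positivity),
        Real.rpow_neg_one, one_div]
    rw [e3]
    have hpi := Real.pi_pos
    nlinarith
  have h6 : (d ^ ((1 : ℝ) + δ) * ‖deriv f z‖⁻¹) ^ 2 ≤ |C| * 2 ^ (2 + 2 * δ) := by
    have e4 : ‖g z‖ = (‖deriv f z‖⁻¹) ^ 2 := by simp [hg]
    have e5 : (d ^ ((1 : ℝ) + δ)) ^ 2 = d ^ (2 + 2 * δ) := by
      rw [← Real.rpow_natCast, ← Real.rpow_mul hd0.le]
      congr 1
      push_cast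
      ring
    have e6 : d ^ (2 + 2 * δ) * (d / 2) ^ (-2 - 2 * δ) = 2 ^ (2 + 2 * δ) := by
      rw [show -2 - 2 * δ = -(2 + 2 * δ) by ring, Real.rpow_neg (by positivity),
        Real.div_rpow hd0.le (by norm_num)]
      have : 0 < d ^ (2 + 2 * δ) := Real.rpow_pos_of_pos hd0 _
      field_simp
    rw [mul_pow, e5, ← e4, ← e6]
    have : 0 < d ^ (2 + 2 * δ) := Real.rpow_pos_of_pos hd0 _
    nlinarith
  have h7 : d ^ ((1 : ℝ) + δ) * ‖deriv f z‖⁻¹ ≤ Real.sqrt (|C| * 2 ^ (2 + 2 * δ)) :=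
    Real.le_sqrt_of_sq_le h6
  have e7 : ‖deriv k z‖⁻¹ = ‖a‖⁻¹ * ‖deriv f z‖⁻¹ := by
    rw [hder, norm_div]
    have : ‖a‖ ≠ 0 := norm_ne_zero_iff.2 ha0
    have : ‖deriv k z‖ ≠ 0 := norm_ne_zero_iff.2 (hne z hz)
    field_simp
  rw [e7, mul_left_comm]
  exact mul_le_mul_of_nonneg_left h7 (by positivity)

/-- A univalent map of the disc omits a value. -/
theorem g88_omit (f : ℂ → ℂ) (hf : DifferentiableOn ℂ f (ball 0 1)) (hinj : InjOn f (ball 0 1)) :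
    ∃ w : ℂ, ∀ z ∈ ball (0 : ℂ) 1, f z ≠ w := by
  by_contra hcon
  push Not at hcon
  have him : f '' ball 0 1 = univ := eq_univ_of_forall fun w => by
    obtain ⟨z, hz, h⟩ := hcon w
    exact ⟨z, hz, h⟩
  have hd := Crest.Agent.Lib.Complex.differentiableOn_invFunOn isOpen_ball hf hinj
  rw [him, differentiableOn_univ] at hd
  have hb : Bornology.IsBounded (range (Function.invFunOn f (ball 0 1))) := by
    refine (isBounded_ball (x := (0 : ℂ)) (r := 1)).subset ?_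
    rintro _ ⟨w, rfl⟩
    exact Function.invFunOn_mem (hcon w)
  have h0 : (0 : ℂ) ∈ ball (0 : ℂ) 1 := by simp
  have h1 : (1 / 2 : ℂ) ∈ ball (0 : ℂ) 1 := by
    simp only [mem_ball, dist_zero_right, norm_div, norm_one, Complex.norm_ofNat]; norm_num
  have := hd.apply_eq_apply_of_bounded hb (f 0) (f (1 / 2))
  rw [hinj.leftInvOn_invFunOn h0, hinj.leftInvOn_invFunOn h1] at this
  norm_num at this

/-- Near-sharp growth: `(1-|z|)^(2+δ) |f z|` is bounded. -/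
theorem growth_eps
    (h178 : ∀ ε : ℝ, 0 < ε → ∃ C : ℝ, ∀ f : ℂ → ℂ,
      DifferentiableOn ℂ f (Metric.ball 0 1) → Set.InjOn f (Metric.ball 0 1) → f 0 = 0 →
      deriv f 0 = 1 → ∀ r : ℝ, 1 / 2 ≤ r → r < 1 →
        ∫⁻ θ in Set.Ioc (-Real.pi) Real.pi,
            (‖deriv f ((r : ℂ) * Complex.exp ((θ : ℂ) * Complex.I))‖ₑ)⁻¹ ^ 2 ≤
          ENNReal.ofReal (2 * Real.pi * C * (1 - r) ^ (-1 - ε)))
    (hK : ∃ K : ℝ, 0 < K ∧ ∀ f : ℂ → ℂ, DifferentiableOn ℂ f (ball 0 1) → InjOn f (ball 0 1) →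
      ∀ z ∈ ball (0 : ℂ) 1, (1 - ‖z‖ ^ 2) * ‖deriv (deriv f) z‖ ≤ K * ‖deriv f z‖)
    (f : ℂ → ℂ) (hf : DifferentiableOn ℂ f (ball 0 1)) (hinj : InjOn f (ball 0 1))
    (δ : ℝ) (hδ : 0 < δ) :
    ∃ C : ℝ, ∀ z ∈ ball (0 : ℂ) 1, (1 - ‖z‖) ^ ((2 : ℝ) + δ) * ‖f z‖ ≤ C := by
  obtain ⟨K, hK0, hK⟩ := hK
  obtain ⟨w, hw⟩ := g88_omit f hf hinj
  have hw' : ∀ z ∈ ball (0 : ℂ) 1, f z - w ≠ 0 := fun z hz => sub_ne_zero.2 (hw z hz)
  set k : ℂ → ℂ := fun z => (f z - w)⁻¹ with hk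
  have hkd : DifferentiableOn ℂ k (ball 0 1) := (hf.sub_const w).inv hw'
  have hki : InjOn k (ball 0 1) := by
    intro x hx y hy hxy
    apply hinj hx hy
    have : (f x - w)⁻¹ = (f y - w)⁻¹ := hxy
    have := inv_injective this
    linear_combination this
  obtain ⟨C, hC⟩ := g88_lower h178 k hkd hki δ hδ
  have hf1 : ∀ z ∈ ball (0 : ℂ) 1, HasDerivAt f (deriv f z) z := fun z hz =>
    (hf.differentiableAt (isOpen_ball.mem_nhds hz)).hasDerivAt
  have hf2 : ∀ z ∈ ball (0 : ℂ) 1, HasDerivAt (deriv f) (deriv (deriv f) z) z := fun z hz =>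
    ((hf.deriv isOpen_ball).differentiableAt (isOpen_ball.mem_nhds hz)).hasDerivAt
  have hk1 : ∀ z ∈ ball (0 : ℂ) 1, deriv k z = -deriv f z / (f z - w) ^ 2 := fun z hz =>
    (((hf1 z hz).sub_const w).inv (hw' z hz)).deriv
  have hk2 : ∀ z ∈ ball (0 : ℂ) 1, deriv (deriv k) z =
      -deriv (deriv f) z / (f z - w) ^ 2 + 2 * deriv f z ^ 2 / (f z - w) ^ 3 := by
    intro z hz
    have he : deriv k =ᶠ[𝓝 z] fun z => -deriv f z / (f z - w) ^ 2 := by
      filter_upwards [isOpen_ball.mem_nhds hz] with y hy using hk1 y hy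
    rw [he.deriv_eq]
    have := ((hf2 z hz).neg.div (((hf1 z hz).sub_const w).pow 2) (pow_ne_zero 2 (hw' z hz))).deriv
    refine Eq.trans this ?_
    have := hw' z hz
    simp only [Pi.pow_apply, Pi.neg_apply]
    field_simp
    ring
  refine ⟨K * C + ‖w‖, fun z hz => ?_⟩
  have hz1 : ‖z‖ < 1 := by simpa using hz
  have hz0 := norm_nonneg z
  have hne : deriv f z ≠ 0 :=
    Crest.Agent.Lib.Complex.deriv_ne_zero_of_injOn isOpen_ball hf hinj hz
  set A := ‖f z - w‖ with hA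
  set B := ‖deriv f z‖ with hB
  have hA0 : 0 < A := norm_pos_iff.2 (hw' z hz)
  have hB0 : 0 < B := norm_pos_iff.2 hne
  set D := 1 - ‖z‖ ^ 2 with hD
  have hD0 : 0 < D := by rw [hD]; nlinarith
  have n1 : ‖deriv k z‖ = B / A ^ 2 := by
    rw [hk1 z hz, norm_div, norm_neg, norm_pow]
  have n2 : 2 * B ^ 2 / A ^ 3 ≤ ‖deriv (deriv k) z‖ + ‖deriv (deriv f) z‖ / A ^ 2 := by
    have e : 2 * deriv f z ^ 2 / (f z - w) ^ 3 =
        deriv (deriv k) z + deriv (deriv f) z / (f z - w) ^ 2 := by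
      rw [hk2 z hz]; ring
    have := norm_add_le (deriv (deriv k) z) (deriv (deriv f) z / (f z - w) ^ 2)
    rw [← e] at this
    simpa [norm_div, norm_pow, hA, hB] using this
  have n3 := hK k hkd hki z hz
  have n4 := hK f hf hinj z hz
  rw [n1] at n3
  have n5 : D * (2 * B ^ 2 / A ^ 3) ≤ 2 * K * (B / A ^ 2) := by
    have h1 : D * (‖deriv (deriv f) z‖ / A ^ 2) ≤ K * (B / A ^ 2) := by
      rw [← mul_div_assoc, ← mul_div_assoc]
      exact div_le_div_of_nonneg_right n4 (by positivity)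
    have h2 := mul_le_mul_of_nonneg_left n2 hD0.le
    rw [mul_add] at h2
    linarith
  have n6 : D * B ≤ K * A := by
    have h1 : D * (2 * B ^ 2 / A ^ 3) = (2 * B / A ^ 3) * (D * B) := by ring
    have h2 : 2 * K * (B / A ^ 2) = (2 * B / A ^ 3) * (K * A) := by field_simp
    rw [h1, h2] at n5
    exact le_of_mul_le_mul_left n5 (by positivity)
  have n7 := hC z hz
  rw [n1] at n7
  set d := 1 - ‖z‖ with hd
  have hd0 : 0 < d := by rw [hd]; linarith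
  have hd1 : d ≤ 1 := by rw [hd]; linarith
  have hdD : d ≤ D := by rw [hd, hD]; nlinarith
  have e1 : d ^ ((2 : ℝ) + δ) = d ^ ((1 : ℝ) + δ) * d := by
    rw [show (2 : ℝ) + δ = (1 + δ) + 1 by ring, Real.rpow_add hd0, Real.rpow_one]
  have hp : 0 < d ^ ((1 : ℝ) + δ) := Real.rpow_pos_of_pos hd0 _
  have n8 : d * A ≤ K * (B / A ^ 2)⁻¹ := by
    rw [inv_div, ← mul_div_assoc, le_div_iff₀ hB0]
    have : d * B ≤ K * A := le_trans (mul_le_mul_of_nonneg_right hdD hB0.le) n6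
    nlinarith
  have n9 : d ^ ((2 : ℝ) + δ) * A ≤ K * C := by
    rw [e1, mul_assoc]
    calc d ^ ((1 : ℝ) + δ) * (d * A) ≤ d ^ ((1 : ℝ) + δ) * (K * (B / A ^ 2)⁻¹) :=
          mul_le_mul_of_nonneg_left n8 hp.le
      _ = K * (d ^ ((1 : ℝ) + δ) * (B / A ^ 2)⁻¹) := by ring
      _ ≤ K * C := mul_le_mul_of_nonneg_left n7 hK0.le
  have n10 : d ^ ((2 : ℝ) + δ) ≤ 1 := Real.rpow_le_one hd0.le hd1 (by positivity)
  have n11 : ‖f z‖ ≤ A + ‖w‖ := by
    have := norm_add_le (f z - w) w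
    simpa [hA] using this
  have hp2 : 0 < d ^ ((2 : ℝ) + δ) := Real.rpow_pos_of_pos hd0 _
  calc d ^ ((2 : ℝ) + δ) * ‖f z‖ ≤ d ^ ((2 : ℝ) + δ) * (A + ‖w‖) :=
        mul_le_mul_of_nonneg_left n11 hp2.le
    _ = d ^ ((2 : ℝ) + δ) * A + d ^ ((2 : ℝ) + δ) * ‖w‖ := by ring
    _ ≤ K * C + ‖w‖ := by
        have : d ^ ((2 : ℝ) + δ) * ‖w‖ ≤ 1 * ‖w‖ :=
          mul_le_mul_of_nonneg_right n10 (norm_nonneg _)
        linarith

end Crest.Agent.R131
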