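import Mathlib
import Crest.Agent.R131.Univ
import Crest.Agent.R131.Dist13

/-!
Sharp growth `(1-|z|)^2 |f z| ≤ C` of a univalent function, through the Bieberbach–Eilenberg
bound `|h'(0)| ≤ 1` (logarithmic area) and the Koebe bound `(1-|z|^2)|f'| ≤ 4|f|` for a
zero-free univalent `f` (helper53).
-/

set_option autoImplicit false

open Metric Set Filter Topology MeasureTheory
open scoped ENNReal Real

namespace Crest.Agent.R131.G53

def Ann (a b : ℝ) : Set ℂ := {z | a < ‖z‖ ∧ ‖z‖ < b}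

lemma measurableSet_Ann (a b : ℝ) : MeasurableSet (Ann a b) :=
  (measurableSet_lt measurable_const measurable_norm).inter
    (measurableSet_lt measurable_norm measurable_const)

lemma polar (F : ℂ → ℝ≥0∞) (hF : Measurable F) (a b : ℝ) (ha : 0 ≤ a) :
    ∫⁻ z in Ann a b, F z =
      ∫⁻ r in Ioo a b, ∫⁻ θ in Ioo (-π) π, ENNReal.ofReal r * F (circleMap 0 r θ) := by
  have hm : Measurable fun p : ℝ × ℝ => ENNReal.ofReal p.1 * F (circleMap 0 p.1 p.2) := by
    refine (ENNReal.measurable_ofReal.comp measurable_fst).mul (hF.comp ?_)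
    unfold circleMap
    fun_prop
  rw [← lintegral_indicator (measurableSet_Ann a b), ← Complex.lintegral_comp_polarCoord_symm,
    ← setLIntegral_prod _ hm.aemeasurable, ← Measure.volume_eq_prod, polarCoord_target,
    ← lintegral_indicator (measurableSet_Ioi.prod measurableSet_Ioo),
    ← lintegral_indicator (measurableSet_Ioo.prod measurableSet_Ioo)]
  refine lintegral_congr fun p => ?_
  have he : Complex.polarCoord.symm p = circleMap 0 p.1 p.2 := by
    rw [Complex.polarCoord_symm_apply, circleMap, zero_add, Complex.exp_mul_I]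
    simp
  by_cases h1 : p ∈ Ioo a b ×ˢ Ioo (-π) π
  · have h0 : 0 < p.1 := ha.trans_lt h1.1.1
    have h2 : p ∈ Ioi (0 : ℝ) ×ˢ Ioo (-π) π := ⟨h0, h1.2⟩
    have h3 : circleMap 0 p.1 p.2 ∈ Ann a b := by
      simp only [Ann, mem_ofPred_eq, norm_circleMap_zero, abs_of_pos h0]
      exact h1.1
    rw [indicator_of_mem h1, indicator_of_mem h2, he, indicator_of_mem h3, smul_eq_mul]
  · rw [indicator_of_notMem h1]
    by_cases h2 : p ∈ Ioi (0 : ℝ) ×ˢ Ioo (-π) π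
    · have h3 : circleMap 0 p.1 p.2 ∉ Ann a b := by
        simp only [Ann, mem_ofPred_eq, norm_circleMap_zero, abs_of_pos (show 0 < p.1 from h2.1)]
        exact fun h => h1 ⟨h, h2.2⟩
      rw [indicator_of_mem h2, he, indicator_of_notMem h3, smul_zero]
    · rw [indicator_of_notMem h2]

lemma circ {ψ : ℂ → ℂ} (hψ : DifferentiableOn ℂ ψ (ball 0 1)) (h0 : ψ 0 = 1) {r : ℝ}
    (hr0 : 0 < r) (hr : r < 1) :
    ENNReal.ofReal (2 * π) ≤ ∫⁻ θ in Ioo (-π) π, ENNReal.ofReal (‖ψ (circleMap 0 r θ)‖ ^ 2) := by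
  have hmem : ∀ θ, circleMap 0 r θ ∈ ball (0 : ℂ) 1 := fun θ => by
    simp [norm_circleMap_zero, abs_of_pos hr0, hr]
  have hc : Continuous fun θ => ψ (circleMap 0 r θ) :=
    hψ.continuousOn.comp_continuous (continuous_circleMap 0 r) hmem
  have hd : DiffContOnCl ℂ ψ (ball 0 |r|) := by
    rw [abs_of_pos hr0]
    refine DifferentiableOn.diffContOnCl (hψ.mono ?_)
    rw [closure_ball _ hr0.ne']
    exact closedBall_subset_ball hr
  have h1 := hd.circleAverage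
  rw [Real.circleAverage_eq_integral_add (-π), h0,
    intervalIntegral.integral_comp_add_right (fun θ => ψ (circleMap 0 r θ))] at h1
  have h2 : ∫ θ in (-π)..π, ψ (circleMap 0 r θ) = ((2 * π : ℝ) : ℂ) := by
    have e1 : (0 : ℝ) + -π = -π := by ring
    have e2 : 2 * π + -π = π := by ring
    rw [e1, e2] at h1
    have hp : (2 * π : ℝ) ≠ 0 := by positivity
    have := congrArg (fun w : ℂ => (2 * π : ℝ) • w) h1
    simp only [smul_smul, mul_inv_cancel₀ hp, one_smul] at this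
    rw [this]
    simp
  have h3 : ∫ θ in (-π)..π, (ψ (circleMap 0 r θ)).re = 2 * π := by
    have := (Complex.reCLM.intervalIntegral_comp_comm (hc.intervalIntegrable (μ := volume) (-π) π))
    simp only [Complex.reCLM_apply] at this
    rw [this, h2, Complex.ofReal_re]
  have hle : -π ≤ π := by linarith [Real.pi_pos]
  have hc2 : Continuous fun θ => ‖ψ (circleMap 0 r θ)‖ ^ 2 := hc.norm.pow 2
  have hc3 : Continuous fun θ => (ψ (circleMap 0 r θ)).re := Complex.continuous_re.comp hc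
  have h4 : 2 * π ≤ ∫ θ in (-π)..π, ‖ψ (circleMap 0 r θ)‖ ^ 2 := by
    have h5 : ∫ θ in (-π)..π, (2 * (ψ (circleMap 0 r θ)).re - 1) = 2 * π := by
      rw [intervalIntegral.integral_sub ((hc3.const_mul 2).intervalIntegrable _ _)
        (continuous_const.intervalIntegrable _ _), intervalIntegral.integral_const_mul, h3]
      simp
      ring
    rw [← h5]
    refine intervalIntegral.integral_mono_on hle
      (((hc3.const_mul 2).sub continuous_const).intervalIntegrable _ _)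
      (hc2.intervalIntegrable _ _) fun θ _ => ?_
    rw [Complex.sq_norm, Complex.normSq_apply]
    nlinarith [sq_nonneg ((ψ (circleMap 0 r θ)).re - 1), sq_nonneg (ψ (circleMap 0 r θ)).im]
  rw [intervalIntegral.integral_of_le hle, integral_Ioc_eq_integral_Ioo] at h4
  rw [← ofReal_integral_eq_lintegral_ofReal
    ((hc2.integrableOn_Icc (a := -π) (b := π)).mono_set Ioo_subset_Icc_self)
    (Eventually.of_forall fun _ => by positivity)]
  exact ENNReal.ofReal_le_ofReal h4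

lemma radial {a b : ℝ} (ha : 0 < a) (hab : a ≤ b) :
    ∫⁻ r in Ioo a b, ENNReal.ofReal (2 * π * r⁻¹) = ENNReal.ofReal (2 * π * Real.log (b / a)) := by
  have hc : ContinuousOn (fun r : ℝ => 2 * π * r⁻¹) (Icc a b) :=
    continuousOn_const.mul (continuousOn_inv₀.mono fun r hr => (ha.trans_le hr.1).ne')
  rw [← ofReal_integral_eq_lintegral_ofReal
    (hc.integrableOn_Icc.mono_set Ioo_subset_Icc_self)
    ((ae_restrict_iff' measurableSet_Ioo).2 (Eventually.of_forall fun r hr => by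
      have := ha.trans hr.1
      positivity)), ← integral_Ioc_eq_integral_Ioo, ← intervalIntegral.integral_of_le hab,
    intervalIntegral.integral_const_mul, integral_inv_of_pos ha (ha.trans_le hab)]

lemma ann_upper {a b : ℝ} (ha : 0 < a) (hab : a ≤ b) :
    ∫⁻ z in Ann a b, ENNReal.ofReal ((‖z‖ ^ 2)⁻¹) = ENNReal.ofReal (2 * π * Real.log (b / a)) := by
  rw [polar _ (by fun_prop) a b ha.le, ← radial ha hab]
  refine setLIntegral_congr_fun measurableSet_Ioo fun r hr => ?_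
  have hr0 : 0 < r := ha.trans hr.1
  simp only [norm_circleMap_zero, abs_of_pos hr0, lintegral_const, MeasurableSet.univ,
    Measure.restrict_apply, univ_inter, Real.volume_Ioo]
  rw [← ENNReal.ofReal_mul hr0.le, ← ENNReal.ofReal_mul (by positivity)]
  congr 1
  field_simp
  ring

lemma ann_lower {ψ : ℂ → ℂ} (hψ : DifferentiableOn ℂ ψ (ball 0 1)) (h0 : ψ 0 = 1) {a b : ℝ}
    (ha : 0 < a) (hab : a ≤ b) (hb : b ≤ 1) :
    ENNReal.ofReal (2 * π * Real.log (b / a)) ≤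
      ∫⁻ z in Ann a b, ENNReal.ofReal (‖ψ z‖ ^ 2 * (‖z‖ ^ 2)⁻¹) := by
  classical
  set φ : ℂ → ℂ := (ball (0 : ℂ) 1).piecewise ψ 0 with hφ
  have hφm : Measurable φ :=
    hψ.continuousOn.measurable_piecewise continuousOn_const measurableSet_ball
  have hφe : ∀ z ∈ ball (0 : ℂ) 1, φ z = ψ z := fun z hz => piecewise_eq_of_mem _ _ _ hz
  have hφd : DifferentiableOn ℂ φ (ball 0 1) := hψ.congr hφe
  have hφ0 : φ 0 = 1 := by rw [hφe 0 (mem_ball_self one_pos), h0]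
  have e1 : ∫⁻ z in Ann a b, ENNReal.ofReal (‖ψ z‖ ^ 2 * (‖z‖ ^ 2)⁻¹) =
      ∫⁻ z in Ann a b, ENNReal.ofReal (‖φ z‖ ^ 2 * (‖z‖ ^ 2)⁻¹) :=
    setLIntegral_congr_fun (measurableSet_Ann a b) fun z hz => by
      simp only [hφe z (mem_ball_zero_iff.2 (hz.2.trans_le hb))]
  rw [e1, polar _ (by fun_prop) a b ha.le, ← radial ha hab]
  refine setLIntegral_mono' measurableSet_Ioo fun r hr => ?_
  have hr0 : 0 < r := ha.trans hr.1
  have e2 : ∀ θ, ENNReal.ofReal r *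
      ENNReal.ofReal (‖φ (circleMap 0 r θ)‖ ^ 2 * (‖circleMap 0 r θ‖ ^ 2)⁻¹) =
      ENNReal.ofReal r⁻¹ * ENNReal.ofReal (‖φ (circleMap 0 r θ)‖ ^ 2) := fun θ => by
    rw [← ENNReal.ofReal_mul hr0.le, ← ENNReal.ofReal_mul (by positivity), norm_circleMap_zero,
      abs_of_pos hr0]
    congr 1
    field_simp
  simp only [e2]
  rw [lintegral_const_mul' _ _ ENNReal.ofReal_ne_top, mul_comm (2 * π),
    ENNReal.ofReal_mul (by positivity)]
  gcongr
  exact circ hφd hφ0 hr0 (hr.2.trans_le hb)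

lemma det_smul (A : ℂ) : (A • (1 : ℂ →L[ℝ] ℂ)).det = ‖A‖ ^ 2 := by
  rw [ContinuousLinearMap.det, ← LinearMap.det_toMatrix Complex.basisOneI, Matrix.det_fin_two]
  simp [LinearMap.toMatrix_apply, Complex.sq_norm, Complex.normSq_apply]

lemma area {k k1 : ℂ → ℂ} {S : Set ℂ} (hS : MeasurableSet S)
    (hk : ∀ z ∈ S, HasDerivAt k (k1 z) z) (hi : InjOn k S) :
    MeasurableSet (k '' S) ∧ ∫⁻ w in k '' S, ENNReal.ofReal ((‖w‖ ^ 2)⁻¹) =
      ∫⁻ z in S, ENNReal.ofReal (‖k1 z / k z‖ ^ 2) := by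
  have hF : ∀ z ∈ S, HasFDerivWithinAt k (k1 z • (1 : ℂ →L[ℝ] ℂ)) S z := fun z hz =>
    (hk z hz).complexToReal_fderiv.hasFDerivWithinAt
  refine ⟨measurable_image_of_fderivWithin hS hF hi, ?_⟩
  rw [lintegral_image_eq_lintegral_abs_det_fderiv_mul volume hS hF hi]
  refine lintegral_congr fun z => ?_
  rw [det_smul, ← ENNReal.ofReal_mul (abs_nonneg _), abs_of_nonneg (by positivity), norm_div,
    div_pow, div_eq_mul_inv]

/-- Bieberbach–Eilenberg bound. -/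
theorem be {h : ℂ → ℂ} (hd : DifferentiableOn ℂ h (ball 0 1)) (hi : InjOn h (ball 0 1))
    (h0 : h 0 = 0) (hne : ∀ z ∈ ball (0 : ℂ) 1, ∀ w ∈ ball (0 : ℂ) 1, h z * h w ≠ 1) :
    ‖deriv h 0‖ ≤ 1 := by
  by_contra hcon
  push Not at hcon
  have hb0 : (0 : ℂ) ∈ ball (0 : ℂ) 1 := mem_ball_self one_pos
  set k : ℂ → ℂ := dslope h 0 with hk
  have hkd : DifferentiableOn ℂ k (ball 0 1) :=
    (Complex.differentiableOn_dslope (isOpen_ball.mem_nhds hb0)).2 hd
  have hk0 : k 0 = deriv h 0 := dslope_same _ _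
  have hhk : ∀ z, h z = z * k z := fun z => by
    have := sub_smul_dslope h 0 z
    simp only [sub_zero, smul_eq_mul, h0] at this
    exact this.symm
  have hz0 : ∀ z ∈ ball (0 : ℂ) 1, z ≠ 0 → h z ≠ 0 := fun z hz hz' e =>
    hz' (hi hz hb0 (e.trans h0.symm))
  have hkne : ∀ z ∈ ball (0 : ℂ) 1, k z ≠ 0 := fun z hz e => by
    by_cases hz' : z = 0
    · rw [hz', hk0] at e
      rw [e, norm_zero] at hcon
      linarith
    · exact hz0 z hz hz' (by rw [hhk, e, mul_zero])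
  set κ : ℝ := (1 + ‖deriv h 0‖) / 2 with hκ
  have hκ1 : 1 < κ := by linarith
  have hκ2 : κ < ‖k 0‖ := by rw [hk0]; linarith
  set ρ : ℝ := (1 + κ⁻¹) / 2 with hρ
  have hκi : κ⁻¹ < 1 := inv_lt_one_of_one_lt₀ hκ1
  have hκi0 : 0 < κ⁻¹ := by positivity
  have hρ1 : ρ < 1 := by linarith
  have hρ0 : 0 < ρ := by positivity
  have hρκ : 1 < ρ * κ := by
    have : ρ * κ = (κ + 1) / 2 := by rw [hρ]; field_simp
    linarith
  have hsub : closedBall (0 : ℂ) ρ ⊆ ball 0 1 := closedBall_subset_ball hρ1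
  have hkc : ContinuousOn (fun z => ‖k z‖) (closedBall 0 ρ) := (hkd.continuousOn.mono hsub).norm
  obtain ⟨zm, hzm, hm⟩ := (isCompact_closedBall (0 : ℂ) ρ).exists_isMinOn
    ⟨0, mem_closedBall_self hρ0.le⟩ hkc
  obtain ⟨zM, hzM, hM⟩ := (isCompact_closedBall (0 : ℂ) ρ).exists_isMaxOn
    ⟨0, mem_closedBall_self hρ0.le⟩ hkc
  have hm0 : 0 < ‖k zm‖ := norm_pos_iff.2 (hkne zm (hsub hzm))
  have hM0 : 0 < ‖k zM‖ := norm_pos_iff.2 (hkne zM (hsub hzM))
  have hca : ContinuousAt (fun z => ‖k z‖) 0 :=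
    (hkd.continuousOn.continuousAt (isOpen_ball.mem_nhds hb0)).norm
  obtain ⟨δ0, hδ0, hδ0'⟩ := Metric.eventually_nhds_iff.1 (hca.eventually (lt_mem_nhds hκ2))
  obtain ⟨δ, hδ, hδ1, hδ2, hδ3, hδ4⟩ : ∃ δ : ℝ, 0 < δ ∧ δ ≤ ρ ∧ δ * κ < δ0 * ‖k zm‖ ∧
      δ * κ * ‖k zM‖ < 1 ∧ δ * κ ≤ 1 := by
    have t1 : Tendsto (fun δ : ℝ => δ) (𝓝[>] 0) (𝓝 0) := tendsto_nhdsWithin_of_tendsto_nhds tendsto_id
    have t2 : Tendsto (fun δ : ℝ => δ * κ) (𝓝[>] 0) (𝓝 0) := by simpa using t1.mul_const κ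
    have t3 : Tendsto (fun δ : ℝ => δ * κ * ‖k zM‖) (𝓝[>] 0) (𝓝 0) := by
      simpa using t2.mul_const ‖k zM‖
    have e0 : ∀ᶠ δ : ℝ in 𝓝[>] 0, 0 < δ := self_mem_nhdsWithin
    obtain ⟨δ, a0, a1, a2, a3, a4⟩ := (e0.and ((t1.eventually (gt_mem_nhds hρ0)).and
      ((t2.eventually (gt_mem_nhds (mul_pos hδ0 hm0))).and
      ((t3.eventually (gt_mem_nhds one_pos)).and (t2.eventually (gt_mem_nhds one_pos)))))).exists
    exact ⟨δ, a0, a1.le, a2, a3, a4.le⟩
  set ε : ℝ := δ * κ with hε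
  have hε0 : 0 < ε := by positivity
  have hAb : ∀ z ∈ Ann δ ρ, z ∈ ball (0 : ℂ) 1 := fun z hz => mem_ball_zero_iff.2 (hz.2.trans hρ1)
  have hA0 : ∀ z ∈ Ann δ ρ, z ≠ 0 := fun z hz => norm_pos_iff.1 (hδ.trans hz.1)
  have hAc : ∀ z ∈ Ann δ ρ, z ∈ closedBall (0 : ℂ) ρ := fun z hz =>
    mem_closedBall_zero_iff.2 hz.2.le
  have hlo : ∀ z ∈ Ann δ ρ, ε < ‖h z‖ := fun z hz => by
    rw [hhk, norm_mul]
    by_cases hz' : ‖z‖ < δ0
    · have := hδ0' (y := z) (by simpa using hz')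
      exact mul_lt_mul'' hz.1 this hδ.le (by positivity)
    · push Not at hz'
      exact hδ2.trans_le (mul_le_mul hz' (hm (hAc z hz)) hm0.le (norm_nonneg _))
  have hhi : ∀ z ∈ Ann δ ρ, ‖h z‖ < ε⁻¹ := fun z hz => by
    rw [hhk, norm_mul]
    have a1 : ‖k z‖ ≤ ‖k zM‖ := hM (hAc z hz)
    have a2 : ‖z‖ * ‖k z‖ ≤ 1 * ‖k zM‖ :=
      mul_le_mul (hz.2.trans hρ1).le a1 (norm_nonneg _) zero_le_one
    refine a2.trans_lt ?_
    rw [one_mul, ← one_div, lt_div_iff₀ hε0, mul_comm]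
    exact hδ3
  have hD : ∀ z ∈ Ann δ ρ, HasDerivAt h (deriv h z) z := fun z hz =>
    (hd.differentiableAt (isOpen_ball.mem_nhds (hAb z hz))).hasDerivAt
  have hhne : ∀ z ∈ Ann δ ρ, h z ≠ 0 := fun z hz => hz0 z (hAb z hz) (hA0 z hz)
  have hiA : InjOn h (Ann δ ρ) := hi.mono hAb
  obtain ⟨m1, a1⟩ := area (measurableSet_Ann δ ρ) hD hiA
  obtain ⟨m2, a2⟩ := area (k := fun z => (h z)⁻¹) (k1 := fun z => -deriv h z / h z ^ 2)
    (measurableSet_Ann δ ρ) (fun z hz => (hD z hz).inv (hhne z hz))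
    (fun z hz w hw e => hiA hz hw (inv_injective e))
  have hψ : DifferentiableOn ℂ (fun z => deriv h z / k z) (ball 0 1) :=
    (hd.deriv isOpen_ball).div hkd hkne
  have hl := ann_lower hψ (by
    show deriv h 0 / k 0 = 1
    rw [← hk0, div_self (hkne 0 hb0)]) hδ hδ1 hρ1.le
  have b1 : ∫⁻ z in Ann δ ρ, ENNReal.ofReal (‖deriv h z / k z‖ ^ 2 * (‖z‖ ^ 2)⁻¹) =
      ∫⁻ z in Ann δ ρ, ENNReal.ofReal (‖deriv h z / h z‖ ^ 2) :=
    setLIntegral_congr_fun (measurableSet_Ann _ _) fun z _ => by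
      simp only [hhk z, norm_div, norm_mul]
      congr 1
      ring
  have b2 : ∫⁻ z in Ann δ ρ, ENNReal.ofReal (‖-deriv h z / h z ^ 2 / (h z)⁻¹‖ ^ 2) =
      ∫⁻ z in Ann δ ρ, ENNReal.ofReal (‖deriv h z / h z‖ ^ 2) :=
    setLIntegral_congr_fun (measurableSet_Ann _ _) fun z hz => by
      have := hhne z hz
      have e : -deriv h z / h z ^ 2 / (h z)⁻¹ = -(deriv h z / h z) := by field_simp
      simp only [e, norm_neg]
  rw [b1] at hl
  rw [b2] at a2
  have hdisj : Disjoint (h '' Ann δ ρ) ((fun z => (h z)⁻¹) '' Ann δ ρ) := by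
    rw [Set.disjoint_left]
    rintro _ ⟨z, hz, rfl⟩ ⟨w, hw, e⟩
    apply hne z (hAb z hz) w (hAb w hw)
    rw [← e]
    exact inv_mul_cancel₀ (hhne w hw)
  have hU : h '' Ann δ ρ ∪ (fun z => (h z)⁻¹) '' Ann δ ρ ⊆ Ann ε ε⁻¹ := by
    rintro _ (⟨z, hz, rfl⟩ | ⟨z, hz, rfl⟩)
    · exact ⟨hlo z hz, hhi z hz⟩
    · have p := norm_pos_iff.2 (hhne z hz)
      refine ⟨?_, ?_⟩
      · show ε < ‖(h z)⁻¹‖
        rw [norm_inv]
        exact (lt_inv_comm₀ hε0 p).2 (hhi z hz)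
      · show ‖(h z)⁻¹‖ < ε⁻¹
        rw [norm_inv]
        exact (inv_lt_inv₀ p hε0).2 (hlo z hz)
  have hεε : ε ≤ ε⁻¹ := hδ4.trans (one_le_inv_iff₀.2 ⟨hε0, hδ4⟩)
  have hfin := lintegral_mono_set (μ := volume)
    (f := fun w : ℂ => ENNReal.ofReal ((‖w‖ ^ 2)⁻¹)) hU
  rw [lintegral_union m2 hdisj, a1, a2, ann_upper hε0 hεε] at hfin
  have hlog0 : 0 ≤ Real.log (ρ / δ) := Real.log_nonneg ((one_le_div hδ).2 hδ1)
  have hlog1 : 0 ≤ Real.log (ε⁻¹ / ε) := Real.log_nonneg ((one_le_div hε0).2 hεε)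
  have h5 := (add_le_add hl hl).trans hfin
  rw [← ENNReal.ofReal_add (by positivity) (by positivity),
    ENNReal.ofReal_le_ofReal_iff (by positivity)] at h5
  have h6 : Real.log (ε⁻¹ / ε) = 2 * Real.log ε⁻¹ := by
    rw [div_eq_mul_inv, Real.log_mul (by positivity) (by positivity)]
    ring
  have h7 : Real.log (ρ / δ) ≤ Real.log ε⁻¹ := by
    rw [h6] at h5
    nlinarith [Real.pi_pos]
  have h8 : ρ / δ ≤ ε⁻¹ := (Real.log_le_log_iff (by positivity) (by positivity)).1 h7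
  rw [div_le_iff₀ hδ, hε] at h8
  have h9 : (δ * κ)⁻¹ * δ = κ⁻¹ := by field_simp
  rw [h9] at h8
  linarith

/-- Koebe bound at the origin for a zero-free univalent function. -/
theorem koebe0 {f : ℂ → ℂ} (hf : DifferentiableOn ℂ f (ball 0 1)) (hi : InjOn f (ball 0 1))
    (hne : ∀ z ∈ ball (0 : ℂ) 1, f z ≠ 0) : ‖deriv f 0‖ ≤ 4 * ‖f 0‖ := by
  have hb0 : (0 : ℂ) ∈ ball (0 : ℂ) 1 := mem_ball_self one_pos
  obtain ⟨L, hLd, hLe, hL⟩ := univ_exists_log hf hne
  set g : ℂ → ℂ := fun z => Complex.exp ((L z - L 0) / 2) with hg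
  have hgd : DifferentiableOn ℂ g (ball 0 1) := ((hLd.sub_const _).div_const _).cexp
  have hg0 : g 0 = 1 := by simp [hg]
  have hgne : ∀ z, g z ≠ 0 := fun z => Complex.exp_ne_zero _
  have hsq : ∀ z ∈ ball (0 : ℂ) 1, g z ^ 2 * f 0 = f z := fun z hz => by
    rw [← hLe 0 hb0, ← hLe z hz, hg, sq, ← Complex.exp_add, ← Complex.exp_add]
    congr 1
    ring
  have hinj : ∀ z ∈ ball (0 : ℂ) 1, ∀ w ∈ ball (0 : ℂ) 1, g z ^ 2 = g w ^ 2 → z = w :=
    fun z hz w hw e => hi hz hw (by rw [← hsq z hz, ← hsq w hw, e])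
  have hadd : ∀ z ∈ ball (0 : ℂ) 1, ∀ w ∈ ball (0 : ℂ) 1, g z + g w ≠ 0 := fun z hz w hw e => by
    have e1 : g z = -g w := eq_neg_of_add_eq_zero_left e
    have e2 : z = w := hinj z hz w hw (by rw [e1, neg_sq])
    rw [e2] at e
    exact hgne w (by linear_combination e / 2)
  have h1 : ∀ z ∈ ball (0 : ℂ) 1, g z + 1 ≠ 0 := fun z hz => by
    have := hadd z hz 0 hb0
    rwa [hg0] at this
  have hb := be (h := fun z => (g z - 1) / (g z + 1)) ((hgd.sub_const 1).div (hgd.add_const 1) h1)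
    (fun z hz w hw e => by
      have p := h1 z hz
      have q := h1 w hw
      simp only at e
      rw [div_eq_div_iff p q] at e
      have e1 : g z = g w := by linear_combination e / 2
      exact hinj z hz w hw (by rw [e1]))
    (by simp [hg0])
    (fun z hz w hw e => by
      have p := h1 z hz
      have q := h1 w hw
      rw [div_mul_div_comm, div_eq_one_iff_eq (mul_ne_zero p q)] at e
      exact hadd z hz w hw (by linear_combination -e / 2))
  have hg1 : HasDerivAt g (g 0 * (deriv f 0 / f 0 / 2)) 0 :=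
    (((hL 0 hb0).sub_const (L 0)).div_const 2).cexp
  have hh : HasDerivAt (fun z => (g z - 1) / (g z + 1)) (deriv f 0 / (4 * f 0)) 0 := by
    refine ((hg1.sub_const 1).div (hg1.add_const 1) (h1 0 hb0)).congr_deriv ?_
    have := hne 0 hb0
    rw [hg0]
    field_simp
    ring
  rw [hh.deriv, norm_div, div_le_one (norm_pos_iff.2 (mul_ne_zero (by norm_num) (hne 0 hb0))),
    norm_mul] at hb
  simpa using hb

/-- Koebe bound for a zero-free univalent function. -/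
theorem koebe4 {f : ℂ → ℂ} (hf : DifferentiableOn ℂ f (ball 0 1)) (hi : InjOn f (ball 0 1))
    (hne : ∀ z ∈ ball (0 : ℂ) 1, f z ≠ 0) {a : ℂ} (ha : a ∈ ball (0 : ℂ) 1) :
    (1 - ‖a‖ ^ 2) * ‖deriv f a‖ ≤ 4 * ‖f a‖ := by
  have ha1 : ‖a‖ < 1 := mem_ball_zero_iff.1 ha
  have ha2 : ‖a‖ ^ 2 < 1 := by nlinarith [norm_nonneg a]
  have hlt : ∀ z ∈ ball (0 : ℂ) 1, ‖z + a‖ < ‖1 + (starRingEnd ℂ) a * z‖ := fun z hz => by
    have hz1 : ‖z‖ < 1 := mem_ball_zero_iff.1 hz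
    have hz2 : ‖z‖ ^ 2 < 1 := by nlinarith [norm_nonneg z]
    refine lt_of_pow_lt_pow_left₀ 2 (norm_nonneg _) ?_
    have e : ‖1 + (starRingEnd ℂ) a * z‖ ^ 2 - ‖z + a‖ ^ 2 = (1 - ‖a‖ ^ 2) * (1 - ‖z‖ ^ 2) := by
      simp only [Complex.sq_norm, Complex.normSq_apply, Complex.add_re, Complex.add_im,
        Complex.mul_re, Complex.mul_im, Complex.one_re, Complex.one_im, Complex.conj_re,
        Complex.conj_im]
      ring
    nlinarith [mul_pos (sub_pos.2 ha2) (sub_pos.2 hz2)]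
  have hden : ∀ z ∈ ball (0 : ℂ) 1, 1 + (starRingEnd ℂ) a * z ≠ 0 := fun z hz =>
    norm_pos_iff.1 ((norm_nonneg _).trans_lt (hlt z hz))
  set φ : ℂ → ℂ := fun z => (z + a) / (1 + (starRingEnd ℂ) a * z) with hφ
  have hφm : MapsTo φ (ball 0 1) (ball 0 1) := fun z hz => by
    rw [mem_ball_zero_iff, hφ]
    simp only [norm_div]
    exact (div_lt_one ((norm_nonneg _).trans_lt (hlt z hz))).2 (hlt z hz)
  have hφd : DifferentiableOn ℂ φ (ball 0 1) :=
    (differentiableOn_id.add_const a).div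
      ((differentiableOn_const 1).add (differentiableOn_id.const_mul _)) hden
  have hca : a * (starRingEnd ℂ) a = ((‖a‖ ^ 2 : ℝ) : ℂ) := by
    rw [Complex.mul_conj, Complex.normSq_eq_norm_sq]
  have hne1 : (1 : ℂ) - a * (starRingEnd ℂ) a ≠ 0 := by
    rw [hca]
    exact_mod_cast (sub_pos.2 ha2).ne'
  have hφi : InjOn φ (ball 0 1) := fun z hz w hw e => by
    simp only [hφ] at e
    rw [div_eq_div_iff (hden z hz) (hden w hw)] at e
    have e1 : (1 - a * (starRingEnd ℂ) a) * (z - w) = 0 := by linear_combination e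
    exact sub_eq_zero.1 ((mul_eq_zero.1 e1).resolve_left hne1)
  have hφ0 : φ 0 = a := by simp [hφ]
  have hφ1 : HasDerivAt φ (1 - a * (starRingEnd ℂ) a) 0 := by
    refine (((hasDerivAt_id (0 : ℂ)).add_const a).div
      (((hasDerivAt_id (0 : ℂ)).const_mul ((starRingEnd ℂ) a)).const_add 1)
      (hden 0 (mem_ball_self one_pos))).congr_deriv ?_
    simp
  have hk := koebe0 (f := f ∘ φ) (hf.comp hφd hφm) (hi.comp hφi hφm)
    (fun z hz => hne _ (hφm hz))
  have hfa : HasDerivAt f (deriv f a) (φ 0) := by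
    rw [hφ0]
    exact (hf.differentiableAt (isOpen_ball.mem_nhds ha)).hasDerivAt
  rw [(hfa.comp 0 hφ1).deriv, Function.comp_apply, hφ0, norm_mul, hca] at hk
  have e : ‖(1 : ℂ) - ((‖a‖ ^ 2 : ℝ) : ℂ)‖ = 1 - ‖a‖ ^ 2 := by
    rw [← Complex.ofReal_one, ← Complex.ofReal_sub, Complex.norm_real, Real.norm_eq_abs,
      abs_of_pos (sub_pos.2 ha2)]
  rw [e, mul_comm] at hk
  exact hk

/-- Sharp growth of a zero-free univalent function. -/
theorem growth0 {f : ℂ → ℂ} (hf : DifferentiableOn ℂ f (ball 0 1)) (hi : InjOn f (ball 0 1))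
    (hne : ∀ z ∈ ball (0 : ℂ) 1, f z ≠ 0) {z : ℂ} (hz : z ∈ ball (0 : ℂ) 1) :
    (1 - ‖z‖) ^ 2 * ‖f z‖ ≤ Real.exp 2 * ‖f 0‖ := by
  have hb0 : (0 : ℂ) ∈ ball (0 : ℂ) 1 := mem_ball_self one_pos
  obtain ⟨L, -, hLe, hL⟩ := univ_exists_log hf hne
  have hz1 : ‖z‖ < 1 := mem_ball_zero_iff.1 hz
  set r := ‖z‖ with hr
  have hr0 : 0 ≤ r := norm_nonneg z
  have hn : ∀ t ∈ Icc (0 : ℝ) 1, ‖(t : ℂ) * z‖ = t * r := fun t ht => by
    rw [norm_mul, Complex.norm_real, Real.norm_eq_abs, abs_of_nonneg ht.1]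
  have htr : ∀ t ∈ Icc (0 : ℝ) 1, t * r < 1 := fun t ht => by nlinarith [ht.1, ht.2]
  have hm : ∀ t ∈ Icc (0 : ℝ) 1, (t : ℂ) * z ∈ ball (0 : ℂ) 1 := fun t ht => by
    rw [mem_ball_zero_iff, hn t ht]
    exact htr t ht
  have hu : ∀ t ∈ Icc (0 : ℝ) 1, HasDerivAt (fun t : ℝ => L ((t : ℂ) * z) - L 0)
      (deriv f (t * z) / f (t * z) * z) t := fun t ht => by
    have h1 : HasDerivAt (fun w : ℂ => L (w * z)) (deriv f (t * z) / f (t * z) * z) (t : ℂ) := by
      have := (hL _ (hm t ht)).comp (t : ℂ) ((hasDerivAt_id (t : ℂ)).mul_const z)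
      rw [one_mul] at this
      exact this
    exact h1.comp_ofReal.sub_const _
  have hB : ∀ t ∈ Icc (0 : ℝ) 1, HasDerivAt (fun t : ℝ => -2 * Real.log (1 - t * r) + 2 * (t * r))
      (2 * r / (1 - t * r) + 2 * r) t := fun t ht => by
    have p : 1 - t * r ≠ 0 := (sub_pos.2 (htr t ht)).ne'
    have h1 := ((((hasDerivAt_id t).mul_const r).const_sub 1).log p).const_mul (-2)
    have h2 := ((hasDerivAt_id t).mul_const r).const_mul 2
    refine (h1.add h2).congr_deriv ?_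
    simp only [id]
    field_simp
  have key := image_norm_le_of_norm_deriv_right_le_deriv_boundary'
    (f := fun t : ℝ => L ((t : ℂ) * z) - L 0) (a := 0) (b := 1)
    (fun t ht => (hu t ht).continuousAt.continuousWithinAt)
    (fun t ht => (hu t (Ico_subset_Icc_self ht)).hasDerivWithinAt)
    (B := fun t : ℝ => -2 * Real.log (1 - t * r) + 2 * (t * r)) (by simp)
    (fun t ht => (hB t ht).continuousAt.continuousWithinAt)
    (fun t ht => (hB t (Ico_subset_Icc_self ht)).hasDerivWithinAt)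
    (fun t ht => by
      have ht' := Ico_subset_Icc_self ht
      have k := koebe4 hf hi hne (hm t ht')
      rw [hn t ht'] at k
      have p : 0 < 1 - t * r := sub_pos.2 (htr t ht')
      have p0 : 0 ≤ t * r := mul_nonneg ht.1 hr0
      have q : 0 < ‖f (t * z)‖ := norm_pos_iff.2 (hne _ (hm t ht'))
      rw [norm_mul, norm_div]
      have k1 : ‖deriv f (t * z)‖ / ‖f (t * z)‖ ≤ 2 / (1 - t * r) + 2 := by
        rw [div_le_iff₀ q, div_add' _ _ _ p.ne', div_mul_eq_mul_div, le_div_iff₀ p]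
        have p1 : 0 < 1 + t * r := by linarith
        refine le_of_mul_le_mul_right ?_ p1
        have d0 := norm_nonneg (deriv f (t * z))
        nlinarith [mul_nonneg (mul_nonneg q.le p0) p.le]
      calc _ ≤ (2 / (1 - t * r) + 2) * r := mul_le_mul_of_nonneg_right k1 hr0
        _ = _ := by ring)
    (x := 1) ⟨zero_le_one, le_rfl⟩
  simp only [Complex.ofReal_one, one_mul] at key
  have p : 0 < 1 - r := sub_pos.2 hz1
  have e1 : ‖f z‖ = Real.exp (L z - L 0).re * ‖f 0‖ := by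
    rw [← hLe z hz, ← hLe 0 hb0, Complex.norm_exp, Complex.norm_exp, ← Real.exp_add,
      Complex.sub_re]
    congr 1
    ring
  have e2 : (1 - r) ^ 2 = Real.exp (2 * Real.log (1 - r)) := by
    rw [show (2 : ℝ) * Real.log (1 - r) = Real.log (1 - r) + Real.log (1 - r) by ring,
      Real.exp_add, Real.exp_log p, sq]
  rw [e1, e2, ← mul_assoc, ← Real.exp_add]
  gcongr
  have := (Complex.re_le_norm (L z - L 0)).trans key
  linarith

/-- Sharp growth of a univalent function on the disc. -/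
theorem growth (f : ℂ → ℂ) (hf : DifferentiableOn ℂ f (ball 0 1)) (hinj : InjOn f (ball 0 1)) :
    ∃ C : ℝ, ∀ z ∈ ball (0 : ℂ) 1, (1 - ‖z‖) ^ 2 * ‖f z‖ ≤ C := by
  obtain ⟨w, hw, -⟩ := Dist13_omit one_pos hf hinj
  refine ⟨Real.exp 2 * ‖f 0 - w‖ + ‖w‖, fun z hz => ?_⟩
  have h := growth0 (f := fun z => f z - w) (hf.sub_const w)
    (fun x hx y hy e => hinj hx hy (sub_left_injective e))
    (fun x hx e => hw ⟨x, hx, sub_eq_zero.1 e⟩) hz
  have hz1 : ‖z‖ < 1 := mem_ball_zero_iff.1 hz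
  have h1 : (1 - ‖z‖) ^ 2 ≤ 1 := by nlinarith [norm_nonneg z]
  have h2 : ‖f z‖ ≤ ‖f z - w‖ + ‖w‖ := by simpa using norm_add_le (f z - w) w
  have h3 : (1 - ‖z‖) ^ 2 * ‖w‖ ≤ ‖w‖ := by nlinarith [norm_nonneg w]
  nlinarith [sq_nonneg (1 - ‖z‖)]

end Crest.Agent.R131.G53
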