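import Mathlib

/-! Row 131: the critical-value map `F z = f z + (1-|z|²) f'(z) / ((1+c) conj z)`,
its real derivative and Jacobian determinant (helper74). -/

open Complex Metric Set MeasureTheory
open scoped ComplexConjugate

namespace Crest.Agent.R131.JacF

/-- The real-linear map `w ↦ A w + B conj w`. -/
noncomputable def lin (A B : ℂ) : ℂ →L[ℝ] ℂ :=
  A • (ContinuousLinearMap.id ℝ ℂ) + B • (Complex.conjCLE : ℂ →L[ℝ] ℂ)

@[simp] lemma lin_apply (A B w : ℂ) : lin A B w = A * w + B * conj w := by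
  simp [lin]

lemma det_lin (A B : ℂ) : (lin A B).det = ‖A‖ ^ 2 - ‖B‖ ^ 2 := by
  rw [ContinuousLinearMap.det, ← LinearMap.det_toMatrix Complex.basisOneI, Matrix.det_fin_two]
  simp only [LinearMap.toMatrix_apply, Complex.coe_basisOneI, Complex.coe_basisOneI_repr,
    ContinuousLinearMap.coe_coe, lin_apply, Complex.sq_norm, Complex.normSq_apply]
  simp
  ring

lemma continuous_lin : Continuous fun p : ℂ × ℂ => lin p.1 p.2 := by
  unfold lin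
  fun_prop

/-- The critical-value map. -/
noncomputable def Fm (f : ℂ → ℂ) (c : ℝ) (z : ℂ) : ℂ :=
  f z + ((1 - ‖z‖ ^ 2 : ℝ) : ℂ) * deriv f z / (((1 + c : ℝ) : ℂ) * conj z)

/-- `∂F/∂z`. -/
noncomputable def Fz (f : ℂ → ℂ) (c : ℝ) (z : ℂ) : ℂ :=
  ((c : ℂ) * deriv f z + deriv (deriv f) z * ((conj z)⁻¹ - z)) / ((1 + c : ℝ) : ℂ)

/-- `∂F/∂z̄`. -/
noncomputable def Fzb (f : ℂ → ℂ) (c : ℝ) (z : ℂ) : ℂ :=
  -deriv f z / (((1 + c : ℝ) : ℂ) * (conj z) ^ 2)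

/-- The real derivative of `Fm`. -/
noncomputable def F1 (f : ℂ → ℂ) (c : ℝ) (z : ℂ) : ℂ →L[ℝ] ℂ := lin (Fz f c z) (Fzb f c z)

lemma Fm_eq (f : ℂ → ℂ) (c : ℝ) (z : ℂ) :
    Fm f c z = f z + deriv f z * ((conj z)⁻¹ - z) * (((1 + c : ℝ) : ℂ))⁻¹ := by
  unfold Fm
  by_cases hz : z = 0
  · subst hz; simp
  have hz' : conj z ≠ 0 := by simpa using hz
  have h1 : ((1 - ‖z‖ ^ 2 : ℝ) : ℂ) = 1 - z * conj z := by
    rw [Complex.mul_conj, Complex.normSq_eq_norm_sq]; push_cast; ring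
  rw [h1]
  by_cases hc : ((1 + c : ℝ) : ℂ) = 0
  · rw [hc]; simp
  field_simp

theorem hasStrictFDerivAt_Fm {f : ℂ → ℂ} {c : ℝ} (hc : 1 + c ≠ 0) {z : ℂ}
    (hf : AnalyticAt ℂ f z) (hz : z ≠ 0) :
    HasStrictFDerivAt (Fm f c) (F1 f c z) z := by
  have hz' : conj z ≠ 0 := by simpa using hz
  have hc' : ((1 + c : ℝ) : ℂ) ≠ 0 := by exact_mod_cast hc
  have h0 : HasStrictFDerivAt f
      ((ContinuousLinearMap.toSpanSingleton ℂ (deriv f z)).restrictScalars ℝ) z :=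
    hf.hasStrictDerivAt.hasStrictFDerivAt.restrictScalars ℝ
  have h1 : HasStrictFDerivAt (deriv f)
      ((ContinuousLinearMap.toSpanSingleton ℂ (deriv (deriv f) z)).restrictScalars ℝ) z :=
    hf.deriv.hasStrictDerivAt.hasStrictFDerivAt.restrictScalars ℝ
  have h2 : HasStrictFDerivAt (fun w : ℂ => conj w) (Complex.conjCLE : ℂ →L[ℝ] ℂ) z :=
    (Complex.conjCLE : ℂ →L[ℝ] ℂ).hasStrictFDerivAt
  have h3 : HasStrictFDerivAt (fun w : ℂ => w⁻¹)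
      ((ContinuousLinearMap.toSpanSingleton ℂ (-((conj z) ^ 2)⁻¹)).restrictScalars ℝ) (conj z) :=
    (hasStrictDerivAt_inv hz').hasStrictFDerivAt.restrictScalars ℝ
  have h4 := h3.comp z h2
  have h5 := h4.sub (hasStrictFDerivAt_id (𝕜 := ℝ) z)
  have h6 := h0.add ((h1.mul h5).mul_const (((1 + c : ℝ) : ℂ))⁻¹)
  have he : Fm f c = fun w => f w + deriv f w * ((conj w)⁻¹ - w) * (((1 + c : ℝ) : ℂ))⁻¹ :=
    funext (Fm_eq f c)
  rw [he]
  refine HasStrictFDerivAt.congr_fderiv h6 ?_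
  refine ContinuousLinearMap.ext fun w => ?_
  have hc'' : (1 + (c : ℂ)) ≠ 0 := by exact_mod_cast hc
  simp only [F1, lin_apply, Fz, Fzb]
  simp
  field_simp
  ring

/-- `P = c|z|² + (1-|z|²) z f''/f'`. -/
noncomputable def Pm (f : ℂ → ℂ) (c : ℝ) (z : ℂ) : ℂ :=
  ((c * ‖z‖ ^ 2 : ℝ) : ℂ) + ((1 - ‖z‖ ^ 2 : ℝ) : ℂ) * z * deriv (deriv f) z / deriv f z

lemma Fz_eq {f : ℂ → ℂ} {c : ℝ} (hc : 1 + c ≠ 0) {z : ℂ} (hz : z ≠ 0) (h1 : deriv f z ≠ 0) :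
    Fz f c z = deriv f z * Pm f c z / (((1 + c : ℝ) : ℂ) * ((‖z‖ ^ 2 : ℝ) : ℂ)) := by
  have hz' : conj z ≠ 0 := by simpa using hz
  have hc' : ((1 + c : ℝ) : ℂ) ≠ 0 := by exact_mod_cast hc
  have h2 : ((‖z‖ ^ 2 : ℝ) : ℂ) = z * conj z := by
    rw [Complex.mul_conj, Complex.normSq_eq_norm_sq]
  have h3 : ((1 - ‖z‖ ^ 2 : ℝ) : ℂ) = 1 - z * conj z := by
    rw [← h2]; push_cast; ring
  have h4 : ((c * ‖z‖ ^ 2 : ℝ) : ℂ) = c * (z * conj z) := by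
    rw [← h2]; push_cast; ring
  unfold Fz Pm
  rw [h2, h3, h4]
  field_simp

/-- The Jacobian determinant of `Fm`. -/
theorem det_F1 {f : ℂ → ℂ} {c : ℝ} (hc : 1 + c ≠ 0) {z : ℂ} (hz : z ≠ 0) (h1 : deriv f z ≠ 0) :
    (F1 f c z).det = ‖deriv f z‖ ^ 2 * (‖Pm f c z‖ ^ 2 - 1) / ((1 + c) ^ 2 * ‖z‖ ^ 4) := by
  have hn : ‖z‖ ≠ 0 := by simpa using hz
  rw [F1, det_lin, Fz_eq hc hz h1, Fzb]
  simp only [norm_div, norm_mul, norm_neg, norm_pow, Complex.norm_real, Real.norm_eq_abs,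
    Complex.norm_conj, div_pow, mul_pow, sq_abs, abs_norm]
  field_simp

lemma measurable_Pm (f : ℂ → ℂ) (c : ℝ) : Measurable (Pm f c) := by
  unfold Pm
  have h1 : Measurable (deriv f) := measurable_deriv f
  have h2 : Measurable (deriv (deriv f)) := measurable_deriv _
  fun_prop

lemma measurable_det_F1 (f : ℂ → ℂ) (c : ℝ) : Measurable fun z => (F1 f c z).det := by
  have h1 : Measurable (deriv f) := measurable_deriv f
  have h2 : Measurable (deriv (deriv f)) := measurable_deriv _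
  have h3 : Measurable fun z : ℂ => conj z := Complex.continuous_conj.measurable
  simp only [F1, det_lin, Fz, Fzb]
  fun_prop

end Crest.Agent.R131.JacF
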