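import Mathlib

/-!
# Row 131: elementary distortion bounds for univalent functions (helper6)

No area theorem: a square root and the Schwarz lemma give an absolute (large) constant.
-/

set_option autoImplicit false

open Set Metric Filter Complex
open scoped Topology

namespace Crest.Agent.R131

/-- a holomorphic logarithm on a disc -/
theorem exists_log6 {g : ℂ → ℂ} {c : ℂ} {r : ℝ} (hr : 0 < r)
    (hg : DifferentiableOn ℂ g (ball c r)) (h0 : ∀ z ∈ ball c r, g z ≠ 0) :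
    ∃ L : ℂ → ℂ, L c = 0 ∧ (∀ z ∈ ball c r, HasDerivAt L (deriv g z / g z) z) ∧
      ∀ z ∈ ball c r, g z = g c * exp (L z) := by
  have hd : DifferentiableOn ℂ (fun z => deriv g z / g z) (ball c r) :=
    (hg.deriv isOpen_ball).div hg h0
  obtain ⟨L, hL0, hL⟩ := hd.isExactOn_ball.with_val_at c 0
  refine ⟨L, hL0, hL, fun z hz => ?_⟩
  have hk : ∀ w ∈ ball c r, HasDerivAt (fun w => g w * exp (-L w)) 0 w := by
    intro w hw
    have h1 := (hg.differentiableAt (isOpen_ball.mem_nhds hw)).hasDerivAt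
    have h2 := (hL w hw).neg.cexp
    have h3 : HasDerivAt (fun w => g w * exp (-L w))
        (deriv g w * exp (-L w) + g w * (exp (-L w) * -(deriv g w / g w))) w := h1.mul h2
    have h4 : deriv g w * exp (-L w) + g w * (exp (-L w) * -(deriv g w / g w)) = 0 := by
      have := h0 w hw
      field_simp
      ring
    rwa [h4] at h3
  have hc := isOpen_ball.is_const_of_deriv_eq_zero (convex_ball c r).isPreconnected
    (fun w hw => (hk w hw).differentiableAt.differentiableWithinAt)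
    (fun w hw => (hk w hw).deriv) hz (mem_ball_self hr)
  simp only [hL0, neg_zero, exp_zero, mul_one] at hc
  rw [← hc, mul_assoc, ← exp_add]
  simp

theorem minmod6 {f : ℂ → ℂ} {c a : ℂ} {R ρ m : ℝ} (hρ : 0 < ρ) (hρR : ρ < R) (hm : 0 < m)
    (hf : DifferentiableOn ℂ f (ball c R)) (hinj : InjOn f (ball c R)) (ha : a ∈ ball c ρ)
    (hda : deriv f a ≠ 0) (hs : ∀ z ∈ sphere c ρ, m * ‖z - a‖ ≤ ‖f z - f a‖) :
    m ≤ ‖deriv f a‖ := by
  have haR : a ∈ ball c R := ball_subset_ball hρR.le ha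
  have hφ : DifferentiableOn ℂ (dslope f a) (ball c R) :=
    (differentiableOn_dslope (isOpen_ball.mem_nhds haR)).2 hf
  have hne : ∀ z ∈ ball c R, dslope f a z ≠ 0 := by
    intro z hz
    by_cases h : z = a
    · subst h; simpa using hda
    · rw [dslope_of_ne _ h, slope_def_field]
      exact div_ne_zero (sub_ne_zero.2 fun e => h (hinj hz haR e)) (sub_ne_zero.2 h)
  have hψ : DifferentiableOn ℂ (fun z => (dslope f a z)⁻¹) (ball c R) := hφ.inv hne
  have hcl : DiffContOnCl ℂ (fun z => (dslope f a z)⁻¹) (ball c ρ) :=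
    hψ.diffContOnCl_ball (closedBall_subset_ball hρR)
  have key := norm_le_of_forall_mem_frontier_norm_le isBounded_ball hcl (C := m⁻¹) (z := a)
    (fun z hz => by
      rw [frontier_ball c hρ.ne'] at hz
      have hza : z ≠ a := by
        rintro rfl
        exact (lt_irrefl ρ) (by simpa [mem_sphere.1 hz] using mem_ball.1 ha)
      have h1 := hs z hz
      have h2 : 0 < ‖z - a‖ := norm_pos_iff.2 (sub_ne_zero.2 hza)
      rw [norm_inv, dslope_of_ne _ hza, slope_def_field, norm_div]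
      exact inv_anti₀ hm ((le_div_iff₀ h2).2 h1)) (subset_closure ha)
  rw [norm_inv, dslope_same] at key
  exact (inv_le_inv₀ (norm_pos_iff.2 hda) hm).1 key

theorem not_const6 {f : ℂ → ℂ} {c : ℂ} {R : ℝ} (hR : 0 < R) (hinj : InjOn f (ball c R)) :
    ∃ᶠ z in 𝓝 c, f z ≠ f c := by
  have h1 : ∀ᶠ z in 𝓝[≠] c, f z ≠ f c := by
    filter_upwards [self_mem_nhdsWithin, mem_nhdsWithin_of_mem_nhds (ball_mem_nhds c hR)]
      with z hz hzb e
    exact hz (hinj hzb (mem_ball_self hR) e)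
  exact h1.frequently.filter_mono nhdsWithin_le_nhds

theorem exists_min6 {f : ℂ → ℂ} {c : ℂ} {R : ℝ} (hR : 0 < R)
    (hf : DifferentiableOn ℂ f (ball c R)) (hinj : InjOn f (ball c R)) :
    ∃ z₀ ∈ sphere c (R / 2), f z₀ ≠ f c ∧
      ∀ z ∈ sphere c (R / 2), ‖f z₀ - f c‖ ≤ ‖f z - f c‖ := by
  have hs : sphere c (R / 2) ⊆ ball c R := sphere_subset_ball (by linarith)
  obtain ⟨z₀, hz₀, hmin⟩ := (isCompact_sphere c (R / 2)).exists_isMinOn
    (NormedSpace.sphere_nonempty.2 (by linarith))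
    (((hf.continuousOn.mono hs).sub continuousOn_const).norm
      : ContinuousOn (fun z => ‖f z - f c‖) _)
  refine ⟨z₀, hz₀, fun e => ?_, fun z hz => hmin hz⟩
  have := hinj (hs hz₀) (mem_ball_self hR) e
  rw [this] at hz₀
  have := mem_sphere.1 hz₀
  rw [dist_self] at this
  linarith

theorem deriv_ne_zero_center6 {f : ℂ → ℂ} {c : ℂ} {R : ℝ} (hR : 0 < R)
    (hf : DifferentiableOn ℂ f (ball c R)) (hinj : InjOn f (ball c R)) : deriv f c ≠ 0 := by
  intro h0
  obtain ⟨z₀, hz₀, hne, hmin⟩ := exists_min6 hR hf hinj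
  set ε := ‖f z₀ - f c‖ with hε
  have hε0 : 0 < ε := norm_pos_iff.2 (sub_ne_zero.2 hne)
  have hm : 0 < ε / (2 * R) := by positivity
  have hcf : ContinuousAt f c := hf.continuousOn.continuousAt (ball_mem_nhds c hR)
  have hcd : ContinuousAt (deriv f) c :=
    (hf.deriv isOpen_ball).continuousOn.continuousAt (ball_mem_nhds c hR)
  have e1 : ∀ᶠ a in 𝓝 c, dist (f a) (f c) < ε / 2 :=
    Metric.tendsto_nhds.1 hcf _ (by positivity)
  have e2 : ∀ᶠ a in 𝓝 c, dist (deriv f a) (deriv f c) < ε / (2 * R) :=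
    Metric.tendsto_nhds.1 hcd _ hm
  have e3 : ∀ᶠ a in 𝓝 c, deriv f a = 0 := by
    filter_upwards [e1, e2, ball_mem_nhds c (half_pos hR)] with a h1 h2 h3
    by_contra hda
    have := minmod6 (half_pos hR) (by linarith) hm hf hinj h3 hda (fun z hz => by
      have h4 := hmin z hz
      have h5 : ‖z - a‖ ≤ R := by
        have := dist_triangle z c a
        rw [mem_sphere.1 hz, dist_comm c a, dist_eq_norm] at this
        linarith [mem_ball.1 h3]
      have h6 : ‖f z - f c‖ ≤ ‖f z - f a‖ + ‖f a - f c‖ := by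
        simpa using norm_add_le (f z - f a) (f a - f c)
      rw [dist_eq_norm] at h1
      calc ε / (2 * R) * ‖z - a‖ ≤ ε / (2 * R) * R := by gcongr
        _ = ε / 2 := by field_simp
        _ ≤ _ := by linarith)
    rw [h0, dist_zero_right] at h2
    linarith
  obtain ⟨δ, hδ, hb⟩ := Metric.eventually_nhds_iff_ball.1 (e3.and (ball_mem_nhds c hR))
  have e4 : ∀ᶠ a in 𝓝 c, f a = f c := by
    filter_upwards [ball_mem_nhds c hδ] with a ha
    exact isOpen_ball.is_const_of_deriv_eq_zero (convex_ball c δ).isPreconnected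
      (hf.mono fun w hw => (hb w hw).2) (fun w hw => (hb w hw).1) ha (mem_ball_self hδ)
  exact (not_const6 hR hinj) (by simpa using e4)

/-- growth near the centre -/
theorem growth6 {f : ℂ → ℂ} {c : ℂ} {R : ℝ} (hR : 0 < R)
    (hf : DifferentiableOn ℂ f (ball c R)) (hinj : InjOn f (ball c R)) :
    ∀ z ∈ closedBall c (R / 48), ‖f z - f c‖ ≤ 13 * R * ‖deriv f c‖ := by
  obtain ⟨z₀, hz₀, hne, hmin⟩ := exists_min6 hR hf hinj
  set w₀ := f z₀ - f c with hw₀
  have hw : w₀ ≠ 0 := sub_ne_zero.2 hne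
  set ε := ‖w₀‖ with hε
  have hε0 : 0 < ε := norm_pos_iff.2 hw
  have hρ : 0 < R / 2 := half_pos hR
  have hU : ball c (R / 2) ⊆ ball c R := ball_subset_ball (by linarith)
  have hz₀R : z₀ ∈ ball c R := sphere_subset_ball (by linarith) hz₀
  have hεd : ε / (R / 2) ≤ ‖deriv f c‖ :=
    minmod6 hρ (by linarith) (by positivity) hf hinj (mem_ball_self hρ)
      (deriv_ne_zero_center6 hR hf hinj) (fun z hz => by
        rw [← dist_eq_norm, mem_sphere.1 hz, div_mul_cancel₀ _ hρ.ne']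
        exact hmin z hz)
  have hfU := hf.mono hU
  set g : ℂ → ℂ := fun z => 1 - (f z - f c) / w₀ with hg
  have hgd : DifferentiableOn ℂ g (ball c (R / 2)) :=
    (differentiableOn_const _).sub ((hfU.sub_const _).div_const _)
  have hg0 : ∀ z ∈ ball c (R / 2), g z ≠ 0 := by
    intro z hz e
    have e1 : (f z - f c) / w₀ = 1 := (sub_eq_zero.1 e).symm
    rw [div_eq_one_iff_eq hw, hw₀, sub_left_inj] at e1
    have := hinj (hU hz) hz₀R e1
    rw [this] at hz
    exact (lt_irrefl _) ((mem_sphere.1 hz₀) ▸ mem_ball.1 hz)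
  obtain ⟨L, hL0, hL, hLe⟩ := exists_log6 hρ hgd hg0
  set h : ℂ → ℂ := fun z => exp (L z / 2) with hh
  have hLd : DifferentiableOn ℂ L (ball c (R / 2)) :=
    fun z hz => (hL z hz).differentiableAt.differentiableWithinAt
  have hhd : DifferentiableOn ℂ h (ball c (R / 2)) := (hLd.div_const _).cexp
  have hhc : h c = 1 := by simp [hh, hL0]
  have hsq : ∀ z ∈ ball c (R / 2), f z - f c = w₀ * (1 - h z ^ 2) := by
    intro z hz
    have e1 := hLe z hz
    have e2 : h z ^ 2 = exp (L z) := by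
      rw [hh]; simp only; rw [sq, ← exp_add]; congr 1; ring
    simp only [hg, sub_self, zero_div, sub_zero, one_mul] at e1
    rw [e2, ← e1]
    field_simp
    ring
  have hnorm : ∀ z ∈ ball c (R / 2), ‖f z - f c‖ = ε * ‖1 - h z ^ 2‖ := by
    intro z hz; rw [hsq z hz, norm_mul]
  have hB : ball (f c) (ε / 2) ⊆ f '' closedBall c (R / 2) :=
    (hf.diffContOnCl_ball (closedBall_subset_ball (by linarith))).ball_subset_image_closedBall
      hρ hmin (not_const6 hR hinj)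
  have hopen : ∀ s ⊆ ball c R, IsOpen s → IsOpen (f '' s) := by
    refine ((hf.analyticOnNhd isOpen_ball).is_constant_or_isOpen
      (convex_ball c R).isPreconnected).resolve_left ?_
    rintro ⟨w, hw'⟩
    exact hne ((hw' _ hz₀R).trans (hw' _ (mem_ball_self hR)).symm)
  have hre : ContinuousOn (fun z => (h z).re) (ball c (R / 2)) :=
    continuous_re.comp_continuousOn hhd.continuousOn
  set Ap : Set ℂ := ball c (R / 2) ∩ (fun z => (h z).re) ⁻¹' Ioi 0 with hAp
  set Am : Set ℂ := ball c (R / 2) ∩ (fun z => (h z).re) ⁻¹' Iio 0 with hAm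
  have hAo : IsOpen Ap := hre.isOpen_inter_preimage isOpen_ball isOpen_Ioi
  have hAo' : IsOpen Am := hre.isOpen_inter_preimage isOpen_ball isOpen_Iio
  have hsub : ball (f c) (ε / 2) ⊆ f '' Ap := by
    refine (convex_ball _ _).isPreconnected.subset_left_of_subset_union
      (hopen _ (inter_subset_left.trans hU) hAo) (hopen _ (inter_subset_left.trans hU) hAo')
      ?_ ?_ ⟨f c, mem_ball_self (half_pos hε0), c, ⟨mem_ball_self hρ, by simp [hhc]⟩, rfl⟩
    · rw [Set.disjoint_left]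
      rintro _ ⟨a, ha, rfl⟩ ⟨b, hb, e⟩
      have := hinj (hU hb.1) (hU ha.1) e
      subst this
      exact lt_asymm (show (0 : ℝ) < (h b).re from ha.2) (show (h b).re < 0 from hb.2)
    · intro w hw'
      obtain ⟨z, hz, rfl⟩ := hB hw'
      have hlt : ‖f z - f c‖ < ε / 2 := by rw [← dist_eq_norm]; exact hw'
      have hzU : z ∈ ball c (R / 2) := by
        rcases (mem_closedBall.1 hz).lt_or_eq with h1 | h1
        · exact h1
        · have := hmin z h1
          linarith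
      rcases lt_trichotomy (h z).re 0 with h1 | h1 | h1
      · exact Or.inr ⟨z, ⟨hzU, h1⟩, rfl⟩
      · exfalso
        rw [hnorm z hzU] at hlt
        have h2 := re_le_norm (1 - h z ^ 2)
        have h3 : (1 - h z ^ 2).re = 1 + (h z).im ^ 2 := by
          simp [sq, h1]
        nlinarith [sq_nonneg (h z).im]
      · exact Or.inl ⟨z, ⟨hzU, h1⟩, rfl⟩
  have hlow : ∀ z ∈ ball c (R / 2), 1 / 5 ≤ ‖h z + 1‖ := by
    intro z hz
    by_contra hlt
    rw [not_le] at hlt
    have e1 : ‖1 - h z ^ 2‖ = ‖h z + 1‖ * ‖2 - (h z + 1)‖ := by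
      rw [← norm_mul]; congr 1; ring
    have e2 : ‖2 - (h z + 1)‖ ≤ 2 + ‖h z + 1‖ := by
      simpa using norm_sub_le (2 : ℂ) (h z + 1)
    have e3 : ‖1 - h z ^ 2‖ < 1 / 2 := by
      rw [e1]; nlinarith [norm_nonneg (h z + 1), norm_nonneg (2 - (h z + 1))]
    have e4 : f z ∈ ball (f c) (ε / 2) := by
      rw [mem_ball, dist_eq_norm, hnorm z hz]; nlinarith
    obtain ⟨z', hz', e⟩ := hsub e4
    have := hinj (hU hz'.1) (hU hz) e
    subst this
    have e5 : (0 : ℝ) < (h z').re := hz'.2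
    have e6 := re_le_norm (h z' + 1)
    simp only [add_re, one_re] at e6
    linarith
  have hk0 : ∀ z ∈ ball c (R / 2), h z + 1 ≠ 0 := fun z hz =>
    norm_pos_iff.1 (lt_of_lt_of_le (by norm_num) (hlow z hz))
  have hkd : DifferentiableOn ℂ (fun z => (h z + 1)⁻¹) (ball c (R / 2)) :=
    (hhd.add_const _).inv hk0
  have hkc : ‖(h c + 1)⁻¹‖ = 1 / 2 := by rw [hhc]; norm_num
  have hmaps : MapsTo (fun z => (h z + 1)⁻¹) (ball c (R / 2)) (closedBall (h c + 1)⁻¹ 6) := by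
    intro z hz
    rw [mem_closedBall, dist_eq_norm]
    have e1 : ‖(h z + 1)⁻¹‖ ≤ 5 := by
      rw [norm_inv]
      have := inv_anti₀ (by norm_num) (hlow z hz)
      simpa using this
    linarith [norm_sub_le (h z + 1)⁻¹ (h c + 1)⁻¹]
  intro z hz
  have hzU : z ∈ ball c (R / 2) := closedBall_subset_ball (by linarith) hz
  have hS := dist_le_div_mul_dist_of_mapsTo_ball hkd hmaps hzU
  have hS2 : 6 / (R / 2) * dist z c ≤ 1 / 4 := by
    calc 6 / (R / 2) * dist z c ≤ 6 / (R / 2) * (R / 48) := by gcongr; exact hz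
      _ = 1 / 4 := by field_simp; norm_num
  have e1 : 1 / 4 ≤ ‖(h z + 1)⁻¹‖ := by
    have := norm_sub_norm_le (h c + 1)⁻¹ (h z + 1)⁻¹
    rw [← dist_eq_norm, dist_comm] at this
    linarith
  have e2 : ‖h z + 1‖ ≤ 4 := by
    rw [norm_inv] at e1
    have := (le_inv_comm₀ (by norm_num) (norm_pos_iff.2 (hk0 z hzU))).1 e1
    simpa using this
  have e3 : ‖h z‖ ≤ 5 := by
    have := norm_sub_le (h z + 1) 1
    simp only [add_sub_cancel_right, norm_one] at this
    linarith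
  have e4 : ‖1 - h z ^ 2‖ ≤ 26 := by
    have := norm_sub_le 1 (h z ^ 2)
    rw [norm_one, norm_pow] at this
    nlinarith [norm_nonneg (h z)]
  rw [hnorm z hzU]
  rw [div_le_iff₀ hρ] at hεd
  nlinarith

theorem second6 {f : ℂ → ℂ} {c : ℂ} {R : ℝ} (hR : 0 < R)
    (hf : DifferentiableOn ℂ f (ball c R)) (hinj : InjOn f (ball c R)) :
    R * ‖deriv (deriv f) c‖ ≤ 60000 * ‖deriv f c‖ := by
  have hr : 0 < R / 48 := by positivity
  have hcl : DiffContOnCl ℂ (fun z => f z - f c) (ball c (R / 48)) :=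
    (hf.sub_const _).diffContOnCl_ball (closedBall_subset_ball (by linarith))
  have key := norm_iteratedDeriv_le_of_forall_mem_sphere_norm_le 2 hr hcl
    (fun z hz => growth6 hR hf hinj z (sphere_subset_closedBall hz))
  have e : iteratedDeriv 2 (fun z => f z - f c) c = deriv (deriv f) c := by
    rw [iteratedDeriv_succ, iteratedDeriv_one]
    congr 1
    funext z
    exact deriv_sub_const _
  rw [e, le_div_iff₀ (by positivity)] at key
  simp only [Nat.factorial_two, Nat.cast_ofNat] at key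
  have h1 : R * (R * ‖deriv (deriv f) c‖) ≤ R * (60000 * ‖deriv f c‖) := by
    nlinarith [norm_nonneg (deriv f c), mul_pos hR hR]
  exact le_of_mul_le_mul_left h1 hR

theorem sub_ball6 {z : ℂ} : ball z (1 - ‖z‖) ⊆ ball (0 : ℂ) 1 :=
  ball_subset_ball' (by simp)

/-- an injective holomorphic function on the disc has a nonvanishing derivative -/
theorem deriv_ne_zero {f : ℂ → ℂ} (hf : DifferentiableOn ℂ f (ball 0 1))
    (hinj : InjOn f (ball 0 1)) {z : ℂ} (hz : z ∈ ball (0 : ℂ) 1) : deriv f z ≠ 0 :=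
  deriv_ne_zero_center6 (sub_pos.2 (mem_ball_zero_iff.1 hz)) (hf.mono sub_ball6)
    (hinj.mono sub_ball6)

theorem preSchwarz' {f : ℂ → ℂ} (hf : DifferentiableOn ℂ f (ball 0 1))
    (hinj : InjOn f (ball 0 1)) {z : ℂ} (hz : z ∈ ball (0 : ℂ) 1) :
    (1 - ‖z‖) * ‖deriv (deriv f) z‖ ≤ 60000 * ‖deriv f z‖ :=
  second6 (sub_pos.2 (mem_ball_zero_iff.1 hz)) (hf.mono sub_ball6) (hinj.mono sub_ball6)

theorem preSchwarz_explicit {f : ℂ → ℂ} (hf : DifferentiableOn ℂ f (ball 0 1))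
    (hinj : InjOn f (ball 0 1)) {z : ℂ} (hz : z ∈ ball (0 : ℂ) 1) :
    (1 - ‖z‖ ^ 2) * ‖deriv (deriv f) z‖ ≤ 120000 * ‖deriv f z‖ := by
  have h := preSchwarz' hf hinj hz
  have h1 := mem_ball_zero_iff.1 hz
  have h2 : 0 ≤ (1 - ‖z‖) * ‖deriv (deriv f) z‖ := mul_nonneg (by linarith) (norm_nonneg _)
  nlinarith [norm_nonneg z]

theorem preSchwarz : ∃ K : ℝ, 0 < K ∧ ∀ f : ℂ → ℂ, DifferentiableOn ℂ f (ball 0 1) →
    InjOn f (ball 0 1) → ∀ z ∈ ball (0 : ℂ) 1,
      (1 - ‖z‖ ^ 2) * ‖deriv (deriv f) z‖ ≤ K * ‖deriv f z‖ :=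
  ⟨120000, by norm_num, fun _ hf hinj _ hz => preSchwarz_explicit hf hinj hz⟩

/-- quotient form -/
theorem preSchwarz_div {f : ℂ → ℂ} (hf : DifferentiableOn ℂ f (ball 0 1))
    (hinj : InjOn f (ball 0 1)) {z : ℂ} (hz : z ∈ ball (0 : ℂ) 1) :
    (1 - ‖z‖ ^ 2) * ‖deriv (deriv f) z / deriv f z‖ ≤ 120000 := by
  have h0 : 0 < ‖deriv f z‖ := norm_pos_iff.2 (deriv_ne_zero hf hinj hz)
  rw [norm_div, ← mul_div_assoc, div_le_iff₀ h0]
  exact preSchwarz_explicit hf hinj hz

/-- the logarithm of `f'` with its derivative bound -/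
theorem exists_log_deriv {f : ℂ → ℂ} (hf : DifferentiableOn ℂ f (ball 0 1))
    (hinj : InjOn f (ball 0 1)) :
    ∃ L : ℂ → ℂ, L 0 = 0 ∧
      (∀ z ∈ ball (0 : ℂ) 1, HasDerivAt L (deriv (deriv f) z / deriv f z) z) ∧
      ∀ z ∈ ball (0 : ℂ) 1, deriv f z = deriv f 0 * exp (L z) :=
  exists_log6 one_pos (hf.deriv isOpen_ball) fun _ hz => deriv_ne_zero hf hinj hz

/-- distortion on a disc: if `closedBall z s` stays at distance `δ` from the circle -/
theorem distortion6 {f : ℂ → ℂ} (hf : DifferentiableOn ℂ f (ball 0 1))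
    (hinj : InjOn f (ball 0 1)) {z w : ℂ} {δ : ℝ} (hδ : 0 < δ) (hz : ‖z‖ ≤ 1 - δ)
    (hw : ‖w‖ ≤ 1 - δ) :
    ‖deriv f w‖ ≤ Real.exp (60000 / δ * ‖w - z‖) * ‖deriv f z‖ := by
  obtain ⟨L, -, hL, hLe⟩ := exists_log_deriv hf hinj
  have hsub : closedBall (0 : ℂ) (1 - δ) ⊆ ball 0 1 := closedBall_subset_ball (by linarith)
  have hz' : z ∈ closedBall (0 : ℂ) (1 - δ) := mem_closedBall_zero_iff.2 hz
  have hw' : w ∈ closedBall (0 : ℂ) (1 - δ) := mem_closedBall_zero_iff.2 hw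
  have key : ‖L w - L z‖ ≤ 60000 / δ * ‖w - z‖ := by
    refine (convex_closedBall (0 : ℂ) (1 - δ)).norm_image_sub_le_of_norm_hasDerivWithin_le
      (f' := fun u => deriv (deriv f) u / deriv f u)
      (fun u hu => (hL u (hsub hu)).hasDerivWithinAt) (fun u hu => ?_) hz' hw'
    have h0 : 0 < ‖deriv f u‖ := norm_pos_iff.2 (deriv_ne_zero hf hinj (hsub hu))
    have h1 := preSchwarz' hf hinj (hsub hu)
    have h2 := mem_closedBall_zero_iff.1 hu
    rw [norm_div, div_le_div_iff₀ h0 hδ]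
    nlinarith [norm_nonneg (deriv (deriv f) u)]
  have e : deriv f w = exp (L w - L z) * deriv f z := by
    rw [hLe w (hsub hw'), hLe z (hsub hz'), mul_left_comm, ← exp_add]
    congr 2; ring
  rw [e, norm_mul, norm_exp]
  gcongr
  exact (re_le_norm _).trans key

/-- distortion on hyperbolic discs, `d = 1 - ‖z‖ ^ 2` -/
theorem distortion_hyp {f : ℂ → ℂ} (hf : DifferentiableOn ℂ f (ball 0 1))
    (hinj : InjOn f (ball 0 1)) {z w : ℂ} {ρ : ℝ} (hz : z ∈ ball (0 : ℂ) 1) (hρ : ρ ≤ 1 / 4)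
    (hw : ‖w - z‖ ≤ ρ * (1 - ‖z‖ ^ 2)) :
    ‖deriv f w‖ ≤ Real.exp (240000 * ρ) * ‖deriv f z‖ ∧
      ‖deriv f z‖ ≤ Real.exp (240000 * ρ) * ‖deriv f w‖ := by
  have h1 := mem_ball_zero_iff.1 hz
  have h2 := norm_nonneg z
  have hd : 0 < 1 - ‖z‖ ^ 2 := by nlinarith
  have hδ : 0 < (1 - ‖z‖ ^ 2) / 4 := by positivity
  have hz' : ‖z‖ ≤ 1 - (1 - ‖z‖ ^ 2) / 4 := by nlinarith
  have hw' : ‖w‖ ≤ 1 - (1 - ‖z‖ ^ 2) / 4 := by
    have := norm_add_le (w - z) z
    rw [sub_add_cancel] at this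
    nlinarith
  have hk : 60000 / ((1 - ‖z‖ ^ 2) / 4) * ‖w - z‖ ≤ 240000 * ρ := by
    calc 60000 / ((1 - ‖z‖ ^ 2) / 4) * ‖w - z‖
        ≤ 60000 / ((1 - ‖z‖ ^ 2) / 4) * (ρ * (1 - ‖z‖ ^ 2)) := by gcongr
      _ = 240000 * ρ := by field_simp; ring
  refine ⟨(distortion6 hf hinj hδ hz' hw').trans (by gcongr), ?_⟩
  refine (distortion6 hf hinj hδ hw' hz').trans ?_
  rw [norm_sub_rev]
  gcongr

/-- two-sided bound on compact discs for normalised functions -/
theorem distortion_compact {f : ℂ → ℂ} (hf : DifferentiableOn ℂ f (ball 0 1))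
    (hinj : InjOn f (ball 0 1)) (h1 : deriv f 0 = 1) {z : ℂ} {δ : ℝ} (hδ : 0 < δ)
    (hz : ‖z‖ ≤ 1 - δ) :
    ‖deriv f z‖ ≤ Real.exp (60000 / δ) ∧ ‖deriv f z‖⁻¹ ≤ Real.exp (60000 / δ) := by
  have h0 : ‖(0 : ℂ)‖ ≤ 1 - δ := by simpa using (norm_nonneg z).trans hz
  have hz1 : ‖z‖ ≤ 1 := by linarith
  have hk : Real.exp (60000 / δ * ‖z‖) ≤ Real.exp (60000 / δ) := by
    gcongr
    exact mul_le_of_le_one_right (by positivity) hz1
  have a := distortion6 hf hinj hδ h0 hz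
  have b := distortion6 hf hinj hδ hz h0
  simp only [sub_zero, zero_sub, norm_neg, h1, norm_one, mul_one] at a b
  refine ⟨a.trans hk, ?_⟩
  have hp : 0 < ‖deriv f z‖ :=
    norm_pos_iff.2 (deriv_ne_zero hf hinj (mem_ball_zero_iff.2 (by linarith)))
  rw [inv_le_iff_one_le_mul₀ hp]
  exact b.trans (by gcongr)

end Crest.Agent.R131
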