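import Mathlib
import Crest.Agent.Lib.Complex.Montel

/-!
Weak Koebe/Bieberbach bound for univalent functions on the unit disc (no area theorem):
`(1 - ‖z‖^2) * ‖f'' z‖ ≤ C * ‖f' z‖` with an absolute constant.
-/

set_option autoImplicit false

open Metric Set Filter Topology
open Crest.Agent.Lib.Complex

namespace Crest.Agent.R131

theorem k64_ball_sc : IsSimplyConnected (ball (0 : ℂ) 1) := by
  have : ContractibleSpace (ball (0 : ℂ) 1) :=
    (convex_ball (0 : ℂ) 1).contractibleSpace ⟨0, mem_ball_self one_pos⟩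
  exact SimplyConnectedSpace.ofContractible _

/-- A normalised univalent function omits a value of modulus at most `2`. -/
theorem k64_omit (g : ℂ → ℂ) (hg : DifferentiableOn ℂ g (ball 0 1)) (hi : InjOn g (ball 0 1))
    (h0 : g 0 = 0) (h1 : deriv g 0 = 1) : ∃ w, w ∉ g '' ball 0 1 ∧ ‖w‖ ≤ 2 := by
  by_contra hcon
  push Not at hcon
  have hsub : ball (0 : ℂ) 2 ⊆ g '' ball 0 1 := by
    intro w hw
    by_contra hw'
    have := hcon w hw'
    rw [mem_ball_zero_iff] at hw
    linarith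
  have h00 : (0 : ℂ) ∈ ball (0 : ℂ) 1 := mem_ball_self one_pos
  have hd := (differentiableOn_invFunOn isOpen_ball hg hi).mono hsub
  have hz : Function.invFunOn g (ball 0 1) 0 = 0 := by
    have := hi.leftInvOn_invFunOn h00
    rwa [h0] at this
  have hm : MapsTo (Function.invFunOn g (ball 0 1)) (ball 0 2)
      (closedBall (Function.invFunOn g (ball 0 1) 0) 1) := by
    intro w hw
    rw [hz]
    obtain ⟨z, hz1, rfl⟩ := hsub hw
    rw [hi.leftInvOn_invFunOn hz1]
    exact ball_subset_closedBall hz1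
  have h2 := Complex.norm_deriv_le_div_of_mapsTo_ball hd hm two_pos
  have h3 := (hasDerivAt_invFunOn isOpen_ball hg hi h00)
  rw [h0, h1] at h3
  rw [h3.deriv] at h2
  norm_num at h2

/-- Growth bound near the origin for normalised univalent functions. -/
theorem k64_growth (g : ℂ → ℂ) (hg : DifferentiableOn ℂ g (ball 0 1)) (hi : InjOn g (ball 0 1))
    (h0 : g 0 = 0) (h1 : deriv g 0 = 1) : ∀ z : ℂ, ‖z‖ ≤ 1 / 20 → ‖g z‖ ≤ 52 := by
  have h00 : (0 : ℂ) ∈ ball (0 : ℂ) 1 := mem_ball_self one_pos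
  have hUo : IsOpen (g '' ball 0 1) := isOpen_image_of_injOn isOpen_ball hg hi isOpen_ball subset_rfl
  obtain ⟨w1, hw1, hw12⟩ := k64_omit g hg hi h0 h1
  have hK : IsCompact ((g '' ball 0 1)ᶜ ∩ closedBall 0 2) :=
    (isCompact_closedBall (0 : ℂ) 2).inter_left hUo.isClosed_compl
  obtain ⟨w0, ⟨hw0, hw02⟩, hmin⟩ := hK.exists_isMinOn
    ⟨w1, hw1, mem_closedBall_zero_iff.2 hw12⟩ (continuous_norm.continuousOn)
  rw [mem_closedBall_zero_iff] at hw02
  have hsub : ball (0 : ℂ) ‖w0‖ ⊆ g '' ball 0 1 := by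
    intro w hw
    rw [mem_ball_zero_iff] at hw
    by_contra hw'
    have : ‖w0‖ ≤ ‖w‖ := hmin (a := w) ⟨hw', mem_closedBall_zero_iff.2 (by linarith)⟩
    linarith
  have hw0ne : w0 ≠ 0 := by
    rintro rfl
    exact hw0 ⟨0, h00, h0⟩
  have hw0pos : 0 < ‖w0‖ := norm_pos_iff.2 hw0ne
  let p : ℂ → ℂ := fun z => 1 - g z / w0
  have hp : ∀ z ∈ ball (0 : ℂ) 1, HasDerivAt p (-(deriv g z / w0)) z := fun z hz =>
    (((hg.differentiableAt (isOpen_ball.mem_nhds hz)).hasDerivAt).div_const w0).const_sub 1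
  have hp0 : ∀ z ∈ ball (0 : ℂ) 1, p z ≠ 0 := by
    intro z hz e
    apply hw0
    refine ⟨z, hz, ?_⟩
    have : g z / w0 = 1 := by
      simp only [p] at e
      linear_combination -e
    exact (div_eq_one_iff_eq hw0ne).1 this
  obtain ⟨G, hGc, hG⟩ := Complex.exists_continuousOn_pow_eq k64_ball_sc isOpen_ball
    (g := p) (fun z hz => (hp z hz).continuousAt.continuousWithinAt)
    (by rintro ⟨z, hz, e⟩; exact hp0 z hz e) two_ne_zero
  have hG0 : ∀ z ∈ ball (0 : ℂ) 1, G z ≠ 0 := fun z hz e => hp0 z hz (by rw [← hG z, e]; simp)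
  have hGd := fun z (hz : z ∈ ball (0 : ℂ) 1) =>
    hasDerivAt_of_sq_eq (hp z hz) (hGc.continuousAt (isOpen_ball.mem_nhds hz)) (hG0 z hz) hG
  set σ := G 0 with hσ
  have hσ2 : σ ^ 2 = 1 := by rw [hσ, hG]; simp [p, h0]
  have hσn : ‖σ‖ = 1 := by
    have : ‖σ‖ ^ 2 = 1 := by rw [← norm_pow, hσ2, norm_one]
    nlinarith [norm_nonneg σ]
  -- positivity of the branch on the central disc
  let ψ := Function.invFunOn g (ball (0 : ℂ) 1)
  have hψm : ∀ w ∈ ball (0 : ℂ) ‖w0‖, ψ w ∈ ball (0 : ℂ) 1 ∧ g (ψ w) = w := by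
    intro w hw
    obtain ⟨z, hz, rfl⟩ := hsub hw
    have : ψ (g z) = z := hi.leftInvOn_invFunOn hz
    rw [this]; exact ⟨hz, rfl⟩
  have hψc : ContinuousOn ψ (ball 0 ‖w0‖) :=
    ((differentiableOn_invFunOn isOpen_ball hg hi).mono hsub).continuousOn
  let h : ℂ → ℝ := fun w => (σ * G (ψ w)).re
  have hhc : ContinuousOn h (ball 0 ‖w0‖) := by
    have : ContinuousOn (fun w => G (ψ w)) (ball 0 ‖w0‖) :=
      hGc.comp hψc (fun w hw => (hψm w hw).1)
    exact Complex.continuous_re.comp_continuousOn (continuousOn_const.mul this)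
  have hhne : ∀ w ∈ ball (0 : ℂ) ‖w0‖, h w ≠ 0 := by
    intro w hw e
    have e1 : (σ * G (ψ w)) ^ 2 = 1 - w / w0 := by
      rw [mul_pow, hσ2, hG, one_mul]
      simp only [p, (hψm w hw).2]
    have e2 : ‖w / w0‖ < 1 := by
      rw [norm_div, div_lt_one hw0pos]; exact mem_ball_zero_iff.1 hw
    have e3 : (w / w0).re < 1 := lt_of_le_of_lt (Complex.re_le_norm _) e2
    have e4 := congrArg Complex.re e1
    simp only [h] at e
    rw [sq, Complex.mul_re, e, Complex.sub_re, Complex.one_re] at e4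
    nlinarith [sq_nonneg (σ * G (ψ w)).im]
  have hh0 : h 0 = 1 := by
    have : ψ 0 = 0 := by
      have := hi.leftInvOn_invFunOn h00
      rwa [h0] at this
    simp only [h, this, ← hσ, ← sq, hσ2, Complex.one_re]
  have hhpos : ∀ w ∈ ball (0 : ℂ) ‖w0‖, 0 < h w := by
    intro w hw
    by_contra hneg
    push Not at hneg
    have := (convex_ball (0 : ℂ) ‖w0‖).isPreconnected.intermediate_value hw
      (mem_ball_self hw0pos) hhc
    obtain ⟨x, hx, hx0⟩ := this (show (0 : ℝ) ∈ Icc (h w) (h 0) from ⟨hneg, by rw [hh0]; norm_num⟩)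
    exact hhne x hx hx0
  have hlow : ∀ z ∈ ball (0 : ℂ) 1, 1 / 4 ≤ ‖G z + σ‖ := by
    intro z hz
    by_cases hc : ‖g z‖ < ‖w0‖
    · have h2 := hhpos (g z) (mem_ball_zero_iff.2 hc)
      have h3 : ψ (g z) = z := hi.leftInvOn_invFunOn hz
      simp only [h, h3] at h2
      have h4 : σ * (G z + σ) = σ * G z + 1 := by rw [mul_add, ← sq, hσ2]
      have h5 : ‖G z + σ‖ = ‖σ * G z + 1‖ := by rw [← h4, norm_mul, hσn, one_mul]
      have h6 := Complex.re_le_norm (σ * G z + 1)
      rw [Complex.add_re, Complex.one_re] at h6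
      linarith
    · push Not at hc
      by_contra hlt
      push Not at hlt
      have h2 : (G z + σ) * (G z - σ) = -(g z / w0) := by
        have := hG z
        simp only [p] at this
        linear_combination this - hσ2
      have h3 : 1 ≤ ‖G z + σ‖ * ‖G z - σ‖ := by
        rw [← norm_mul, h2, norm_neg, norm_div, le_div_iff₀ hw0pos]; linarith
      have h4 : ‖G z - σ‖ ≤ ‖G z + σ‖ + 2 := by
        have : G z - σ = (G z + σ) - 2 * σ := by ring
        rw [this]
        refine (norm_sub_le _ _).trans ?_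
        rw [norm_mul, hσn]; simp
      nlinarith [norm_nonneg (G z + σ), norm_nonneg (G z - σ)]
  have hne : ∀ z ∈ ball (0 : ℂ) 1, G z + σ ≠ 0 := by
    intro z hz e
    have := hlow z hz
    rw [e, norm_zero] at this
    norm_num at this
  let H : ℂ → ℂ := fun z => (G z + σ)⁻¹
  have hHd : DifferentiableOn ℂ H (ball 0 1) := fun z hz =>
    (((hGd z hz).add_const σ).inv (hne z hz)).differentiableAt.differentiableWithinAt
  have hHb : ∀ z ∈ ball (0 : ℂ) 1, ‖H z‖ ≤ 4 := by
    intro z hz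
    simp only [H, norm_inv]
    have := hlow z hz
    rw [inv_le_comm₀ (by linarith) (by norm_num)]
    linarith
  have hH0 : ‖H 0‖ = 1 / 2 := by
    simp only [H, ← hσ, ← two_mul, norm_inv, norm_mul, hσn]
    simp
  have hHm : MapsTo H (ball 0 1) (closedBall (H 0) 5) := by
    intro z hz
    rw [mem_closedBall, dist_eq_norm]
    have := norm_sub_le (H z) (H 0)
    have := hHb z hz
    linarith
  intro z hz
  have hz1 : z ∈ ball (0 : ℂ) 1 := mem_ball_zero_iff.2 (by linarith)
  have h2 := Complex.dist_le_div_mul_dist_of_mapsTo_ball hHd hHm hz1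
  rw [dist_zero_right, dist_eq_norm] at h2
  have h3 : 1 / 4 ≤ ‖H z‖ := by
    have := norm_sub_norm_le (H 0) (H z)
    rw [norm_sub_rev] at this
    linarith
  have h4 : ‖G z + σ‖ ≤ 4 := by
    simp only [H, norm_inv] at h3
    have h5 : 0 < ‖G z + σ‖ := norm_pos_iff.2 (hne z hz1)
    rw [le_inv_comm₀ (by norm_num) h5] at h3
    linarith
  have h5 : ‖G z‖ ≤ 5 := by
    have : G z = (G z + σ) - σ := by ring
    have h6 := norm_sub_le (G z + σ) σ
    rw [← this] at h6
    linarith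
  have h6 : g z = w0 * (1 - G z ^ 2) := by
    rw [hG]; simp only [p]; field_simp; ring
  rw [h6, norm_mul]
  have h7 : ‖1 - G z ^ 2‖ ≤ 26 := by
    refine (norm_sub_le _ _).trans ?_
    rw [norm_pow, norm_one]
    nlinarith [norm_nonneg (G z)]
  nlinarith [norm_nonneg (1 - G z ^ 2)]

/-- Growth bound on a small concentric disc for a univalent function on `ball z r`. -/
theorem k64_local (f : ℂ → ℂ) (z : ℂ) (r : ℝ) (hr : 0 < r) (hf : DifferentiableOn ℂ f (ball z r))
    (hi : InjOn f (ball z r)) :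
    ∀ w : ℂ, ‖w - z‖ ≤ r / 20 → ‖f w - f z‖ ≤ 52 * r * ‖deriv f z‖ := by
  have hz : z ∈ ball z r := mem_ball_self hr
  have hd0 : deriv f z ≠ 0 := deriv_ne_zero_of_injOn isOpen_ball hf hi hz
  have hrc : (r : ℂ) ≠ 0 := by exact_mod_cast hr.ne'
  have hmap : ∀ ζ ∈ ball (0 : ℂ) 1, z + r * ζ ∈ ball z r := by
    intro ζ hζ
    rw [mem_ball_zero_iff] at hζ
    rw [mem_ball, dist_eq_norm, add_sub_cancel_left, norm_mul, Complex.norm_real,
      Real.norm_of_nonneg hr.le]
    nlinarith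
  let g : ℂ → ℂ := fun ζ => (f (z + r * ζ) - f z) / (r * deriv f z)
  have hgd : ∀ ζ ∈ ball (0 : ℂ) 1,
      HasDerivAt g (deriv f (z + r * ζ) * r / (r * deriv f z)) ζ := by
    intro ζ hζ
    have h1 : HasDerivAt (fun ζ : ℂ => z + r * ζ) r ζ := by
      simpa using ((hasDerivAt_id ζ).const_mul (r : ℂ)).const_add z
    have h2 := (hf.differentiableAt (isOpen_ball.mem_nhds (hmap ζ hζ))).hasDerivAt
    exact ((h2.comp ζ h1).sub_const (f z)).div_const _
  have hgi : InjOn g (ball 0 1) := by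
    intro a ha b hb e
    simp only [g] at e
    rw [div_left_inj' (mul_ne_zero hrc hd0), sub_left_inj] at e
    have := hi (hmap a ha) (hmap b hb) e
    exact mul_left_cancel₀ hrc (add_left_cancel this)
  have hg1 : deriv g 0 = 1 := by
    rw [(hgd 0 (mem_ball_self one_pos)).deriv]
    simp only [mul_zero, add_zero]
    field_simp
  have key := k64_growth g (fun ζ hζ => (hgd ζ hζ).differentiableAt.differentiableWithinAt) hgi
    (by simp [g]) hg1
  intro w hw
  have h1 := key ((w - z) / r) (by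
    rw [norm_div, Complex.norm_real, Real.norm_of_nonneg hr.le, div_le_iff₀ hr]; linarith)
  have h2 : z + r * ((w - z) / r) = w := by field_simp; ring
  simp only [g, h2] at h1
  rw [norm_div, norm_mul, Complex.norm_real, Real.norm_of_nonneg hr.le,
    div_le_iff₀ (mul_pos hr (norm_pos_iff.2 hd0))] at h1
  linarith

/-- Second derivative bound for a univalent function on `ball z r`. -/
theorem k64_second (f : ℂ → ℂ) (z : ℂ) (r : ℝ) (hr : 0 < r) (hf : DifferentiableOn ℂ f (ball z r))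
    (hi : InjOn f (ball z r)) : r * ‖deriv (deriv f) z‖ ≤ 41600 * ‖deriv f z‖ := by
  have key := k64_local f z r hr hf hi
  have hr' : 0 < r / 20 := by positivity
  have hd : DiffContOnCl ℂ (fun w => f w - f z) (ball z (r / 20)) := by
    apply DifferentiableOn.diffContOnCl
    rw [closure_ball z hr'.ne']
    exact (hf.mono (closedBall_subset_ball (by linarith))).sub_const _
  have h1 := Complex.norm_iteratedDeriv_le_of_forall_mem_sphere_norm_le 2 hr' hd
    (C := 52 * r * ‖deriv f z‖) (fun w hw => key w (le_of_eq (mem_sphere_iff_norm.1 hw)))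
  have h2 : iteratedDeriv 2 (fun w => f w - f z) z = deriv (deriv f) z := by
    rw [iteratedDeriv_succ, iteratedDeriv_one]
    congr 1
    ext w
    exact deriv_sub_const _
  rw [h2, le_div_iff₀ (by positivity)] at h1
  have h3 : ((Nat.factorial 2 : ℕ) : ℝ) = 2 := by norm_num [Nat.factorial]
  rw [h3] at h1
  have h4 : r * (r * ‖deriv (deriv f) z‖) ≤ r * (41600 * ‖deriv f z‖) := by nlinarith
  exact le_of_mul_le_mul_left h4 hr

/-- Weak Koebe bound with the explicit constant `83200`. -/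
theorem koebe_weak_explicit (f : ℂ → ℂ) (hf : DifferentiableOn ℂ f (ball 0 1))
    (hi : InjOn f (ball 0 1)) (z : ℂ) (hz : z ∈ ball (0 : ℂ) 1) :
    (1 - ‖z‖ ^ 2) * ‖deriv (deriv f) z‖ ≤ 83200 * ‖deriv f z‖ := by
  rw [mem_ball_zero_iff] at hz
  have hsub : ball z (1 - ‖z‖) ⊆ ball 0 1 := by
    apply ball_subset_ball'
    rw [dist_zero_right]; linarith
  have h1 := k64_second f z (1 - ‖z‖) (by linarith) (hf.mono hsub) (hi.mono hsub)
  have h2 : (1 - ‖z‖ ^ 2) ≤ 2 * (1 - ‖z‖) := by nlinarith [norm_nonneg z]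
  nlinarith [norm_nonneg (deriv (deriv f) z)]

/-- Weak Koebe bound. -/
theorem koebe_weak : ∃ C : ℝ, 0 < C ∧ ∀ f : ℂ → ℂ, DifferentiableOn ℂ f (ball 0 1) →
    InjOn f (ball 0 1) → ∀ z ∈ ball (0 : ℂ) 1,
      (1 - ‖z‖ ^ 2) * ‖deriv (deriv f) z‖ ≤ C * ‖deriv f z‖ :=
  ⟨83200, by norm_num, koebe_weak_explicit⟩

end Crest.Agent.R131
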