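import Crest.Agent.Lib.Complex.Univalent

/-!
# Row 131 (helper39): weak Koebe bounds for univalent functions, no area theorem

Nearest omitted value, square root, Schwarz lemma.
-/

set_option autoImplicit false

open Metric Set

namespace Crest.Agent.R131

open Crest.Agent.Lib.Complex

theorem kb_log {u : ℂ → ℂ} {c : ℂ} {R : ℝ} (hR : 0 < R) (hu : DifferentiableOn ℂ u (ball c R))
    (h0 : ∀ z ∈ ball c R, u z ≠ 0) (h1 : u c = 1) :
    ∃ L : ℂ → ℂ, DifferentiableOn ℂ L (ball c R) ∧ L c = 0 ∧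
      ∀ z ∈ ball c R, Complex.exp (L z) = u z := by
  have hd : DifferentiableOn ℂ (fun z => deriv u z / u z) (ball c R) :=
    (hu.deriv isOpen_ball).div hu h0
  obtain ⟨P, hP⟩ := hd.isExactOn_ball
  refine ⟨fun z => P z - P c, fun z hz => ((hP z hz).sub_const _).differentiableAt.differentiableWithinAt,
    by simp, ?_⟩
  have key : ∀ z ∈ ball c R, HasDerivAt (fun z => u z * Complex.exp (-(P z - P c))) 0 z := by
    intro z hz
    have h2 := (hu.differentiableAt (isOpen_ball.mem_nhds hz)).hasDerivAt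
    have h3 := (((hP z hz).sub_const (P c)).neg).cexp
    have h4 := h2.mul h3
    have := h0 z hz
    refine HasDerivAt.congr_deriv h4 ?_
    show deriv u z * Complex.exp (-(P z - P c)) +
      u z * (Complex.exp (-(P z - P c)) * -(deriv u z / u z)) = 0
    field_simp
    ring
  intro z hz
  have hc := isOpen_ball.is_const_of_deriv_eq_zero (convex_ball c R).isPreconnected
    (fun z hz => (key z hz).differentiableAt.differentiableWithinAt)
    (fun z hz => (key z hz).deriv) hz (mem_ball_self hR)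
  simp only [sub_self, neg_zero, Complex.exp_zero, mul_one, h1] at hc
  rw [Complex.exp_neg] at hc
  have := Complex.exp_ne_zero (P z - P c)
  field_simp at hc
  exact hc.symm

theorem kb_omit {f : ℂ → ℂ} {c : ℂ} {R : ℝ} (hR : 0 < R) (hf : DifferentiableOn ℂ f (ball c R))
    (hi : InjOn f (ball c R)) :
    ∃ w, w ∉ f '' ball c R ∧ ‖w - f c‖ ≤ 2 * (R * ‖deriv f c‖) ∧
      ball (f c) ‖w - f c‖ ⊆ f '' ball c R := by
  have hc := mem_ball_self (x := c) hR
  have hne := deriv_ne_zero_of_injOn isOpen_ball hf hi hc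
  have hm : 0 < 2 * (R * ‖deriv f c‖) := by positivity
  have h1 : ¬ ball (f c) (2 * (R * ‖deriv f c‖)) ⊆ f '' ball c R := by
    intro h
    have hd := (differentiableOn_invFunOn isOpen_ball hf hi).mono h
    have hinv : Function.invFunOn f (ball c R) (f c) = c := hi.leftInvOn_invFunOn hc
    have := Complex.norm_deriv_le_div_of_mapsTo_ball (R₂ := R) hd (fun y hy => by
      rw [hinv]
      exact ball_subset_closedBall (Function.invFunOn_mem (h hy))) hm
    rw [(hasDerivAt_invFunOn isOpen_ball hf hi hc).deriv, norm_inv] at this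
    have h2 : 0 < ‖deriv f c‖ := norm_pos_iff.2 hne
    rw [inv_eq_one_div, div_le_div_iff₀ h2 hm] at this
    nlinarith [mul_pos hR h2]
  obtain ⟨w1, hw1, hw2⟩ := not_subset.1 h1
  have hcl : IsClosed (f '' ball c R)ᶜ :=
    (isOpen_image_of_injOn isOpen_ball hf hi isOpen_ball subset_rfl).isClosed_compl
  obtain ⟨w, hw, hd⟩ := hcl.exists_infDist_eq_dist ⟨w1, hw2⟩ (f c)
  have he : ‖w - f c‖ = infDist (f c) (f '' ball c R)ᶜ := by rw [hd, dist_comm, dist_eq_norm]
  refine ⟨w, hw, ?_, ?_⟩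
  · rw [he]
    refine (infDist_le_dist_of_mem (show w1 ∈ (f '' ball c R)ᶜ from hw2)).trans ?_
    rw [dist_comm]
    exact (mem_ball.1 hw1).le
  · rw [he]
    exact ball_infDist_compl_subset

/-- growth on a small concentric disc -/
theorem kb_growth {f : ℂ → ℂ} {c : ℂ} {R : ℝ} (hR : 0 < R) (hf : DifferentiableOn ℂ f (ball c R))
    (hi : InjOn f (ball c R)) {z : ℂ} (hz : z ∈ ball c (R / 20)) :
    ‖f z - f c‖ ≤ 52 * (R * ‖deriv f c‖) := by
  have hc := mem_ball_self (x := c) hR
  obtain ⟨w, hw, hw1, hw2⟩ := kb_omit hR hf hi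
  have hne : ∀ z ∈ ball c R, w - f z ≠ 0 := fun z hz h => hw ⟨z, hz, (sub_eq_zero.1 h).symm⟩
  have hρ := hne c hc
  have hu : DifferentiableOn ℂ (fun z => (w - f z) / (w - f c)) (ball c R) :=
    (hf.const_sub w).div_const _
  obtain ⟨L, hL, hL0, hLe⟩ := kb_log hR hu (fun z hz => div_ne_zero (hne z hz) hρ) (div_self hρ)
  set G : ℂ → ℂ := fun z => Complex.exp (L z / 2) with hG
  have hGd : DifferentiableOn ℂ G (ball c R) := (hL.div_const 2).cexp
  have hG2 : ∀ z ∈ ball c R, G z ^ 2 = (w - f z) / (w - f c) := by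
    intro z hz
    rw [← hLe z hz, hG, sq, ← Complex.exp_add]
    simp
  have hGc : G c = 1 := by simp [hG, hL0]
  have hsq : ∀ x ∈ ball c R, ∀ y ∈ ball c R, G x ^ 2 = G y ^ 2 → x = y := by
    intro x hx y hy h
    rw [hG2 x hx, hG2 y hy, div_left_inj' hρ, sub_right_inj] at h
    exact hi hx hy h
  have hGi : InjOn G (ball c R) := fun x hx y hy h => hsq x hx y hy (by rw [h])
  have hdis : ∀ x ∈ ball c R, ∀ y ∈ ball c R, G x ≠ -G y := by
    intro x hx y hy h
    have := hsq x hx y hy (by rw [h]; ring)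
    subst this
    have h2 : G x = 0 := by linear_combination h / 2
    exact Complex.exp_ne_zero _ h2
  have hop := isOpen_image_of_injOn isOpen_ball hGd hGi isOpen_ball subset_rfl
  have hsub : ball (1 : ℂ) (1 / 4) ⊆ G '' ball c R := by
    refine (convex_ball (1 : ℂ) (1 / 4)).isPreconnected.subset_left_of_subset_union hop
      (hop.preimage continuous_neg) ?_ ?_ ⟨1, mem_ball_self (by norm_num), c, hc, hGc⟩
    · rw [Set.disjoint_left]
      rintro _ ⟨x, hx, rfl⟩ ⟨y, hy, h⟩
      exact hdis y hy x hx h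
    · intro v hv
      rw [mem_ball, dist_eq_norm] at hv
      have h1 : ‖v + 1‖ ≤ 9 / 4 := by
        have : v + 1 = (v - 1) + 2 := by ring
        rw [this]
        refine (norm_add_le _ _).trans ?_
        simp only [Complex.norm_ofNat]
        linarith
      have h2 : w - v ^ 2 * (w - f c) ∈ ball (f c) ‖w - f c‖ := by
        rw [mem_ball, dist_eq_norm]
        have : w - v ^ 2 * (w - f c) - f c = -((v - 1) * (v + 1)) * (w - f c) := by ring
        rw [this, norm_mul, norm_neg, norm_mul]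
        have h3 : ‖v - 1‖ * ‖v + 1‖ < 1 := by nlinarith [norm_nonneg (v - 1), norm_nonneg (v + 1)]
        nlinarith [norm_pos_iff.2 hρ]
      obtain ⟨x, hx, hfx⟩ := hw2 h2
      have h4 : G x ^ 2 = v ^ 2 := by
        rw [hG2 x hx, hfx]
        field_simp
        ring
      rcases sq_eq_sq_iff_eq_or_eq_neg.1 h4 with h | h
      · exact Or.inl ⟨x, hx, h⟩
      · exact Or.inr ⟨x, hx, h⟩
  have hfar : ∀ x ∈ ball c R, 1 / 4 ≤ ‖G x + 1‖ := by
    intro x hx
    by_contra h
    have : -G x ∈ ball (1 : ℂ) (1 / 4) := by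
      rw [mem_ball, dist_eq_norm, show -G x - 1 = -(G x + 1) by ring, norm_neg]
      exact not_le.1 h
    obtain ⟨y, hy, h2⟩ := hsub this
    exact hdis y hy x hx h2
  have hnz : ∀ x ∈ ball c R, G x + 1 ≠ 0 := fun x hx h => by
    have := hfar x hx
    rw [h, norm_zero] at this
    norm_num at this
  have hH : DifferentiableOn ℂ (fun x => (G x + 1)⁻¹) (ball c R) := (hGd.add_const 1).inv hnz
  have hzR : z ∈ ball c R := ball_subset_ball (by linarith) hz
  have hS := Complex.dist_le_div_mul_dist_of_mapsTo_ball (R₂ := 5) hH (fun x hx => by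
    rw [mem_closedBall, dist_eq_norm]
    refine (norm_sub_le _ _).trans ?_
    have h1 : ‖(G x + 1)⁻¹‖ ≤ 4 := by
      rw [norm_inv]
      exact inv_le_of_inv_le₀ (by norm_num) (by simpa using hfar x hx)
    have h2 : ‖(G c + 1)⁻¹‖ = 1 / 2 := by rw [hGc]; norm_num
    linarith) hzR
  have h5 : 5 / R * dist z c ≤ 1 / 4 := by
    have := (mem_ball.1 hz).le
    rw [div_mul_eq_mul_div, div_le_iff₀ hR]
    linarith
  have h6 : 1 / 4 ≤ ‖(G z + 1)⁻¹‖ := by
    rw [dist_eq_norm, hGc] at hS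
    have h2 : ‖((1 : ℂ) + 1)⁻¹‖ = 1 / 2 := by norm_num
    have := norm_sub_norm_le ((1 : ℂ) + 1)⁻¹ (G z + 1)⁻¹
    rw [norm_sub_rev] at this
    linarith
  have h7 : ‖G z + 1‖ ≤ 4 := by
    rw [norm_inv] at h6
    have := (le_inv_comm₀ (by norm_num) (norm_pos_iff.2 (hnz z hzR))).1 h6
    norm_num at this
    exact this
  have h8 : ‖G z‖ ≤ 5 := by
    have := norm_sub_le (G z + 1) 1
    simp only [add_sub_cancel_right, norm_one] at this
    linarith
  have h9 : f z - f c = (1 - G z ^ 2) * (w - f c) := by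
    rw [hG2 z hzR]
    field_simp
    ring
  have h10 : ‖1 - G z ^ 2‖ ≤ 26 := by
    refine (norm_sub_le _ _).trans ?_
    rw [norm_pow, norm_one]
    nlinarith [norm_nonneg (G z)]
  rw [h9, norm_mul]
  nlinarith [norm_nonneg (w - f c), norm_nonneg (1 - G z ^ 2)]

/-- upper Harnack bound for the derivative -/
theorem kb_deriv_le {f : ℂ → ℂ} {c : ℂ} {R : ℝ} (hR : 0 < R)
    (hf : DifferentiableOn ℂ f (ball c R)) (hi : InjOn f (ball c R)) {z : ℂ}
    (hz : z ∈ ball c (R / 40)) : ‖deriv f z‖ ≤ 4160 * ‖deriv f c‖ := by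
  have hsub : ball z (R / 40) ⊆ ball c (R / 20) := by
    intro x hx
    rw [mem_ball] at *
    linarith [dist_triangle x z c]
  have h := Complex.norm_deriv_le_div_of_mapsTo_ball (R₂ := 104 * (R * ‖deriv f c‖))
    (hf.mono (hsub.trans (ball_subset_ball (by linarith)))) (fun x hx => by
      rw [mem_closedBall, dist_eq_norm]
      have h1 := kb_growth hR hf hi (hsub hx)
      have h2 := kb_growth hR hf hi (ball_subset_ball (by linarith) hz)
      have := norm_sub_le (f x - f c) (f z - f c)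
      rw [show f x - f c - (f z - f c) = f x - f z by ring] at this
      linarith) (by positivity)
  refine h.trans_eq ?_
  field_simp
  ring

theorem kb_deriv2_le {f : ℂ → ℂ} {c : ℂ} {R : ℝ} (hR : 0 < R)
    (hf : DifferentiableOn ℂ f (ball c R)) (hi : InjOn f (ball c R)) :
    R * ‖deriv (deriv f) c‖ ≤ 166440 * ‖deriv f c‖ := by
  have h := Complex.norm_deriv_le_div_of_mapsTo_ball (R₂ := 4161 * ‖deriv f c‖)
    ((hf.deriv isOpen_ball).mono (ball_subset_ball (show R / 40 ≤ R by linarith))) (fun x hx => by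
      rw [mem_closedBall, dist_eq_norm]
      have h1 := kb_deriv_le hR hf hi hx
      have := norm_sub_le (deriv f x) (deriv f c)
      linarith) (by positivity)
  rw [le_div_iff₀ (by positivity)] at h
  linarith

theorem kb_ball_sub {z : ℂ} : ball z (1 - ‖z‖) ⊆ ball (0 : ℂ) 1 := by
  intro x hx
  rw [mem_ball, dist_eq_norm] at hx
  rw [mem_ball_zero_iff]
  linarith [norm_sub_norm_le x z]

/-- **Weak Koebe bound** on the unit disc. -/
theorem koebeB (f : ℂ → ℂ) (hf : DifferentiableOn ℂ f (ball 0 1)) (hi : InjOn f (ball 0 1))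
    (z : ℂ) (hz : z ∈ ball (0 : ℂ) 1) :
    (1 - ‖z‖ ^ 2) * ‖deriv (deriv f) z‖ ≤ 332880 * ‖deriv f z‖ := by
  rw [mem_ball_zero_iff] at hz
  have h := kb_deriv2_le (sub_pos.2 hz) (hf.mono kb_ball_sub) (hi.mono kb_ball_sub)
  have h1 : 1 - ‖z‖ ^ 2 ≤ 2 * (1 - ‖z‖) := by nlinarith
  nlinarith [norm_nonneg (deriv (deriv f) z)]

/-- **Harnack bound** for `‖f'‖` on Whitney discs (both directions). -/
theorem harnackB (f : ℂ → ℂ) (hf : DifferentiableOn ℂ f (ball 0 1)) (hi : InjOn f (ball 0 1))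
    (z : ℂ) (hz : z ∈ ball (0 : ℂ) 1) (w : ℂ) (hw : ‖w - z‖ < (1 - ‖z‖) / 80) :
    ‖deriv f w‖ ≤ 4160 * ‖deriv f z‖ ∧ ‖deriv f z‖ ≤ 4160 * ‖deriv f w‖ := by
  rw [mem_ball_zero_iff] at hz
  have h1 := norm_sub_norm_le w z
  have hw1 : ‖w‖ < 1 := by linarith
  constructor
  · exact kb_deriv_le (sub_pos.2 hz) (hf.mono kb_ball_sub) (hi.mono kb_ball_sub)
      (by rw [mem_ball, dist_eq_norm]; linarith)
  · exact kb_deriv_le (sub_pos.2 hw1) (hf.mono kb_ball_sub) (hi.mono kb_ball_sub)
      (by rw [mem_ball, dist_eq_norm, norm_sub_rev]; linarith)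

end Crest.Agent.R131
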