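import Mathlib

/-! # Row 131: the Morse pairing (elder rule) for a function on the disc without local maxima -/

set_option autoImplicit false

namespace Crest.Agent.R131

open Set Metric Filter Topology Complex
open scoped ComplexConjugate

/-- `p` is a saddle, `v` a descending and `w` an ascending direction -/
def IsSad (G : ℂ → ℝ) (p v w : ℂ) : Prop :=
  (conj v * w).im ≠ 0 ∧ ∀ᶠ s : ℝ in 𝓝[≠] 0, G (p + s * v) < G p ∧ G p < G (p + s * w)

theorem cc_nhds {S : Set ℂ} {x z : ℂ} (hz : z ∈ closure (connectedComponentIn S x))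
    (hS : S ∈ 𝓝 z) : connectedComponentIn S x ∈ 𝓝 z := by
  obtain ⟨r, hr, hb⟩ := Metric.mem_nhds_iff.1 hS
  obtain ⟨y, hy, hy'⟩ := mem_closure_iff_nhds.1 hz _ (ball_mem_nhds z hr)
  rw [connectedComponentIn_eq hy']
  exact mem_of_superset (ball_mem_nhds z hr)
    ((convex_ball z r).isPreconnected.subset_connectedComponentIn hy hb)

/-- `z - q` has a continuous logarithm on `K` -/
def HL (K : Set ℂ) (q : ℂ) : Prop := ∃ L : ℂ → ℂ, ContinuousOn L K ∧ ∀ z ∈ K, exp (L z) = z - q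

theorem HL.near {K : Set ℂ} {q q' : ℂ} (h : HL K q) (hq : ∀ z ∈ K, ‖q - q'‖ < ‖z - q‖) :
    HL K q' := by
  obtain ⟨L, hL, e⟩ := h
  have n0 : ∀ z ∈ K, z - q ≠ 0 := fun z hz => norm_pos_iff.1 ((norm_nonneg _).trans_lt (hq z hz))
  have sl : ∀ z ∈ K, 1 + (q - q') / (z - q) ∈ slitPlane := fun z hz =>
    mem_slitPlane_of_norm_lt_one (by
      rw [norm_div, div_lt_one (norm_pos_iff.2 (n0 z hz))]; exact hq z hz)
  refine ⟨fun z => L z + log (1 + (q - q') / (z - q)), hL.add (ContinuousOn.clog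
    (continuousOn_const.add (continuousOn_const.div (by fun_prop) n0)) sl), fun z hz => ?_⟩
  rw [exp_add, e z hz, exp_log (slitPlane_ne_zero (sl z hz))]
  field_simp [n0 z hz]
  ring

theorem HL_out {K : Set ℂ} (hK : K ⊆ ball 0 1) {q : ℂ} (hq : 1 ≤ ‖q‖) : HL K q := by
  have q0 : q ≠ 0 := norm_pos_iff.1 (one_pos.trans_le hq)
  have sl : ∀ z ∈ K, 1 + -z / q ∈ slitPlane := fun z hz =>
    mem_slitPlane_of_norm_lt_one (by
      rw [norm_div, norm_neg, div_lt_one (one_pos.trans_le hq)]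
      exact (mem_ball_zero_iff.1 (hK hz)).trans_le hq)
  refine ⟨fun z => log (-q) + log (1 + -z / q), continuousOn_const.add (ContinuousOn.clog
    (by fun_prop) sl), fun z hz => ?_⟩
  rw [exp_add, exp_log (neg_ne_zero.2 q0), exp_log (slitPlane_ne_zero (sl z hz))]
  field_simp
  ring

theorem HL.conn {K S : Set ℂ} (hK : IsClosed K) (hS : IsPreconnected S) (hSK : S ⊆ Kᶜ) {q q' : ℂ}
    (hq : q ∈ S) (hq' : q' ∈ S) (h : HL K q) : HL K q' := by
  refine hS.induction₂' (fun q q' => HL K q → HL K q') (fun x hx => ?_)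
    (fun _ _ _ _ _ _ h1 h2 h3 => h2 (h1 h3)) hq hq' h
  obtain ⟨r, hr, hb⟩ := Metric.isOpen_iff.1 hK.isOpen_compl x (hSK hx)
  have far : ∀ z ∈ K, r ≤ ‖z - x‖ := fun z hz =>
    not_lt.1 fun h => hb (mem_ball_iff_norm.2 h) hz
  filter_upwards [mem_nhdsWithin_of_mem_nhds (ball_mem_nhds x (half_pos hr))] with y hy
  have hy' : ‖y - x‖ < r / 2 := mem_ball_iff_norm.1 hy
  refine ⟨fun h => h.near fun z hz => ?_, fun h => h.near fun z hz => ?_⟩
  · rw [norm_sub_rev]; linarith [far z hz]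
  · have := norm_sub_le_norm_sub_add_norm_sub z y x
    linarith [far z hz]

/-- the jump of the argument -/
theorem cross {K C : Set ℂ} {p v u : ℂ} (hu : (conj v * u).im ≠ 0) (hp : p ∈ K)
    (hK : ∀ s : ℝ, s ≠ 0 → |s| ≤ 1 → p + s * u ∉ K) (h1 : HL K (p + u)) (h2 : HL K (p - u))
    (hC : IsPreconnected C) (hCK : C ⊆ K) (hpC : p ∉ C) (hv : ∀ᶠ s : ℝ in 𝓝[≠] 0, p + s * v ∈ C) :
    False := by
  obtain ⟨L₁, c1, e1⟩ := h1
  obtain ⟨L₂, c2, e2⟩ := h2
  set h : ℂ → ℂ := fun z => (z - (p + u)) / (z - (p - u)) with hh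
  have u0 : u ≠ 0 := by rintro rfl; simp at hu
  have n2 : ∀ z ∈ K, z - (p - u) ≠ 0 := fun z hz => by rw [← e2 z hz]; exact exp_ne_zero _
  have eh : ∀ z ∈ K, exp (L₁ z - L₂ z) = h z := fun z hz => by rw [exp_sub, e1 z hz, e2 z hz]
  have sl : ∀ z ∈ C, h z ∈ slitPlane := by
    intro z hz
    by_contra hn
    rw [mem_slitPlane_iff, not_or, not_lt, not_not] at hn
    set r := -(h z).re with hr
    have r0 : 0 ≤ r := by linarith [hn.1]
    have e : h z = -(r : ℂ) := Complex.ext (by simp [hr]) (by simp [hn.2])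
    have r1 : (1 + r : ℂ) ≠ 0 := by exact_mod_cast (by linarith : (1 + r : ℝ) ≠ 0)
    have e' : z = p + ((1 - r) / (1 + r) : ℝ) * u := by
      rw [hh, div_eq_iff (n2 z (hCK hz))] at e
      push_cast
      field_simp
      linear_combination e
    refine hK ((1 - r) / (1 + r)) (fun h0 => hpC ?_) ?_ (e' ▸ hCK hz)
    · rw [h0] at e'
      simpa [e'] using hz
    · rw [abs_div, div_le_one (abs_pos.2 (by linarith)), abs_of_pos (by linarith : 0 < 1 + r),
        abs_le]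
      constructor <;> linarith
  set f : ℂ → ℝ := fun z => (L₁ z - L₂ z).im - arg (h z) with hf
  have ch : ContinuousOn h K := ContinuousOn.div (by fun_prop) (by fun_prop) n2
  have cL : ContinuousOn (fun z => (L₁ z - L₂ z).im) K := continuous_im.comp_continuousOn (c1.sub c2)
  have cf : ContinuousOn f C := (cL.mono hCK).sub fun z hz =>
    (continuousAt_arg (sl z hz)).comp_continuousWithinAt ((ch.mono hCK) z hz)
  have sub : (f '' C).Subsingleton := by
    refine (countable_range fun n : ℤ => (n : ℝ) * (2 * Real.pi)).isTotallyDisconnected _ ?_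
      (hC.image f cf)
    rintro _ ⟨z, hz, rfl⟩
    obtain ⟨n, hn⟩ := exp_eq_exp_iff_exists_int.1
      ((eh z (hCK hz)).trans (exp_log (slitPlane_ne_zero (sl z hz))).symm)
    exact ⟨n, by simp only [hf]; rw [hn]; simp [log_im]⟩
  obtain ⟨s₀, hs₀⟩ := hv.exists
  have lim : ∀ (x : ℂ) (T : Set ℂ) (a : ℝ), (∀ᶠ s : ℝ in 𝓝[>] 0, p + s * x ∈ C) →
      Tendsto arg (𝓝[T] (-1)) (𝓝 a) → (∀ s : ℝ, 0 < s → p + s * x ∈ C → h (p + s * x) ∈ T) →
      (L₁ p - L₂ p).im - a = f (p + s₀ * v) := by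
    intro x T a hx ha hT
    have t0 : Tendsto (fun s : ℝ => p + s * x) (𝓝[>] 0) (𝓝[K] p) := by
      refine tendsto_nhdsWithin_iff.2 ⟨?_, hx.mono fun s hs => hCK hs⟩
      have : Continuous fun s : ℝ => p + s * x := by fun_prop
      simpa using (this.tendsto 0).mono_left nhdsWithin_le_nhds
    have hp1 : h p = -1 := by
      simp only [hh]
      rw [sub_add_cancel_left, sub_sub_cancel, neg_div, div_self u0]
    have t1 : Tendsto (fun s : ℝ => h (p + s * x)) (𝓝[>] 0) (𝓝[T] (-1)) := by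
      refine tendsto_nhdsWithin_iff.2 ⟨hp1 ▸ (ch p hp).tendsto.comp t0, ?_⟩
      filter_upwards [hx, self_mem_nhdsWithin] with s h1 h2 using hT s h2 h1
    refine tendsto_nhds_unique (((cL p hp).tendsto.comp t0).sub (ha.comp t1))
      (tendsto_const_nhds.congr' (hx.mono fun s hs => ?_))
    exact sub (mem_image_of_mem f hs₀) (mem_image_of_mem f hs)
  have im : ∀ (x : ℂ) (s : ℝ), (h (p + s * x)).im =
      -(2 * s * (conj x * u).im) / normSq (p + s * x - (p - u)) := by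
    intro x s
    simp only [hh, div_im, sub_im, add_im, mul_im, sub_re, add_re, mul_re, ofReal_re, ofReal_im,
      conj_re, conj_im]
    ring
  have pos : ∀ x : ℂ, (∀ᶠ s : ℝ in 𝓝[>] 0, p + s * x ∈ C) → 0 < (conj x * u).im →
      (L₁ p - L₂ p).im - -Real.pi = f (p + s₀ * v) := fun x hx h0 =>
    lim x _ _ hx (tendsto_arg_nhdsWithin_im_neg_of_re_neg_of_im_zero (by simp) (by simp))
      fun s hs hm => by
        change (h (p + s * x)).im < 0
        rw [im]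
        exact div_neg_of_neg_of_pos (by nlinarith) (normSq_pos.2 (n2 _ (hCK hm)))
  have neg : ∀ x : ℂ, (∀ᶠ s : ℝ in 𝓝[>] 0, p + s * x ∈ C) → (conj x * u).im < 0 →
      (L₁ p - L₂ p).im - Real.pi = f (p + s₀ * v) := fun x hx h0 =>
    lim x _ _ hx (tendsto_arg_nhdsWithin_im_nonneg_of_re_neg_of_im_zero (by simp) (by simp))
      fun s hs _ => by
        change 0 ≤ (h (p + s * x)).im
        rw [im]
        exact div_nonneg (by nlinarith) (normSq_nonneg _)
  have v1 : ∀ᶠ s : ℝ in 𝓝[>] 0, p + s * v ∈ C := hv.filter_mono (nhdsGT_le_nhdsNE 0)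
  have v2 : ∀ᶠ s : ℝ in 𝓝[>] 0, p + s * -v ∈ C := by
    have t : Tendsto (fun s : ℝ => -s) (𝓝[>] 0) (𝓝[≠] 0) := by
      refine tendsto_nhdsWithin_iff.2 ⟨?_, ?_⟩
      · simpa using (continuous_neg.tendsto (0 : ℝ)).mono_left nhdsWithin_le_nhds
      · filter_upwards [self_mem_nhdsWithin] with s hs using neg_ne_zero.2 (ne_of_gt hs)
    simpa using t.eventually hv
  have e : (conj (-v) * u).im = -(conj v * u).im := by rw [map_neg, neg_mul, neg_im]
  rcases lt_or_gt_of_ne hu with h0 | h0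
  · linarith [neg v v1 h0, pos (-v) v2 (by linarith), Real.pi_pos]
  · linarith [pos v v1 h0, neg (-v) v2 (by linarith), Real.pi_pos]

/-- the hypotheses on `G` -/
structure Good (G : ℂ → ℝ) : Prop where
  cont : ContinuousOn G (ball 0 1)
  cpt : ∀ l, IsCompact {z ∈ ball (0 : ℂ) 1 | G z ≤ l}
  nonneg : ∀ z ∈ ball (0 : ℂ) 1, 0 ≤ G z
  uniq : ∀ z ∈ ball (0 : ℂ) 1, ∀ y ∈ ball (0 : ℂ) 1, G z = 0 → G y = 0 → z = y
  nomax : ∀ z ∈ ball (0 : ℂ) 1, 0 < G z → ¬IsLocalMax G z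

variable {G : ℂ → ℝ}

/-- the complement of a sublevel set has no bounded component -/
theorem Good.hl (h : Good G) {l : ℝ} (hl : 0 ≤ l) {q : ℂ} (hq : l < G q) :
    HL {z ∈ ball (0 : ℂ) 1 | G z ≤ l} q := by
  set K := {z ∈ ball (0 : ℂ) 1 | G z ≤ l} with hK
  have cK : IsClosed K := (h.cpt l).isClosed
  have qK : q ∈ Kᶜ := fun hm => absurd hm.2 (not_le.2 hq)
  have qU := mem_connectedComponentIn qK
  by_cases ho : ∃ y ∈ connectedComponentIn Kᶜ q, 1 ≤ ‖y‖
  · obtain ⟨y, hy, hy'⟩ := ho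
    exact HL.conn cK isPreconnected_connectedComponentIn (connectedComponentIn_subset _ _) hy qU
      (HL_out (fun z hz => hz.1) hy')
  exfalso
  push Not at ho
  have sub : connectedComponentIn Kᶜ q ⊆ ball 0 1 := fun y hy => mem_ball_zero_iff.2 (ho y hy)
  have nb : ∀ z ∈ closure (connectedComponentIn Kᶜ q), z ∉ K → connectedComponentIn Kᶜ q ∈ 𝓝 z :=
    fun z hz hz' => cc_nhds hz (cK.isOpen_compl.mem_nhds hz')
  have sub' : closure (connectedComponentIn Kᶜ q) ⊆ ball 0 1 := fun z hz => by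
    by_cases hz' : z ∈ K
    · exact hz'.1
    · exact sub (mem_of_mem_nhds (nb z hz hz'))
  obtain ⟨z, hz, hm⟩ := (isBounded_ball.subset sub).isCompact_closure.exists_isMaxOn
    ⟨q, subset_closure qU⟩ (h.cont.mono sub')
  have h1 : l < G z := hq.trans_le (hm (subset_closure qU))
  exact h.nomax z (sub' hz) (hl.trans_lt h1) (hm.isLocalMax (mem_of_superset
    (nb z hz fun hk => absurd hk.2 (not_le.2 h1)) subset_closure))

/-- the order of birth -/
def old (G : ℂ → ℝ) (z y : ℂ) : Prop := G z < G y ∨ (G z = G y ∧ WellOrderingRel z y)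

theorem old.le {z y : ℂ} (h : old G z y) : G z ≤ G y := h.elim le_of_lt fun h => h.1.le

theorem old.irrefl (z : ℂ) : ¬old G z z := fun h => h.elim (lt_irrefl _) fun h => _root_.irrefl _ h.2

theorem old.trans {x y z : ℂ} (h : old G x y) (h' : old G y z) : old G x z := by
  rcases h with h | h
  · exact Or.inl (h.trans_le h'.le)
  rcases h' with h' | h'
  · exact Or.inl (h.1.trans_lt h')
  · exact Or.inr ⟨h.1.trans h'.1, _root_.trans h.2 h'.2⟩

theorem old.tri (G : ℂ → ℝ) {x y : ℂ} (h : x ≠ y) : old G x y ∨ old G y x := by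
  rcases lt_trichotomy (G x) (G y) with h1 | h1 | h1
  · exact Or.inl (Or.inl h1)
  · rcases trichotomous_of WellOrderingRel x y with h2 | h2 | h2
    · exact Or.inl (Or.inr ⟨h1, h2⟩)
    · exact absurd h2 h
    · exact Or.inr (Or.inr ⟨h1.symm, h2⟩)
  · exact Or.inr (Or.inl h1)

/-- the points older than `p` -/
def bef (G : ℂ → ℝ) (p : ℂ) : Set ℂ := {z ∈ ball (0 : ℂ) 1 | old G z p}

/-- every component has an eldest point, a local minimum -/
theorem Good.eldest (h : Good G) {p x : ℂ} (hx : x ∈ ball (0 : ℂ) 1) (hl : G x < G p) :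
    ∃ m ∈ connectedComponentIn (bef G p) x, IsLocalMin G m ∧ G m < G p ∧
      ∀ z ∈ connectedComponentIn (bef G p) x, z = m ∨ old G m z := by
  set A := connectedComponentIn (bef G p) x with hA
  have xA : x ∈ A := mem_connectedComponentIn ⟨hx, Or.inl hl⟩
  have sub : closure A ⊆ {z ∈ ball (0 : ℂ) 1 | G z ≤ G p} := closure_minimal
    (fun z hz => ⟨(connectedComponentIn_subset _ _ hz).1, (connectedComponentIn_subset _ _ hz).2.le⟩)
    (h.cpt _).isClosed
  have nb : ∀ z ∈ closure A, G z < G p → A ∈ 𝓝 z := fun z hz hz' => cc_nhds hz (by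
    have b := isOpen_ball.mem_nhds (sub hz).1
    filter_upwards [b, (h.cont.continuousAt b).eventually (gt_mem_nhds hz')] with y h1 h2
    exact ⟨h1, Or.inl h2⟩)
  obtain ⟨z₀, hz₀, hm⟩ := ((h.cpt _).of_isClosed_subset isClosed_closure sub).exists_isMinOn
    ⟨x, subset_closure xA⟩ (h.cont.mono fun z hz => (sub hz).1)
  have ne : {z ∈ A | ∀ y ∈ A, G z ≤ G y}.Nonempty := ⟨z₀, mem_of_mem_nhds
    (nb z₀ hz₀ (lt_of_le_of_lt (hm (subset_closure xA)) hl)), fun y hy => hm (subset_closure hy)⟩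
  obtain ⟨m, ⟨mA, hm1⟩, hm2⟩ := (IsWellFounded.wf (r := WellOrderingRel)).has_min _ ne
  have ml : G m < G p := (hm1 x xA).trans_lt hl
  refine ⟨m, mA, mem_of_superset (nb m (subset_closure mA) ml) fun y hy => hm1 y hy, ml,
    fun z hz => ?_⟩
  by_cases e : z = m
  · exact Or.inl e
  refine Or.inr ((old.tri G e).resolve_left fun ho => ?_)
  rcases ho with ho | ho
  · exact absurd (hm1 z hz) (not_le.2 ho)
  · exact hm2 z ⟨hz, fun y hy => ho.1.trans_le (hm1 y hy)⟩ ho.2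

theorem ray_sub {S : Set ℂ} {p v : ℂ} {ε : ℝ} (hε : 0 < ε)
    (h : ∀ s : ℝ, 0 < s → s ≤ ε → p + s * v ∈ S) {s : ℝ} (h0 : 0 < s) (h1 : s ≤ ε) :
    p + s * v ∈ connectedComponentIn S (p + ε * v) :=
  (isPreconnected_Ioc.image (fun s : ℝ => p + s * v) (by fun_prop)).subset_connectedComponentIn
    (mem_image_of_mem _ (⟨hε, le_rfl⟩ : ε ∈ Ioc 0 ε)) (by
      rintro _ ⟨t, ht, rfl⟩; exact h t ht.1 ht.2) (mem_image_of_mem _ (⟨h0, h1⟩ : s ∈ Ioc 0 ε))

theorem ray_closure {S : Set ℂ} {p v : ℂ} {ε : ℝ} (hε : 0 < ε)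
    (h : ∀ s : ℝ, 0 < s → s ≤ ε → p + s * v ∈ S) : p ∈ closure S := by
  have : Continuous fun s : ℝ => p + s * v := by fun_prop
  refine mem_closure_of_tendsto (f := fun s : ℝ => p + s * v) (b := 𝓝[>] 0)
    (by simpa using (this.tendsto 0).mono_left nhdsWithin_le_nhds) ?_
  filter_upwards [Ioc_mem_nhdsGT hε] with s hs using h s hs.1 hs.2

/-- one saddle -/
theorem Good.one (h : Good G) {p v w : ℂ} (hp : p ∈ ball (0 : ℂ) 1) (hs : IsSad G p v w) :
    ∃ (m m' x : ℂ) (C : Set ℂ), IsPreconnected C ∧ C ⊆ insert p (bef G p) ∧ p ∈ C ∧ m ∈ C ∧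
      m' ∈ C ∧ old G m' m ∧ IsLocalMin G m ∧ IsLocalMin G m' ∧ G m < G p ∧
      m ∈ connectedComponentIn (bef G p) x ∧
      (∀ z ∈ connectedComponentIn (bef G p) x, z = m ∨ old G m z) ∧
      ((∀ᶠ s : ℝ in 𝓝[>] 0, p + s * v ∈ connectedComponentIn (bef G p) x) ∨
        ∀ᶠ s : ℝ in 𝓝[>] 0, p + s * -v ∈ connectedComponentIn (bef G p) x) := by
  have cb : ∀ᶠ s : ℝ in 𝓝[≠] 0, p + s * v ∈ ball (0 : ℂ) 1 := by
    have : Continuous fun s : ℝ => p + s * v := by fun_prop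
    exact mem_nhdsWithin_of_mem_nhds ((isOpen_ball.preimage this).mem_nhds (by simpa using hp))
  obtain ⟨δ, hδ, hd⟩ := Metric.mem_nhdsWithin_iff.1 (cb.and hs.2)
  set ε := δ / 2 with hε
  have e0 : 0 < ε := half_pos hδ
  have all : ∀ s : ℝ, s ≠ 0 → |s| ≤ ε →
      p + s * v ∈ ball (0 : ℂ) 1 ∧ G (p + s * v) < G p ∧ G p < G (p + s * w) := fun s h0 h1 =>
    hd ⟨by rw [mem_ball_zero_iff, Real.norm_eq_abs]; linarith, h0⟩
  have r1 : ∀ s : ℝ, 0 < s → s ≤ ε → p + s * v ∈ bef G p := fun s h0 h1 =>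
    have := all s h0.ne' (by rwa [abs_of_pos h0]); ⟨this.1, Or.inl this.2.1⟩
  have r2' : ∀ s : ℝ, 0 < s → s ≤ ε → p + s * -v ∈ ball (0 : ℂ) 1 ∧ G (p + s * -v) < G p :=
    fun s h0 h1 => by
      have := all (-s) (neg_ne_zero.2 h0.ne') (by rwa [abs_neg, abs_of_pos h0])
      rw [ofReal_neg, neg_mul, ← mul_neg] at this
      exact ⟨this.1, this.2.1⟩
  have r2 : ∀ s : ℝ, 0 < s → s ≤ ε → p + s * -v ∈ bef G p := fun s h0 h1 =>
    ⟨(r2' s h0 h1).1, Or.inl (r2' s h0 h1).2⟩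
  have a0 := all ε e0.ne' (abs_of_pos e0).le
  obtain ⟨m₁, a1, b1, c1, d1⟩ := h.eldest a0.1 a0.2.1
  obtain ⟨m₂, a2, b2, c2, d2⟩ := h.eldest (r2' ε e0 le_rfl).1 (r2' ε e0 le_rfl).2
  set A₁ := connectedComponentIn (bef G p) (p + ε * v) with hA₁
  set A₂ := connectedComponentIn (bef G p) (p + ε * -v) with hA₂
  have s1 : ∀ s : ℝ, 0 < s → s ≤ ε → p + s * v ∈ A₁ := fun s => ray_sub e0 r1
  have s2 : ∀ s : ℝ, 0 < s → s ≤ ε → p + s * -v ∈ A₂ := fun s => ray_sub e0 r2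
  have ne : m₁ ≠ m₂ := by
    rintro rfl
    have e : A₂ = A₁ := (connectedComponentIn_eq a2).trans (connectedComponentIn_eq a1).symm
    have p0 := h.nonneg p hp
    refine cross (K := {z ∈ ball (0 : ℂ) 1 | G z ≤ G p}) (C := A₁) (p := p) (v := v) (u := ε * w)
      ?_ ⟨hp, le_rfl⟩ (fun s h0 h1 hm => ?_) (h.hl p0 a0.2.2) (h.hl p0 ?_)
      isPreconnected_connectedComponentIn (fun z hz => ⟨(connectedComponentIn_subset _ _ hz).1,
        (connectedComponentIn_subset _ _ hz).2.le⟩)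
      (fun hm => old.irrefl p (connectedComponentIn_subset _ _ hm).2) ?_
    · rw [mul_left_comm, im_ofReal_mul]
      exact mul_ne_zero e0.ne' hs.1
    · have := (all (s * ε) (mul_ne_zero h0 e0.ne') (by
        rw [abs_mul, abs_of_pos e0]; exact mul_le_of_le_one_left e0.le h1)).2.2
      rw [ofReal_mul, mul_assoc] at this
      exact absurd hm.2 (not_le.2 this)
    · have := (all (-ε) (neg_ne_zero.2 e0.ne') (by rw [abs_neg, abs_of_pos e0])).2.2
      rwa [ofReal_neg, neg_mul, ← sub_eq_add_neg] at this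
    · filter_upwards [mem_nhdsWithin_of_mem_nhds (Icc_mem_nhds (neg_lt_zero.2 e0) e0),
        self_mem_nhdsWithin] with s hs hs0
      rcases lt_or_gt_of_ne (show s ≠ 0 from hs0) with h0 | h0
      · have := s2 (-s) (neg_pos.2 h0) (by linarith [hs.1])
        rwa [ofReal_neg, neg_mul_neg, e] at this
      · exact s1 s h0 hs.2
  have pc : ∀ A : Set ℂ, IsPreconnected A → p ∈ closure A → IsPreconnected (insert p A) :=
    fun A hA hc => hA.subset_closure (subset_insert _ _) (insert_subset hc subset_closure)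
  have hC : IsPreconnected (insert p A₁ ∪ insert p A₂) :=
    (pc _ isPreconnected_connectedComponentIn (ray_closure e0 s1)).union p (mem_insert _ _)
      (mem_insert _ _) (pc _ isPreconnected_connectedComponentIn (ray_closure e0 s2))
  have hC' : insert p A₁ ∪ insert p A₂ ⊆ insert p (bef G p) := union_subset
    (insert_subset_insert (connectedComponentIn_subset _ _))
    (insert_subset_insert (connectedComponentIn_subset _ _))
  have m1 : m₁ ∈ insert p A₁ ∪ insert p A₂ := Or.inl (Or.inr a1)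
  have m2 : m₂ ∈ insert p A₁ ∪ insert p A₂ := Or.inr (Or.inr a2)
  rcases old.tri G ne with ho | ho
  · refine ⟨m₂, m₁, _, _, hC, hC', Or.inl (mem_insert _ _), m2, m1, ho, b2, b1, c2, a2, d2,
      Or.inr ?_⟩
    filter_upwards [Ioc_mem_nhdsGT e0] with s hs using s2 s hs.1 hs.2
  · refine ⟨m₁, m₂, _, _, hC, hC', Or.inl (mem_insert _ _), m1, m2, ho, b1, b2, c1, a1, d1,
      Or.inl ?_⟩
    filter_upwards [Ioc_mem_nhdsGT e0] with s hs using s1 s hs.1 hs.2

/-- MORSE PAIRING.  The last two clauses are the persistence data. -/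
theorem Good.pairing (h : Good G) {P : Set ℂ} {v w : ℂ → ℂ} (hP : P ⊆ ball 0 1)
    (hs : ∀ p ∈ P, IsSad G p (v p) (w p)) : ∃ φ : ℂ → ℂ, InjOn φ P ∧ ∀ p ∈ P,
      φ p ∈ ball (0 : ℂ) 1 ∧ IsLocalMin G (φ p) ∧ 0 < G (φ p) ∧ G (φ p) < G p ∧
      (∃ C ⊆ {z ∈ ball (0 : ℂ) 1 | G z ≤ G p}, IsPreconnected C ∧ p ∈ C ∧ φ p ∈ C ∧
        ∃ m ∈ C, m ≠ φ p ∧ IsLocalMin G m ∧ G m ≤ G (φ p)) ∧
      ∀ S₁ S₂ : Set ℂ, IsPreconnected S₁ → IsPreconnected S₂ →
        S₁ ⊆ {z ∈ ball (0 : ℂ) 1 | G z < G p} → S₂ ⊆ {z ∈ ball (0 : ℂ) 1 | G z < G p} →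
        (∀ᶠ s : ℝ in 𝓝[>] 0, p + s * v p ∈ S₁ ∧ p + s * -v p ∈ S₂) →
        (∀ z ∈ S₁, G (φ p) ≤ G z) ∨ ∀ z ∈ S₂, G (φ p) ≤ G z := by
  choose! φ m' x C c1 c2 c3 c4 c5 c6 c7 c8 c9 c10 c11 c12 using
    fun p (hp : p ∈ P) => h.one (hP hp) (hs p hp)
  have key : ∀ p ∈ P, ∀ p' ∈ P, old G p p' → φ p ≠ φ p' := by
    intro p hp p' hp' ho e
    have sub : C p ⊆ bef G p' := fun z hz => (c2 p hp hz).elim (fun e => e ▸ ⟨hP hp, ho⟩)
      fun hz => ⟨hz.1, hz.2.trans ho⟩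
    have h1 := (c1 p hp).subset_connectedComponentIn (c4 p hp) sub (c5 p hp)
    rw [e, ← connectedComponentIn_eq (c10 p' hp')] at h1
    have h2 := c6 p hp
    rw [e] at h2
    rcases c11 p' hp' _ h1 with h3 | h3
    · exact old.irrefl _ (h3 ▸ h2)
    · exact old.irrefl _ (h3.trans h2)
  refine ⟨φ, fun p hp p' hp' e => ?_, fun p hp => ?_⟩
  · by_contra ne
    exact (old.tri G ne).elim (fun ho => key p hp p' hp' ho e) fun ho => key p' hp' p hp ho e.symm
  have sub : C p ⊆ {z ∈ ball (0 : ℂ) 1 | G z ≤ G p} := fun z hz =>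
    (c2 p hp hz).elim (fun e => by rw [e]; exact ⟨hP hp, le_rfl⟩) fun hz => ⟨hz.1, hz.2.le⟩
  have ne : m' p ≠ φ p := fun e => old.irrefl _ (e ▸ c6 p hp)
  have b1 := (sub (c4 p hp)).1
  have b2 := (sub (c5 p hp)).1
  refine ⟨b1, c7 p hp, (h.nonneg _ b1).lt_of_ne' fun e => ne (h.uniq _ b2 _ b1
    (le_antisymm (e ▸ (c6 p hp).le) (h.nonneg _ b2)) e), c9 p hp,
    ⟨C p, sub, c1 p hp, c3 p hp, c4 p hp, m' p, c5 p hp, ne, c8 p hp, (c6 p hp).le⟩,
    fun S₁ S₂ h1 h2 h3 h4 h5 => ?_⟩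
  have fin : ∀ S : Set ℂ, IsPreconnected S → S ⊆ {z ∈ ball (0 : ℂ) 1 | G z < G p} →
      ∀ y ∈ S, y ∈ connectedComponentIn (bef G p) (x p) → ∀ z ∈ S, G (φ p) ≤ G z := by
    intro S hS hs y hy hy' z hz
    have := hS.subset_connectedComponentIn (F := bef G p) hy
      (fun z hz => ⟨(hs hz).1, Or.inl (hs hz).2⟩) hz
    rw [← connectedComponentIn_eq hy'] at this
    exact (c11 p hp z this).elim (fun e => e ▸ le_rfl) old.le
  rcases c12 p hp with h6 | h6
  · obtain ⟨s, hs1, hs2⟩ := (h5.and h6).exists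
    exact Or.inl (fin S₁ h1 h3 _ hs1.1 hs2)
  · obtain ⟨s, hs1, hs2⟩ := (h5.and h6).exists
    exact Or.inr (fin S₂ h2 h4 _ hs1.2 hs2)

end Crest.Agent.R131
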