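import Mathlib

/-! # Row 131: pairing of saddles with local minima (elder rule) -/

set_option autoImplicit false

noncomputable section

namespace Crest.Agent.R131.M48

open unitInterval _root_.Topology Set Filter Metric

/-- `L` is a continuous logarithm of `f`. -/
def IsLog (f L : I → ℂ) : Prop := Continuous L ∧ ∀ s, Complex.exp (L s) = f s

open Classical in
/-- The increment of a continuous logarithm. -/
def wind (f : I → ℂ) : ℂ := if h : ∃ L, IsLog f L then h.choose 1 - h.choose 0 else 0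

theorem IsLog.wind_eq {f L : I → ℂ} (h : IsLog f L) : wind f = L 1 - L 0 := by
  have h' : ∃ L, IsLog f L := ⟨L, h⟩
  rw [wind, dif_pos h']
  have h2 := h'.choose_spec
  have key : ∀ a, Complex.exp (h'.choose a - L a) = 1 := fun a => by
    rw [Complex.exp_sub, h2.2, ← h.2 a, div_self (Complex.exp_ne_zero _)]
  have := Complex.isCoveringMap_exp.const_of_comp (h2.1.sub h.1)
    (fun a a' => Subtype.ext ((key a).trans (key a').symm)) 1 0
  simp only [Pi.sub_apply] at this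
  linear_combination this

theorem exists_log {f : I → ℂ} (hf : Continuous f) (h0 : ∀ s, f s ≠ 0) : ∃ L, IsLog f L := by
  let G : C(ℝ, {z : ℂ // z ≠ 0}) :=
    ⟨fun q => ⟨f (projIcc 0 1 zero_le_one q), h0 _⟩, (hf.comp continuous_projIcc).subtype_mk _⟩
  obtain ⟨L, ⟨-, hL⟩, -⟩ := Complex.isCoveringMap_exp.existsUnique_continuousMap_lifts G 0
    (Complex.log (G 0)) (Subtype.ext (Complex.exp_log (G 0).2))
  refine ⟨fun q => L q, by fun_prop, fun q => ?_⟩
  have := congrArg Subtype.val (congrFun hL q)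
  simpa [G] using this

variable {γ : I → ℂ}

theorem wind_contAt (hγ : Continuous γ) {z₀ : ℂ} (h0 : z₀ ∉ range γ) :
    ContinuousAt (fun z => wind fun s => γ s - z) z₀ := by
  have hne : ∀ s, γ s - z₀ ≠ 0 := fun s h => h0 ⟨s, sub_eq_zero.1 h⟩
  obtain ⟨L, hL⟩ := exists_log (f := fun s => γ s - z₀) (hγ.sub continuous_const) hne
  obtain ⟨δ, hδ, hb⟩ := Metric.isOpen_iff.1 (isCompact_range hγ).isClosed.isOpen_compl z₀ h0
  have hfar : ∀ s, δ ≤ ‖γ s - z₀‖ := fun s => by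
    by_contra h
    exact hb (by rwa [mem_ball, dist_eq_norm, ← not_le]) ⟨s, rfl⟩
  have hsl : ∀ z ∈ ball z₀ δ, ∀ s, 1 + (z₀ - z) / (γ s - z₀) ∈ Complex.slitPlane := fun z hz s => by
    refine Complex.mem_slitPlane_of_norm_lt_one ?_
    rw [norm_div, div_lt_one (hδ.trans_le (hfar s)), norm_sub_rev]
    exact (mem_ball_iff_norm.1 hz).trans_le (hfar s)
  have he : (fun z => wind fun s => γ s - z) =ᶠ[𝓝 z₀] fun z =>
      (L 1 + Complex.log (1 + (z₀ - z) / (γ 1 - z₀))) -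
        (L 0 + Complex.log (1 + (z₀ - z) / (γ 0 - z₀))) := by
    filter_upwards [ball_mem_nhds z₀ hδ] with z hz
    refine IsLog.wind_eq (L := fun s => L s + Complex.log (1 + (z₀ - z) / (γ s - z₀))) ⟨?_, fun s => ?_⟩
    · exact hL.1.add ((continuous_const.add (continuous_const.div (hγ.sub continuous_const) hne)).clog
        (hsl z hz))
    · rw [Complex.exp_add, hL.2, Complex.exp_log (Complex.slitPlane_ne_zero (hsl z hz s))]
      have := hne s
      field_simp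
      ring
  refine ContinuousAt.congr ?_ he.symm
  have hc : ∀ s, ContinuousAt (fun z => Complex.log (1 + (z₀ - z) / (γ s - z₀))) z₀ := fun s =>
    ContinuousAt.clog (by fun_prop) (hsl z₀ (mem_ball_self hδ) s)
  exact (continuousAt_const.add (hc 1)).sub (continuousAt_const.add (hc 0))

/-- `2 π i` times the winding number of the path closed up by a segment -/
def wn (γ : I → ℂ) (z : ℂ) : ℂ :=
  wind (fun s => γ s - z) - Complex.log ((γ 1 - z) / (γ 0 - z))

theorem exp_wn (hγ : Continuous γ) {z : ℂ} (h0 : z ∉ range γ) : Complex.exp (wn γ z) = 1 := by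
  have hne : ∀ s, γ s - z ≠ 0 := fun s h => h0 ⟨s, sub_eq_zero.1 h⟩
  obtain ⟨L, hL⟩ := exists_log (f := fun s => γ s - z) (hγ.sub continuous_const) hne
  rw [wn, hL.wind_eq, Complex.exp_sub, Complex.exp_sub, hL.2, hL.2,
    Complex.exp_log (div_ne_zero (hne 1) (hne 0)), div_self (div_ne_zero (hne 1) (hne 0))]

theorem eq_zero_of_exp {x : ℂ} (h : Complex.exp x = 1) (h2 : |x.im| < 2 * Real.pi) : x = 0 := by
  obtain ⟨n, rfl⟩ := Complex.exp_eq_one_iff.1 h
  have e : ((n : ℂ) * (2 * Real.pi * Complex.I)).im = n * (2 * Real.pi) := by simp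
  have hp := Real.two_pi_pos
  rw [e, abs_mul, abs_of_pos hp, mul_lt_iff_lt_one_left hp, ← Int.cast_abs] at h2
  have h3 : |n| < 1 := by exact_mod_cast h2
  rw [Int.abs_lt_one_iff.1 h3]
  simp

theorem ratio_slit {a b z : ℂ} (h : z ∉ segment ℝ a b) : (b - z) / (a - z) ∈ Complex.slitPlane := by
  by_contra hs
  rw [Complex.mem_slitPlane_iff, not_or, not_lt, not_not] at hs
  have ha : a - z ≠ 0 := fun e => h (sub_eq_zero.1 e ▸ left_mem_segment ℝ a b)
  set l : ℝ := -((b - z) / (a - z)).re with hl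
  have e : (b - z) / (a - z) = -(l : ℂ) := Complex.ext (by simp [hl]) (by simp [hs.2])
  have hl0 : 0 ≤ l := by linarith [hs.1]
  rw [div_eq_iff ha] at e
  have h1 : (1 + l : ℂ) ≠ 0 := by exact_mod_cast (by linarith : (1 + l : ℝ) ≠ 0)
  refine h ⟨l / (1 + l), 1 / (1 + l), by positivity, by positivity, by field_simp; ring, ?_⟩
  simp only [Complex.real_smul, Complex.ofReal_div, Complex.ofReal_add, Complex.ofReal_one]
  field_simp
  linear_combination e

theorem wn_loc (hγ : Continuous γ) {z₀ : ℂ} (h0 : z₀ ∉ range γ) (h1 : z₀ ∉ segment ℝ (γ 0) (γ 1)) :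
    ∀ᶠ z in 𝓝 z₀, wn γ z = wn γ z₀ := by
  have ha : γ 0 - z₀ ≠ 0 := fun e => h0 ⟨0, sub_eq_zero.1 e⟩
  have hc : ContinuousAt (wn γ) z₀ := (wind_contAt hγ h0).sub
    (ContinuousAt.clog (ContinuousAt.div (by fun_prop) (by fun_prop) ha) (ratio_slit h1))
  filter_upwards [(isCompact_range hγ).isClosed.isOpen_compl.mem_nhds h0,
    Metric.tendsto_nhds.1 hc 1 one_pos] with z hz hd
  refine sub_eq_zero.1 (eq_zero_of_exp ?_ ?_)
  · rw [Complex.exp_sub, exp_wn hγ hz, exp_wn hγ h0, div_one]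
  · rw [dist_eq_norm] at hd
    linarith [Complex.abs_im_le_norm (wn γ z - wn γ z₀), Real.pi_gt_three]

theorem wn_far (hγ : Continuous γ) {z : ℂ} (h : ∀ s, ‖γ s‖ < ‖z‖) : wn γ z = 0 := by
  have hz : 0 < ‖z‖ := (norm_nonneg _).trans_lt (h 0)
  have hz' : z ≠ 0 := norm_pos_iff.1 hz
  have hn : ∀ s, ‖-(γ s / z)‖ < 1 := fun s => by rw [norm_neg, norm_div, div_lt_one hz]; exact h s
  have hsl : ∀ s, 1 + -(γ s / z) ∈ Complex.slitPlane := fun s =>
    Complex.mem_slitPlane_of_norm_lt_one (hn s)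
  have harg : ∀ s, |(1 + -(γ s / z)).arg| < Real.pi / 2 := fun s => by
    refine Complex.abs_arg_lt_pi_div_two_iff.2 (Or.inl ?_)
    have := (abs_le.1 ((Complex.abs_re_le_norm _).trans (hn s).le)).1
    have h2 := (abs_lt.1 ((Complex.abs_re_le_norm _).trans_lt (hn s))).1
    rw [Complex.add_re, Complex.one_re]
    linarith
  have hL : IsLog (fun s => γ s - z) fun s => Complex.log (-z) + Complex.log (1 + -(γ s / z)) := by
    refine ⟨continuous_const.add (Continuous.clog (by fun_prop) hsl), fun s => ?_⟩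
    rw [Complex.exp_add, Complex.exp_log (neg_ne_zero.2 hz'),
      Complex.exp_log (Complex.slitPlane_ne_zero (hsl s))]
    field_simp
    ring
  refine eq_zero_of_exp (exp_wn hγ ?_) ?_
  · rintro ⟨s, rfl⟩
    exact lt_irrefl _ (h s)
  · rw [wn, hL.wind_eq]
    simp only [Complex.sub_im, Complex.add_im, Complex.log_im]
    have h1 := abs_lt.1 (harg 1)
    have h2 := abs_lt.1 (harg 0)
    have h3 := abs_le.1 (Complex.abs_arg_le_pi ((γ 1 - z) / (γ 0 - z)))
    rw [abs_lt]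
    constructor <;> linarith [h1.1, h1.2, h2.1, h2.2, h3.1, h3.2]

theorem arg_ratio {k : ℂ} (hk : ‖k‖ < 1) :
    (0 < k.im → Real.pi / 2 < ((1 - k) / -(1 + k)).arg) ∧
      (k.im < 0 → ((1 - k) / -(1 + k)).arg < -(Real.pi / 2)) := by
  have hne : 1 + k ≠ 0 := Complex.slitPlane_ne_zero (Complex.mem_slitPlane_of_norm_lt_one hk)
  have hn : 0 < Complex.normSq (-(1 + k)) := Complex.normSq_pos.2 (neg_ne_zero.2 hne)
  have hk2 : k.re ^ 2 + k.im ^ 2 < 1 := by
    have := Complex.sq_norm k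
    rw [Complex.normSq_apply] at this
    nlinarith [norm_nonneg k]
  have hre : ((1 - k) / -(1 + k)).re < 0 := by
    rw [Complex.div_re, ← add_div]
    refine div_neg_of_neg_of_pos ?_ hn
    simp only [Complex.sub_re, Complex.one_re, Complex.neg_re, Complex.add_re, Complex.sub_im,
      Complex.one_im, Complex.neg_im, Complex.add_im]
    nlinarith
  have him : ((1 - k) / -(1 + k)).im = 2 * k.im / Complex.normSq (-(1 + k)) := by
    rw [Complex.div_im, ← sub_div]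
    simp only [Complex.sub_re, Complex.one_re, Complex.neg_re, Complex.add_re, Complex.sub_im,
      Complex.one_im, Complex.neg_im, Complex.add_im]
    ring
  have habs : Real.pi / 2 < |((1 - k) / -(1 + k)).arg| := by
    rw [← not_le, Complex.abs_arg_le_pi_div_two_iff, not_le]
    exact hre
  constructor
  · intro h
    rwa [abs_of_nonneg (Complex.arg_nonneg_iff.2 (by rw [him]; positivity))] at habs
  · intro h
    rw [abs_of_neg (Complex.arg_neg_iff.2 (by rw [him]; exact div_neg_of_neg_of_pos (by linarith) hn))]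
      at habs
    linarith

theorem wn_cross (hγ : Continuous γ) {p u w : ℂ} (hw : (w / u).im ≠ 0) (h0 : γ 0 = p - u)
    (h1 : γ 1 = p + u) (hp : p ∉ range γ) :
    ∀ᶠ t : ℝ in 𝓝[>] 0, wn γ (p + t * w) ≠ wn γ (p + (-t : ℝ) * w) := by
  have hu : u ≠ 0 := by rintro rfl; simp at hw
  have hc := Metric.tendsto_nhds.1 (wind_contAt hγ hp) 1 one_pos
  have ht : Tendsto (fun t : ℝ => p + t * w) (𝓝 0) (𝓝 p) := by
    have : Continuous fun t : ℝ => p + t * w := by fun_prop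
    simpa using this.tendsto 0
  have hn : Tendsto (fun t : ℝ => -t) (𝓝 0) (𝓝 0) := by simpa using continuous_neg.tendsto (0 : ℝ)
  have hk : ∀ᶠ t : ℝ in 𝓝 0, ‖(t : ℂ) * (w / u)‖ < 1 := by
    have : Continuous fun t : ℝ => ‖(t : ℂ) * (w / u)‖ := by fun_prop
    exact (this.tendsto 0).eventually_lt_const (by simp)
  have er : ∀ t : ℝ, (γ 1 - (p + t * w)) / (γ 0 - (p + t * w)) =
      (1 - t * (w / u)) / -(1 + t * (w / u)) := fun t => by
    rw [h0, h1, ← mul_div_mul_left (1 - t * (w / u)) _ hu]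
    congr 1 <;> field_simp <;> ring
  filter_upwards [nhdsWithin_le_nhds (ht.eventually hc), nhdsWithin_le_nhds (hn.eventually (ht.eventually hc)),
    nhdsWithin_le_nhds hk, nhdsWithin_le_nhds (hn.eventually hk), self_mem_nhdsWithin]
    with t a1 a2 a3 a4 (a5 : 0 < t) e
  have e' := congrArg Complex.im e
  rw [wn, wn, er, er] at e'
  simp only [Complex.sub_im, Complex.log_im] at e'
  rw [dist_eq_norm] at a1 a2
  have b1 := abs_lt.1 ((Complex.abs_im_le_norm _).trans_lt a1)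
  have b2 := abs_lt.1 ((Complex.abs_im_le_norm _).trans_lt a2)
  rw [Complex.sub_im] at b1 b2
  have c1 := arg_ratio a3
  have c2 := arg_ratio a4
  rw [Complex.im_ofReal_mul] at c1 c2
  have hpi := Real.pi_gt_three
  rcases hw.lt_or_gt with h | h
  · have d1 := c1.2 (mul_neg_of_pos_of_neg a5 h)
    have d2 := c2.1 (mul_pos_of_neg_of_neg (neg_neg_of_pos a5) h)
    linarith [b1.1, b1.2, b2.1, b2.2]
  · have d1 := c1.1 (mul_pos a5 h)
    have d2 := c2.2 (mul_neg_of_neg_of_pos (neg_neg_of_pos a5) h)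
    linarith [b1.1, b1.2, b2.1, b2.2]

/-- `p` is a saddle of `G`: `G` decreases along one line and increases along another one -/
def Saddle (G : ℂ → ℝ) (p : ℂ) : Prop :=
  ∃ v w : ℂ, (w / v).im ≠ 0 ∧ (∀ᶠ t : ℝ in 𝓝[≠] 0, G (p + t * v) < G p) ∧
    ∀ᶠ t : ℝ in 𝓝[≠] 0, G p < G (p + t * w)

variable {G : ℂ → ℝ}

theorem not_joined (hG : ContinuousOn G (ball 0 1))
    {p u w : ℂ} (hmax : ∀ z ∈ ball (0 : ℂ) 1, G p < G z → ¬ IsLocalMax G z) (hw : (w / u).im ≠ 0)
    (hu : ∀ z ∈ segment ℝ (p - u) (p + u), z ∈ ball (0 : ℂ) 1 ∧ G z ≤ G p)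
    (hup : ∀ᶠ t : ℝ in 𝓝[≠] 0, G p < G (p + t * w)) {V : Set ℂ}
    (hV : ∀ z ∈ V, z ∈ ball (0 : ℂ) 1 ∧ G z ≤ G p ∧ z ≠ p) : ¬ JoinedIn V (p - u) (p + u) := by
  rintro ⟨γ, hγ⟩
  have hc : Continuous γ := γ.continuous
  set K : Set ℂ := range γ ∪ segment ℝ (γ 0) (γ 1) with hK
  have hKc : IsCompact K := (isCompact_range hc).union (by
    rw [segment_eq_image]
    exact isCompact_Icc.image (by fun_prop))
  have hKs : ∀ z ∈ K, z ∈ ball (0 : ℂ) 1 ∧ G z ≤ G p := by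
    rintro z (⟨s, rfl⟩ | hz)
    · exact ⟨(hV _ (hγ s)).1, (hV _ (hγ s)).2.1⟩
    · rw [γ.source, γ.target] at hz
      exact hu z hz
  obtain ⟨z₁, hz₁, hm₁⟩ := hKc.exists_isMaxOn ⟨γ 0, Or.inl ⟨0, rfl⟩⟩ continuous_norm.continuousOn
  have hρ : ‖z₁‖ < 1 := mem_ball_zero_iff.1 (hKs z₁ hz₁).1
  set W : Set ℂ := {z | z ∉ K ∧ wn γ z ≠ 0} with hW
  have hloc : ∀ z, z ∉ K → ∀ᶠ y in 𝓝 z, y ∉ K ∧ wn γ y = wn γ z := fun z hz =>
    (show ∀ᶠ y in 𝓝 z, y ∉ K from hKc.isClosed.isOpen_compl.mem_nhds hz).and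
      (wn_loc hc (fun h => hz (Or.inl h)) fun h => hz (Or.inr h))
  have hWb : W ⊆ closedBall 0 ‖z₁‖ := fun z hz => by
    rw [mem_closedBall_zero_iff]
    by_contra h
    exact hz.2 (wn_far hc fun s => (hm₁ (Or.inl ⟨s, rfl⟩ : γ s ∈ K)).trans_lt (not_le.1 h))
  have hcl : closure W ⊆ closedBall 0 ‖z₁‖ := closure_minimal hWb isClosed_closedBall
  have hcb : closure W ⊆ ball 0 1 := hcl.trans (closedBall_subset_ball hρ)
  have hr : ∃ r ∈ W, G p < G r := by
    have hp : p ∉ range γ := by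
      rintro ⟨s, hs⟩
      exact (hV _ (hγ s)).2.2 hs
    have hn : Tendsto (fun t : ℝ => -t) (𝓝[>] 0) (𝓝[≠] 0) := by
      refine tendsto_nhdsWithin_iff.2 ⟨?_, ?_⟩
      · simpa using (continuous_neg.tendsto (0 : ℝ)).mono_left nhdsWithin_le_nhds
      · filter_upwards [self_mem_nhdsWithin] with t (ht : 0 < t)
        exact (neg_neg_of_pos ht).ne
    obtain ⟨t, a1, a2, a3⟩ := ((wn_cross hc hw γ.source γ.target hp).and
      ((hup.filter_mono (nhdsGT_le_nhdsNE (0 : ℝ))).and (hn.eventually hup))).exists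
    by_cases h : wn γ (p + t * w) = 0
    · exact ⟨_, ⟨fun hk => (hKs _ hk).2.not_gt a3, fun h' => a1 (h.trans h'.symm)⟩, a3⟩
    · exact ⟨_, ⟨fun hk => (hKs _ hk).2.not_gt a2, h⟩, a2⟩
  obtain ⟨r, hrW, hr⟩ := hr
  obtain ⟨z, hz, hm⟩ := ((isCompact_closedBall (0 : ℂ) ‖z₁‖).of_isClosed_subset isClosed_closure
    hcl).exists_isMaxOn ⟨r, subset_closure hrW⟩ (hG.mono hcb)
  have hz1 : G p < G z := hr.trans_le (hm (subset_closure hrW))
  have hzK : z ∉ K := fun hk => (hKs _ hk).2.not_gt hz1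
  obtain ⟨y, hy, hyW⟩ := mem_closure_iff_nhds.1 hz _ (hloc z hzK)
  refine hmax z (hcb hz) hz1 ?_
  filter_upwards [hloc z hzK] with x hx
  exact hm (subset_closure ⟨hx.1, by rw [hx.2, ← hy.2]; exact hyW.2⟩)

theorem exists_min (hG : ContinuousOn G (ball 0 1)) {s ρ : ℝ} (hρ : ρ < 1) {V : Set ℂ}
    (hV : V ⊆ closedBall 0 ρ) (hV' : ∀ z ∈ ball (0 : ℂ) 1, G z < s → z ∈ V) {x : ℂ} (hx : x ∈ V)
    (hs : G x < s) : ∃ z, JoinedIn V x z ∧ IsLocalMin G z ∧ G z < s := by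
  set A : Set ℂ := {z | JoinedIn V x z} with hA
  have hcl : closure A ⊆ closedBall 0 ρ :=
    closure_minimal (fun z hz => hV (JoinedIn.target_mem hz)) isClosed_closedBall
  have hcb : closure A ⊆ ball 0 1 := hcl.trans (closedBall_subset_ball hρ)
  have hxA : x ∈ A := JoinedIn.refl hx
  obtain ⟨z, hz, hm⟩ := ((isCompact_closedBall (0 : ℂ) ρ).of_isClosed_subset isClosed_closure
    hcl).exists_isMinOn ⟨x, subset_closure hxA⟩ (hG.mono hcb)
  have hz1 : G z < s := (hm (subset_closure hxA)).trans_lt hs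
  have hn : ∀ᶠ y in 𝓝 z, y ∈ V := by
    filter_upwards [isOpen_ball.mem_nhds (hcb hz),
      (hG.continuousAt (isOpen_ball.mem_nhds (hcb hz))).eventually_lt_const hz1] with y h1 h2
    exact hV' y h1 h2
  obtain ⟨δ, hδ, hb⟩ := Metric.mem_nhds_iff.1 hn
  obtain ⟨y, hy, hyA⟩ := mem_closure_iff_nhds.1 hz _ (ball_mem_nhds z hδ)
  have hall : ball z δ ⊆ A := fun y' hy' =>
    JoinedIn.trans hyA (((convex_ball z δ).isPathConnected ⟨y, hy⟩).joinedIn y hy y' hy' |>.mono hb)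
  refine ⟨z, hall (mem_ball_self hδ), ?_, hz1⟩
  filter_upwards [ball_mem_nhds z hδ] with y' hy'
  exact hm (subset_closure (hall hy'))

theorem Saddle.seg {p : ℂ} (hp : p ∈ ball (0 : ℂ) 1) (h : Saddle G p) : ∃ u w : ℂ, (w / u).im ≠ 0 ∧
    (∀ z ∈ segment ℝ (p - u) (p + u), z ∈ ball (0 : ℂ) 1 ∧ (z = p ∨ G z < G p)) ∧
      ∀ᶠ t : ℝ in 𝓝[≠] 0, G p < G (p + t * w) := by
  obtain ⟨v, w, h1, h2, h3⟩ := h
  have ht : Tendsto (fun t : ℝ => p + t * v) (𝓝 0) (𝓝 p) := by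
    have : Continuous fun t : ℝ => p + t * v := by fun_prop
    simpa using this.tendsto 0
  obtain ⟨δ, hδ, hb⟩ := Metric.eventually_nhds_iff.1
    ((ht.eventually (isOpen_ball.mem_nhds hp)).and (eventually_nhdsWithin_iff.1 h2))
  refine ⟨(δ / 2 : ℝ) * v, w, ?_, ?_, h3⟩
  · rw [mul_comm, ← div_div, Complex.div_ofReal_im]
    exact div_ne_zero h1 (half_pos hδ).ne'
  · rintro z ⟨a, b, ha, hb', hab, rfl⟩
    have e : a • (p - (δ / 2 : ℝ) * v) + b • (p + (δ / 2 : ℝ) * v) = p + ((b - a) * (δ / 2) : ℝ) * v := by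
      have : (a : ℂ) + b = 1 := by exact_mod_cast hab
      simp only [Complex.real_smul]
      push_cast
      linear_combination p * this
    have hd : dist ((b - a) * (δ / 2)) 0 < δ := by
      rw [Real.dist_eq, sub_zero, abs_lt]
      constructor <;> nlinarith
    rw [e]
    refine ⟨(hb hd).1, ?_⟩
    by_cases h0 : (b - a) * (δ / 2) = 0
    · left
      rw [h0]
      simp
    · exact Or.inr ((hb hd).2 h0)

/-- ELDER RULE.  If `G` is proper on the disc and has no local maximum above the level `m`, the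
saddles of level `≥ m` inject into the local minima other than one exempted point `z₀`, and the
level goes down. -/
theorem pairing (hG : ContinuousOn G (ball 0 1))
    (hc : ∀ s : ℝ, ∃ ρ < 1, ∀ z ∈ ball (0 : ℂ) 1, G z ≤ s → ‖z‖ ≤ ρ) {m : ℝ}
    (hmax : ∀ z ∈ ball (0 : ℂ) 1, m < G z → ¬ IsLocalMax G z) (z₀ : ℂ) :
    ∃ π : ℂ → ℂ, InjOn π {p | p ∈ ball (0 : ℂ) 1 ∧ m ≤ G p ∧ Saddle G p} ∧
      ∀ p ∈ ball (0 : ℂ) 1, m ≤ G p → Saddle G p →
        π p ∈ ball (0 : ℂ) 1 ∧ IsLocalMin G (π p) ∧ π p ≠ z₀ ∧ G (π p) < G p ∧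
          JoinedIn {z | z ∈ ball (0 : ℂ) 1 ∧ G z ≤ G p} p (π p) := by
  classical
  let rk : ℂ → WithBot Cardinal := fun z => if z = z₀ then ⊥ else (embeddingToCardinal z : Cardinal)
  have hrk : Function.Injective rk := fun a b h => by
    simp only [rk] at h
    split_ifs at h with h1 h2 h2
    · rw [h1, h2]
    · exact absurd h WithBot.bot_ne_coe
    · exact absurd h WithBot.coe_ne_bot
    · exact embeddingToCardinal.injective (WithBot.coe_injective h)
  have least : ∀ M : Set ℂ, M.Nonempty → ∃ e ∈ M, ∀ x ∈ M, rk e ≤ rk x := fun M hM => by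
    obtain ⟨_, ⟨e, he, rfl⟩, h⟩ := (wellFounded_lt (α := WithBot Cardinal)).has_min (rk '' M) (hM.image _)
    exact ⟨e, he, fun x hx => not_lt.1 (h _ ⟨x, hx, rfl⟩)⟩
  let V : ℂ → Set ℂ := fun p => {z | z ∈ ball (0 : ℂ) 1 ∧ (G z < G p ∨ (G z = G p ∧ rk z < rk p))}
  have hVle : ∀ {p z}, z ∈ V p → G z ≤ G p := fun h => h.2.elim le_of_lt fun h => h.1.le
  have hVt : ∀ {p p'}, p ∈ V p' → insert p (V p) ⊆ V p' := by
    rintro p p' h z (rfl | hz)
    · exact h
    · refine ⟨hz.1, ?_⟩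
      rcases hz.2 with h1 | h1 <;> rcases h.2 with h2 | h2
      · exact Or.inl (h1.trans h2)
      · exact Or.inl (h1.trans_eq h2.1)
      · exact Or.inl (h1.1.trans_lt h2)
      · exact Or.inr ⟨h1.1.trans h2.1, h1.2.trans h2.2⟩
  have main : ∀ p, ∃ a b : ℂ, p ∈ ball (0 : ℂ) 1 ∧ m ≤ G p ∧ Saddle G p →
      a ∈ ball (0 : ℂ) 1 ∧ IsLocalMin G a ∧ G a < G p ∧ IsLocalMin G b ∧ G b < G p ∧ rk b < rk a ∧
        JoinedIn (insert p (V p)) a b ∧ JoinedIn (insert p (V p)) p a ∧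
        ∀ z, JoinedIn (V p) a z → IsLocalMin G z → G z < G p → rk a ≤ rk z := by
    intro p
    by_cases hp : p ∈ ball (0 : ℂ) 1 ∧ m ≤ G p ∧ Saddle G p
    swap
    · exact ⟨0, 0, fun h => absurd h hp⟩
    obtain ⟨u, w, hw, hu, hup⟩ := hp.2.2.seg hp.1
    have hu0 : u ≠ 0 := by rintro rfl; simp at hw
    obtain ⟨ρ, hρ, hb⟩ := hc (G p)
    have hnj : ¬ JoinedIn (V p) (p - u) (p + u) :=
      not_joined hG (fun z hz h => hmax z hz (hp.2.1.trans_lt h)) hw
        (fun z hz => ⟨(hu z hz).1, (hu z hz).2.elim (fun e => by rw [e]) le_of_lt⟩) hup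
        fun z hz => ⟨hz.1, hVle hz, by
          rintro rfl
          exact hz.2.elim (lt_irrefl _) fun h => lt_irrefl _ h.2⟩
    have hex : ∀ x ∈ segment ℝ (p - u) (p + u), x ≠ p → ∃ e, (JoinedIn (V p) x e ∧ IsLocalMin G e ∧
        G e < G p) ∧ ∀ z, JoinedIn (V p) e z → IsLocalMin G z → G z < G p → rk e ≤ rk z := by
      intro x hx hxp
      have hx1 := (hu x hx).2.resolve_left hxp
      obtain ⟨e, he, hl⟩ := least {z | JoinedIn (V p) x z ∧ IsLocalMin G z ∧ G z < G p}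
        (exists_min hG hρ (fun z hz => mem_closedBall_zero_iff.2 (hb z hz.1 (hVle hz)))
          (fun z hz h => ⟨hz, Or.inl h⟩) ⟨(hu x hx).1, Or.inl hx1⟩ hx1)
      exact ⟨e, he, fun z h1 h2 h3 => hl z ⟨he.1.trans h1, h2, h3⟩⟩
    obtain ⟨e₁, ⟨j₁, m₁, l₁⟩, k₁⟩ := hex _ (left_mem_segment ℝ _ _) (by simpa using hu0)
    obtain ⟨e₂, ⟨j₂, m₂, l₂⟩, k₂⟩ := hex _ (right_mem_segment ℝ _ _) (by simpa using hu0)
    have hsub : segment ℝ (p - u) (p + u) ⊆ insert p (V p) := fun z hz =>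
      (hu z hz).2.elim Or.inl fun h => Or.inr ⟨(hu z hz).1, Or.inl h⟩
    have hpm : p ∈ segment ℝ (p - u) (p + u) := mem_segment_sub_add p u
    have hj₁ : JoinedIn (insert p (V p)) p e₁ := (JoinedIn.of_segment_subset
      (((convex_segment _ _).segment_subset hpm (left_mem_segment ℝ _ _)).trans hsub)).trans
        (j₁.mono (subset_insert _ _))
    have hj₂ : JoinedIn (insert p (V p)) p e₂ := (JoinedIn.of_segment_subset
      (((convex_segment _ _).segment_subset hpm (right_mem_segment ℝ _ _)).trans hsub)).trans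
        (j₂.mono (subset_insert _ _))
    have hj : JoinedIn (insert p (V p)) e₁ e₂ := hj₁.symm.trans hj₂
    have hne : rk e₁ ≠ rk e₂ := fun h => hnj (j₁.trans (hrk h ▸ j₂.symm))
    rcases hne.lt_or_gt with h | h
    · exact ⟨e₂, e₁, fun _ => ⟨j₂.target_mem.1, m₂, l₂, m₁, l₁, h, hj.symm, hj₂, k₂⟩⟩
    · exact ⟨e₁, e₂, fun _ => ⟨j₁.target_mem.1, m₁, l₁, m₂, l₂, h, hj, hj₁, k₁⟩⟩
  choose a b hab using main
  have key : ∀ p p', (p ∈ ball (0 : ℂ) 1 ∧ m ≤ G p ∧ Saddle G p) →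
      (p' ∈ ball (0 : ℂ) 1 ∧ m ≤ G p' ∧ Saddle G p') → a p = a p' → p ∉ V p' := by
    intro p p' hp hp' e hv
    obtain ⟨-, -, -, h1, h2, h3, h4, -⟩ := hab p hp
    obtain ⟨-, -, -, -, -, -, -, -, h5⟩ := hab p' hp'
    rw [e] at h3 h4
    exact (h5 _ (h4.mono (hVt hv)) h1 (h2.trans_le (hVle hv))).not_gt h3
  refine ⟨a, fun p hp p' hp' e => ?_, fun p h1 h2 h3 => ?_⟩
  · by_contra hne
    rcases lt_trichotomy (G p) (G p') with h | h | h
    · exact key p p' hp hp' e ⟨hp.1, Or.inl h⟩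
    · rcases (hrk.ne hne).lt_or_gt with h' | h'
      · exact key p p' hp hp' e ⟨hp.1, Or.inr ⟨h, h'⟩⟩
      · exact key p' p hp' hp e.symm ⟨hp'.1, Or.inr ⟨h.symm, h'⟩⟩
    · exact key p' p hp' hp e.symm ⟨hp'.1, Or.inl h⟩
  · obtain ⟨k1, k2, k3, -, -, k4, -, k5, -⟩ := hab p ⟨h1, h2, h3⟩
    refine ⟨k1, k2, fun e => ?_, k3, k5.mono ?_⟩
    · simp only [rk, e, if_true] at k4
      exact not_lt_bot k4
    · rintro z (rfl | hz)
      · exact ⟨h1, le_rfl⟩
      · exact ⟨hz.1, hVle hz⟩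

end Crest.Agent.R131.M48
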