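import Mathlib
import Crest.Agent.Lib.Complex.Univalent

/-!
Row 131: the range `-2 < t < 0` of S0176 from the integral means bound of S0178.
-/

set_option autoImplicit false

open MeasureTheory Set Metric
open scoped ENNReal

namespace Crest.Agent.R131

theorem neg_rpow_le (y l : ℝ≥0∞) (hl0 : l ≠ 0) (hlt : l ≠ ⊤) (s : ℝ) (hs0 : 0 ≤ s) (hs1 : s ≤ 1) :
    y ^ s ≤ l ^ s * (1 + y * l⁻¹) := by
  rcases le_total y l with h | h
  · calc y ^ s ≤ l ^ s := ENNReal.rpow_le_rpow h hs0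
      _ = l ^ s * 1 := (mul_one _).symm
      _ ≤ l ^ s * (1 + y * l⁻¹) := by gcongr; exact le_self_add
  · have h1 : 1 ≤ y * l⁻¹ := by
      calc (1 : ℝ≥0∞) = l * l⁻¹ := (ENNReal.mul_inv_cancel hl0 hlt).symm
        _ ≤ y * l⁻¹ := by gcongr
    have hy : y = l * (y * l⁻¹) := by
      rw [mul_comm y, ← mul_assoc, ENNReal.mul_inv_cancel hl0 hlt, one_mul]
    calc y ^ s = (l * (y * l⁻¹)) ^ s := by rw [← hy]
      _ = l ^ s * (y * l⁻¹) ^ s := ENNReal.mul_rpow_of_nonneg _ _ hs0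
      _ ≤ l ^ s * (y * l⁻¹) ^ (1 : ℝ) := by
          gcongr
      _ ≤ l ^ s * (1 + y * l⁻¹) := by
          rw [ENNReal.rpow_one]; gcongr; exact le_add_self

/-- polar coordinates on the annulus `1/2 ≤ |z| < 1`. -/
theorem neg_annulus_le (Φ : ℂ → ℝ≥0∞) (hΦ : Measurable Φ) :
    ∫⁻ z in {z : ℂ | 1 / 2 ≤ ‖z‖ ∧ ‖z‖ < 1}, Φ z ≤
      ∫⁻ r in Ico (1 / 2 : ℝ) 1, ∫⁻ θ in Ioc (-Real.pi) Real.pi,
        Φ ((r : ℂ) * Complex.exp ((θ : ℂ) * Complex.I)) := by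
  have hA : MeasurableSet {z : ℂ | 1 / 2 ≤ ‖z‖ ∧ ‖z‖ < 1} :=
    (measurableSet_le measurable_const measurable_norm).inter
      (measurableSet_lt measurable_norm measurable_const)
  have hm : Measurable fun p : ℝ × ℝ => Φ ((p.1 : ℂ) * Complex.exp ((p.2 : ℂ) * Complex.I)) := by
    apply hΦ.comp
    fun_prop
  rw [← lintegral_indicator hA, ← Complex.lintegral_comp_polarCoord_symm]
  rw [← setLIntegral_prod _ hm.aemeasurable, ← Measure.volume_eq_prod,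
    ← lintegral_indicator (measurableSet_Ico.prod measurableSet_Ioc),
    ← lintegral_indicator polarCoord.open_target.measurableSet]
  refine lintegral_mono fun p => ?_
  by_cases hp : p ∈ polarCoord.target
  · rw [indicator_of_mem hp]
    have hp' : p ∈ Set.Ioi (0 : ℝ) ×ˢ Set.Ioo (-Real.pi) Real.pi := hp
    obtain ⟨hp1, hp2⟩ := hp'
    have hp1' : 0 < p.1 := hp1
    have he : Complex.polarCoord.symm p = (p.1 : ℂ) * Complex.exp ((p.2 : ℂ) * Complex.I) := by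
      rw [Complex.polarCoord_symm_apply, Complex.exp_mul_I]; simp
    by_cases hz : Complex.polarCoord.symm p ∈ {z : ℂ | 1 / 2 ≤ ‖z‖ ∧ ‖z‖ < 1}
    · have hz' := hz
      simp only [mem_ofPred_eq, Complex.norm_polarCoord_symm, abs_of_pos hp1'] at hz'
      rw [indicator_of_mem hz, indicator_of_mem (show p ∈ Ico (1 / 2 : ℝ) 1 ×ˢ Ioc (-Real.pi) Real.pi
        from ⟨⟨hz'.1, hz'.2⟩, ⟨hp2.1, hp2.2.le⟩⟩), he, smul_eq_mul]
      calc ENNReal.ofReal p.1 * Φ _ ≤ 1 * Φ _ := by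
            gcongr
            exact ENNReal.ofReal_le_one.2 hz'.2.le
        _ = _ := one_mul _
    · rw [indicator_of_notMem hz]; simp
  · rw [indicator_of_notMem hp]; exact zero_le

theorem neg_inner (g : ℂ → ℂ) (hg : DifferentiableOn ℂ g (ball 0 1)) (hi : InjOn g (ball 0 1))
    (t : ℝ) : ∫⁻ w in closedBall (0 : ℂ) (1 / 2), ‖deriv g w‖ₑ ^ t < ⊤ := by
  have hsub : closedBall (0 : ℂ) (1 / 2) ⊆ ball 0 1 := closedBall_subset_ball (by norm_num)
  have hne : ∀ z ∈ closedBall (0 : ℂ) (1 / 2), deriv g z ≠ 0 := fun z hz =>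
    Crest.Agent.Lib.Complex.deriv_ne_zero_of_injOn isOpen_ball hg hi (hsub hz)
  have hc : ContinuousOn (fun z => ‖deriv g z‖ ^ t) (closedBall (0 : ℂ) (1 / 2)) := by
    refine ContinuousOn.rpow_const ?_ fun z hz => Or.inl (norm_ne_zero_iff.2 (hne z hz))
    exact ((hg.deriv isOpen_ball).continuousOn.mono hsub).norm
  obtain ⟨M, hM⟩ := (isCompact_closedBall (0 : ℂ) (1 / 2)).exists_bound_of_continuousOn hc
  calc ∫⁻ w in closedBall (0 : ℂ) (1 / 2), ‖deriv g w‖ₑ ^ t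
      ≤ ∫⁻ _ in closedBall (0 : ℂ) (1 / 2), ENNReal.ofReal M := by
        refine setLIntegral_mono' measurableSet_closedBall fun z hz => ?_
        rw [← ofReal_norm, ENNReal.ofReal_rpow_of_pos (norm_pos_iff.2 (hne z hz))]
        exact ENNReal.ofReal_le_ofReal ((le_abs_self _).trans (hM z hz))
    _ < ⊤ := by
        rw [setLIntegral_const]
        exact ENNReal.mul_lt_top ENNReal.ofReal_lt_top measure_closedBall_lt_top

theorem neg_radial (p : ℝ) (hp : -1 < p) :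
    ∫⁻ r in Ico (1 / 2 : ℝ) 1, ENNReal.ofReal ((1 - r) ^ p) < ⊤ := by
  have h1 : IntervalIntegrable (fun x : ℝ => x ^ p) volume (1 - 1 / 2) (1 - 1) :=
    intervalIntegral.intervalIntegrable_rpow' hp
  have h2 := h1.comp_sub_left 1
  simp only [sub_sub_cancel] at h2
  have h3 : IntegrableOn (fun x : ℝ => (1 - x) ^ p) (Ico (1 / 2 : ℝ) 1) volume :=
    (intervalIntegrable_iff_integrableOn_Ico_of_le (by norm_num)).1 h2
  exact lt_of_le_of_lt (lintegral_ofReal_le_lintegral_enorm _) h3.2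

theorem neg_part
    (h178 : ∀ ε : ℝ, 0 < ε → ∃ C : ℝ, ∀ f : ℂ → ℂ,
      DifferentiableOn ℂ f (Metric.ball 0 1) → Set.InjOn f (Metric.ball 0 1) → f 0 = 0 →
      deriv f 0 = 1 → ∀ r : ℝ, 1 / 2 ≤ r → r < 1 →
        ∫⁻ θ in Set.Ioc (-Real.pi) Real.pi,
            (‖deriv f ((r : ℂ) * Complex.exp ((θ : ℂ) * Complex.I))‖ₑ)⁻¹ ^ 2 ≤
          ENNReal.ofReal (2 * Real.pi * C * (1 - r) ^ (-1 - ε)))
    (f : ℂ → ℂ) (hf : DifferentiableOn ℂ f (Metric.ball 0 1))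
    (hinj : Set.InjOn f (Metric.ball 0 1)) (t : ℝ) (ht₁ : -2 < t) (ht₂ : t < 0) :
    ∫⁻ w in Metric.ball (0 : ℂ) 1, ‖deriv f w‖ₑ ^ t < ⊤ := by
  set s : ℝ := -t / 2 with hs
  have hs0 : 0 < s := by rw [hs]; linarith
  have hs1 : s < 1 := by rw [hs]; linarith
  set ε : ℝ := (1 - s) / (2 * s) with hε
  have hε0 : 0 < ε := div_pos (by linarith) (by linarith)
  have hεs : -1 < (-1 - ε) * s := by
    have : ε * s = (1 - s) / 2 := by rw [hε]; field_simp
    nlinarith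
  obtain ⟨C, hC⟩ := h178 ε hε0
  have ha : deriv f 0 ≠ 0 :=
    Crest.Agent.Lib.Complex.deriv_ne_zero_of_injOn isOpen_ball hf hinj (mem_ball_self one_pos)
  set a := deriv f 0 with hadef
  set g : ℂ → ℂ := fun z => (f z - f 0) / a with hgdef
  have hgd : ∀ z, deriv g z = deriv f z / a := fun z => by
    rw [hgdef]; simp only [deriv_div_const, deriv_sub_const]
  have hg : DifferentiableOn ℂ g (ball 0 1) := (hf.sub_const _).div_const _
  have hgi : InjOn g (ball 0 1) := fun x hx y hy hxy => by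
    apply hinj hx hy
    have := (div_left_inj' ha).1 hxy
    exact sub_left_inj.1 this
  have hg0 : g 0 = 0 := by simp [hgdef]
  have hg1 : deriv g 0 = 1 := by rw [hgd]; exact div_self ha
  have hfg : ∀ z, ‖deriv f z‖ₑ ^ t = ‖a‖ₑ ^ t * ‖deriv g z‖ₑ ^ t := fun z => by
    rw [← ENNReal.mul_rpow_of_ne_top enorm_ne_top enorm_ne_top, ← enorm_mul, hgd,
      mul_div_cancel₀ _ ha]
  have hat : ‖a‖ₑ ^ t ≠ ⊤ := by
    rw [← ofReal_norm, ENNReal.ofReal_rpow_of_pos (norm_pos_iff.2 ha)]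
    exact ENNReal.ofReal_ne_top
  simp_rw [hfg]
  rw [lintegral_const_mul' _ _ hat]
  refine ENNReal.mul_lt_top hat.lt_top ?_
  have hsub : ball (0 : ℂ) 1 ⊆ closedBall 0 (1 / 2) ∪ {z : ℂ | 1 / 2 ≤ ‖z‖ ∧ ‖z‖ < 1} := by
    intro z hz
    rw [mem_ball_zero_iff] at hz
    rcases le_total ‖z‖ (1 / 2) with h | h
    · left; exact mem_closedBall_zero_iff.2 h
    · right; exact ⟨h, hz⟩
  refine lt_of_le_of_lt ((lintegral_mono_set hsub).trans (lintegral_union_le _ _ _)) ?_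
  refine ENNReal.add_lt_top.2 ⟨neg_inner g hg hgi t, ?_⟩
  have hmeas : Measurable fun z => ‖deriv g z‖ₑ ^ t :=
    (measurable_deriv g).enorm.pow_const t
  refine lt_of_le_of_lt (neg_annulus_le _ hmeas) ?_
  set K : ℝ≥0∞ := ENNReal.ofReal (2 * Real.pi) + ENNReal.ofReal (2 * Real.pi * C) with hK
  have hKt : K ≠ ⊤ := ENNReal.add_ne_top.2 ⟨ENNReal.ofReal_ne_top, ENNReal.ofReal_ne_top⟩
  have key : ∀ r ∈ Ico (1 / 2 : ℝ) 1, ∫⁻ θ in Ioc (-Real.pi) Real.pi,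
      ‖deriv g ((r : ℂ) * Complex.exp ((θ : ℂ) * Complex.I))‖ₑ ^ t ≤
        K * ENNReal.ofReal ((1 - r) ^ ((-1 - ε) * s)) := by
    intro r hr
    have hr1 : 0 < 1 - r := by linarith [hr.2]
    have hlp : 0 < (1 - r) ^ (-1 - ε) := Real.rpow_pos_of_pos hr1 _
    set l : ℝ≥0∞ := ENNReal.ofReal ((1 - r) ^ (-1 - ε)) with hl
    have hl0 : l ≠ 0 := (ENNReal.ofReal_pos.2 hlp).ne'
    have hlt : l ≠ ⊤ := ENNReal.ofReal_ne_top
    have hls : l ^ s = ENNReal.ofReal ((1 - r) ^ ((-1 - ε) * s)) := by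
      rw [hl, ENNReal.ofReal_rpow_of_pos hlp, ← Real.rpow_mul hr1.le]
    have hlst : l ^ s ≠ ⊤ := by rw [hls]; exact ENNReal.ofReal_ne_top
    have hpt : ∀ x : ℝ≥0∞, x ^ t ≤ l ^ s * (1 + x⁻¹ ^ 2 * l⁻¹) := fun x => by
      have : x ^ t = (x⁻¹ ^ 2) ^ s := by
        rw [← ENNReal.rpow_natCast, ← ENNReal.rpow_mul, ENNReal.inv_rpow, ← ENNReal.rpow_neg]
        congr 1
        rw [hs]; push_cast; ring
      rw [this]
      exact neg_rpow_le _ _ hl0 hlt s hs0.le hs1.le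
    have hM := hC g hg hgi hg0 hg1 r hr.1 hr.2
    calc ∫⁻ θ in Ioc (-Real.pi) Real.pi,
          ‖deriv g ((r : ℂ) * Complex.exp ((θ : ℂ) * Complex.I))‖ₑ ^ t
        ≤ ∫⁻ θ in Ioc (-Real.pi) Real.pi, l ^ s *
          (1 + (‖deriv g ((r : ℂ) * Complex.exp ((θ : ℂ) * Complex.I))‖ₑ)⁻¹ ^ 2 * l⁻¹) :=
          lintegral_mono fun θ => hpt _
      _ = l ^ s * (ENNReal.ofReal (2 * Real.pi) + (∫⁻ θ in Ioc (-Real.pi) Real.pi,
          (‖deriv g ((r : ℂ) * Complex.exp ((θ : ℂ) * Complex.I))‖ₑ)⁻¹ ^ 2) * l⁻¹) := by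
          rw [lintegral_const_mul' _ _ hlst, lintegral_add_left measurable_const,
            lintegral_mul_const' _ _ (ENNReal.inv_ne_top.2 hl0), setLIntegral_const, one_mul,
            Real.volume_Ioc]
          congr 3
          ring
      _ ≤ l ^ s * (ENNReal.ofReal (2 * Real.pi) +
          ENNReal.ofReal (2 * Real.pi * C * (1 - r) ^ (-1 - ε)) * l⁻¹) := by gcongr
      _ = K * ENNReal.ofReal ((1 - r) ^ ((-1 - ε) * s)) := by
          rw [ENNReal.ofReal_mul' hlp.le, ← hl, mul_assoc, ENNReal.mul_inv_cancel hl0 hlt,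
            mul_one, hls, mul_comm]
  calc _ ≤ ∫⁻ r in Ico (1 / 2 : ℝ) 1, K * ENNReal.ofReal ((1 - r) ^ ((-1 - ε) * s)) :=
        setLIntegral_mono' measurableSet_Ico key
    _ < ⊤ := by
        rw [lintegral_const_mul' _ _ hKt]
        exact ENNReal.mul_lt_top hKt.lt_top (neg_radial _ hεs)

end Crest.Agent.R131
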