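import Crest.Agent.R131.Plenty
import Crest.Agent.R131.StDefs

/-! Row 131: `NonDeg` from `Plenty` (helper82). -/

set_option autoImplicit false

open MeasureTheory Set Metric
open scoped ENNReal

namespace Crest.Agent.R131

theorem nd82_small {c : ℝ} (hc0 : 0 ≤ c) (hc : c ≤ 1 / 2) {f : ℂ → ℂ} {z : ℂ} (hz : ‖z‖ < 1)
    (h0 : deriv f z ≠ 0)
    (h : (1 - ‖z‖ ^ 2) * ‖z‖ * ‖deriv (deriv f) z‖ ≤ 1 / 4 * ‖deriv f z‖) :
    ‖stX c f z‖ ≤ 3 / 4 := by
  have a := norm_nonneg z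
  have hd : 0 ≤ 1 - ‖z‖ ^ 2 := by nlinarith
  have p : 0 < ‖deriv f z‖ := norm_pos_iff.2 h0
  unfold stX
  refine (norm_add_le _ _).trans ?_
  rw [norm_mul, norm_mul, norm_div, Complex.norm_real, Complex.norm_real, Real.norm_eq_abs,
    Real.norm_eq_abs, abs_of_nonneg hd, abs_of_nonneg (by positivity)]
  have h1 : (1 - ‖z‖ ^ 2) * ‖z‖ * (‖deriv (deriv f) z‖ / ‖deriv f z‖) ≤ 1 / 4 := by
    rw [← mul_div_assoc, div_le_iff₀ p]; exact h
  nlinarith

/-- The set `{|X| ≤ 3/4}` carries a fixed fraction of the weight. -/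
theorem good82 (K : ℝ) : ∃ C : ℝ, 0 < C ∧ ∀ (b c : ℝ) (f : ℂ → ℂ), 0 ≤ b → b ≤ 2 → 0 ≤ c →
    c ≤ 1 / 2 → StOK K f →
      stM b f ≤ ENNReal.ofReal C *
        ∫⁻ z in {z : ℂ | ‖z‖ < 1 ∧ ‖stX c f z‖ ≤ 3 / 4}, ENNReal.ofReal (stW b f z) := by
  set K' : ℝ := max K 1 with hK'
  have hK1 : 1 ≤ K' := le_max_right _ _
  have hKK : K ≤ K' := le_max_left _ _
  obtain ⟨C, hC, hP⟩ := Pl.plenty (K := K') (μ := 1 / 4) (by norm_num) (by linarith)
  refine ⟨1 + 4 * K' * C, by positivity, fun b c f hb0 hb2 hc0 hc hf => ?_⟩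
  have hpre : ∀ z : ℂ, ‖z‖ < 1 → (1 - ‖z‖ ^ 2) * ‖deriv (deriv f) z‖ ≤ K' * ‖deriv f z‖ :=
    fun z hz => (hf.pre z (by simpa using hz)).trans
      (mul_le_mul_of_nonneg_right hKK (norm_nonneg _))
  have hne : ∀ z : ℂ, ‖z‖ < 1 → deriv f z ≠ 0 := fun z hz => hf.ne z (by simpa using hz)
  have h1 := hP (deriv f) (measurable_deriv f) (hf.diff.deriv isOpen_ball) hne hpre (b - 1)
    (abs_le.2 ⟨by linarith, by linarith⟩)
  set G : Set ℂ := {z : ℂ | ‖z‖ < 1 ∧ ‖stX c f z‖ ≤ 3 / 4} with hG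
  have hGm : MeasurableSet G :=
    (measurableSet_lt (measurable_norm (α := ℂ)) (measurable_const (a := (1 : ℝ)))).inter
      (measurableSet_le (measurable_stX c f).norm measurable_const)
  set I := ∫⁻ z in G, ENNReal.ofReal (stW b f z) with hI
  set W0 : ℂ → ℝ := fun z => ‖deriv f z‖⁻¹ * (1 - ‖z‖ ^ 2) ^ (b - 1) with hW0
  have hW0n : ∀ z : ℂ, ‖z‖ < 1 → 0 ≤ W0 z := fun z hz => by
    have : 0 ≤ 1 - ‖z‖ ^ 2 := by nlinarith [norm_nonneg z]
    simp only [hW0]; positivity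
  have hW0m : Measurable fun z => ENNReal.ofReal (W0 z) := by
    have h1 : Measurable (deriv f) := measurable_deriv f
    simp only [hW0]; fun_prop
  have h2 : ∫⁻ z in {z : ℂ | ‖z‖ < 1 ∧ (1 - ‖z‖ ^ 2) * ‖deriv (deriv f) z‖ ≤ 1 / 4 * ‖deriv f z‖},
      ENNReal.ofReal (W0 z) ≤ I := by
    have hsub : {z : ℂ | ‖z‖ < 1 ∧ (1 - ‖z‖ ^ 2) * ‖deriv (deriv f) z‖ ≤ 1 / 4 * ‖deriv f z‖} ⊆ G :=
      fun z hz => ⟨hz.1, nd82_small hc0 hc hz.1 (hne z hz.1) (by
        have e1 : 0 ≤ (1 - ‖z‖ ^ 2) * ‖deriv (deriv f) z‖ :=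
          mul_nonneg (by nlinarith [norm_nonneg z, hz.1]) (norm_nonneg _)
        nlinarith [hz.1, hz.2])⟩
    refine (lintegral_mono_set hsub).trans (setLIntegral_mono_ae' hGm ?_)
    have hae : ∀ᵐ z : ℂ, z ≠ 0 := by
      rw [ae_iff]; simp
    filter_upwards [hae] with z hz hzG
    refine ENNReal.ofReal_le_ofReal ?_
    have p : 0 < ‖z‖ := norm_pos_iff.2 hz
    have : 1 ≤ ‖z‖⁻¹ := (one_le_inv₀ p).2 hzG.1.le
    exact le_mul_of_one_le_right (hW0n z hzG.1) this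
  have h3 : stM b f ≤ I + ENNReal.ofReal (4 * K') * ∫⁻ z in ball (0 : ℂ) 1,
      ENNReal.ofReal (W0 z) := by
    rw [← lintegral_const_mul _ hW0m, hI, ← lintegral_indicator hGm]
    unfold stM
    refine le_trans ?_ (add_le_add (setLIntegral_le_lintegral (ball (0 : ℂ) 1) _) le_rfl)
    rw [← lintegral_add_right _ (hW0m.const_mul _)]
    refine setLIntegral_mono' measurableSet_ball fun z hz => ?_
    have hz1 : ‖z‖ < 1 := by simpa using hz
    by_cases hs : ‖z‖ * K' ≤ 1 / 4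
    · have : z ∈ G := ⟨hz1, nd82_small hc0 hc hz1 (hne z hz1) (by
        have e1 := mul_le_mul_of_nonneg_left (hpre z hz1) (norm_nonneg z)
        have e2 := mul_le_mul_of_nonneg_right hs (norm_nonneg (deriv f z))
        nlinarith)⟩
      rw [indicator_of_mem this]
      exact le_self_add
    · refine le_trans ?_ le_add_self
      rw [← ENNReal.ofReal_mul (by positivity)]
      refine ENNReal.ofReal_le_ofReal ?_
      have hs' : 1 / 4 < ‖z‖ * K' := lt_of_not_ge hs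
      have p : 0 < ‖z‖ := by
        by_contra hc'
        have : ‖z‖ = 0 := le_antisymm (le_of_not_gt hc') (norm_nonneg z)
        rw [this] at hs'; linarith
      have : ‖z‖⁻¹ ≤ 4 * K' := by rw [inv_eq_one_div, div_le_iff₀ p]; linarith
      have e := mul_le_mul_of_nonneg_left this (hW0n z hz1)
      unfold stW
      simp only [hW0] at e ⊢
      linarith
  calc stM b f ≤ I + ENNReal.ofReal (4 * K') * (ENNReal.ofReal C * I) :=
        h3.trans (add_le_add le_rfl (mul_le_mul_right (h1.trans (mul_le_mul_right h2 _)) _))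
    _ = ENNReal.ofReal (1 + 4 * K' * C) * I := by
        rw [ENNReal.ofReal_add zero_le_one (by positivity), ENNReal.ofReal_one, add_mul, one_mul,
          ENNReal.ofReal_mul (p := 4 * K') (by positivity), mul_assoc]

theorem nonDeg82 : NonDeg := by
  intro K
  obtain ⟨C, hC, h⟩ := good82 K
  refine ⟨7 / 16 / C, by positivity, 0, fun b c f hb0 hb1 hc0 hc1 hf _ => ?_⟩
  have h1 := h b c f (by linarith) (by linarith) (by linarith) hc1 hf
  have hGm : MeasurableSet {z : ℂ | ‖z‖ < 1 ∧ ‖stX c f z‖ ≤ 3 / 4} :=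
    (measurableSet_lt (measurable_norm (α := ℂ)) (measurable_const (a := (1 : ℝ)))).inter
      (measurableSet_le (measurable_stX c f).norm measurable_const)
  refine le_trans (mul_le_mul_right h1 _) (le_trans ?_ le_self_add)
  rw [← mul_assoc, ← ENNReal.ofReal_mul (by positivity), div_mul_cancel₀ _ hC.ne',
    ← lintegral_const_mul _ (measurable_stW b f).ennreal_ofReal]
  refine le_trans (setLIntegral_mono' hGm fun z hz => ?_)
    (lintegral_mono_set fun z hz => by simpa using hz.1)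
  rw [← ENNReal.ofReal_mul (by norm_num)]
  refine ENNReal.ofReal_le_ofReal (mul_le_mul_of_nonneg_right ?_
    (stW_nonneg b f (by simpa using hz.1)))
  have := norm_nonneg (stX c f z)
  refine le_trans ?_ (neg_le_abs _)
  nlinarith [hz.2]

end Crest.Agent.R131
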