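import Mathlib

/-!
# Row 131: the Morse pairing of saddles with minima (derivative-free)

For a proper continuous function without local maximum on the unit disc, every "saddle" is paired
injectively with a local minimum of lower level which is not the strict global minimum.
-/

set_option autoImplicit false

open Set Metric Filter Topology

namespace Crest.Agent.R131

/-- `z ↦ z - q` has a continuous logarithm on `S`. -/
def HasLog (S : Set ℂ) (q : ℂ) : Prop :=
  ∃ L : ℂ → ℂ, ContinuousOn L S ∧ ∀ z ∈ S, Complex.exp (L z) = z - q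

lemma constOn_of_exp_eq_one {X : Type*} [TopologicalSpace X] {s : Set X} (hs : IsPreconnected s)
    {g : X → ℂ} (hg : ContinuousOn g s) (h1 : ∀ a ∈ s, Complex.exp (g a) = 1) {a b : X}
    (ha : a ∈ s) (hb : b ∈ s) : g a = g b := by
  refine Complex.isCoveringMap_exp.constOn_of_comp hs hg ?_ ha hb
  intro x hx y hy
  apply Subtype.ext
  simp only [h1 x hx, h1 y hy]

lemma hasLog_of_near {S : Set ℂ} {q q' : ℂ} (h : ∀ z ∈ S, ‖q - q'‖ < ‖z - q‖) (hq : HasLog S q) :
    HasLog S q' := by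
  obtain ⟨L, hL, hLe⟩ := hq
  have hne : ∀ z ∈ S, z - q ≠ 0 := by
    intro z hz h0
    have := h z hz
    rw [h0, norm_zero] at this
    exact absurd this (not_lt.2 (norm_nonneg _))
  have hsl : ∀ z ∈ S, 1 + (q - q') / (z - q) ∈ Complex.slitPlane := by
    intro z hz
    apply Complex.mem_slitPlane_of_norm_lt_one
    rw [norm_div, div_lt_one (norm_pos_iff.2 (hne z hz))]
    exact h z hz
  refine ⟨fun z => L z + Complex.log (1 + (q - q') / (z - q)), ?_, ?_⟩
  · refine hL.add (ContinuousOn.clog ?_ hsl)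
    exact continuousOn_const.add (continuousOn_const.div (continuousOn_id.sub continuousOn_const) hne)
  · intro z hz
    rw [Complex.exp_add, hLe z hz, Complex.exp_log (Complex.slitPlane_ne_zero (hsl z hz))]
    have := hne z hz
    field_simp
    ring

lemma hasLog_far {S : Set ℂ} {q : ℂ} (h : ∀ z ∈ S, ‖z‖ < ‖q‖) : HasLog S q := by
  by_cases hq : q = 0
  · refine ⟨fun _ => 0, continuousOn_const, fun z hz => ?_⟩
    have := h z hz
    rw [hq, norm_zero] at this
    exact absurd this (not_lt.2 (norm_nonneg _))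
  have hsl : ∀ z ∈ S, 1 + (-z) / q ∈ Complex.slitPlane := by
    intro z hz
    apply Complex.mem_slitPlane_of_norm_lt_one
    rw [norm_div, norm_neg, div_lt_one (norm_pos_iff.2 hq)]
    exact h z hz
  refine ⟨fun z => Complex.log (-q) + Complex.log (1 + (-z) / q), ?_, ?_⟩
  · refine continuousOn_const.add (ContinuousOn.clog ?_ hsl)
    exact continuousOn_const.add (continuousOn_id.neg.div_const _)
  · intro z hz
    rw [Complex.exp_add, Complex.exp_log (neg_ne_zero.2 hq),
      Complex.exp_log (Complex.slitPlane_ne_zero (hsl z hz))]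
    field_simp
    ring

lemma eventually_hasLog_iff {S : Set ℂ} (hS : IsClosed S) {q : ℂ} (hq : q ∉ S) :
    ∀ᶠ q' in 𝓝 q, q' ∉ S ∧ (HasLog S q' ↔ HasLog S q) := by
  obtain ⟨ε, hε, hb⟩ := Metric.isOpen_iff.1 hS.isOpen_compl q hq
  have hfar : ∀ z ∈ S, ε ≤ ‖z - q‖ := by
    intro z hz
    by_contra hlt
    exact hb (by rw [mem_ball, dist_eq_norm]; exact not_le.1 hlt) hz
  filter_upwards [Metric.ball_mem_nhds q (half_pos hε)] with q' hq'
  rw [mem_ball, dist_eq_norm] at hq'
  refine ⟨fun h => ?_, fun h => ?_, fun h => ?_⟩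
  · have := hfar q' h
    linarith
  · refine hasLog_of_near (fun z hz => ?_) h
    have h1 := hfar z hz
    have h2 : ‖z - q‖ ≤ ‖z - q'‖ + ‖q' - q‖ := by
      calc ‖z - q‖ = ‖(z - q') + (q' - q)‖ := by ring_nf
        _ ≤ _ := norm_add_le _ _
    linarith
  · refine hasLog_of_near (fun z hz => ?_) h
    have h1 := hfar z hz
    rw [norm_sub_rev]
    linarith

/-- Maximum principle on the set of points without logarithm. -/
lemma exists_ge_of_not_hasLog {V : ℂ → ℝ} (hV : ContinuousOn V (ball 0 1))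
    (hnomax : ∀ z ∈ ball (0 : ℂ) 1, ¬ IsLocalMax V z) {S : Set ℂ} (hS : IsCompact S)
    (hS1 : S ⊆ ball 0 1) {q : ℂ} (hq : q ∉ S) (hn : ¬ HasLog S q) : ∃ z ∈ S, V q ≤ V z := by
  obtain ⟨r, hr1, hr⟩ : ∃ r < (1 : ℝ), S ⊆ closedBall 0 r := by
    obtain ⟨r, hr, hsub⟩ := exists_lt_subset_ball hS.isClosed hS1
    exact ⟨r, hr, hsub.trans ball_subset_closedBall⟩
  set B : Set ℂ := {x | x ∉ S ∧ ¬ HasLog S x} with hB
  have hBr : B ⊆ closedBall 0 r := by
    intro x hx
    by_contra hlt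
    apply hx.2
    apply hasLog_far
    intro z hz
    have h1 := hr hz
    rw [mem_closedBall, dist_zero_right] at h1 hlt
    linarith [not_le.1 hlt]
  have hcl : closure B ⊆ closedBall 0 r := closure_minimal hBr isClosed_closedBall
  have hclc : IsCompact (closure B) :=
    (isCompact_closedBall 0 r).of_isClosed_subset isClosed_closure hcl
  have hcl1 : closure B ⊆ ball 0 1 := hcl.trans (closedBall_subset_ball hr1)
  obtain ⟨z, hz, hmax⟩ := hclc.exists_isMaxOn ⟨q, subset_closure ⟨hq, hn⟩⟩ (hV.mono hcl1)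
  by_cases hzS : z ∈ S
  · exact ⟨z, hzS, hmax (subset_closure ⟨hq, hn⟩)⟩
  exfalso
  have hev := eventually_hasLog_iff hS.isClosed hzS
  have hzn : ¬ HasLog S z := by
    intro hz'
    have hfr := mem_closure_iff_frequently.1 hz
    obtain ⟨y, hy1, hy2⟩ := (hfr.and_eventually hev).exists
    exact hy1.2 (hy2.2.2 hz')
  apply hnomax z (hcl1 hz)
  filter_upwards [hev] with y hy
  exact hmax (subset_closure ⟨hy.1, fun h => hzn (hy.2.1 h)⟩)

/-- The two sides of a segment closed up by a connected set avoiding the midpoint are separated. -/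
lemma not_hasLog_both {K S : Set ℂ} (hKc : IsPreconnected K) (hKS : K ⊆ S) {p v a : ℂ}
    (hv : v ≠ 0) (ha : 0 < a.im) (h1 : p + v ∈ K) (h2 : p - v ∈ K)
    (hseg : ∀ s : ℝ, s ∈ Icc (-1 : ℝ) 1 → p + s * v ∈ S)
    (hsmall : ∀ z ∈ K, ‖a * v‖ < ‖z - p‖) :
    ¬ (HasLog S (p + a * v) ∧ HasLog S (p - a * v)) := by
  rintro ⟨⟨L1, hL1, e1⟩, ⟨L2, hL2, e2⟩⟩
  have hne : ∀ z ∈ K, z - p ≠ 0 := by
    intro z hz h0
    have := hsmall z hz
    rw [h0, norm_zero] at this
    exact absurd this (not_lt.2 (norm_nonneg _))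
  have hs1 : ∀ z ∈ K, 1 + (-(a * v)) / (z - p) ∈ Complex.slitPlane := by
    intro z hz
    apply Complex.mem_slitPlane_of_norm_lt_one
    rw [norm_div, norm_neg, div_lt_one (norm_pos_iff.2 (hne z hz))]
    exact hsmall z hz
  have hs2 : ∀ z ∈ K, 1 + (a * v) / (z - p) ∈ Complex.slitPlane := by
    intro z hz
    apply Complex.mem_slitPlane_of_norm_lt_one
    rw [norm_div, div_lt_one (norm_pos_iff.2 (hne z hz))]
    exact hsmall z hz
  have hK : (fun z => L1 z - L2 z - (Complex.log (1 + (-(a * v)) / (z - p)) -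
        Complex.log (1 + (a * v) / (z - p)))) (p + v) =
      (fun z => L1 z - L2 z - (Complex.log (1 + (-(a * v)) / (z - p)) -
        Complex.log (1 + (a * v) / (z - p)))) (p - v) := by
    refine constOn_of_exp_eq_one (g := fun z => L1 z - L2 z -
      (Complex.log (1 + (-(a * v)) / (z - p)) - Complex.log (1 + (a * v) / (z - p))))
      hKc ?_ ?_ h1 h2
    · refine ((hL1.mono hKS).sub (hL2.mono hKS)).sub
        ((ContinuousOn.clog ?_ hs1).sub (ContinuousOn.clog ?_ hs2))
      · exact continuousOn_const.add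
          (continuousOn_const.div (continuousOn_id.sub continuousOn_const) hne)
      · exact continuousOn_const.add
          (continuousOn_const.div (continuousOn_id.sub continuousOn_const) hne)
    · intro z hz
      have n1 := Complex.slitPlane_ne_zero (hs1 z hz)
      have n2 := Complex.slitPlane_ne_zero (hs2 z hz)
      have n3 := hne z hz
      have m1 : z - (p + a * v) = (z - p) * (1 + (-(a * v)) / (z - p)) := by
        field_simp
        ring
      have m2 : z - (p - a * v) = (z - p) * (1 + (a * v) / (z - p)) := by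
        field_simp
        ring
      simp only [Complex.exp_sub]
      rw [e1 z (hKS hz), e2 z (hKS hz), Complex.exp_log n1, Complex.exp_log n2, m1, m2,
        mul_div_mul_left _ _ n3, div_self (div_ne_zero n1 n2)]
  have ht1 : ∀ s : ℝ, (s : ℂ) - a ∈ Complex.slitPlane := by
    intro s
    right
    simp only [Complex.sub_im, Complex.ofReal_im]
    linarith
  have ht2 : ∀ s : ℝ, (s : ℂ) + a ∈ Complex.slitPlane := by
    intro s
    right
    simp only [Complex.add_im, Complex.ofReal_im]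
    linarith
  have hc : Continuous fun s : ℝ => p + (s : ℂ) * v := by fun_prop
  have hI : (fun s : ℝ => L1 (p + s * v) - L2 (p + s * v) -
        (Complex.log ((s : ℂ) - a) - Complex.log ((s : ℂ) + a))) 1 =
      (fun s : ℝ => L1 (p + s * v) - L2 (p + s * v) -
        (Complex.log ((s : ℂ) - a) - Complex.log ((s : ℂ) + a))) (-1) := by
    refine constOn_of_exp_eq_one (g := fun s : ℝ => L1 (p + s * v) - L2 (p + s * v) -
        (Complex.log ((s : ℂ) - a) - Complex.log ((s : ℂ) + a)))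
      (isPreconnected_Icc (a := (-1 : ℝ)) (b := 1)) ?_ ?_
      (a := 1) (b := -1) (by norm_num) (by norm_num)
    · refine ((hL1.comp hc.continuousOn hseg).sub (hL2.comp hc.continuousOn hseg)).sub
        ((ContinuousOn.clog ?_ fun s _ => ht1 s).sub (ContinuousOn.clog ?_ fun s _ => ht2 s))
      · fun_prop
      · fun_prop
    · intro s hs
      have n1 := Complex.slitPlane_ne_zero (ht1 s)
      have n2 := Complex.slitPlane_ne_zero (ht2 s)
      have m1 : p + s * v - (p + a * v) = v * (s - a) := by ring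
      have m2 : p + s * v - (p - a * v) = v * (s + a) := by ring
      simp only [Complex.exp_sub]
      rw [e1 _ (hseg s hs), e2 _ (hseg s hs), Complex.exp_log n1, Complex.exp_log n2, m1, m2]
      field_simp
  have a1 : 1 + (-(a * v)) / (p + v - p) = 1 - a := by
    rw [add_sub_cancel_left]; field_simp; ring
  have a2 : 1 + (a * v) / (p + v - p) = 1 + a := by
    rw [add_sub_cancel_left]; field_simp
  have a3 : 1 + (-(a * v)) / (p - v - p) = 1 + a := by
    rw [sub_sub_cancel_left]; field_simp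
  have a4 : 1 + (a * v) / (p - v - p) = 1 - a := by
    rw [sub_sub_cancel_left]; field_simp; ring
  simp only [a1, a2, a3, a4] at hK
  have b2 : p + ((-1 : ℝ) : ℂ) * v = p - v := by simp [sub_eq_add_neg]
  have b3 : ((-1 : ℝ) : ℂ) - a = -(1 + a) := by push_cast; ring
  have b4 : ((-1 : ℝ) : ℂ) + a = -(1 - a) := by push_cast; ring
  simp only [b2, b3, b4, Complex.ofReal_one, one_mul] at hI
  have key : Complex.log (1 - a) - Complex.log (1 + a) =
      Complex.log (-(1 - a)) - Complex.log (-(1 + a)) := by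
    linear_combination hI - hK
  have him := congrArg Complex.im key
  simp only [Complex.sub_im, Complex.log_im] at him
  rw [Complex.arg_neg_eq_arg_add_pi_of_im_neg (x := 1 - a) (by simp; linarith),
    Complex.arg_neg_eq_arg_sub_pi_of_im_pos (x := 1 + a) (by simpa using ha)] at him
  linarith [Real.pi_pos]

/-- The two descending sides of a saddle are not joined below its level away from the saddle. -/
lemma not_joinedIn_sides {V : ℂ → ℝ} (hV : ContinuousOn V (ball 0 1))
    (hnomax : ∀ z ∈ ball (0 : ℂ) 1, ¬ IsLocalMax V z) {p v w : ℂ}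
    (hseg : ∀ t : ℝ, |t| ≤ 1 → p + t * v ∈ ball (0 : ℂ) 1 ∧ V (p + t * v) ≤ V p)
    (hvw : (w / v).im ≠ 0) (hup : ∀ᶠ t : ℝ in 𝓝[≠] 0, V p < V (p + t * w))
    {X : Set ℂ} (hX : ∀ z ∈ X, z ∈ ball (0 : ℂ) 1 ∧ V z ≤ V p) (hpX : p ∉ X) :
    ¬ JoinedIn X (p + v) (p - v) := by
  rintro ⟨γ, hγ⟩
  have hv : v ≠ 0 := by
    intro h
    apply hvw
    simp [h]
  set K : Set ℂ := range γ with hKdef
  have hKcomp : IsCompact K := isCompact_range γ.continuous
  have hKc : IsPreconnected K := isPreconnected_range γ.continuous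
  have hKX : K ⊆ X := by
    rintro _ ⟨t, rfl⟩
    exact hγ t
  have hc : Continuous fun s : ℝ => p + (s : ℂ) * v := by fun_prop
  set S : Set ℂ := K ∪ (fun s : ℝ => p + (s : ℂ) * v) '' Icc (-1) 1 with hSdef
  have hS : IsCompact S := hKcomp.union (isCompact_Icc.image hc)
  have hSV : ∀ z ∈ S, z ∈ ball (0 : ℂ) 1 ∧ V z ≤ V p := by
    rintro z (hz | ⟨s, hs, rfl⟩)
    · exact hX z (hKX hz)
    · exact hseg s (abs_le.2 hs)
  have hpK : p ∉ K := fun h => hpX (hKX h)
  obtain ⟨ε, hε, hb⟩ := Metric.isOpen_iff.1 hKcomp.isClosed.isOpen_compl p hpK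
  have hfar : ∀ z ∈ K, ε ≤ ‖z - p‖ := by
    intro z hz
    by_contra hlt
    exact hb (by rw [mem_ball, dist_eq_norm]; exact not_le.1 hlt) hz
  -- a small `t` of the right sign
  have hsm : ∀ᶠ t : ℝ in 𝓝 0, ‖(t : ℂ) * w‖ < ε := by
    have hc2 : Continuous fun t : ℝ => ‖(t : ℂ) * w‖ := by fun_prop
    have := hc2.tendsto 0
    simp only [Complex.ofReal_zero, zero_mul, norm_zero] at this
    exact this.eventually (gt_mem_nhds hε)
  obtain ⟨η, hη, hηP⟩ : ∃ η > 0, ∀ t : ℝ, |t| < η → t ≠ 0 →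
      V p < V (p + t * w) ∧ ‖(t : ℂ) * w‖ < ε := by
    have h := hup.and (hsm.filter_mono nhdsWithin_le_nhds)
    rw [eventually_nhdsWithin_iff, Metric.eventually_nhds_iff] at h
    obtain ⟨η, hη, h⟩ := h
    exact ⟨η, hη, fun t ht ht0 => h (by simpa using ht) ht0⟩
  obtain ⟨t, ht, ht0, htim⟩ : ∃ t : ℝ, |t| < η ∧ t ≠ 0 ∧ 0 < ((t : ℂ) * (w / v)).im := by
    rcases lt_or_gt_of_ne hvw with h | h
    · refine ⟨-(η / 2), by rw [abs_neg, abs_of_pos (half_pos hη)]; linarith,
        by linarith [half_pos hη], ?_⟩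
      rw [Complex.im_ofReal_mul]
      nlinarith
    · refine ⟨η / 2, by rw [abs_of_pos (half_pos hη)]; linarith, by linarith [half_pos hη], ?_⟩
      rw [Complex.im_ofReal_mul]
      positivity
  have hav : (t : ℂ) * (w / v) * v = t * w := by field_simp
  have hP1 := hηP t ht ht0
  have hP2 := hηP (-t) (by rwa [abs_neg]) (neg_ne_zero.2 ht0)
  have hneg : p + ((-t : ℝ) : ℂ) * w = p - t * w := by push_cast; ring
  rw [hneg] at hP2
  have hnb := not_hasLog_both (K := K) (S := S) hKc subset_union_left (p := p) hv htim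
    ⟨0, γ.source⟩ ⟨1, γ.target⟩ (fun s hs => Or.inr ⟨s, hs, rfl⟩)
    (fun z hz => by rw [hav]; exact hP1.2.trans_le (hfar z hz))
  rw [hav] at hnb
  have hfin : ∀ q, V p < V q → HasLog S q := by
    intro q hq
    by_contra hn
    obtain ⟨z, hz, hle⟩ := exists_ge_of_not_hasLog hV hnomax hS (fun z hz => (hSV z hz).1)
      (q := q) (fun h => absurd (hSV q h).2 (not_le.2 hq)) hn
    linarith [(hSV z hz).2]
  exact hnb ⟨hfin _ hP1.1, hfin _ hP2.1⟩

/-- The elder order: by level, ties broken by a fixed well order. -/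
def Eld (V : ℂ → ℝ) (x y : ℂ) : Prop := V x < V y ∨ (V x = V y ∧ WellOrderingRel x y)

lemma Eld.le {V : ℂ → ℝ} {x y : ℂ} (h : Eld V x y) : V x ≤ V y := by
  rcases h with h | h
  · exact h.le
  · exact h.1.le

lemma Eld.asymm {V : ℂ → ℝ} {x y : ℂ} (h : Eld V x y) : ¬ Eld V y x := by
  rintro (h' | h')
  · exact absurd h.le (not_le.2 h')
  · rcases h with h | h
    · exact absurd h'.1.le (not_le.2 h)
    · exact _root_.asymm h.2 h'.2

lemma Eld.irrefl {V : ℂ → ℝ} (x : ℂ) : ¬ Eld V x x := fun h => h.asymm h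

lemma Eld.trichot (V : ℂ → ℝ) (x y : ℂ) : Eld V x y ∨ x = y ∨ Eld V y x := by
  rcases lt_trichotomy (V x) (V y) with h | h | h
  · exact Or.inl (Or.inl h)
  · rcases trichotomous_of (WellOrderingRel : ℂ → ℂ → Prop) x y with h' | h' | h'
    · exact Or.inl (Or.inr ⟨h, h'⟩)
    · exact Or.inr (Or.inl h')
    · exact Or.inr (Or.inr (Or.inr ⟨h.symm, h'⟩))
  · exact Or.inr (Or.inr (Or.inl h))

/-- The eldest point of a path component of a set between `{V < c}` and `{V ≤ c}`. -/
lemma exists_eldest {V : ℂ → ℝ} (hV : ContinuousOn V (ball 0 1))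
    (hprop : ∀ s : ℝ, ∃ r < (1 : ℝ), ∀ z ∈ ball (0 : ℂ) 1, V z ≤ s → ‖z‖ ≤ r)
    {X : Set ℂ} {c : ℝ} (hX : ∀ z ∈ X, z ∈ ball (0 : ℂ) 1 ∧ V z ≤ c)
    (hX' : ∀ z ∈ ball (0 : ℂ) 1, V z < c → z ∈ X) {x : ℂ} (hx : x ∈ ball (0 : ℂ) 1)
    (hxc : V x < c) :
    ∃ m, JoinedIn X x m ∧ IsLocalMin V m ∧ ∀ y, JoinedIn X x y → m = y ∨ Eld V m y := by
  obtain ⟨r, hr1, hr⟩ := hprop c
  set P : Set ℂ := {y | JoinedIn X x y} with hP
  have hxP : x ∈ P := JoinedIn.refl (hX' x hx hxc)
  have hPr : P ⊆ closedBall 0 r := by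
    intro y hy
    have := hX y (JoinedIn.target_mem hy)
    rw [mem_closedBall, dist_zero_right]
    exact hr y this.1 this.2
  have hcl : closure P ⊆ closedBall 0 r := closure_minimal hPr isClosed_closedBall
  have hclc : IsCompact (closure P) :=
    (isCompact_closedBall 0 r).of_isClosed_subset isClosed_closure hcl
  have hcl1 : closure P ⊆ ball 0 1 := hcl.trans (closedBall_subset_ball hr1)
  set M : Set ℂ := {m | m ∈ closure P ∧ IsMinOn V (closure P) m} with hM
  have hMne : M.Nonempty := by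
    obtain ⟨z, hz, hmin⟩ := hclc.exists_isMinOn ⟨x, subset_closure hxP⟩ (hV.mono hcl1)
    exact ⟨z, hz, hmin⟩
  have hwf : WellFounded (WellOrderingRel : ℂ → ℂ → Prop) := IsWellFounded.wf
  obtain ⟨m, ⟨hm, hmin⟩, hleast⟩ := hwf.has_min M hMne
  have hm1 : m ∈ ball (0 : ℂ) 1 := hcl1 hm
  have hmc : V m < c := lt_of_le_of_lt (hmin (subset_closure hxP)) hxc
  have hev : ∀ᶠ y in 𝓝 m, y ∈ X := by
    have h1 : ∀ᶠ y in 𝓝 m, V y < c :=
      (hV.continuousAt (isOpen_ball.mem_nhds hm1)).eventually (gt_mem_nhds hmc)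
    filter_upwards [h1, isOpen_ball.mem_nhds hm1] with y hy hy1
    exact hX' y hy1 hy
  obtain ⟨ε, hε, hball⟩ := Metric.eventually_nhds_iff_ball.1 hev
  obtain ⟨y0, hy0P, hy0⟩ := Metric.mem_closure_iff.1 hm ε hε
  have hy0b : y0 ∈ ball m ε := by rw [mem_ball, dist_comm]; exact hy0
  have hbP : ∀ y ∈ ball m ε, y ∈ P := by
    intro y hy
    exact JoinedIn.trans hy0P
      (JoinedIn.of_segment_subset (((convex_ball m ε).segment_subset hy0b hy).trans hball))
  refine ⟨m, hbP m (mem_ball_self hε), ?_, fun y hy => ?_⟩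
  · filter_upwards [Metric.ball_mem_nhds m hε] with y hy
    exact hmin (subset_closure (hbP y hy))
  · have hle : V m ≤ V y := hmin (subset_closure hy)
    rcases hle.lt_or_eq with h | h
    · exact Or.inr (Or.inl h)
    · have hyM : y ∈ M := ⟨subset_closure hy, fun z hz => by
        have : V m ≤ V z := hmin hz
        simpa [← h] using this⟩
      rcases trichotomous_of (WellOrderingRel : ℂ → ℂ → Prop) m y with h' | h' | h'
      · exact Or.inr (Or.inr ⟨h, h'⟩)
      · exact Or.inl h'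
      · exact absurd h' (hleast y hyM)

/-- **Morse pairing.** -/
theorem pairing (V : ℂ → ℝ) (hV : ContinuousOn V (ball 0 1))
    (hprop : ∀ s : ℝ, ∃ r < (1 : ℝ), ∀ z ∈ ball (0 : ℂ) 1, V z ≤ s → ‖z‖ ≤ r)
    (hnomax : ∀ z ∈ ball (0 : ℂ) 1, ¬ IsLocalMax V z) (Sad : Set ℂ) (v w : ℂ → ℂ)
    (hseg : ∀ p ∈ Sad, ∀ t : ℝ, |t| ≤ 1 →
      p + t * v p ∈ ball (0 : ℂ) 1 ∧ (t ≠ 0 → V (p + t * v p) < V p))
    (hvw : ∀ p ∈ Sad, (w p / v p).im ≠ 0)
    (hup : ∀ p ∈ Sad, ∀ᶠ t : ℝ in 𝓝[≠] 0, V p < V (p + t * w p)) :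
    ∃ φ : ℂ → ℂ, InjOn φ Sad ∧ ∀ p ∈ Sad, φ p ∈ ball (0 : ℂ) 1 ∧ IsLocalMin V (φ p) ∧
      V (φ p) ≤ max (V (p + v p)) (V (p - v p)) ∧
      JoinedIn {z | z ∈ ball (0 : ℂ) 1 ∧ V z ≤ V p} (φ p) p ∧
      ∃ m ∈ ball (0 : ℂ) 1, m ≠ φ p ∧ V m ≤ V (φ p) := by
  classical
  set X : ℂ → Set ℂ := fun p => {z | z ∈ ball (0 : ℂ) 1 ∧ Eld V z p} with hXdef
  have hX : ∀ p, ∀ z ∈ X p, z ∈ ball (0 : ℂ) 1 ∧ V z ≤ V p := fun p z hz => ⟨hz.1, hz.2.le⟩
  have hX' : ∀ p, ∀ z ∈ ball (0 : ℂ) 1, V z < V p → z ∈ X p := fun p z hz h => ⟨hz, Or.inl h⟩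
  have hpX : ∀ p, p ∉ X p := fun p h => Eld.irrefl p h.2
  have hplus : ∀ p ∈ Sad, p + v p ∈ ball (0 : ℂ) 1 ∧ V (p + v p) < V p := by
    intro p hp
    have := hseg p hp 1 (by norm_num)
    simp only [Complex.ofReal_one, one_mul] at this
    exact ⟨this.1, this.2 one_ne_zero⟩
  have hminus : ∀ p ∈ Sad, p - v p ∈ ball (0 : ℂ) 1 ∧ V (p - v p) < V p := by
    intro p hp
    have := hseg p hp (-1) (by norm_num)
    have e : p + ((-1 : ℝ) : ℂ) * v p = p - v p := by push_cast; ring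
    rw [e] at this
    exact ⟨this.1, this.2 (by norm_num)⟩
  have hseg' : ∀ p ∈ Sad, ∀ t : ℝ, |t| ≤ 1 →
      p + t * v p ∈ ball (0 : ℂ) 1 ∧ V (p + t * v p) ≤ V p := by
    intro p hp t ht
    refine ⟨(hseg p hp t ht).1, ?_⟩
    by_cases h0 : t = 0
    · simp [h0]
    · exact ((hseg p hp t ht).2 h0).le
  -- every set containing `X p` and `p` joins both sides with `p`
  have hside : ∀ p ∈ Sad, ∀ Y : Set ℂ, X p ⊆ Y → p ∈ Y →
      JoinedIn Y (p + v p) p ∧ JoinedIn Y (p - v p) p := by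
    intro p hp Y hY hpY
    have hmem : ∀ t : ℝ, |t| ≤ 1 → p + t * v p ∈ Y := by
      intro t ht
      by_cases h0 : t = 0
      · simpa [h0] using hpY
      · exact hY (hX' p _ (hseg p hp t ht).1 ((hseg p hp t ht).2 h0))
    constructor
    · apply JoinedIn.of_segment_subset
      rintro z ⟨a, b, ha, hb, hab, rfl⟩
      have : a • (p + v p) + b • p = p + (a : ℂ) * v p := by
        have hb' : b = 1 - a := by linarith
        rw [hb', Complex.real_smul, Complex.real_smul]; push_cast; ring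
      rw [this]
      exact hmem a (by rw [abs_of_nonneg ha]; linarith)
    · apply JoinedIn.of_segment_subset
      rintro z ⟨a, b, ha, hb, hab, rfl⟩
      have : a • (p - v p) + b • p = p + ((-a : ℝ) : ℂ) * v p := by
        have hb' : b = 1 - a := by linarith
        rw [hb', Complex.real_smul, Complex.real_smul]; push_cast; ring
      rw [this]
      exact hmem (-a) (by rw [abs_neg, abs_of_nonneg ha]; linarith)
  -- the data attached with a saddle
  have hdata : ∀ p ∈ Sad, ∃ m m' x x' : ℂ,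
      ((x = p + v p ∧ x' = p - v p) ∨ (x = p - v p ∧ x' = p + v p)) ∧
      JoinedIn (X p) x m ∧ JoinedIn (X p) x' m' ∧ IsLocalMin V m ∧ Eld V m' m ∧
      ∀ y, JoinedIn (X p) x y → m = y ∨ Eld V m y := by
    intro p hp
    obtain ⟨m1, j1, l1, e1⟩ := exists_eldest hV hprop (hX p) (hX' p) (hplus p hp).1 (hplus p hp).2
    obtain ⟨m2, j2, l2, e2⟩ :=
      exists_eldest hV hprop (hX p) (hX' p) (hminus p hp).1 (hminus p hp).2
    rcases Eld.trichot V m1 m2 with h | h | h
    · exact ⟨m2, m1, _, _, Or.inr ⟨rfl, rfl⟩, j2, j1, l2, h, e2⟩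
    · exfalso
      subst h
      exact not_joinedIn_sides hV hnomax (hseg' p hp) (hvw p hp) (hup p hp) (hX p) (hpX p)
        (j1.trans j2.symm)
    · exact ⟨m1, m2, _, _, Or.inl ⟨rfl, rfl⟩, j1, j2, l1, h, e1⟩
  choose! φ φ' x x' hxx j j' hloc held hmin using hdata
  have hjoin : ∀ p ∈ Sad, ∀ Y : Set ℂ, X p ⊆ Y → p ∈ Y →
      JoinedIn Y (φ p) p ∧ JoinedIn Y (φ' p) p := by
    intro p hp Y hY hpY
    obtain ⟨s1, s2⟩ := hside p hp Y hY hpY
    have k1 := (j p hp).mono hY
    have k2 := (j' p hp).mono hY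
    rcases hxx p hp with ⟨h1, h2⟩ | ⟨h1, h2⟩
    · rw [h1] at k1; rw [h2] at k2
      exact ⟨k1.symm.trans s1, k2.symm.trans s2⟩
    · rw [h1] at k1; rw [h2] at k2
      exact ⟨k1.symm.trans s2, k2.symm.trans s1⟩
  have hpball : ∀ p ∈ Sad, p ∈ ball (0 : ℂ) 1 := by
    intro p hp
    simpa using (hseg p hp 0 (by norm_num)).1
  have hinj : ∀ p ∈ Sad, ∀ q ∈ Sad, Eld V p q → φ p ≠ φ q := by
    intro p hp q hq hpq he
    have hsub : X p ⊆ X q := by
      rintro z ⟨hz, hz'⟩
      refine ⟨hz, ?_⟩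
      rcases hz' with h | h
      · exact Or.inl (h.trans_le hpq.le)
      · rcases hpq with h' | h'
        · exact Or.inl (h.1 ▸ h')
        · exact Or.inr ⟨h.1.trans h'.1, _root_.trans h.2 h'.2⟩
    obtain ⟨k1, k2⟩ := hjoin p hp (X q) hsub ⟨hpball p hp, hpq⟩
    have k3 : JoinedIn (X q) (x q) (φ' p) := by
      refine (j q hq).trans ?_
      rw [← he]
      exact k1.trans k2.symm
    have hE := held p hp
    rcases hmin q hq _ k3 with h | h
    · rw [← h, he] at hE
      exact Eld.irrefl _ hE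
    · rw [← he] at h
      exact hE.asymm h
  refine ⟨φ, ?_, fun p hp => ⟨?_, hloc p hp, ?_, ?_, φ' p, ?_, ?_, (held p hp).le⟩⟩
  · intro p hp q hq he
    rcases Eld.trichot V p q with h | h | h
    · exact absurd he (hinj p hp q hq h)
    · exact h
    · exact absurd he.symm (hinj q hq p hp h)
  · exact (hX p _ (j p hp).target_mem).1
  · have hle : V (φ p) ≤ V (x p) := by
      rcases hmin p hp (x p) (JoinedIn.refl (j p hp).source_mem) with h | h
      · rw [h]
      · exact h.le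
    rcases hxx p hp with ⟨h1, -⟩ | ⟨h1, -⟩
    · rw [h1] at hle; exact hle.trans (le_max_left _ _)
    · rw [h1] at hle; exact hle.trans (le_max_right _ _)
  · exact (hjoin p hp _ (fun z hz => hX p z hz) ⟨hpball p hp, le_rfl⟩).1
  · exact (hX p _ (j' p hp).target_mem).1
  · intro h
    have hE := held p hp
    rw [h] at hE
    exact Eld.irrefl _ hE

end Crest.Agent.R131
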