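import Mathlib

/-!
# Row 131: plenty of points with small `(1 - |z|²) |h z|` (helper82)

If `h` is holomorphic on the disc and `(1 - |z|²) |h z| ≤ K`, then every hyperbolic ball of a fixed
large radius holds a point with `(1 - |z|²) |h z| < μ` (maximum modulus for `1 / (h (1 - z̄₀ z)²)`);
by Schwarz and Tonelli the set `{(1 - |z|²) |h z| ≤ μ}` carries a fixed fraction of every weight
with a Harnack property.
-/

set_option autoImplicit false

open MeasureTheory Set Metric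
open scoped ENNReal

namespace Crest.Agent.R131.Pl

theorem mob_id (z0 z : ℂ) :
    ‖1 - (starRingEnd ℂ) z0 * z‖ ^ 2 = ‖z - z0‖ ^ 2 + (1 - ‖z0‖ ^ 2) * (1 - ‖z‖ ^ 2) := by
  simp only [Complex.sq_norm, Complex.normSq_apply]
  simp
  ring

theorem mob_lb {z0 z : ℂ} (h0 : ‖z0‖ ≤ 1) (h : ‖z‖ ≤ 1) :
    1 - ‖z0‖ ≤ ‖1 - (starRingEnd ℂ) z0 * z‖ ∧ 1 - ‖z‖ ≤ ‖1 - (starRingEnd ℂ) z0 * z‖ := by
  have h1 : ‖(1 : ℂ)‖ ≤ ‖1 - (starRingEnd ℂ) z0 * z‖ + ‖(starRingEnd ℂ) z0 * z‖ := by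
    have := norm_add_le (1 - (starRingEnd ℂ) z0 * z) ((starRingEnd ℂ) z0 * z)
    simpa using this
  rw [norm_mul, Complex.norm_conj, norm_one] at h1
  have a := norm_nonneg z0
  have b := norm_nonneg z
  constructor <;> nlinarith

/-- The point lemma. -/
theorem plenty_pt (h : ℂ → ℂ) (hh : DifferentiableOn ℂ h (ball 0 1)) {K μ lam : ℝ} (hμ : 0 < μ)
    (hl : 0 < lam) (hl1 : lam < 1) (hlK : lam * K < μ)
    (hb : ∀ z : ℂ, ‖z‖ < 1 → (1 - ‖z‖ ^ 2) * ‖h z‖ ≤ K) {z0 : ℂ} (h0 : ‖z0‖ < 1) :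
    ∃ z1 : ℂ, ‖z1‖ < 1 ∧ lam * ‖1 - (starRingEnd ℂ) z0 * z1‖ ^ 2 ≤ (1 - ‖z0‖ ^ 2) * (1 - ‖z1‖ ^ 2) ∧
      (1 - ‖z1‖ ^ 2) * ‖h z1‖ < μ := by
  by_contra hne
  push Not at hne
  have hd0 : 0 < 1 - ‖z0‖ ^ 2 := by nlinarith [norm_nonneg z0]
  set m : ℂ → ℂ := fun z => 1 - (starRingEnd ℂ) z0 * z with hm
  have hmc : Continuous m := by fun_prop
  set φ : ℂ → ℝ := fun z => (1 - ‖z0‖ ^ 2) * (1 - ‖z‖ ^ 2) - lam * ‖m z‖ ^ 2 with hφ
  have hφc : Continuous φ := by fun_prop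
  set U : Set ℂ := {z | 0 < φ z} with hU
  have hUo : IsOpen U := isOpen_lt continuous_const hφc
  have hcl : closure U ⊆ {z | 0 ≤ φ z} := closure_lt_subset_le continuous_const hφc
  have hfr : frontier U ⊆ {z | 0 = φ z} := frontier_lt_subset_eq continuous_const hφc
  have hin : ∀ z, 0 ≤ φ z → ‖z‖ < 1 ∧ 0 < ‖m z‖ := by
    intro z hz
    simp only [hφ] at hz
    have h1 : ‖z‖ ≤ 1 := by
      by_contra hc
      push Not at hc
      have : 1 - ‖z‖ ^ 2 < 0 := by nlinarith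
      have := mul_neg_of_pos_of_neg hd0 this
      have := mul_nonneg hl.le (sq_nonneg ‖m z‖)
      linarith
    have h2 := (mob_lb h0.le h1).1
    have h3 : 0 < ‖m z‖ := by simp only [hm]; linarith
    refine ⟨?_, h3⟩
    have : 0 < lam * ‖m z‖ ^ 2 := by positivity
    have h4 : 0 < 1 - ‖z‖ ^ 2 := by
      by_contra hc
      push Not at hc
      have := mul_nonpos_of_nonneg_of_nonpos hd0.le hc
      linarith
    nlinarith [norm_nonneg z]
  have hlow : ∀ z, 0 ≤ φ z → μ ≤ (1 - ‖z‖ ^ 2) * ‖h z‖ := fun z hz =>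
    hne z (hin z hz).1 (by simp only [hφ, hm] at hz; linarith)
  have hh0 : ∀ z, 0 ≤ φ z → h z ≠ 0 := by
    intro z hz e
    have := hlow z hz
    rw [e] at this
    simp at this
    linarith
  set q : ℂ → ℂ := fun z => (h z * m z ^ 2)⁻¹ with hq
  have hqd : DifferentiableOn ℂ q (closure U) := by
    intro z hz
    have hz' := hcl hz
    have e1 : DifferentiableAt ℂ h z :=
      hh.differentiableAt (isOpen_ball.mem_nhds (by simpa using (hin z hz').1))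
    have e2 : DifferentiableAt ℂ m z := by simp only [hm]; fun_prop
    have e3 : h z * m z ^ 2 ≠ 0 :=
      mul_ne_zero (hh0 z hz') (pow_ne_zero _ (norm_pos_iff.1 (hin z hz').2))
    exact ((e1.mul (e2.pow 2)).inv e3).differentiableWithinAt
  have hbd : Bornology.IsBounded U :=
    (isBounded_ball (x := (0 : ℂ)) (r := 1)).subset fun z hz => by
      simpa using (hin z (le_of_lt hz)).1
  have hφ0 : 0 < φ z0 := by
    have := mob_id z0 z0
    simp only [hφ, hm, this]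
    simp only [sub_self, norm_zero]
    nlinarith [mul_pos hd0 hd0]
  have key := Complex.norm_le_of_forall_mem_frontier_norm_le hbd hqd.diffContOnCl
    (C := lam / (μ * (1 - ‖z0‖ ^ 2))) (z := z0) (fun z hz => by
      have e : 0 = φ z := hfr hz
      have h1 := hlow z e.le
      obtain ⟨h2, h3⟩ := hin z e.le
      simp only [hq, norm_inv, norm_mul, norm_pow]
      have h4 : 0 < ‖h z‖ := norm_pos_iff.2 (hh0 z e.le)
      rw [inv_eq_one_div, div_le_div_iff₀ (by positivity) (by positivity)]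
      simp only [hφ] at e
      have : lam * (‖h z‖ * ‖m z‖ ^ 2) = (1 - ‖z0‖ ^ 2) * ((1 - ‖z‖ ^ 2) * ‖h z‖) := by
        have : lam * ‖m z‖ ^ 2 = (1 - ‖z0‖ ^ 2) * (1 - ‖z‖ ^ 2) := by linarith
        calc lam * (‖h z‖ * ‖m z‖ ^ 2) = (lam * ‖m z‖ ^ 2) * ‖h z‖ := by ring
          _ = _ := by rw [this]; ring
      rw [this]
      nlinarith) (subset_closure hφ0)
  have h4 : 0 < ‖h z0‖ := norm_pos_iff.2 (hh0 z0 hφ0.le)
  have h5 : ‖m z0‖ ^ 2 = (1 - ‖z0‖ ^ 2) * (1 - ‖z0‖ ^ 2) := by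
    have := mob_id z0 z0
    simp only [hm, this]; simp
  simp only [hq, norm_inv, norm_mul, norm_pow, h5] at key
  rw [inv_eq_one_div, div_le_div_iff₀ (by positivity) (by positivity)] at key
  have h6 := hb z0 h0
  have h7 : lam * (‖h z0‖ * ((1 - ‖z0‖ ^ 2) * (1 - ‖z0‖ ^ 2)))
      = (1 - ‖z0‖ ^ 2) * (lam * ((1 - ‖z0‖ ^ 2) * ‖h z0‖)) := by ring
  rw [h7] at key
  have h8 : lam * ((1 - ‖z0‖ ^ 2) * ‖h z0‖) < μ :=
    lt_of_le_of_lt (mul_le_mul_of_nonneg_left h6 hl.le) hlK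
  nlinarith

/-- `z` is within bounded hyperbolic distance of `z0`. -/
def Near (R : ℝ) (z0 z : ℂ) : Prop :=
  ‖z0‖ < 1 ∧ ‖z‖ < 1 ∧ ‖z - z0‖ ≤ R * (1 - ‖z0‖ ^ 2) ∧ (1 - ‖z0‖ ^ 2) ≤ R * (1 - ‖z‖ ^ 2) ∧
    (1 - ‖z‖ ^ 2) ≤ R * (1 - ‖z0‖ ^ 2)

theorem d_cmp {z z0 : ℂ} (h0 : ‖z0‖ < 1) (h : ‖z - z0‖ < (1 - ‖z0‖ ^ 2) / 8) :
    ‖z‖ < 1 ∧ (1 - ‖z0‖ ^ 2) ≤ 2 * (1 - ‖z‖ ^ 2) ∧ (1 - ‖z‖ ^ 2) ≤ 2 * (1 - ‖z0‖ ^ 2) := by
  have a0 := norm_nonneg z0
  have a1 := norm_nonneg z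
  have t1 : ‖z‖ ≤ ‖z0‖ + ‖z - z0‖ := by
    have := norm_add_le z0 (z - z0); simpa using this
  have t2 : ‖z0‖ ≤ ‖z‖ + ‖z - z0‖ := by
    have := norm_sub_le z (z - z0); simpa using this
  have e0 := norm_nonneg (z - z0)
  refine ⟨by nlinarith, by nlinarith, by nlinarith⟩

/-- The ball lemma. -/
theorem plenty_ball {K μ : ℝ} (hμ : 0 < μ) (hμK : μ ≤ K) :
    ∃ R η : ℝ, 1 ≤ R ∧ 0 < η ∧ ∀ (h : ℂ → ℂ), DifferentiableOn ℂ h (ball 0 1) →
      (∀ z : ℂ, ‖z‖ < 1 → (1 - ‖z‖ ^ 2) * ‖h z‖ ≤ K) → ∀ z0 : ℂ, ‖z0‖ < 1 →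
      ∃ z1 : ℂ, ∀ z ∈ ball z1 (η * (1 - ‖z0‖ ^ 2)), Near R z0 z ∧ (1 - ‖z‖ ^ 2) * ‖h z‖ ≤ μ := by
  have hK : 0 < K := lt_of_lt_of_le hμ hμK
  set lam : ℝ := μ / (8 * K) with hlam
  have hl : 0 < lam := by positivity
  have hl1 : lam ≤ 1 / 8 := by
    rw [hlam, div_le_div_iff₀ (by positivity) (by norm_num)]; linarith
  have hlK : lam * K < μ / 4 := by
    have : lam * K = μ / 8 := by rw [hlam]; field_simp
    linarith
  refine ⟨8 / lam, lam * lam / 64, ?_, by positivity, fun h hh hb z0 h0 => ?_⟩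
  · rw [le_div_iff₀ hl]; linarith
  obtain ⟨z1, h1, h2, h3⟩ := plenty_pt h hh (by positivity : 0 < μ / 4) hl (by linarith) hlK hb h0
  refine ⟨z1, fun z hz => ?_⟩
  have a0 := norm_nonneg z0
  have a1 := norm_nonneg z1
  have hd0 : 0 < 1 - ‖z0‖ ^ 2 := by nlinarith
  have hd1 : 0 < 1 - ‖z1‖ ^ 2 := by nlinarith
  set d0 := 1 - ‖z0‖ ^ 2 with hd0e
  set d1 := 1 - ‖z1‖ ^ 2 with hd1e
  obtain ⟨m1, m2⟩ := mob_lb h0.le h1.le
  have mi := mob_id z0 z1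
  set M := ‖1 - (starRingEnd ℂ) z0 * z1‖ with hM
  have n1 : d0 / 2 ≤ M := by nlinarith
  have n2 : d1 / 2 ≤ M := by nlinarith
  have p1 : lam * d0 ≤ 4 * d1 := by
    have : (d0 / 2) ^ 2 ≤ M ^ 2 := by gcongr
    have : lam * (d0 / 2) ^ 2 ≤ d0 * d1 := le_trans (mul_le_mul_of_nonneg_left this hl.le) h2
    have h' : d0 * (lam * d0) ≤ d0 * (4 * d1) := by nlinarith
    exact le_of_mul_le_mul_left h' hd0
  have p2 : lam * d1 ≤ 4 * d0 := by
    have : (d1 / 2) ^ 2 ≤ M ^ 2 := by gcongr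
    have : lam * (d1 / 2) ^ 2 ≤ d0 * d1 := le_trans (mul_le_mul_of_nonneg_left this hl.le) h2
    have h' : d1 * (lam * d1) ≤ d1 * (4 * d0) := by nlinarith
    exact le_of_mul_le_mul_left h' hd1
  have p3 : lam * ‖z1 - z0‖ ≤ 2 * d0 := by
    have e1 : lam * ‖z1 - z0‖ ^ 2 ≤ d0 * d1 := by
      have : ‖z1 - z0‖ ^ 2 ≤ M ^ 2 := by rw [mi]; nlinarith [mul_pos hd0 hd1]
      exact le_trans (mul_le_mul_of_nonneg_left this hl.le) h2
    have e2 : (lam * ‖z1 - z0‖) ^ 2 ≤ (2 * d0) ^ 2 := by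
      have : (lam * ‖z1 - z0‖) ^ 2 = lam * (lam * ‖z1 - z0‖ ^ 2) := by ring
      rw [this]
      have : lam * (lam * ‖z1 - z0‖ ^ 2) ≤ lam * (d0 * d1) := mul_le_mul_of_nonneg_left e1 hl.le
      nlinarith
    exact abs_le_of_sq_le_sq' e2 (by positivity) |>.2
  rw [mem_ball, dist_eq_norm] at hz
  have q1 : ‖z - z1‖ < lam / 16 * d1 := by nlinarith
  have q2 : ‖z - z1‖ < d1 / 8 := by nlinarith
  obtain ⟨r1, r2, r3⟩ := d_cmp h1 q2
  rw [← hd1e] at r2 r3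
  have hdz : 0 < 1 - ‖z‖ ^ 2 := by linarith
  refine ⟨⟨h0, r1, ?_, ?_, ?_⟩, ?_⟩
  · rw [← hd0e, div_mul_eq_mul_div, le_div_iff₀ hl]
    have : ‖z - z0‖ ≤ ‖z - z1‖ + ‖z1 - z0‖ := by
      have := norm_add_le (z - z1) (z1 - z0); simpa using this
    nlinarith
  · rw [← hd0e, div_mul_eq_mul_div, le_div_iff₀ hl]; nlinarith
  · rw [← hd0e, div_mul_eq_mul_div, le_div_iff₀ hl]; nlinarith
  · have hsub : ball z1 (d1 / 8) ⊆ ball (0 : ℂ) 1 := fun w hw => by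
      rw [mem_ball, dist_eq_norm] at hw
      simpa using (d_cmp h1 hw).1
    have hmap : MapsTo h (ball z1 (d1 / 8)) (ball (h z1) (4 * K / d1)) := by
      intro w hw
      rw [mem_ball, dist_eq_norm] at hw
      obtain ⟨s1, s2, -⟩ := d_cmp h1 hw
      rw [← hd1e] at s2
      have b1 := hb w s1
      have b2 := hb z1 h1
      rw [← hd1e] at b2
      rw [mem_ball, dist_eq_norm, lt_div_iff₀ hd1]
      have := norm_sub_le (h w) (h z1)
      have c1 := norm_nonneg (h w)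
      nlinarith
    have hs := Complex.dist_le_div_mul_dist_of_mapsTo_ball (hh.mono hsub) (hmap.mono_right ball_subset_closedBall)
      (z := z) (by rw [mem_ball, dist_eq_norm]; exact q2)
    rw [dist_eq_norm, dist_eq_norm] at hs
    have t1 : 4 * K / d1 / (d1 / 8) * ‖z - z1‖ ≤ 4 * K / d1 / (d1 / 8) * (lam / 16 * d1) :=
      mul_le_mul_of_nonneg_left q1.le (by positivity)
    have t2 : 4 * K / d1 / (d1 / 8) * (lam / 16 * d1) = μ / 4 / d1 := by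
      rw [hlam]; field_simp; ring
    have t3 : ‖h z - h z1‖ * d1 ≤ μ / 4 := by
      rw [← le_div_iff₀ hd1]; linarith
    have t4 : ‖h z‖ ≤ ‖h z - h z1‖ + ‖h z1‖ := by
      have := norm_add_le (h z - h z1) (h z1); simpa using this
    have c1 := norm_nonneg (h z)
    nlinarith

/-- Tonelli with the relation `Near`. -/
theorem doubling_near (W : ℂ → ℝ≥0∞) (hW : Measurable W) (N : Set ℂ)
    (hN : MeasurableSet N) (R η : ℝ) (hR : 1 ≤ R) (hη : 0 < η) (H : ℝ≥0∞)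
    (hH : ∀ z0 z, Near R z0 z → W z0 ≤ H * W z)
    (hb : ∀ z0 : ℂ, ‖z0‖ < 1 → ∃ z1, ∀ z ∈ ball z1 (η * (1 - ‖z0‖ ^ 2)), Near R z0 z ∧ z ∈ N) :
    ∫⁻ z in ball 0 1, W z ≤ H * ENNReal.ofReal (R ^ 6 / η ^ 2) * ∫⁻ z in N, W z := by
  classical
  set K : ℂ → ℂ → ℝ≥0∞ := fun z0 z =>
    if Near R z0 z then
      ENNReal.ofReal (1 / (Real.pi * η ^ 2 * (1 - ‖z0‖ ^ 2) ^ 2)) else 0 with hK
  have hKm : Measurable (fun p : ℂ × ℂ => K p.1 p.2) := by
    refine Measurable.ite ?_ ?_ measurable_const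
    · have m1 : MeasurableSet {p : ℂ × ℂ | ‖p.1‖ < 1} :=
        measurableSet_lt (by fun_prop) measurable_const
      have m1' : MeasurableSet {p : ℂ × ℂ | ‖p.2‖ < 1} :=
        measurableSet_lt (by fun_prop) measurable_const
      have m2 : MeasurableSet {p : ℂ × ℂ | ‖p.2 - p.1‖ ≤ R * (1 - ‖p.1‖ ^ 2)} :=
        measurableSet_le (by fun_prop) (by fun_prop)
      have m3 : MeasurableSet {p : ℂ × ℂ | (1 - ‖p.1‖ ^ 2) ≤ R * (1 - ‖p.2‖ ^ 2)} :=
        measurableSet_le (by fun_prop) (by fun_prop)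
      have m4 : MeasurableSet {p : ℂ × ℂ | (1 - ‖p.2‖ ^ 2) ≤ R * (1 - ‖p.1‖ ^ 2)} :=
        measurableSet_le (by fun_prop) (by fun_prop)
      exact m1.inter (m1'.inter (m2.inter (m3.inter m4)))
    · refine ENNReal.measurable_ofReal.comp ?_
      fun_prop
  have h1 : ∀ z0 ∈ ball (0 : ℂ) 1, W z0 ≤ H * ∫⁻ z in N, K z0 z * W z := by
    intro z0 hz0
    have h0 : ‖z0‖ < 1 := by simpa using hz0
    obtain ⟨z1, hz1⟩ := hb z0 h0
    have hd : 0 < 1 - ‖z0‖ ^ 2 := by nlinarith [norm_nonneg z0]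
    set c : ℝ := 1 / (Real.pi * η ^ 2 * (1 - ‖z0‖ ^ 2) ^ 2) with hc
    have hc0 : 0 < c := by have := Real.pi_pos; positivity
    have hv : ENNReal.ofReal c * volume (ball z1 (η * (1 - ‖z0‖ ^ 2))) = 1 := by
      rw [Complex.volume_ball, ← ENNReal.ofReal_pow (by positivity),
        ← ENNReal.ofReal_coe_nnreal, ← ENNReal.ofReal_mul (by positivity),
        ← ENNReal.ofReal_mul hc0.le, NNReal.coe_real_pi, ← ENNReal.ofReal_one]
      congr 1
      have := Real.pi_pos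
      rw [hc]; field_simp
    calc W z0 = ∫⁻ _ in ball z1 (η * (1 - ‖z0‖ ^ 2)), ENNReal.ofReal c * W z0 := by
          rw [setLIntegral_const, mul_right_comm, hv, one_mul]
      _ ≤ ∫⁻ z in ball z1 (η * (1 - ‖z0‖ ^ 2)), H * (K z0 z * W z) := by
          refine setLIntegral_mono' measurableSet_ball fun z hz => ?_
          have hz' := (hz1 z hz).1
          have : K z0 z = ENNReal.ofReal c := by simp only [hK]; rw [if_pos hz']
          rw [this, mul_left_comm]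
          exact mul_le_mul_right (hH z0 z hz') _
      _ ≤ ∫⁻ z in N, H * (K z0 z * W z) :=
          lintegral_mono_set fun z hz => (hz1 z hz).2
      _ = H * ∫⁻ z in N, K z0 z * W z := by
          rw [lintegral_const_mul]
          exact (hKm.comp (measurable_const.prodMk measurable_id)).mul hW
  have h2 : ∀ z, ∫⁻ z0 in ball (0 : ℂ) 1, K z0 z ≤ ENNReal.ofReal (R ^ 6 / η ^ 2) := by
    intro z
    by_cases hz : ‖z‖ < 1
    · have hd : 0 < 1 - ‖z‖ ^ 2 := by nlinarith [norm_nonneg z]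
      have hR0 : 0 < R := by linarith
      set c : ℝ := R ^ 2 / (Real.pi * η ^ 2 * (1 - ‖z‖ ^ 2) ^ 2) with hc
      have hc0 : 0 < c := by have := Real.pi_pos; positivity
      calc ∫⁻ z0 in ball (0 : ℂ) 1, K z0 z ≤ ∫⁻ z0, K z0 z := setLIntegral_le_lintegral _ _
        _ ≤ ∫⁻ z0, (closedBall z (R ^ 2 * (1 - ‖z‖ ^ 2))).indicator
              (fun _ => ENNReal.ofReal c) z0 := by
          refine lintegral_mono fun z0 => ?_
          simp only [hK]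
          split_ifs with h
          · obtain ⟨e0, -, e1, e2, e3⟩ := h
            have hd0 : 0 < 1 - ‖z0‖ ^ 2 := by nlinarith [norm_nonneg z0]
            have hm : z0 ∈ closedBall z (R ^ 2 * (1 - ‖z‖ ^ 2)) := by
              rw [mem_closedBall, dist_comm, dist_eq_norm]
              have := mul_le_mul_of_nonneg_left e2 hR0.le
              nlinarith
            rw [indicator_of_mem hm]
            refine ENNReal.ofReal_le_ofReal ?_
            have := Real.pi_pos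
            rw [hc, div_le_div_iff₀ (by positivity) (by positivity)]
            have e4 : (1 - ‖z‖ ^ 2) ^ 2 ≤ (R * (1 - ‖z0‖ ^ 2)) ^ 2 := by gcongr
            have : 0 < Real.pi * η ^ 2 := by positivity
            nlinarith
          · exact zero_le
        _ = ENNReal.ofReal c * volume (closedBall z (R ^ 2 * (1 - ‖z‖ ^ 2))) := by
          rw [lintegral_indicator measurableSet_closedBall, setLIntegral_const]
        _ ≤ ENNReal.ofReal (R ^ 6 / η ^ 2) := by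
          rw [Complex.volume_closedBall, ← ENNReal.ofReal_pow (by positivity),
            ← ENNReal.ofReal_coe_nnreal, ← ENNReal.ofReal_mul (by positivity),
            ← ENNReal.ofReal_mul hc0.le, NNReal.coe_real_pi]
          refine ENNReal.ofReal_le_ofReal (le_of_eq ?_)
          have := Real.pi_pos
          rw [hc]; field_simp
    · have : ∀ z0, K z0 z = 0 := fun z0 => by
        simp only [hK]
        rw [if_neg]
        rintro ⟨-, h, -⟩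
        exact hz h
      simp [this]
  calc ∫⁻ z in ball 0 1, W z ≤ ∫⁻ z0 in ball 0 1, H * ∫⁻ z in N, K z0 z * W z :=
        setLIntegral_mono' measurableSet_ball h1
    _ = H * ∫⁻ z0 in ball 0 1, ∫⁻ z in N, K z0 z * W z := by
        rw [lintegral_const_mul]
        exact (hKm.mul (hW.comp measurable_snd)).lintegral_prod_right'
    _ = H * ∫⁻ z in N, ∫⁻ z0 in ball 0 1, K z0 z * W z := by
        rw [lintegral_lintegral_swap]
        exact (hKm.mul (hW.comp measurable_snd)).aemeasurable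
    _ ≤ H * ∫⁻ z in N, ENNReal.ofReal (R ^ 6 / η ^ 2) * W z := by
        refine mul_le_mul_right (setLIntegral_mono' hN fun z _ => ?_) _
        rw [lintegral_mul_const]
        · exact mul_le_mul_left (h2 z) _
        · exact hKm.comp (measurable_id.prodMk measurable_const)
    _ = H * ENNReal.ofReal (R ^ 6 / η ^ 2) * ∫⁻ z in N, W z := by
        rw [lintegral_const_mul _ hW, mul_assoc]

/-- Gronwall along a segment. -/
theorem seg_bound (g : ℂ → ℂ) (hg : DifferentiableOn ℂ g (ball 0 1)) {K δ : ℝ} (hK : 0 ≤ K)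
    (hδ : 0 < δ) (hb : ∀ z : ℂ, ‖z‖ < 1 → (1 - ‖z‖ ^ 2) * ‖deriv g z‖ ≤ K * ‖g z‖) {u v : ℂ}
    (hu : δ ≤ 1 - ‖u‖ ^ 2) (hv : δ ≤ 1 - ‖v‖ ^ 2) :
    ‖g v‖ ≤ Real.exp (K * ‖v - u‖ / δ) * ‖g u‖ := by
  set p : ℝ → ℂ := fun t => u + (t : ℂ) * (v - u) with hp
  have hδ1 : δ ≤ 1 := by nlinarith [sq_nonneg ‖u‖]
  have hs : 0 ≤ Real.sqrt (1 - δ) := Real.sqrt_nonneg _
  have hs2 : Real.sqrt (1 - δ) ^ 2 = 1 - δ := Real.sq_sqrt (by linarith)
  have hu' : ‖u‖ ≤ Real.sqrt (1 - δ) := Real.le_sqrt_of_sq_le (by linarith)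
  have hv' : ‖v‖ ≤ Real.sqrt (1 - δ) := Real.le_sqrt_of_sq_le (by linarith)
  have hpd : ∀ t ∈ Icc (0 : ℝ) 1, δ ≤ 1 - ‖p t‖ ^ 2 := by
    intro t ht
    have e : p t = ((1 - t : ℝ) : ℂ) * u + (t : ℂ) * v := by simp only [hp]; push_cast; ring
    have : ‖p t‖ ≤ Real.sqrt (1 - δ) := by
      rw [e]
      refine (norm_add_le _ _).trans ?_
      rw [norm_mul, norm_mul, Complex.norm_real, Complex.norm_real, Real.norm_eq_abs,
        Real.norm_eq_abs, abs_of_nonneg (by linarith [ht.2]), abs_of_nonneg ht.1]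
      nlinarith [ht.1, ht.2]
    have h2 : ‖p t‖ ^ 2 ≤ Real.sqrt (1 - δ) ^ 2 := by gcongr
    linarith
  have hp1 : ∀ t ∈ Icc (0 : ℝ) 1, ‖p t‖ < 1 := fun t ht => by
    have := hpd t ht
    nlinarith [norm_nonneg (p t)]
  have hder : ∀ t ∈ Icc (0 : ℝ) 1, HasDerivAt (fun t => g (p t)) (deriv g (p t) * (v - u)) t := by
    intro t ht
    have e1 : HasDerivAt g (deriv g (p t)) (p t) :=
      (hg.differentiableAt (isOpen_ball.mem_nhds (by simpa using hp1 t ht))).hasDerivAt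
    have e2 : HasDerivAt (fun w : ℂ => u + w * (v - u)) (v - u) (t : ℂ) := by
      simpa using ((hasDerivAt_id (t : ℂ)).mul_const (v - u)).const_add u
    exact (e1.comp (t : ℂ) e2).comp_ofReal
  have key := norm_le_gronwallBound_of_norm_deriv_right_le (f := fun t => g (p t))
    (f' := fun t => deriv g (p t) * (v - u)) (δ := ‖g u‖) (K := K * ‖v - u‖ / δ) (ε := 0)
    (a := 0) (b := 1) (fun t ht => (hder t ht).continuousAt.continuousWithinAt)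
    (fun t ht => (hder t (Ico_subset_Icc_self ht)).hasDerivWithinAt) (by simp [hp])
    (fun t ht => by
      have ht' := Ico_subset_Icc_self ht
      have b1 := hb (p t) (hp1 t ht')
      have b2 := hpd t ht'
      rw [norm_mul, add_zero, div_mul_eq_mul_div, le_div_iff₀ hδ]
      have b3 : δ * ‖deriv g (p t)‖ ≤ K * ‖g (p t)‖ :=
        le_trans (mul_le_mul_of_nonneg_right b2 (norm_nonneg _)) b1
      have := mul_le_mul_of_nonneg_right b3 (norm_nonneg (v - u))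
      nlinarith) 1 ⟨zero_le_one, le_rfl⟩
  rw [gronwallBound_ε0] at key
  simp only [hp] at key
  simpa [mul_comm] using key

theorem near_harnack (g : ℂ → ℂ) (hg : DifferentiableOn ℂ g (ball 0 1)) {K R : ℝ} (hK : 0 ≤ K)
    (hR : 1 ≤ R) (hb : ∀ z : ℂ, ‖z‖ < 1 → (1 - ‖z‖ ^ 2) * ‖deriv g z‖ ≤ K * ‖g z‖) {z0 z : ℂ}
    (h : Near R z0 z) : ‖g z‖ ≤ Real.exp (K * R ^ 2) * ‖g z0‖ := by
  obtain ⟨e0, -, e1, e2, -⟩ := h
  have hd0 : 0 < 1 - ‖z0‖ ^ 2 := by nlinarith [norm_nonneg z0]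
  have hR0 : 0 < R := by linarith
  have := seg_bound g hg hK (δ := (1 - ‖z0‖ ^ 2) / R) (by positivity) hb (u := z0) (v := z)
    (by rw [div_le_iff₀ hR0]; nlinarith) (by rw [div_le_iff₀ hR0]; nlinarith)
  refine this.trans (mul_le_mul_of_nonneg_right (Real.exp_le_exp.2 ?_) (norm_nonneg _))
  rw [div_le_iff₀ (by positivity)]
  have e : K * R ^ 2 * ((1 - ‖z0‖ ^ 2) / R) = K * (R * (1 - ‖z0‖ ^ 2)) := by field_simp
  rw [e]
  exact mul_le_mul_of_nonneg_left e1 hK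

theorem near_rpow {R β : ℝ} (hR : 1 ≤ R) (hβ : |β| ≤ 1) {z0 z : ℂ} (h : Near R z0 z) :
    (1 - ‖z0‖ ^ 2) ^ β ≤ R * (1 - ‖z‖ ^ 2) ^ β := by
  obtain ⟨e0, e0', -, e2, e3⟩ := h
  have hd0 : 0 < 1 - ‖z0‖ ^ 2 := by nlinarith [norm_nonneg z0]
  have hd : 0 < 1 - ‖z‖ ^ 2 := by nlinarith [norm_nonneg z]
  have hR0 : 0 < R := by linarith
  obtain ⟨b1, b2⟩ := abs_le.1 hβ
  rcases le_total 0 β with hb | hb
  · calc (1 - ‖z0‖ ^ 2) ^ β ≤ (R * (1 - ‖z‖ ^ 2)) ^ β := Real.rpow_le_rpow hd0.le e2 hb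
      _ = R ^ β * (1 - ‖z‖ ^ 2) ^ β := Real.mul_rpow hR0.le hd.le
      _ ≤ R * (1 - ‖z‖ ^ 2) ^ β := by
        refine mul_le_mul_of_nonneg_right ?_ (Real.rpow_nonneg hd.le _)
        simpa using Real.rpow_le_rpow_of_exponent_le hR b2
  · have e4 : (1 - ‖z‖ ^ 2) / R ≤ 1 - ‖z0‖ ^ 2 := by rw [div_le_iff₀ hR0]; linarith
    calc (1 - ‖z0‖ ^ 2) ^ β ≤ ((1 - ‖z‖ ^ 2) / R) ^ β :=
          Real.rpow_le_rpow_of_nonpos (by positivity) e4 hb
      _ = R ^ (-β) * (1 - ‖z‖ ^ 2) ^ β := by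
        rw [Real.div_rpow hd.le hR0.le, Real.rpow_neg hR0.le]; ring
      _ ≤ R * (1 - ‖z‖ ^ 2) ^ β := by
        refine mul_le_mul_of_nonneg_right ?_ (Real.rpow_nonneg hd.le _)
        simpa using Real.rpow_le_rpow_of_exponent_le hR (by linarith : -β ≤ 1)

/-- **Plenty.** `g = f'` zero-free with `(1-|z|²)|g'| ≤ K |g|`.  The set where
`(1-|z|²)|g'| ≤ μ |g|` carries a fixed fraction of the weight `|g|⁻¹ (1-|z|²)^β`. -/
theorem plenty {K μ : ℝ} (hμ : 0 < μ) (hμK : μ ≤ K) :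
    ∃ C : ℝ, 0 < C ∧ ∀ (g : ℂ → ℂ), Measurable g → DifferentiableOn ℂ g (ball 0 1) →
      (∀ z : ℂ, ‖z‖ < 1 → g z ≠ 0) →
      (∀ z : ℂ, ‖z‖ < 1 → (1 - ‖z‖ ^ 2) * ‖deriv g z‖ ≤ K * ‖g z‖) → ∀ β : ℝ, |β| ≤ 1 →
      ∫⁻ z in ball 0 1, ENNReal.ofReal (‖g z‖⁻¹ * (1 - ‖z‖ ^ 2) ^ β) ≤ ENNReal.ofReal C *
        ∫⁻ z in {z : ℂ | ‖z‖ < 1 ∧ (1 - ‖z‖ ^ 2) * ‖deriv g z‖ ≤ μ * ‖g z‖},
          ENNReal.ofReal (‖g z‖⁻¹ * (1 - ‖z‖ ^ 2) ^ β) := by
  have hK : 0 < K := lt_of_lt_of_le hμ hμK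
  obtain ⟨R, η, hR, hη, hB⟩ := plenty_ball hμ hμK
  have hR0 : 0 < R := by linarith
  refine ⟨Real.exp (K * R ^ 2) * R * (R ^ 6 / η ^ 2), by positivity,
    fun g hgm hg h0 hb β hβ => ?_⟩
  have hd : DifferentiableOn ℂ (fun z => deriv g z / g z) (ball 0 1) :=
    (hg.deriv isOpen_ball).div hg fun z hz => h0 z (by simpa using hz)
  have hq : ∀ z : ℂ, ‖z‖ < 1 → ∀ L : ℝ, (1 - ‖z‖ ^ 2) * ‖deriv g z / g z‖ ≤ L ↔
      (1 - ‖z‖ ^ 2) * ‖deriv g z‖ ≤ L * ‖g z‖ := fun z hz L => by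
    rw [norm_div, ← mul_div_assoc, div_le_iff₀ (norm_pos_iff.2 (h0 z hz))]
  rw [ENNReal.ofReal_mul (by positivity)]
  refine doubling_near _ ?_ _ ?_ R η hR hη _ ?_ ?_
  · refine ENNReal.measurable_ofReal.comp ?_
    exact hgm.norm.inv.mul (Measurable.pow_const (by fun_prop) β)
  · have m1 : MeasurableSet {z : ℂ | ‖z‖ < 1} := measurableSet_lt (by fun_prop) measurable_const
    have m2 : MeasurableSet {z : ℂ | (1 - ‖z‖ ^ 2) * ‖deriv g z‖ ≤ μ * ‖g z‖} :=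
      measurableSet_le (Measurable.mul (by fun_prop) (measurable_deriv g).norm)
        (hgm.norm.const_mul μ)
    exact m1.inter m2
  · intro z0 z h
    rw [← ENNReal.ofReal_mul (by positivity)]
    refine ENNReal.ofReal_le_ofReal ?_
    have a1 := near_harnack g hg hK.le hR hb h
    have a2 := near_rpow hR hβ h
    have p0 : 0 < ‖g z0‖ := norm_pos_iff.2 (h0 z0 h.1)
    have p1 : 0 < ‖g z‖ := norm_pos_iff.2 (h0 z h.2.1)
    have hd0 : 0 < 1 - ‖z0‖ ^ 2 := by nlinarith [norm_nonneg z0, h.1]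
    have a3 : ‖g z0‖⁻¹ ≤ Real.exp (K * R ^ 2) * ‖g z‖⁻¹ := by
      rw [← div_eq_mul_inv, inv_eq_one_div, div_le_div_iff₀ p0 p1]; linarith
    calc ‖g z0‖⁻¹ * (1 - ‖z0‖ ^ 2) ^ β
        ≤ (Real.exp (K * R ^ 2) * ‖g z‖⁻¹) * (R * (1 - ‖z‖ ^ 2) ^ β) :=
          mul_le_mul a3 a2 (Real.rpow_nonneg hd0.le _) (by positivity)
      _ = _ := by ring
  · intro z0 hz0
    obtain ⟨z1, hz1⟩ := hB _ hd (fun z hz => (hq z hz K).2 (hb z hz)) z0 hz0
    refine ⟨z1, fun z hz => ⟨(hz1 z hz).1, (hz1 z hz).1.2.1, ?_⟩⟩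
    exact (hq z (hz1 z hz).1.2.1 μ).1 (hz1 z hz).2

end Crest.Agent.R131.Pl
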