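import Mathlib

/-! # Row 131, positive exponents (hedge, helper35) -/

set_option autoImplicit false

open MeasureTheory Set Metric
open scoped ENNReal

namespace Crest.Agent.R131.H35

theorem area_le (F g : ℂ → ℂ) (hF : ∀ z ∈ ball (0 : ℂ) 1, HasDerivAt F (g z) z)
    (hinj : InjOn F (ball 0 1)) (Ψ : ℂ → ℝ≥0∞) :
    ∫⁻ z in ball (0 : ℂ) 1, ENNReal.ofReal (‖g z‖ ^ 2) * Ψ (F z) ≤ ∫⁻ w, Ψ w := by
  have h := lintegral_image_eq_lintegral_abs_det_fderiv_mul (volume : Measure ℂ)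
    (s := ball (0 : ℂ) 1) (f := F)
    (f' := fun z => (ContinuousLinearMap.toSpanSingleton ℂ (g z)).restrictScalars ℝ)
    measurableSet_ball
    (fun z hz => ((hF z hz).hasFDerivAt.restrictScalars ℝ).hasFDerivWithinAt) hinj Ψ
  have hd : ∀ z, |((ContinuousLinearMap.toSpanSingleton ℂ (g z)).restrictScalars ℝ).det|
      = ‖g z‖ ^ 2 := by
    intro z
    simp [ContinuousLinearMap.det, LinearMap.det_restrictScalars, Algebra.norm_complex_eq,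
      Complex.normSq_eq_norm_sq]
  simp only [hd] at h
  rw [← h]
  exact setLIntegral_le_lintegral _ _

theorem fin_bracket {γ : ℝ} (hγ : 1 < γ) :
    ∫⁻ w : ℂ, ENNReal.ofReal ((1 + ‖w‖ ^ 2) ^ (-γ)) < ⊤ := by
  have h : Integrable (fun x : ℂ => (1 + ‖x‖ ^ 2) ^ (-(2 * γ) / 2)) :=
    integrable_rpow_neg_one_add_norm_sq (by simp; linarith)
  have e : -(2 * γ) / 2 = -γ := by ring
  rw [e] at h
  exact h.lintegral_lt_top

theorem fin_P {β : ℝ} (hβ : β < 1) :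
    ∫⁻ s in Icc (1 / 2 : ℝ) 1, ENNReal.ofReal ((1 - s) ^ (-β)) < ⊤ := by
  have h : IntervalIntegrable (fun x : ℝ => x ^ (-β)) volume (1 - 1 / 2) (1 - 1) :=
    intervalIntegral.intervalIntegrable_rpow' (by linarith)
  have h2 := h.comp_sub_left 1
  have h3 : IntegrableOn (fun x : ℝ => (1 - x) ^ (-β)) (Icc (1 / 2) 1) := by
    rw [← intervalIntegrable_iff_integrableOn_Icc_of_le (by norm_num)]
    simpa using h2
  exact h3.lintegral_lt_top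

theorem mem_mul {z : ℂ} (hz : z ∈ ball (0 : ℂ) 1) {s : ℝ} (h0 : 0 ≤ s) (h1 : s ≤ 1) :
    (s : ℂ) * z ∈ ball (0 : ℂ) 1 := by
  rw [mem_ball_zero_iff] at *
  rw [norm_mul, Complex.norm_real, Real.norm_of_nonneg h0]
  nlinarith [norm_nonneg z]

theorem phi_deriv (f : ℂ → ℂ) (hf : DifferentiableOn ℂ f (ball 0 1)) {z : ℂ} {s a : ℝ}
    (hz : (s : ℂ) * z ∈ ball (0 : ℂ) 1) :
    HasDerivAt (fun s : ℝ => (1 + ‖f (s * z)‖ ^ 2) ^ a)
      (2 * inner ℝ (f (s * z)) (deriv f (s * z) * z) * a * (1 + ‖f (s * z)‖ ^ 2) ^ (a - 1)) s := by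
  have h1 : HasDerivAt f (deriv f (s * z)) (s * z) :=
    (hf.differentiableAt (isOpen_ball.mem_nhds hz)).hasDerivAt
  have h2 : HasDerivAt (fun w : ℂ => f (w * z)) (deriv f (s * z) * z) (s : ℂ) := by
    have := h1.comp (s : ℂ) ((hasDerivAt_id (s : ℂ)).mul_const z)
    simpa [Function.comp_def] using this
  have h3 : HasDerivAt (fun s : ℝ => f (s * z)) (deriv f (s * z) * z) s := h2.comp_ofReal
  have h4 := (h3.norm_sq.const_add 1).rpow_const (p := a) (Or.inl (by positivity))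
  simpa using h4

theorem phi_cd (f : ℂ → ℂ) (hf : DifferentiableOn ℂ f (ball 0 1)) {z : ℂ}
    (hz : z ∈ ball (0 : ℂ) 1) (a : ℝ) :
    ContDiffOn ℝ 1 (fun s : ℝ => (1 + ‖f (s * z)‖ ^ 2) ^ a) (Icc (1 / 2) 1) := by
  intro s hs
  have hm := mem_mul hz (by linarith [hs.1]) hs.2
  have h1 : ContDiffAt ℝ 1 f (s * z) :=
    ((hf.analyticAt (isOpen_ball.mem_nhds hm)).contDiffAt (n := 1)).restrict_scalars ℝ
  have h2 : ContDiffAt ℝ 1 (fun s : ℝ => (s : ℂ) * z) s :=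
    (Complex.ofRealCLM.contDiff.contDiffAt).mul contDiffAt_const
  have h3 : ContDiffAt ℝ 1 (fun s : ℝ => f (s * z)) s := ContDiffAt.comp s h1 h2
  have h4 : ContDiffAt ℝ 1 (fun s : ℝ => 1 + ‖f (s * z)‖ ^ 2) s :=
    contDiffAt_const.add (h3.norm_sq ℝ)
  exact (h4.rpow_const_of_ne (by positivity)).contDiffWithinAt

/-- the pointwise bound of the radial derivative -/
theorem phi_bound {F g z : ℂ} {s q β K : ℝ} (hz : ‖z‖ ≤ 1) (hs0 : 1 / 2 ≤ s) (hs : s < 1)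
    (hq0 : 0 ≤ q) (hq : q ≤ 1) (hβ : 0 ≤ β) (hK : (1 + ‖F‖ ^ 2) * (1 - s) ^ 4 ≤ K) :
    |2 * inner ℝ F (g * z) * (q / 4) * (1 + ‖F‖ ^ 2) ^ (q / 4 - 1)| ≤
      K ^ (β / 4) * ((1 - s) ^ (-β) *
        √(‖(s : ℂ) * g‖ ^ 2 * (1 + ‖F‖ ^ 2) ^ (-(1 + (β - q) / 2)))) := by
  set W := 1 + ‖F‖ ^ 2 with hW
  have hW0 : 0 < W := by positivity
  have h1s : 0 < 1 - s := by linarith
  have e1 : √(‖(s : ℂ) * g‖ ^ 2 * W ^ (-(1 + (β - q) / 2))) =
      s * ‖g‖ * W ^ (-(1 + (β - q) / 2) / 2) := by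
    rw [Real.sqrt_mul (by positivity), Real.sqrt_sq (norm_nonneg _), Real.sqrt_eq_rpow,
      ← Real.rpow_mul hW0.le, norm_mul, Complex.norm_real, Real.norm_of_nonneg (by linarith)]
    congr 2
    ring
  have hF : ‖F‖ ≤ W ^ (1 / 2 : ℝ) := by
    rw [← Real.sqrt_eq_rpow]
    exact Real.le_sqrt_of_sq_le (by linarith)
  have hin : |inner ℝ F (g * z)| ≤ W ^ (1 / 2 : ℝ) * ‖g‖ := by
    refine (abs_real_inner_le_norm _ _).trans ?_
    rw [norm_mul]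
    have : ‖g‖ * ‖z‖ ≤ ‖g‖ := mul_le_of_le_one_right (norm_nonneg _) hz
    exact mul_le_mul hF this (by positivity) (by positivity)
  have hK2 : W ^ (β / 4) ≤ K ^ (β / 4) * (1 - s) ^ (-β) := by
    have h := Real.rpow_le_rpow (by positivity) hK (by positivity : 0 ≤ β / 4)
    rw [Real.mul_rpow hW0.le (by positivity), ← Real.rpow_natCast, ← Real.rpow_mul h1s.le] at h
    have e : ((4 : ℕ) : ℝ) * (β / 4) = β := by push_cast; ring
    rw [e] at h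
    rw [Real.rpow_neg h1s.le, ← div_eq_mul_inv, le_div_iff₀ (by positivity)]
    exact h
  have e2 : W ^ (1 / 2 : ℝ) * W ^ (q / 4 - 1) = W ^ (β / 4) * W ^ (-(1 + (β - q) / 2) / 2) := by
    rw [← Real.rpow_add hW0, ← Real.rpow_add hW0]
    congr 1
    ring
  rw [e1, abs_mul, abs_mul, abs_mul, abs_of_nonneg (by positivity : (0 : ℝ) ≤ q / 4),
    abs_of_nonneg (by positivity : (0 : ℝ) ≤ W ^ (q / 4 - 1)), abs_two]
  have hA : 0 ≤ W ^ (q / 4 - 1) := by positivity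
  have hB : 0 ≤ W ^ (-(1 + (β - q) / 2) / 2) := by positivity
  calc 2 * |inner ℝ F (g * z)| * (q / 4) * W ^ (q / 4 - 1)
      ≤ 2 * (W ^ (1 / 2 : ℝ) * ‖g‖) * (1 / 4) * W ^ (q / 4 - 1) := by gcongr
    _ = (W ^ (1 / 2 : ℝ) * W ^ (q / 4 - 1)) * (1 / 2 * ‖g‖) := by ring
    _ = W ^ (β / 4) * (1 / 2 * ‖g‖ * W ^ (-(1 + (β - q) / 2) / 2)) := by rw [e2]; ring
    _ ≤ (K ^ (β / 4) * (1 - s) ^ (-β)) * (s * ‖g‖ * W ^ (-(1 + (β - q) / 2) / 2)) := by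
        gcongr
        exact (by positivity : 0 ≤ W ^ (β / 4)).trans hK2
    _ = _ := by ring

theorem growth_W (f : ℂ → ℂ) {K : ℝ} (hK : ∀ z ∈ ball (0 : ℂ) 1, ‖f z‖ ≤ K / (1 - ‖z‖) ^ 2)
    {z : ℂ} (hz : z ∈ ball (0 : ℂ) 1) {s : ℝ} (h0 : 0 ≤ s) (h1 : s ≤ 1) :
    (1 + ‖f (s * z)‖ ^ 2) * (1 - s) ^ 4 ≤ 1 + K ^ 2 := by
  have hm := mem_mul hz h0 h1
  have h := hK _ hm
  rw [mem_ball_zero_iff] at hm hz
  have hn : ‖(s : ℂ) * z‖ ≤ s := by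
    rw [norm_mul, Complex.norm_real, Real.norm_of_nonneg h0]
    nlinarith [norm_nonneg z]
  rw [le_div_iff₀ (by have : 0 < 1 - ‖(s : ℂ) * z‖ := by linarith
                      positivity)] at h
  have h2 : (1 - s) ^ 2 ≤ (1 - ‖(s : ℂ) * z‖) ^ 2 := by gcongr
  have h3 : ‖f (s * z)‖ * (1 - s) ^ 2 ≤ K :=
    (mul_le_mul_of_nonneg_left h2 (norm_nonneg _)).trans h
  have h4 : (‖f (s * z)‖ * (1 - s) ^ 2) ^ 2 ≤ K ^ 2 := by gcongr
  have h5 : (1 - s) ^ 4 ≤ 1 := pow_le_one₀ (by linarith) (by linarith)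
  nlinarith

/-- the pointwise Hardy bound -/
theorem point (f : ℂ → ℂ) (hf : DifferentiableOn ℂ f (ball 0 1)) (hm : Measurable f) {K : ℝ}
    (hK : ∀ z ∈ ball (0 : ℂ) 1, ‖f z‖ ≤ K / (1 - ‖z‖) ^ 2) {q β : ℝ} (hq0 : 0 ≤ q) (hq : q ≤ 1)
    (hβ : 0 ≤ β) (hβ1 : β < 1) :
    ∃ C₁ C₂ : ℝ≥0∞, C₁ < ⊤ ∧ C₂ < ⊤ ∧ ∀ z ∈ ball (0 : ℂ) 1,
      ENNReal.ofReal ((1 + ‖f z‖ ^ 2) ^ (q / 2)) ≤ C₁ + C₂ * ∫⁻ s in Icc (1 / 2 : ℝ) 1,
        ENNReal.ofReal ((1 - s) ^ (-β)) * (ENNReal.ofReal (‖(s : ℂ) * deriv f (s * z)‖ ^ 2) *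
          ENNReal.ofReal ((1 + ‖f (s * z)‖ ^ 2) ^ (-(1 + (β - q) / 2)))) := by
  set B := ∫⁻ s in Icc (1 / 2 : ℝ) 1, ENNReal.ofReal ((1 - s) ^ (-β)) with hB
  have hBt : B < ⊤ := fin_P hβ1
  set a := ENNReal.ofReal ((16 * (1 + K ^ 2)) ^ (q / 4)) with ha
  set c := ENNReal.ofReal ((1 + K ^ 2) ^ (β / 4)) with hc
  refine ⟨2 * a ^ 2, 2 * (c ^ 2 * B), ?_, ?_, fun z hz => ?_⟩
  · exact ENNReal.mul_lt_top (by simp) (ENNReal.pow_lt_top ENNReal.ofReal_lt_top)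
  · exact ENNReal.mul_lt_top (by simp)
      (ENNReal.mul_lt_top (ENNReal.pow_lt_top ENNReal.ofReal_lt_top) hBt)
  set Q : ℝ → ℝ≥0∞ := fun s => ENNReal.ofReal (‖(s : ℂ) * deriv f (s * z)‖ ^ 2) *
          ENNReal.ofReal ((1 + ‖f (s * z)‖ ^ 2) ^ (-(1 + (β - q) / 2))) with hQ
  set P : ℝ → ℝ≥0∞ := fun s => ENNReal.ofReal ((1 - s) ^ (-β)) with hP
  have hd := measurable_deriv f
  have hPm : Measurable P := by fun_prop
  have hQm : Measurable Q := by fun_prop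
  set N := ∫⁻ s in Icc (1 / 2 : ℝ) 1, P s * Q s with hN
  have h1 := enorm_sub_le_lintegral_deriv_of_contDiffOn_Icc (phi_cd f hf hz (q / 4))
    (by norm_num)
  have h2 : ∫⁻ x in Icc (1 / 2 : ℝ) 1, ‖deriv (fun s : ℝ => (1 + ‖f (s * z)‖ ^ 2) ^ (q / 4)) x‖ₑ ≤
      ∫⁻ s in Icc (1 / 2 : ℝ) 1, c * (P s ^ (1 / 2 : ℝ) * (P s * Q s) ^ (1 / 2 : ℝ)) := by
    rw [← restrict_Ico_eq_restrict_Icc]
    refine setLIntegral_mono' measurableSet_Ico fun s hs => ?_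
    have hs0 : (0 : ℝ) ≤ s := by linarith [hs.1]
    rw [(phi_deriv f hf (mem_mul hz hs0 hs.2.le)).deriv, Real.enorm_eq_ofReal_abs]
    refine (ENNReal.ofReal_le_ofReal (phi_bound (mem_ball_zero_iff.1 hz).le hs.1 hs.2 hq0 hq hβ
      (growth_W f hK hz hs0 hs.2.le))).trans (le_of_eq ?_)
    have h1s : 0 < 1 - s := by linarith [hs.2]
    rw [ENNReal.ofReal_mul (by positivity), ENNReal.ofReal_mul (by positivity),
      ENNReal.mul_rpow_of_nonneg _ _ (by norm_num), ← mul_assoc (P s ^ _),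
      ← ENNReal.rpow_add_of_nonneg _ _ (by norm_num) (by norm_num), Real.sqrt_eq_rpow,
      ← ENNReal.ofReal_rpow_of_nonneg (p := 1 / 2) (by positivity) (by norm_num),
      ENNReal.ofReal_mul (by positivity)]
    norm_num [hP, hQ, hc]
  have h3 : ∫⁻ s in Icc (1 / 2 : ℝ) 1, c * (P s ^ (1 / 2 : ℝ) * (P s * Q s) ^ (1 / 2 : ℝ)) ≤
      c * (B ^ (1 / 2 : ℝ) * N ^ (1 / 2 : ℝ)) := by
    rw [lintegral_const_mul' _ _ ENNReal.ofReal_ne_top]
    gcongr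
    exact ENNReal.lintegral_mul_norm_pow_le hPm.aemeasurable (hPm.mul hQm).aemeasurable
      (by norm_num) (by norm_num) (by norm_num)
  have h4 : (1 + ‖f (((1 / 2 : ℝ) : ℂ) * z)‖ ^ 2) ^ (q / 4) ≤ (16 * (1 + K ^ 2)) ^ (q / 4) := by
    have := growth_W f hK hz (s := 1 / 2) (by norm_num) (by norm_num)
    refine Real.rpow_le_rpow (by positivity) ?_ (by positivity)
    norm_num at this ⊢
    linarith
  have h5 : ENNReal.ofReal ((1 + ‖f z‖ ^ 2) ^ (q / 4)) ≤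
      a + c * (B ^ (1 / 2 : ℝ) * N ^ (1 / 2 : ℝ)) := by
    refine le_trans ?_ (add_le_add le_rfl (h1.trans (h2.trans h3)))
    rw [Real.enorm_eq_ofReal_abs, ha, ← ENNReal.ofReal_add (by positivity) (abs_nonneg _)]
    refine ENNReal.ofReal_le_ofReal ?_
    have := le_abs_self ((1 + ‖f (((1 : ℝ) : ℂ) * z)‖ ^ 2) ^ (q / 4) -
      (1 + ‖f (((1 / 2 : ℝ) : ℂ) * z)‖ ^ 2) ^ (q / 4))
    have e : ((1 : ℝ) : ℂ) * z = z := by simp
    rw [e] at this ⊢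
    linarith
  have e : ENNReal.ofReal ((1 + ‖f z‖ ^ 2) ^ (q / 2)) =
      ENNReal.ofReal ((1 + ‖f z‖ ^ 2) ^ (q / 4)) ^ (2 : ℝ) := by
    rw [ENNReal.ofReal_rpow_of_nonneg (by positivity) (by norm_num),
      ← Real.rpow_mul (by positivity)]
    congr 2
    ring
  rw [e]
  refine (ENNReal.rpow_le_rpow h5 (by norm_num)).trans
    ((ENNReal.rpow_add_le_mul_rpow_add_rpow _ _ (by norm_num)).trans (le_of_eq ?_))
  rw [ENNReal.mul_rpow_of_nonneg _ _ (by norm_num), ENNReal.mul_rpow_of_nonneg _ _ (by norm_num),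
    ← ENNReal.rpow_mul, ← ENNReal.rpow_mul]
  norm_num
  ring

theorem moment (f : ℂ → ℂ) (hf : DifferentiableOn ℂ f (ball 0 1)) (hm : Measurable f)
    (hinj : InjOn f (ball 0 1)) {K : ℝ}
    (hK : ∀ z ∈ ball (0 : ℂ) 1, ‖f z‖ ≤ K / (1 - ‖z‖) ^ 2) {q : ℝ} (hq0 : 0 ≤ q) (hq : q < 1) :
    ∫⁻ z in ball (0 : ℂ) 1, ENNReal.ofReal ((1 + ‖f z‖ ^ 2) ^ (q / 2)) < ⊤ := by
  obtain ⟨β, hqβ, hβ1⟩ := exists_between hq
  obtain ⟨C₁, C₂, h1, h2, h⟩ := point f hf hm hK hq0 hq.le (hq0.trans hqβ.le) hβ1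
  have hd := measurable_deriv f
  refine (setLIntegral_mono' measurableSet_ball h).trans_lt ?_
  rw [lintegral_add_left measurable_const, lintegral_const_mul' _ _ h2.ne]
  refine ENNReal.add_lt_top.2 ⟨?_, ENNReal.mul_lt_top h2 ?_⟩
  · rw [setLIntegral_const]
    exact ENNReal.mul_lt_top h1 measure_ball_lt_top
  rw [lintegral_lintegral_swap (by fun_prop)]
  set J := ∫⁻ w : ℂ, ENNReal.ofReal ((1 + ‖w‖ ^ 2) ^ (-(1 + (β - q) / 2))) with hJ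
  have hJt : J < ⊤ := fin_bracket (by linarith)
  refine lt_of_le_of_lt (b := ∫⁻ s in Icc (1 / 2 : ℝ) 1, ENNReal.ofReal ((1 - s) ^ (-β)) * J)
    (setLIntegral_mono' measurableSet_Icc fun s hs => ?_) ?_
  · rw [lintegral_const_mul' _ _ ENNReal.ofReal_ne_top]
    gcongr
    have hs0 : (0 : ℝ) < s := by linarith [hs.1]
    refine area_le (fun z => f (s * z)) (fun z => (s : ℂ) * deriv f (s * z)) (fun z hz => ?_)
      (fun z hz w hw e => ?_) (fun w => ENNReal.ofReal ((1 + ‖w‖ ^ 2) ^ (-(1 + (β - q) / 2))))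
    · have h1 : HasDerivAt f (deriv f (s * z)) (s * z) :=
        (hf.differentiableAt (isOpen_ball.mem_nhds (mem_mul hz hs0.le hs.2))).hasDerivAt
      have := h1.comp z ((hasDerivAt_id z).const_mul (s : ℂ))
      simpa [Function.comp_def, mul_comm] using this
    · have := hinj (mem_mul hz hs0.le hs.2) (mem_mul hw hs0.le hs.2) e
      exact mul_left_cancel₀ (by exact_mod_cast hs0.ne') this
  · rw [lintegral_mul_const' _ _ hJt.ne]
    exact ENNReal.mul_lt_top (fin_P hβ1) hJt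

theorem pos_meas (f : ℂ → ℂ) (hf : DifferentiableOn ℂ f (ball 0 1)) (hm : Measurable f)
    (hinj : InjOn f (ball 0 1)) {K : ℝ}
    (hK : ∀ z ∈ ball (0 : ℂ) 1, ‖f z‖ ≤ K / (1 - ‖z‖) ^ 2) {t : ℝ} (ht0 : 0 ≤ t)
    (ht : t < 2 / 3) : ∫⁻ w in ball (0 : ℂ) 1, ‖deriv f w‖ₑ ^ t < ⊤ := by
  have h2t : 0 < 2 - t := by linarith
  -- `γ > 1` with `q = 2 γ t / (2 - t) < 1`
  obtain ⟨γ, hγ, hq⟩ : ∃ γ : ℝ, 1 < γ ∧ 2 * γ * t / (2 - t) < 1 := by
    refine ⟨1 + (2 - 3 * t) / 2, by linarith, ?_⟩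
    rw [div_lt_one h2t]
    nlinarith
  have hq0 : 0 ≤ 2 * γ * t / (2 - t) := by positivity
  have hd := measurable_deriv f
  have hpt : ∀ z ∈ ball (0 : ℂ) 1, ‖deriv f z‖ₑ ^ t ≤
      ENNReal.ofReal (‖deriv f z‖ ^ 2) * ENNReal.ofReal ((1 + ‖f z‖ ^ 2) ^ (-γ)) +
        ENNReal.ofReal ((1 + ‖f z‖ ^ 2) ^ (2 * γ * t / (2 - t) / 2)) := by
    intro z _
    rw [← ofReal_norm, ENNReal.ofReal_rpow_of_nonneg (norm_nonneg _) ht0,
      ← ENNReal.ofReal_mul (by positivity), ← ENNReal.ofReal_add (by positivity) (by positivity)]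
    refine ENNReal.ofReal_le_ofReal ?_
    set W := 1 + ‖f z‖ ^ 2 with hW
    have hW0 : 0 < W := by positivity
    have h := Real.geom_mean_le_arith_mean2_weighted (w₁ := t / 2) (w₂ := 1 - t / 2)
      (p₁ := ‖deriv f z‖ ^ 2 * W ^ (-γ)) (p₂ := W ^ (2 * γ * t / (2 - t) / 2)) (by positivity)
      (by linarith) (by positivity) (by positivity) (by ring)
    have e : (‖deriv f z‖ ^ 2 * W ^ (-γ)) ^ (t / 2) * (W ^ (2 * γ * t / (2 - t) / 2)) ^ (1 - t / 2)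
        = ‖deriv f z‖ ^ t := by
      rw [Real.mul_rpow (by positivity) (by positivity), ← Real.rpow_natCast,
        ← Real.rpow_mul (norm_nonneg _), ← Real.rpow_mul hW0.le, ← Real.rpow_mul hW0.le, mul_assoc,
        ← Real.rpow_add hW0]
      have e1 : -γ * (t / 2) + 2 * γ * t / (2 - t) / 2 * (1 - t / 2) = 0 := by
        field_simp
        ring
      have e2 : ((2 : ℕ) : ℝ) * (t / 2) = t := by push_cast; ring
      rw [e1, e2, Real.rpow_zero, mul_one]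
    rw [e] at h
    have hA : 0 ≤ ‖deriv f z‖ ^ 2 * W ^ (-γ) := by positivity
    have hB : 0 ≤ W ^ (2 * γ * t / (2 - t) / 2) := by positivity
    nlinarith
  refine (setLIntegral_mono' measurableSet_ball hpt).trans_lt ?_
  rw [lintegral_add_left (by fun_prop)]
  refine ENNReal.add_lt_top.2 ⟨?_, moment f hf hm hinj hK hq0 hq⟩
  exact (area_le f (deriv f) (fun z hz =>
    (hf.differentiableAt (isOpen_ball.mem_nhds hz)).hasDerivAt) hinj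
    (fun w => ENNReal.ofReal ((1 + ‖w‖ ^ 2) ^ (-γ)))).trans_lt (fin_bracket hγ)

theorem pos_of_growth (f : ℂ → ℂ) (hf : DifferentiableOn ℂ f (ball 0 1))
    (hinj : InjOn f (ball 0 1)) (K : ℝ)
    (hK : ∀ z ∈ ball (0 : ℂ) 1, ‖f z‖ ≤ K / (1 - ‖z‖) ^ 2) (t : ℝ) (ht0 : 0 ≤ t)
    (ht : t < 2 / 3) : ∫⁻ w in ball (0 : ℂ) 1, ‖deriv f w‖ₑ ^ t < ⊤ := by
  classical
  set g : ℂ → ℂ := (ball (0 : ℂ) 1).piecewise f (fun _ => 0) with hg
  have he : EqOn g f (ball 0 1) := fun z hz => piecewise_eq_of_mem _ _ _ hz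
  have hm : Measurable g :=
    hf.continuousOn.measurable_piecewise continuousOn_const measurableSet_ball
  have h := pos_meas g (hf.congr he) hm (hinj.congr he.symm) (K := K)
    (fun z hz => by rw [he hz]; exact hK z hz) ht0 ht
  refine lt_of_eq_of_lt (setLIntegral_congr_fun measurableSet_ball fun z hz => ?_) h
  have : g =ᶠ[nhds z] f := he.eventuallyEq_of_mem (isOpen_ball.mem_nhds hz)
  simp only [this.deriv_eq]

end Crest.Agent.R131.H35
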