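import Crest.Agent.R131.PosGrowth
import Crest.Agent.R131.PosH35

namespace Crest.Agent.R131

open MeasureTheory Metric Set
open scoped ENNReal Real

/-- Brennan's range `0 ≤ t < 2/3`. -/
theorem pos_part (f : ℂ → ℂ) (hf : DifferentiableOn ℂ f (Metric.ball 0 1))
    (hinj : Set.InjOn f (Metric.ball 0 1)) (t : ℝ) (ht0 : 0 ≤ t) (ht : t < 2 / 3) :
    ∫⁻ w in Metric.ball (0:ℂ) 1, ‖deriv f w‖ₑ ^ t < ⊤ := by
  obtain ⟨C, hC⟩ := pos_growth f hf hinj
  refine H35.pos_of_growth f hf hinj C (fun z hz => ?_) t ht0 ht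
  have h1 : 0 < 1 - ‖z‖ := sub_pos.2 (mem_ball_zero_iff.1 hz)
  rw [le_div_iff₀ (by positivity), mul_comm]
  exact hC z hz

end Crest.Agent.R131
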