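import Mathlib
import Crest.Agent.R131.Glue76
import Crest.Agent.R131.Dist13

/-!
Row 131: the positive range `0 < t < 2/3` of the area statement, from the negative range applied
to `1 / (f - w₀)` (`w₀` an omitted value) and the area formula.
-/

set_option autoImplicit false

open MeasureTheory Metric Set
open scoped ENNReal

namespace Crest.Agent.R131.P33

theorem det_mul (c : ℂ) :
    |((ContinuousLinearMap.toSpanSingleton ℂ c).restrictScalars ℝ).det| = ‖c‖ ^ 2 := by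
  rw [ContinuousLinearMap.det, ← LinearMap.det_toMatrix Complex.basisOneI, Matrix.det_fin_two]
  simp only [LinearMap.toMatrix_apply]
  rw [Complex.sq_norm, Complex.normSq_apply, ← abs_of_nonneg (add_nonneg (mul_self_nonneg c.re)
    (mul_self_nonneg c.im))]
  simp

theorem pw1 {y u t α β s r : ℝ} (hy : 0 < y) (hu : 0 < u) (hα : 0 ≤ α) (hβ : 0 ≤ β)
    (hab : α + β = 1) (h1 : 2 * α - s * β = t) (h2 : r * α = 2 * (s * β)) :
    y ^ t ≤ y ^ 2 * u ^ (-r) + (y / u ^ 2) ^ (-s) := by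
  have hA : 0 < y ^ 2 * u ^ (-r) := by positivity
  have hB : 0 < (y / u ^ 2) ^ (-s) := by positivity
  have h := Real.geom_mean_le_arith_mean2_weighted hα hβ hA.le hB.le hab
  have he : (y ^ 2 * u ^ (-r)) ^ α * ((y / u ^ 2) ^ (-s)) ^ β = y ^ t := by
    have hq : 0 < y / u ^ 2 := by positivity
    rw [Real.rpow_def_of_pos hA, Real.rpow_def_of_pos hB, Real.rpow_def_of_pos hy,
      ← Real.exp_add, Real.log_mul (by positivity) (by positivity), Real.log_rpow hu,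
      Real.log_rpow hq, Real.log_div hy.ne' (by positivity), Real.log_pow, Real.log_pow]
    congr 1
    rw [← h1]
    push_cast
    linear_combination (-Real.log u) * h2
  rw [he] at h
  nlinarith [mul_nonneg hα hB.le, mul_nonneg hβ hA.le]

theorem pw2 {y u t α β s r : ℝ} (hy : 0 < y) (hu : 0 < u) (hα : 0 ≤ α) (hβ : 0 ≤ β)
    (hab : α + β = 1) (h1 : 2 * α - s * β = t) (h2 : r * α = 2 * (s * β)) (hr : 0 ≤ r)
    (ht0 : 0 ≤ t) (ht2 : t ≤ 2) :
    y ^ t ≤ 2 ^ r * (y ^ 2 * (1 + u) ^ (-r)) + (y / u ^ 2) ^ (-s) + 1 := by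
  have hB : 0 < (y / u ^ 2) ^ (-s) := by positivity
  have hC : 0 < 2 ^ r * (y ^ 2 * (1 + u) ^ (-r)) := by positivity
  have key : ∀ v : ℝ, 0 < v → 1 + u ≤ 2 * v → v ^ (-r) ≤ 2 ^ r * (1 + u) ^ (-r) := by
    intro v hv huv
    have h3 : (2 * v) ^ (-r) ≤ (1 + u) ^ (-r) :=
      Real.rpow_le_rpow_of_nonpos (by positivity) huv (by linarith)
    rw [Real.mul_rpow (by norm_num) hv.le] at h3
    have h4 : (2 : ℝ) ^ r * 2 ^ (-r) = 1 := by
      rw [← Real.rpow_add (by norm_num)]; simp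
    have h5 : (0 : ℝ) < 2 ^ r := by positivity
    calc v ^ (-r) = 2 ^ r * (2 ^ (-r) * v ^ (-r)) := by rw [← mul_assoc, h4, one_mul]
      _ ≤ _ := by gcongr
  rcases le_total 1 u with h | h
  · have h3 := pw1 hy hu hα hβ hab h1 h2
    have h4 := key u hu (by linarith)
    have h5 : y ^ 2 * u ^ (-r) ≤ y ^ 2 * (2 ^ r * (1 + u) ^ (-r)) := by gcongr
    nlinarith
  · have h3 := Glue76.rpow_le_split hy one_pos ht0 ht2
    have h4 := key 1 one_pos (by linarith)
    simp only [Real.one_rpow, one_mul] at h3 h4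
    have h5 : y ^ 2 * 1 ≤ y ^ 2 * (2 ^ r * (1 + u) ^ (-r)) := by gcongr
    nlinarith

theorem area_fin (g : ℂ → ℂ) (hg : DifferentiableOn ℂ g (ball 0 1)) (hi : InjOn g (ball 0 1))
    {r : ℝ} (hr : 2 < r) :
    ∫⁻ z in ball (0 : ℂ) 1, ENNReal.ofReal (‖deriv g z‖ ^ 2 * (1 + ‖g z‖) ^ (-r)) < ⊤ := by
  have hf' : ∀ x ∈ ball (0 : ℂ) 1, HasFDerivWithinAt g
      ((ContinuousLinearMap.toSpanSingleton ℂ (deriv g x)).restrictScalars ℝ) (ball 0 1) x := by
    intro x hx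
    have hd : HasDerivAt g (deriv g x) x :=
      (hg.differentiableAt (isOpen_ball.mem_nhds hx)).hasDerivAt
    exact (hd.hasFDerivAt.restrictScalars ℝ).hasFDerivWithinAt
  have h := lintegral_image_eq_lintegral_abs_det_fderiv_mul volume measurableSet_ball hf' hi
    (fun w => ENNReal.ofReal ((1 + ‖w‖) ^ (-r)))
  have h2 : ∫⁻ x : ℂ, ENNReal.ofReal ((1 + ‖x‖) ^ (-r)) < ⊤ :=
    finite_integral_one_add_norm (by rw [Complex.finrank_real_complex]; exact_mod_cast hr)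
  have h3 := (setLIntegral_le_lintegral (g '' ball 0 1) _).trans_lt h2
  rw [h] at h3
  refine lt_of_eq_of_lt ?_ h3
  refine lintegral_congr fun z => ?_
  rw [det_mul, ENNReal.ofReal_mul (by positivity)]

theorem pos_of_neg
    (hneg : ∀ f : ℂ → ℂ, DifferentiableOn ℂ f (ball 0 1) → InjOn f (ball 0 1) →
      ∀ t : ℝ, -2 < t → t ≤ 0 → ∫⁻ w in ball (0 : ℂ) 1, ‖deriv f w‖ₑ ^ t < ⊤)
    (f : ℂ → ℂ) (hf : DifferentiableOn ℂ f (ball 0 1)) (hinj : InjOn f (ball 0 1))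
    (t : ℝ) (ht0 : 0 < t) (ht : t < 2 / 3) :
    ∫⁻ w in ball (0 : ℂ) 1, ‖deriv f w‖ₑ ^ t < ⊤ := by
  obtain ⟨w₀, hw₀, -⟩ := Dist13_omit one_pos hf hinj
  have hne : ∀ z ∈ ball (0 : ℂ) 1, f z - w₀ ≠ 0 := fun z hz h =>
    hw₀ ⟨z, hz, sub_eq_zero.1 h⟩
  set α : ℝ := t / 2 + 1 / 3 with hα
  set β : ℝ := 2 / 3 - t / 2 with hβ
  have hα0 : 0 < α := by rw [hα]; linarith
  have hβ0 : 0 < β := by rw [hβ]; linarith
  set s : ℝ := 2 / 3 / β with hs
  set r : ℝ := 4 / 3 / α with hr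
  have hsβ : s * β = 2 / 3 := div_mul_cancel₀ _ hβ0.ne'
  have hrα : r * α = 4 / 3 := div_mul_cancel₀ _ hα0.ne'
  have hs0 : 0 < s := by positivity
  have hs2 : s < 2 := by rw [hs, div_lt_iff₀ hβ0, hβ]; linarith
  have hr2 : 2 < r := by rw [hr, lt_div_iff₀ hα0, hα]; linarith
  have hgd : DifferentiableOn ℂ (fun z => f z - w₀) (ball 0 1) := hf.sub_const _
  have hgi : InjOn (fun z => f z - w₀) (ball 0 1) := fun a ha b hb hab =>
    hinj ha hb (sub_left_injective hab)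
  have hkd : DifferentiableOn ℂ (fun z => (f z - w₀)⁻¹) (ball 0 1) := hgd.inv hne
  have hki : InjOn (fun z => (f z - w₀)⁻¹) (ball 0 1) := fun a ha b hb hab =>
    hgi ha hb (inv_injective hab)
  have hA := area_fin _ hgd hgi hr2
  have hB := hneg _ hkd hki (-s) (by linarith) (by linarith)
  have hV : volume (ball (0 : ℂ) 1) < ⊤ := measure_ball_lt_top
  have hm : Measurable fun w => ‖deriv (fun z => (f z - w₀)⁻¹) w‖ₑ ^ (-s) :=
    (measurable_deriv _).enorm.pow_const _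
  calc ∫⁻ w in ball (0 : ℂ) 1, ‖deriv f w‖ₑ ^ t
      ≤ ∫⁻ w in ball (0 : ℂ) 1, (ENNReal.ofReal (2 ^ r) *
          ENNReal.ofReal (‖deriv (fun z => f z - w₀) w‖ ^ 2 * (1 + ‖f w - w₀‖) ^ (-r)) +
          ‖deriv (fun z => (f z - w₀)⁻¹) w‖ₑ ^ (-s) + 1) := by
        apply setLIntegral_mono' measurableSet_ball
        intro w hw
        have hd : HasDerivAt f (deriv f w) w :=
          (hf.differentiableAt (isOpen_ball.mem_nhds hw)).hasDerivAt
        have hy : 0 < ‖deriv f w‖ := norm_pos_iff.2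
          (Crest.Agent.Lib.Complex.deriv_ne_zero_of_injOn isOpen_ball hf hinj hw)
        have hu : 0 < ‖f w - w₀‖ := norm_pos_iff.2 (hne w hw)
        have hk : deriv (fun z => (f z - w₀)⁻¹) w = -deriv f w / (f w - w₀) ^ 2 :=
          ((hd.sub_const w₀).inv (hne w hw)).deriv
        have hq : 0 < ‖deriv f w‖ / ‖f w - w₀‖ ^ 2 := by positivity
        rw [deriv_sub_const, hk, ← ofReal_norm, ← ofReal_norm, norm_div,
          norm_neg, norm_pow, ENNReal.ofReal_rpow_of_pos hy, ENNReal.ofReal_rpow_of_pos hq,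
          ← ENNReal.ofReal_mul (by positivity), ← ENNReal.ofReal_add (by positivity)
          (by positivity), ← ENNReal.ofReal_one, ← ENNReal.ofReal_add (by positivity)
          (by positivity)]
        exact ENNReal.ofReal_le_ofReal (pw2 hy hu hα0.le hβ0.le (by rw [hα, hβ]; ring)
          (by rw [hsβ, hα]; ring) (by rw [hsβ, hrα]; ring) (by linarith) ht0.le (by linarith))
    _ < ⊤ := by
        rw [lintegral_add_right _ measurable_const, lintegral_add_right _ hm,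
          lintegral_const_mul' _ _ ENNReal.ofReal_ne_top, setLIntegral_one]
        exact ENNReal.add_lt_top.2 ⟨ENNReal.add_lt_top.2
          ⟨ENNReal.mul_lt_top ENNReal.ofReal_lt_top hA, hB⟩, hV⟩

theorem pos33 (h78 : Glue76.St78) :
    ∀ f : ℂ → ℂ, DifferentiableOn ℂ f (ball 0 1) → InjOn f (ball 0 1) →
      ∀ t : ℝ, 0 < t → t < 2 / 3 → ∫⁻ w in ball (0 : ℂ) 1, ‖deriv f w‖ₑ ^ t < ⊤ :=
  pos_of_neg (Glue76.neg_part h78)

/-- The statement `S0176` from the statement `S0178`. -/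
theorem s0176_of_78 (h78 : Glue76.St78)
    (f : ℂ → ℂ) (hf : DifferentiableOn ℂ f (ball 0 1)) (hinj : InjOn f (ball 0 1))
    (t : ℝ) (ht₁ : -2 < t) (ht₂ : t < 2 / 3) :
    ∫⁻ w in ball (0 : ℂ) 1, ‖deriv f w‖ₑ ^ t < ⊤ :=
  Glue76.s0176_of h78 (pos33 h78) f hf hinj t ht₁ ht₂

end Crest.Agent.R131.P33
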