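import Mathlib

/-! # Row 131: the classical range `0 ≤ t < 2/3` from the growth bound (helper50) -/

set_option autoImplicit false

open MeasureTheory Set Metric
open scoped ENNReal

namespace Crest.Agent.R131

theorem p50_det (c : ℂ) :
    |((ContinuousLinearMap.toSpanSingleton ℂ c).restrictScalars ℝ).det| = ‖c‖ ^ 2 := by
  rw [ContinuousLinearMap.det, ← LinearMap.det_toMatrix Complex.basisOneI, Matrix.det_fin_two]
  simp only [LinearMap.toMatrix_apply]
  rw [Complex.sq_norm, Complex.normSq_apply, ← abs_of_nonneg (add_nonneg (mul_self_nonneg c.re)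
    (mul_self_nonneg c.im))]
  simp

theorem p50_area (f : ℂ → ℂ) (hf : DifferentiableOn ℂ f (ball 0 1)) (hinj : InjOn f (ball 0 1))
    {s : ℝ} (hs : 1 < s) :
    ∫⁻ w in ball (0 : ℂ) 1, ENNReal.ofReal (‖deriv f w‖ ^ 2 * (1 + ‖f w‖ ^ 2) ^ (-s)) < ⊤ := by
  have hfd : ∀ z ∈ ball (0 : ℂ) 1, HasFDerivWithinAt f
      ((ContinuousLinearMap.toSpanSingleton ℂ (deriv f z)).restrictScalars ℝ) (ball 0 1) z :=
    fun z hz => (((hf.differentiableAt (isOpen_ball.mem_nhds hz)).hasDerivAt).hasFDerivAt.restrictScalars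
      ℝ).hasFDerivWithinAt
  have h := lintegral_image_eq_lintegral_abs_det_fderiv_mul volume measurableSet_ball hfd hinj
    (fun w => ENNReal.ofReal ((1 + ‖w‖ ^ 2) ^ (-s)))
  have hint : Integrable (fun x : ℂ => ((1 : ℝ) + ‖x‖ ^ 2) ^ (-(2 * s) / 2)) volume :=
    integrable_rpow_neg_one_add_norm_sq (by rw [Complex.finrank_real_complex]; push_cast; linarith)
  have e : -(2 * s) / 2 = -s := by ring
  rw [e] at hint
  have hfin : ∫⁻ w : ℂ, ENNReal.ofReal ((1 + ‖w‖ ^ 2) ^ (-s)) < ⊤ := hint.lintegral_lt_top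
  have h2 : ∫⁻ w in ball (0 : ℂ) 1, ENNReal.ofReal (‖deriv f w‖ ^ 2 * (1 + ‖f w‖ ^ 2) ^ (-s)) =
      ∫⁻ x in f '' ball 0 1, ENNReal.ofReal ((1 + ‖x‖ ^ 2) ^ (-s)) := by
    rw [h]
    refine lintegral_congr fun w => ?_
    rw [p50_det, ENNReal.ofReal_mul (by positivity)]
  rw [h2]
  exact lt_of_le_of_lt (setLIntegral_le_lintegral _ _) hfin

theorem p50_scale (F : ℂ → ℝ≥0∞) (hF : Measurable F) {s : ℝ} (hs : 1 / 2 ≤ s) :
    ∫⁻ z, F (s • z) ≤ 4 * ∫⁻ w, F w := by
  have hs0 : 0 < s := by linarith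
  rw [← lintegral_map hF (measurable_const_smul s), Measure.map_addHaar_smul volume hs0.ne',
    lintegral_smul_measure, Complex.finrank_real_complex, smul_eq_mul]
  gcongr
  have : |(s ^ 2)⁻¹| ≤ 4 := by
    rw [abs_of_pos (by positivity), inv_le_comm₀ (by positivity) (by norm_num)]
    nlinarith
  calc ENNReal.ofReal |(s ^ 2)⁻¹| ≤ ENNReal.ofReal 4 := ENNReal.ofReal_le_ofReal this
    _ = 4 := by simp

theorem p50_hardy (U G : ℂ → ℝ≥0∞) (hG : Measurable G) {R : ℝ} (hR1 : R ≤ 1) (M : ℝ≥0∞)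
    (h : ∀ z ∈ ball (0 : ℂ) R, U z ≤ M + ∫⁻ s in Icc (1 / 2 : ℝ) 1, G (s • z)) :
    ∫⁻ z in ball (0 : ℂ) R, U z ≤ M * volume (ball (0 : ℂ) 1) +
      4 * ∫⁻ w in ball (0 : ℂ) R, ENNReal.ofReal (1 - ‖w‖) * G w := by
  set K : ℝ → ℂ → ℝ≥0∞ := fun s w => {p : ℝ × ℂ | ‖p.2‖ < p.1 * R}.indicator (fun p => G p.2) (s, w)
    with hK
  have hset : MeasurableSet {p : ℝ × ℂ | ‖p.2‖ < p.1 * R} :=
    measurableSet_lt (by fun_prop) (by fun_prop)
  have hKm : Measurable (Function.uncurry K) := (hG.comp measurable_snd).indicator hset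
  have hjm : Measurable (fun p : ℂ × ℝ => G (p.2 • p.1)) := hG.comp (by fun_prop)
  calc ∫⁻ z in ball (0 : ℂ) R, U z
      ≤ ∫⁻ z in ball (0 : ℂ) R, (M + ∫⁻ s in Icc (1 / 2 : ℝ) 1, G (s • z)) :=
        setLIntegral_mono' measurableSet_ball h
    _ = M * volume (ball (0 : ℂ) R) +
        ∫⁻ z in ball (0 : ℂ) R, ∫⁻ s in Icc (1 / 2 : ℝ) 1, G (s • z) := by
        rw [lintegral_add_left measurable_const, setLIntegral_const]
    _ ≤ M * volume (ball (0 : ℂ) 1) +
        4 * ∫⁻ w in ball (0 : ℂ) R, ENNReal.ofReal (1 - ‖w‖) * G w := by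
        refine add_le_add (by gcongr) ?_
        rw [lintegral_lintegral_swap hjm.aemeasurable]
        calc ∫⁻ s in Icc (1 / 2 : ℝ) 1, ∫⁻ z in ball (0 : ℂ) R, G (s • z)
            ≤ ∫⁻ s in Icc (1 / 2 : ℝ) 1, 4 * ∫⁻ w, K s w := by
              refine setLIntegral_mono' measurableSet_Icc fun s hs => ?_
              refine le_trans ?_ (p50_scale (K s) (hKm.comp measurable_prodMk_left) hs.1)
              rw [← lintegral_indicator measurableSet_ball]
              refine lintegral_mono fun z => ?_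
              by_cases hz : z ∈ ball (0 : ℂ) R
              · have hs0 : 0 < s := by linarith [hs.1]
                have : (s, s • z) ∈ {p : ℝ × ℂ | ‖p.2‖ < p.1 * R} := by
                  simp only [mem_ofPred_eq, norm_smul, Real.norm_eq_abs, abs_of_pos hs0]
                  exact mul_lt_mul_of_pos_left (mem_ball_zero_iff.1 hz) hs0
                simp only [hK, indicator_of_mem hz, indicator_of_mem this, le_refl]
              · simp [indicator_of_notMem hz]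
          _ = 4 * ∫⁻ w, ∫⁻ s in Icc (1 / 2 : ℝ) 1, K s w := by
              rw [lintegral_const_mul' _ _ (by simp), lintegral_lintegral_swap hKm.aemeasurable]
          _ ≤ 4 * ∫⁻ w in ball (0 : ℂ) R, ENNReal.ofReal (1 - ‖w‖) * G w := by
              refine mul_le_mul' le_rfl ?_
              rw [← lintegral_indicator measurableSet_ball]
              refine lintegral_mono fun w => ?_
              by_cases hw : w ∈ ball (0 : ℂ) R
              · rw [indicator_of_mem hw]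
                have hR0 : 0 < R := lt_of_le_of_lt (norm_nonneg w) (mem_ball_zero_iff.1 hw)
                calc ∫⁻ s in Icc (1 / 2 : ℝ) 1, K s w
                    ≤ ∫⁻ s, (Ioc ‖w‖ 1).indicator (fun _ => G w) s := by
                      rw [← lintegral_indicator measurableSet_Icc]
                      refine lintegral_mono fun s => ?_
                      by_cases hs : s ∈ Icc (1 / 2 : ℝ) 1
                      · rw [indicator_of_mem hs]
                        by_cases hp : (s, w) ∈ {p : ℝ × ℂ | ‖p.2‖ < p.1 * R}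
                        · have hp' : ‖w‖ < s * R := hp
                          have : s ∈ Ioc ‖w‖ 1 := ⟨by nlinarith [hs.1], hs.2⟩
                          simp only [hK, indicator_of_mem hp, indicator_of_mem this, le_refl]
                        · simp only [hK, indicator_of_notMem hp, zero_le]
                      · rw [indicator_of_notMem hs]; exact zero_le
                  _ = ENNReal.ofReal (1 - ‖w‖) * G w := by
                      rw [lintegral_indicator measurableSet_Ioc, setLIntegral_const, Real.volume_Ioc,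
                        mul_comm]
              · rw [indicator_of_notMem hw]
                refine le_of_eq (setLIntegral_eq_zero measurableSet_Icc fun s hs => ?_)
                have hw' : R ≤ ‖w‖ := not_lt.1 fun h' => hw (mem_ball_zero_iff.2 h')
                have hp : (s, w) ∉ {p : ℝ × ℂ | ‖p.2‖ < p.1 * R} := by
                  simp only [mem_ofPred_eq, not_lt]
                  rcases le_total 0 R with h0 | h0
                  · nlinarith [hs.2]
                  · nlinarith [hs.1, norm_nonneg w]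
                simp only [hK, indicator_of_notMem hp, Pi.zero_apply]

theorem p50_ray (f : ℂ → ℂ) (hf : DifferentiableOn ℂ f (ball 0 1)) {q : ℝ} (hq : 0 ≤ q)
    {z : ℂ} (hz : z ∈ ball (0 : ℂ) 1) :
    (1 + ‖f z‖ ^ 2) ^ q - (1 + ‖f ((1 / 2 : ℝ) • z)‖ ^ 2) ^ q ≤
      ∫ s in (1 / 2 : ℝ)..1, 2 * q * (1 + ‖f (s • z)‖ ^ 2) ^ (q - 1 / 2) * ‖deriv f (s • z)‖ := by
  have hz1 : ‖z‖ < 1 := mem_ball_zero_iff.1 hz
  have hmem : ∀ s ∈ Icc (1 / 2 : ℝ) 1, s • z ∈ ball (0 : ℂ) 1 := fun s hs => by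
    rw [mem_ball_zero_iff, norm_smul, Real.norm_eq_abs, abs_of_pos (by linarith [hs.1])]
    nlinarith [hs.1, hs.2, norm_nonneg z]
  have hray : ContinuousOn (fun s : ℝ => s • z) (Icc (1 / 2 : ℝ) 1) := by fun_prop
  have hc : ContinuousOn (fun s : ℝ => f (s • z)) (Icc (1 / 2 : ℝ) 1) :=
    hf.continuousOn.comp hray hmem
  have hc' : ContinuousOn (fun s : ℝ => deriv f (s • z)) (Icc (1 / 2 : ℝ) 1) :=
    (hf.deriv isOpen_ball).continuousOn.comp hray hmem
  have hW : ContinuousOn (fun s : ℝ => 1 + ‖f (s • z)‖ ^ 2) (Icc (1 / 2 : ℝ) 1) :=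
    continuousOn_const.add (hc.norm.pow 2)
  have hD : ∀ s ∈ Icc (1 / 2 : ℝ) 1, HasDerivAt (fun s : ℝ => f (s • z)) (deriv f (s • z) * z) s := by
    intro s hs
    have h1 : HasDerivAt f (deriv f (s • z)) (s • z) :=
      (hf.differentiableAt (isOpen_ball.mem_nhds (hmem s hs))).hasDerivAt
    have h2 : HasDerivAt (fun s : ℝ => s • z) z s := by
      simpa using (hasDerivAt_id s).smul_const z
    have h3 := (h1.hasFDerivAt.restrictScalars ℝ).comp_hasDerivAt s h2
    simpa [Function.comp_def, mul_comm] using h3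
  have key := intervalIntegral.sub_le_integral_of_hasDeriv_right_of_le (a := 1 / 2) (b := 1)
    (g := fun s : ℝ => (1 + ‖f (s • z)‖ ^ 2) ^ q)
    (g' := fun s : ℝ => (2 * inner ℝ (f (s • z)) (deriv f (s • z) * z)) * q *
      (1 + ‖f (s • z)‖ ^ 2) ^ (q - 1))
    (φ := fun s : ℝ => 2 * q * (1 + ‖f (s • z)‖ ^ 2) ^ (q - 1 / 2) * ‖deriv f (s • z)‖)
    (by norm_num) (hW.rpow_const fun s _ => Or.inl (by positivity))
    (fun s hs => by
      have h1 := ((hD s (Ioo_subset_Icc_self hs)).norm_sq).const_add 1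
      exact (h1.rpow_const (Or.inl (by positivity))).hasDerivWithinAt)
    (((continuousOn_const.mul (hW.rpow_const fun s _ => Or.inl (by positivity))).mul
      hc'.norm).integrableOn_Icc)
    (fun s _ => by
      set a := f (s • z)
      set b := deriv f (s • z)
      have hWp : 0 < 1 + ‖a‖ ^ 2 := by positivity
      have h1 : inner ℝ a (b * z) ≤ ‖a‖ * ‖b‖ := by
        refine (real_inner_le_norm _ _).trans ?_
        rw [norm_mul]
        have : ‖b‖ * ‖z‖ ≤ ‖b‖ := mul_le_of_le_one_right (norm_nonneg _) hz1.le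
        gcongr
      have h2 : ‖a‖ ≤ (1 + ‖a‖ ^ 2) ^ (1 / 2 : ℝ) := by
        rw [← Real.sqrt_eq_rpow]
        exact Real.le_sqrt_of_sq_le (by linarith)
      have h3 : (1 + ‖a‖ ^ 2) ^ (q - 1 / 2) =
          (1 + ‖a‖ ^ 2) ^ (q - 1) * (1 + ‖a‖ ^ 2) ^ (1 / 2 : ℝ) := by
        rw [← Real.rpow_add hWp]; congr 1; ring
      have h4 : 0 ≤ (1 + ‖a‖ ^ 2) ^ (q - 1) := by positivity
      rw [h3]
      calc 2 * inner ℝ a (b * z) * q * (1 + ‖a‖ ^ 2) ^ (q - 1)
          ≤ 2 * ((1 + ‖a‖ ^ 2) ^ (1 / 2 : ℝ) * ‖b‖) * q * (1 + ‖a‖ ^ 2) ^ (q - 1) := by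
            gcongr
            exact h1.trans (by gcongr)
        _ = _ := by ring)
  simpa using key

theorem p50_amgm {q C d a b : ℝ} (hq : 0 ≤ q) (hq' : q < 1 / 2) (hd : 0 ≤ d) (hd1 : d ≤ 1)
    (ha : 0 ≤ a) (hb : 0 ≤ b) (hC : d ^ 2 * a ≤ C) :
    4 * (d * (2 * q * (1 + a ^ 2) ^ (q - 1 / 2) * b)) ≤
      2⁻¹ * (1 + a ^ 2) ^ q + 8 * (1 + C) * (b ^ 2 * (1 + a ^ 2) ^ (-(3 / 2 - q))) := by
  have hW : 0 < 1 + a ^ 2 := by positivity
  set W := 1 + a ^ 2 with hWd
  set X := W ^ (q / 2) with hX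
  set Y := W ^ (q / 2 - 3 / 4) with hY
  set L := W ^ (1 / 4 : ℝ) with hL
  have e1 : W ^ q = X ^ 2 := by rw [hX, sq, ← Real.rpow_add hW]; congr 1; ring
  have e2 : W ^ (-(3 / 2 - q)) = Y ^ 2 := by rw [hY, sq, ← Real.rpow_add hW]; congr 1; ring
  have e3 : W ^ (q - 1 / 2) = L * X * Y := by
    rw [hL, hX, hY, ← Real.rpow_add hW, ← Real.rpow_add hW]; congr 1; ring
  have e4 : L ^ 2 ≤ 1 + a := by
    have : L ^ 2 = Real.sqrt W := by
      rw [hL, sq, ← Real.rpow_add hW, Real.sqrt_eq_rpow]; congr 1; ring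
    rw [this]
    exact Real.sqrt_le_iff.2 ⟨by positivity, by rw [hWd]; nlinarith⟩
  have e5 : (d * L) ^ 2 ≤ 1 + C := by
    have : d ^ 2 ≤ 1 := by nlinarith
    calc (d * L) ^ 2 = d ^ 2 * L ^ 2 := by ring
      _ ≤ d ^ 2 * (1 + a) := by gcongr
      _ ≤ 1 + C := by nlinarith
  have e6 : (q * (d * L)) ^ 2 ≤ (1 + C) / 4 := by
    have : q ^ 2 ≤ 1 / 4 := by nlinarith
    calc (q * (d * L)) ^ 2 = q ^ 2 * (d * L) ^ 2 := by ring
      _ ≤ 1 / 4 * (1 + C) := by gcongr
      _ = _ := by ring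
  rw [e1, e2, e3]
  have e7 : (q * (d * L)) ^ 2 * (b * Y) ^ 2 ≤ (1 + C) / 4 * (b * Y) ^ 2 := by gcongr
  nlinarith [sq_nonneg (X - 8 * (q * (d * L)) * (b * Y))]

theorem p50_U (f : ℂ → ℂ) (hf : DifferentiableOn ℂ f (ball 0 1)) (hinj : InjOn f (ball 0 1))
    (C : ℝ) (hg : ∀ z ∈ ball (0 : ℂ) 1, (1 - ‖z‖) ^ 2 * ‖f z‖ ≤ C) {q : ℝ} (hq : 0 ≤ q)
    (hq' : q < 1 / 2) :
    ∫⁻ w in ball (0 : ℂ) 1, ENNReal.ofReal ((1 + ‖f w‖ ^ 2) ^ q) < ⊤ := by
  classical
  have hC : 0 ≤ C := le_trans (by positivity) (hg 0 (mem_ball_self one_pos))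
  have hbd : ∀ R : ℝ, R < 1 → ∀ z ∈ ball (0 : ℂ) R,
      (1 + ‖f z‖ ^ 2) ^ q ≤ (1 + (C / (1 - R) ^ 2) ^ 2) ^ q := by
    intro R hR z hz
    have hz' := mem_ball_zero_iff.1 hz
    have h1 := hg z (mem_ball_zero_iff.2 (hz'.trans hR))
    have h2 : ‖f z‖ ≤ C / (1 - R) ^ 2 := by
      rw [le_div_iff₀ (by have : 0 < 1 - R := by linarith
                          positivity)]
      have : (1 - R) ^ 2 ≤ (1 - ‖z‖) ^ 2 := by
        apply pow_le_pow_left₀ <;> linarith
      nlinarith [norm_nonneg (f z)]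
    gcongr
  have hW : ContinuousOn (fun w : ℂ => 1 + ‖f w‖ ^ 2) (ball 0 1) :=
    continuousOn_const.add (hf.continuousOn.norm.pow 2)
  have hUc : ContinuousOn (fun w : ℂ => ENNReal.ofReal ((1 + ‖f w‖ ^ 2) ^ q)) (ball 0 1) :=
    ENNReal.continuous_ofReal.comp_continuousOn (hW.rpow_const fun s _ => Or.inl (by positivity))
  have hGc : ContinuousOn (fun w : ℂ => ENNReal.ofReal
      (2 * q * (1 + ‖f w‖ ^ 2) ^ (q - 1 / 2) * ‖deriv f w‖)) (ball 0 1) :=
    ENNReal.continuous_ofReal.comp_continuousOn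
      ((continuousOn_const.mul (hW.rpow_const fun s _ => Or.inl (by positivity))).mul
        (hf.deriv isOpen_ball).continuousOn.norm)
  set G : ℂ → ℝ≥0∞ := (ball (0 : ℂ) 1).piecewise (fun w : ℂ => ENNReal.ofReal
      (2 * q * (1 + ‖f w‖ ^ 2) ^ (q - 1 / 2) * ‖deriv f w‖)) (fun _ => 0) with hGd
  have hG : Measurable G := hGc.measurable_piecewise continuousOn_const measurableSet_ball
  set M : ℝ := (1 + (C / (1 - 1 / 2) ^ 2) ^ 2) ^ q with hM
  set A : ℝ≥0∞ := ∫⁻ w in ball (0 : ℂ) 1,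
    ENNReal.ofReal (‖deriv f w‖ ^ 2 * (1 + ‖f w‖ ^ 2) ^ (-(3 / 2 - q))) with hA
  have hAf : A < ⊤ := p50_area f hf hinj (by linarith)
  set B : ℝ≥0∞ := ENNReal.ofReal M * volume (ball (0 : ℂ) 1) + ENNReal.ofReal (8 * (1 + C)) * A
    with hB
  have hBf : B < ⊤ := ENNReal.add_lt_top.2 ⟨ENNReal.mul_lt_top ENNReal.ofReal_lt_top
    measure_ball_lt_top, ENNReal.mul_lt_top ENNReal.ofReal_lt_top hAf⟩
  have main : ∀ R : ℝ, R < 1 →
      ∫⁻ w in ball (0 : ℂ) R, ENNReal.ofReal ((1 + ‖f w‖ ^ 2) ^ q) ≤ B + B := by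
    intro R hR
    have hsub : ball (0 : ℂ) R ⊆ ball 0 1 := ball_subset_ball hR.le
    set I := ∫⁻ w in ball (0 : ℂ) R, ENNReal.ofReal ((1 + ‖f w‖ ^ 2) ^ q) with hI
    have hIf : I < ⊤ := by
      calc I ≤ ∫⁻ _ in ball (0 : ℂ) R, ENNReal.ofReal ((1 + (C / (1 - R) ^ 2) ^ 2) ^ q) :=
            setLIntegral_mono' measurableSet_ball fun z hz =>
              ENNReal.ofReal_le_ofReal (hbd R hR z hz)
        _ < ⊤ := by
            rw [setLIntegral_const]
            exact ENNReal.mul_lt_top ENNReal.ofReal_lt_top measure_ball_lt_top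
    have h1 := p50_hardy (fun w => ENNReal.ofReal ((1 + ‖f w‖ ^ 2) ^ q)) G hG hR.le
      (ENNReal.ofReal M) (fun z hz => by
        have hz1 : ‖z‖ < 1 := mem_ball_zero_iff.1 (hsub hz)
        have h2 := p50_ray f hf hq (hsub hz)
        have h3 : (1 + ‖f ((1 / 2 : ℝ) • z)‖ ^ 2) ^ q ≤ M := hbd (1 / 2) (by norm_num) _ (by
          rw [mem_ball_zero_iff, norm_smul, Real.norm_eq_abs, abs_of_pos (by norm_num)]
          linarith)
        rw [intervalIntegral.integral_of_le (by norm_num)] at h2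
        calc ENNReal.ofReal ((1 + ‖f z‖ ^ 2) ^ q) ≤ ENNReal.ofReal (M + ∫ s in Ioc (1 / 2 : ℝ) 1,
              2 * q * (1 + ‖f (s • z)‖ ^ 2) ^ (q - 1 / 2) * ‖deriv f (s • z)‖) :=
              ENNReal.ofReal_le_ofReal (by linarith)
          _ ≤ _ := by
              refine ENNReal.ofReal_add_le.trans (add_le_add le_rfl ?_)
              refine (Real.ofReal_le_enorm _).trans ((enorm_integral_le_lintegral_enorm _).trans ?_)
              refine le_trans ?_ (lintegral_mono_set Ioc_subset_Icc_self)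
              refine setLIntegral_mono' measurableSet_Ioc fun s hs => ?_
              have hm : s • z ∈ ball (0 : ℂ) 1 := by
                rw [mem_ball_zero_iff, norm_smul, Real.norm_eq_abs, abs_of_pos (by linarith [hs.1])]
                nlinarith [hs.1, hs.2, norm_nonneg z]
              rw [hGd, piecewise_eq_of_mem _ _ _ hm, Real.enorm_eq_ofReal (by positivity)])
    have h2 : 4 * ∫⁻ w in ball (0 : ℂ) R, ENNReal.ofReal (1 - ‖w‖) * G w ≤
        2⁻¹ * I + ENNReal.ofReal (8 * (1 + C)) * A := by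
      rw [← lintegral_const_mul' _ _ (by simp)]
      calc ∫⁻ w in ball (0 : ℂ) R, 4 * (ENNReal.ofReal (1 - ‖w‖) * G w)
          ≤ ∫⁻ w in ball (0 : ℂ) R, (2⁻¹ * ENNReal.ofReal ((1 + ‖f w‖ ^ 2) ^ q) +
            ENNReal.ofReal (8 * (1 + C)) *
              ENNReal.ofReal (‖deriv f w‖ ^ 2 * (1 + ‖f w‖ ^ 2) ^ (-(3 / 2 - q)))) := by
            refine setLIntegral_mono' measurableSet_ball fun w hw => ?_
            have hw1 : ‖w‖ < 1 := mem_ball_zero_iff.1 (hsub hw)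
            have h3 := p50_amgm hq hq' (d := 1 - ‖w‖) (by linarith) (by linarith [norm_nonneg w])
              (norm_nonneg (f w)) (norm_nonneg (deriv f w)) (hg w (hsub hw))
            rw [hGd, piecewise_eq_of_mem _ _ _ (hsub hw), ← ENNReal.ofReal_mul (by linarith),
              ← ENNReal.ofReal_mul (by positivity)]
            have e4 : (4 : ℝ≥0∞) = ENNReal.ofReal 4 := by simp
            have e2 : (2⁻¹ : ℝ≥0∞) = ENNReal.ofReal 2⁻¹ := by
              rw [ENNReal.ofReal_inv_of_pos (by norm_num)]; simp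
            rw [e4, e2, ← ENNReal.ofReal_mul (by norm_num), ← ENNReal.ofReal_mul (by norm_num),
              ← ENNReal.ofReal_add (by positivity) (by positivity)]
            exact ENNReal.ofReal_le_ofReal h3
        _ ≤ _ := by
            rw [lintegral_add_left' (((hUc.mono hsub).aemeasurable measurableSet_ball).const_mul _),
              lintegral_const_mul' _ _ (by simp), lintegral_const_mul' _ _ ENNReal.ofReal_ne_top]
            exact add_le_add le_rfl (mul_le_mul' le_rfl (lintegral_mono_set hsub))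
    have h3 : 2⁻¹ * I + 2⁻¹ * I ≤ B + 2⁻¹ * I := by
      rw [← add_mul, ENNReal.inv_two_add_inv_two, one_mul]
      refine h1.trans ((add_le_add le_rfl h2).trans (le_of_eq ?_))
      rw [hB]; ring
    have h4 : 2⁻¹ * I ≤ B :=
      (ENNReal.add_le_add_iff_right (ENNReal.mul_ne_top (by simp) hIf.ne)).1 h3
    calc I = 2⁻¹ * I + 2⁻¹ * I := by rw [← add_mul, ENNReal.inv_two_add_inv_two, one_mul]
      _ ≤ B + B := add_le_add h4 h4
  have hU : ball (0 : ℂ) 1 = ⋃ n : ℕ, ball (0 : ℂ) (1 - 1 / ((n : ℝ) + 1)) := by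
    ext z
    simp only [mem_iUnion, mem_ball_zero_iff]
    constructor
    · intro hz
      obtain ⟨n, hn⟩ := exists_nat_one_div_lt (show 0 < 1 - ‖z‖ by linarith)
      exact ⟨n, by linarith⟩
    · rintro ⟨n, hn⟩
      have : (0 : ℝ) < 1 / ((n : ℝ) + 1) := by positivity
      linarith
  have hdir : Directed (· ⊆ ·) (fun n : ℕ => ball (0 : ℂ) (1 - 1 / ((n : ℝ) + 1))) := by
    refine Monotone.directed_le fun m n hmn => ball_subset_ball ?_
    have : (1 : ℝ) / ((n : ℝ) + 1) ≤ 1 / ((m : ℝ) + 1) := Nat.one_div_le_one_div hmn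
    linarith
  have hfin : ∫⁻ w in ⋃ n : ℕ, ball (0 : ℂ) (1 - 1 / ((n : ℝ) + 1)),
      ENNReal.ofReal ((1 + ‖f w‖ ^ 2) ^ q) ≤ B + B := by
    rw [setLIntegral_iUnion_of_directed _ hdir]
    refine iSup_le fun n => main _ ?_
    have : (0 : ℝ) < 1 / ((n : ℝ) + 1) := by positivity
    linarith
  rw [← hU] at hfin
  exact hfin.trans_lt (ENNReal.add_lt_top.2 ⟨hBf, hBf⟩)

/-- the range `0 ≤ t < 2/3` from the growth bound -/
theorem pos_of_growth (f : ℂ → ℂ) (hf : DifferentiableOn ℂ f (ball 0 1))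
    (hinj : InjOn f (ball 0 1)) (C : ℝ) (hg : ∀ z ∈ ball (0 : ℂ) 1, (1 - ‖z‖) ^ 2 * ‖f z‖ ≤ C)
    {t : ℝ} (ht : 0 ≤ t) (ht' : t < 2 / 3) :
    ∫⁻ w in ball (0 : ℂ) 1, ‖deriv f w‖ₑ ^ t < ⊤ := by
  have hA := p50_area f hf hinj (s := 3 / 2 - 3 * t / 4) (by linarith)
  have hU := p50_U f hf hinj C hg (q := 3 * t / 4) (by linarith) (by linarith)
  have hW : ContinuousOn (fun w : ℂ => 1 + ‖f w‖ ^ 2) (ball 0 1) :=
    continuousOn_const.add (hf.continuousOn.norm.pow 2)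
  have hUc : ContinuousOn (fun w : ℂ => ENNReal.ofReal ((1 + ‖f w‖ ^ 2) ^ (3 * t / 4)))
      (ball 0 1) :=
    ENNReal.continuous_ofReal.comp_continuousOn (hW.rpow_const fun s _ => Or.inl (by positivity))
  calc ∫⁻ w in ball (0 : ℂ) 1, ‖deriv f w‖ₑ ^ t
      ≤ ∫⁻ w in ball (0 : ℂ) 1, (ENNReal.ofReal ((1 + ‖f w‖ ^ 2) ^ (3 * t / 4)) +
        ENNReal.ofReal (‖deriv f w‖ ^ 2 * (1 + ‖f w‖ ^ 2) ^ (-(3 / 2 - 3 * t / 4)))) := by
        refine lintegral_mono fun w => ?_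
        have hWp : 0 < 1 + ‖f w‖ ^ 2 := by positivity
        set W := 1 + ‖f w‖ ^ 2
        set b := ‖deriv f w‖ with hb
        have hb0 : 0 ≤ b := norm_nonneg _
        have h1 := Real.geom_mean_le_arith_mean2_weighted (w₁ := t / 2) (w₂ := 1 - t / 2)
          (p₁ := b ^ 2 * W ^ (-(3 / 2 - 3 * t / 4))) (p₂ := W ^ (3 * t / 4)) (by linarith)
          (by linarith) (by positivity) (by positivity) (by ring)
        have h2 : (b ^ 2 * W ^ (-(3 / 2 - 3 * t / 4))) ^ (t / 2) * (W ^ (3 * t / 4)) ^ (1 - t / 2) =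
            b ^ t := by
          rw [Real.mul_rpow (by positivity) (by positivity), ← Real.rpow_natCast,
            ← Real.rpow_mul hb0, ← Real.rpow_mul hWp.le, ← Real.rpow_mul hWp.le, mul_assoc,
            ← Real.rpow_add hWp]
          have e1 : -(3 / 2 - 3 * t / 4) * (t / 2) + 3 * t / 4 * (1 - t / 2) = 0 := by ring
          have e2 : ((2 : ℕ) : ℝ) * (t / 2) = t := by push_cast; ring
          rw [e1, e2, Real.rpow_zero, mul_one]
        rw [← ofReal_norm, ← hb, ENNReal.ofReal_rpow_of_nonneg hb0 ht,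
          ← ENNReal.ofReal_add (by positivity) (by positivity)]
        refine ENNReal.ofReal_le_ofReal ?_
        have p1 : 0 ≤ b ^ 2 * W ^ (-(3 / 2 - 3 * t / 4)) := by positivity
        have p2 : 0 ≤ W ^ (3 * t / 4) := by positivity
        nlinarith
    _ < ⊤ := by
        rw [lintegral_add_left' (hUc.aemeasurable measurableSet_ball)]
        exact ENNReal.add_lt_top.2 ⟨hU, hA⟩

theorem p50_rayD (g : ℂ → ℂ) (hg : DifferentiableOn ℂ g (ball 0 1)) {z : ℂ} {s : ℝ}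
    (h : s • z ∈ ball (0 : ℂ) 1) :
    HasDerivAt (fun s : ℝ => g (s • z)) (deriv g (s • z) * z) s := by
  have h1 : HasDerivAt g (deriv g (s • z)) (s • z) :=
    (hg.differentiableAt (isOpen_ball.mem_nhds h)).hasDerivAt
  have h2 : HasDerivAt (fun s : ℝ => s • z) z s := by
    simpa using (hasDerivAt_id s).smul_const z
  have h3 := (h1.hasFDerivAt.restrictScalars ℝ).comp_hasDerivAt s h2
  simpa [Function.comp_def, mul_comm] using h3

theorem p50_dist (g : ℂ → ℂ) (hg : DifferentiableOn ℂ g (ball 0 1))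
    (hk : ∀ z ∈ ball (0 : ℂ) 1, (1 - ‖z‖ ^ 2) * ‖deriv g z‖ ≤ 6 * ‖g z‖) {z : ℂ}
    (hz : z ∈ ball (0 : ℂ) 1) : (1 - ‖z‖) ^ 3 * ‖g z‖ ≤ 8 * ‖g 0‖ := by
  have hz1 : ‖z‖ < 1 := mem_ball_zero_iff.1 hz
  set r := ‖z‖ with hr
  have hr0 : 0 ≤ r := norm_nonneg z
  have hmem : ∀ s ∈ Icc (0 : ℝ) 1, s • z ∈ ball (0 : ℂ) 1 := fun s hs => by
    rw [mem_ball_zero_iff, norm_smul, Real.norm_eq_abs, abs_of_nonneg hs.1]
    nlinarith [hs.1, hs.2]
  have hD : ∀ s ∈ Icc (0 : ℝ) 1, HasDerivAt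
      (fun s : ℝ => ‖g (s • z)‖ ^ 2 * ((1 - s * r) / (1 + s * r)) ^ 6)
      (2 * inner ℝ (g (s • z)) (deriv g (s • z) * z) * ((1 - s * r) / (1 + s * r)) ^ 6 +
        ‖g (s • z)‖ ^ 2 * (6 * ((1 - s * r) / (1 + s * r)) ^ 5 * (-2 * r / (1 + s * r) ^ 2))) s := by
    intro s hs
    have hp : 0 < 1 + s * r := by nlinarith [hs.1]
    have h1 := (p50_rayD g hg (hmem s hs)).norm_sq
    have h2 : HasDerivAt (fun s : ℝ => (1 - s * r) / (1 + s * r)) (-2 * r / (1 + s * r) ^ 2) s := by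
      have a1 : HasDerivAt (fun s : ℝ => 1 - s * r) (-r) s := by
        simpa using ((hasDerivAt_id s).mul_const r).const_sub 1
      have a2 : HasDerivAt (fun s : ℝ => 1 + s * r) r s := by
        simpa using ((hasDerivAt_id s).mul_const r).const_add 1
      exact (a1.fun_div a2 hp.ne').congr_deriv (by congr 1; ring)
    have h3 := h1.fun_mul (h2.fun_pow 6)
    exact h3.congr_deriv (by norm_num)
  have key := image_le_of_deriv_right_le_deriv_boundary (a := 0) (b := 1)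
    (f := fun s : ℝ => ‖g (s • z)‖ ^ 2 * ((1 - s * r) / (1 + s * r)) ^ 6)
    (fun s hs => (hD s hs).continuousAt.continuousWithinAt)
    (fun s hs => (hD s (Ico_subset_Icc_self hs)).hasDerivWithinAt)
    (B := fun _ => ‖g 0‖ ^ 2) (B' := fun _ => 0) (by simp) continuousOn_const
    (fun s _ => (hasDerivAt_const s _).hasDerivWithinAt)
    (fun s hs => by
      have hp : 0 < 1 + s * r := by nlinarith [hs.1]
      have hm : 0 ≤ 1 - s * r := by nlinarith [hs.1, hs.2]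
      have h1 := hk _ (hmem s (Ico_subset_Icc_self hs))
      rw [norm_smul, Real.norm_eq_abs, abs_of_nonneg hs.1, ← hr] at h1
      set a := g (s • z)
      set b := deriv g (s • z)
      have h2 : inner ℝ a (b * z) ≤ ‖a‖ * (‖b‖ * r) := by
        refine (real_inner_le_norm _ _).trans ?_
        rw [norm_mul]
      set u := (1 - s * r) / (1 + s * r) with hu
      have hu0 : 0 ≤ u := div_nonneg hm hp.le
      have h3 : 2 * inner ℝ a (b * z) * u ≤ ‖a‖ ^ 2 * (12 * r / (1 + s * r) ^ 2) := by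
        have e : u = (1 - (s * r) ^ 2) / (1 + s * r) ^ 2 := by
          rw [hu]; field_simp; ring
        calc 2 * inner ℝ a (b * z) * u ≤ 2 * (‖a‖ * (‖b‖ * r)) * u := by gcongr
          _ = 2 * ‖a‖ * r * ((1 - (s * r) ^ 2) * ‖b‖) / (1 + s * r) ^ 2 := by rw [e]; ring
          _ ≤ 2 * ‖a‖ * r * (6 * ‖a‖) / (1 + s * r) ^ 2 := by gcongr
          _ = _ := by ring
      have h4 : 0 ≤ u ^ 5 := by positivity
      have h5 := mul_le_mul_of_nonneg_left h3 h4
      calc _ = u ^ 5 * (2 * inner ℝ a (b * z) * u) - u ^ 5 * (‖a‖ ^ 2 * (12 * r / (1 + s * r) ^ 2)) := by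
            ring
        _ ≤ 0 := by linarith) (x := 1) ⟨zero_le_one, le_rfl⟩
  simp only [one_smul, one_mul] at key
  have hp : 0 < 1 + r := by linarith
  have h1 : ‖g z‖ * ((1 - r) / (1 + r)) ^ 3 ≤ ‖g 0‖ := by
    refine abs_le_of_sq_le_sq' ?_ (norm_nonneg _) |>.2
    calc _ = ‖g z‖ ^ 2 * ((1 - r) / (1 + r)) ^ 6 := by ring
      _ ≤ _ := key
  rw [div_pow, ← mul_div_assoc, div_le_iff₀ (by positivity)] at h1
  have h2 : (1 + r) ^ 3 ≤ 2 ^ 3 := pow_le_pow_left₀ hp.le (by linarith) 3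
  nlinarith [norm_nonneg (g 0)]

theorem growth_of_koebe (f : ℂ → ℂ) (hf : DifferentiableOn ℂ f (ball 0 1))
    (hk : ∀ z ∈ ball (0 : ℂ) 1, (1 - ‖z‖ ^ 2) * ‖deriv (deriv f) z‖ ≤ 6 * ‖deriv f z‖) :
    ∀ z ∈ ball (0 : ℂ) 1, (1 - ‖z‖) ^ 2 * ‖f z‖ ≤ ‖f 0‖ + 4 * ‖deriv f 0‖ := by
  intro z hz
  have hz1 : ‖z‖ < 1 := mem_ball_zero_iff.1 hz
  set r := ‖z‖ with hr
  have hr0 : 0 ≤ r := norm_nonneg z
  set c := ‖deriv f 0‖ with hc
  have hc0 : 0 ≤ c := norm_nonneg _
  have hmem : ∀ s ∈ Icc (0 : ℝ) 1, s • z ∈ ball (0 : ℂ) 1 := fun s hs => by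
    rw [mem_ball_zero_iff, norm_smul, Real.norm_eq_abs, abs_of_nonneg hs.1]
    nlinarith [hs.1, hs.2]
  have hB : ∀ s ∈ Icc (0 : ℝ) 1, HasDerivAt (fun s : ℝ => ‖f 0‖ + 4 * c * ((1 - s * r) ^ 2)⁻¹)
      (8 * c * r / (1 - s * r) ^ 3) s := by
    intro s hs
    have hm : 0 < 1 - s * r := by nlinarith [hs.1, hs.2]
    have a1 : HasDerivAt (fun s : ℝ => 1 - s * r) (-r) s := by
      simpa using ((hasDerivAt_id s).mul_const r).const_sub 1
    have a2 := (((a1.fun_pow 2).fun_inv (by positivity)).const_mul (4 * c)).const_add ‖f 0‖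
    refine a2.congr_deriv ?_
    field_simp
    ring
  have key := image_norm_le_of_norm_deriv_right_le_deriv_boundary' (a := 0) (b := 1)
    (f := fun s : ℝ => f (s • z)) (f' := fun s => deriv f (s • z) * z)
    (fun s hs => (p50_rayD f hf (hmem s hs)).continuousAt.continuousWithinAt)
    (fun s hs => (p50_rayD f hf (hmem s (Ico_subset_Icc_self hs))).hasDerivWithinAt)
    (B := fun s : ℝ => ‖f 0‖ + 4 * c * ((1 - s * r) ^ 2)⁻¹)
    (B' := fun s => 8 * c * r / (1 - s * r) ^ 3) (by simp; positivity)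
    (fun s hs => (hB s hs).continuousAt.continuousWithinAt)
    (fun s hs => (hB s (Ico_subset_Icc_self hs)).hasDerivWithinAt)
    (fun s hs => by
      have hm : 0 < 1 - s * r := by nlinarith [hs.1, hs.2]
      have h1 := p50_dist (deriv f) (hf.deriv isOpen_ball) hk (hmem s (Ico_subset_Icc_self hs))
      rw [norm_smul, Real.norm_eq_abs, abs_of_nonneg hs.1, ← hr, ← hc] at h1
      rw [norm_mul, ← hr, le_div_iff₀ (by positivity)]
      nlinarith) (x := 1) ⟨zero_le_one, le_rfl⟩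
  simp only [one_smul, one_mul] at key
  have hm : 0 < 1 - r := by linarith
  have h1 : (1 - r) ^ 2 ≤ 1 := by nlinarith
  calc (1 - r) ^ 2 * ‖f z‖ ≤ (1 - r) ^ 2 * (‖f 0‖ + 4 * c * ((1 - r) ^ 2)⁻¹) := by gcongr
    _ = (1 - r) ^ 2 * ‖f 0‖ + 4 * c := by field_simp
    _ ≤ ‖f 0‖ + 4 * c := by nlinarith [norm_nonneg (f 0)]

/-- the range `0 ≤ t < 2/3` from the Koebe bound -/
theorem pos_of_koebe (f : ℂ → ℂ) (hf : DifferentiableOn ℂ f (ball 0 1))
    (hinj : InjOn f (ball 0 1))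
    (hk : ∀ z ∈ ball (0 : ℂ) 1, (1 - ‖z‖ ^ 2) * ‖deriv (deriv f) z‖ ≤ 6 * ‖deriv f z‖)
    {t : ℝ} (ht : 0 ≤ t) (ht' : t < 2 / 3) :
    ∫⁻ w in ball (0 : ℂ) 1, ‖deriv f w‖ₑ ^ t < ⊤ :=
  pos_of_growth f hf hinj _ (growth_of_koebe f hf hk) ht ht'

end Crest.Agent.R131
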