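import Mathlib
import Crest.Agent.R131.Grow88
import Crest.Agent.R131.Glue76

/-!
The positive range `0 < t < 2/3` from the negative range, applied to `1/(f - w)`.
-/

set_option autoImplicit false

open Metric Set Filter Topology MeasureTheory
open scoped ENNReal

namespace Crest.Agent.R131.P88

theorem det_smul_one (a : ℂ) : (a • (1 : ℂ →L[ℝ] ℂ)).det = ‖a‖ ^ 2 := by
  rw [ContinuousLinearMap.det, ← LinearMap.det_toMatrix Complex.basisOneI, Matrix.det_fin_two]
  simp [LinearMap.toMatrix_apply, Complex.sq_norm, Complex.normSq_apply]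

theorem area_le (h : ℂ → ℂ) (hh : DifferentiableOn ℂ h (ball 0 1)) (hinj : InjOn h (ball 0 1))
    (φ : ℂ → ℝ≥0∞) :
    ∫⁻ z in ball (0 : ℂ) 1, ENNReal.ofReal (‖deriv h z‖ ^ 2) * φ (h z) ≤ ∫⁻ w, φ w := by
  have h1 := lintegral_image_eq_lintegral_abs_det_fderiv_mul (volume : Measure ℂ)
    (s := ball (0 : ℂ) 1) (f := h) (f' := fun z => deriv h z • (1 : ℂ →L[ℝ] ℂ))
    measurableSet_ball (fun z hz =>
      ((hh.differentiableAt (isOpen_ball.mem_nhds hz)).hasDerivAt.complexToReal_fderiv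
        ).hasFDerivWithinAt) hinj φ
  simp only [det_smul_one, abs_pow, abs_norm] at h1
  rw [← h1]
  exact setLIntegral_le_lintegral _ _

theorem mix_le {x y a b : ℝ} (hx : 0 ≤ x) (hy : 0 ≤ y) (ha : 0 ≤ a) (hb : 0 ≤ b)
    (hab : a + b ≤ 1) : x ^ a * y ^ b ≤ x + y + 1 := by
  have hM : (1 : ℝ) ≤ x + y + 1 := by linarith
  calc x ^ a * y ^ b ≤ (x + y + 1) ^ a * (x + y + 1) ^ b := by
        gcongr <;> linarith
    _ = (x + y + 1) ^ (a + b) := (Real.rpow_add (by linarith) _ _).symm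
    _ ≤ (x + y + 1) ^ (1 : ℝ) := Real.rpow_le_rpow_of_exponent_le hM hab
    _ = x + y + 1 := Real.rpow_one _

/-- The pointwise inequality. -/
theorem point_le {A B t : ℝ} (hA : 0 < A) (hB : 0 < B) (ht0 : 0 < t) (ht : t < 2 / 3) :
    B ^ t ≤ B ^ 2 * (2 ^ (2 + (1 - 3 * t / 2)) * (1 + A) ^ (-(2 + (1 - 3 * t / 2)))) +
      (B / A ^ 2) ^ (-(2 - (1 - 3 * t / 2))) + 1 := by
  set e := 1 - 3 * t / 2 with he
  have he0 : 0 < e := by rw [he]; linarith
  have he1 : e < 1 := by rw [he]; linarith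
  have hq : 0 < (B / A ^ 2) ^ (-(2 - e)) := Real.rpow_pos_of_pos (by positivity) _
  have e0 : (2 : ℝ) ^ (2 + e) * (1 + A) ^ (-(2 + e)) = ((1 + A) / 2) ^ (-(2 + e)) := by
    rw [Real.div_rpow (by positivity) (by norm_num), Real.rpow_neg (show (0 : ℝ) ≤ 2 by norm_num)]
    field_simp
  rw [e0]
  rcases le_total A 1 with h | h
  · have h1 : 1 ≤ ((1 + A) / 2) ^ (-(2 + e)) :=
      Real.one_le_rpow_of_pos_of_le_one_of_nonpos (by positivity) (by linarith) (by linarith)
    have h2 : B ^ t ≤ B ^ 2 + 0 + 1 := by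
      have := mix_le (x := B ^ 2) (y := 0) (a := t / 2) (b := 0) (by positivity) le_rfl
        (by positivity) le_rfl (by linarith)
      rw [Real.rpow_zero, mul_one, ← Real.rpow_natCast, ← Real.rpow_mul hB.le] at this
      rw [show ((2 : ℕ) : ℝ) * (t / 2) = t by push_cast; ring, Real.rpow_natCast] at this
      exact this
    have h3 : B ^ 2 * 1 ≤ B ^ 2 * ((1 + A) / 2) ^ (-(2 + e)) :=
      mul_le_mul_of_nonneg_left h1 (by positivity)
    linarith
  · have h1 : A ^ (-(2 + e)) ≤ ((1 + A) / 2) ^ (-(2 + e)) :=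
      Real.rpow_le_rpow_of_nonpos (by positivity) (by linarith) (by linarith)
    set a := t / (1 - e / 2) with ha
    set b := (1 + e / 2) * a / (2 - e) with hb
    have p1 : 0 < 1 - e / 2 := by linarith
    have p2 : 0 < 2 - e := by linarith
    have ha0 : 0 ≤ a := by positivity
    have hb0 : 0 ≤ b := by positivity
    have hta : t = (1 - e / 2) * a := by rw [ha]; field_simp
    have hba : (2 - e) * b = (1 + e / 2) * a := by rw [hb]; field_simp
    have hab : a + b ≤ 1 := by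
      have h3 : (1 - e / 2) * ((2 - e) * (a + b)) = t * (3 - e / 2) := by
        rw [mul_add, hba, hta]; ring
      have h4 : t * (3 - e / 2) ≤ (1 - e / 2) * ((2 - e) * 1) := by
        have : 3 * t = 2 * (1 - e) := by rw [he]; ring
        nlinarith
      rw [← h3] at h4
      exact le_of_mul_le_mul_left (le_of_mul_le_mul_left h4 p1) p2
    have h2 := mix_le (x := B ^ 2 * A ^ (-(2 + e))) (y := (B / A ^ 2) ^ (-(2 - e))) (a := a)
      (b := b) (by positivity) hq.le ha0 hb0 hab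
    have h3 : (B ^ 2 * A ^ (-(2 + e))) ^ a * ((B / A ^ 2) ^ (-(2 - e))) ^ b = B ^ t := by
      have hl : ∀ x : ℝ, 0 < x → ∀ u : ℝ, x ^ u = Real.exp (Real.log x * u) :=
        fun x hx u => Real.rpow_def_of_pos hx u
      rw [hl _ (by positivity) a, hl _ hq b, hl B hB t, ← Real.exp_add,
        Real.log_mul (by positivity) (by positivity), Real.log_rpow hA,
        Real.log_rpow (by positivity), Real.log_div hB.ne' (by positivity), Real.log_pow,
        Real.log_pow]
      congr 1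
      push_cast
      rw [hta]
      linear_combination (-(Real.log B) + 2 * Real.log A) * hba
    rw [h3] at h2
    have h4 : B ^ 2 * A ^ (-(2 + e)) ≤ B ^ 2 * ((1 + A) / 2) ^ (-(2 + e)) :=
      mul_le_mul_of_nonneg_left h1 (by positivity)
    linarith

/-- The positive range from the negative range. -/
theorem pos88
    (hneg : ∀ f : ℂ → ℂ, DifferentiableOn ℂ f (ball 0 1) → InjOn f (ball 0 1) →
      ∀ t : ℝ, -2 < t → t < 0 → ∫⁻ w in ball (0 : ℂ) 1, ‖deriv f w‖ₑ ^ t < ⊤)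
    (f : ℂ → ℂ) (hf : DifferentiableOn ℂ f (ball 0 1)) (hinj : InjOn f (ball 0 1))
    (t : ℝ) (ht0 : 0 < t) (ht : t < 2 / 3) :
    ∫⁻ w in ball (0 : ℂ) 1, ‖deriv f w‖ₑ ^ t < ⊤ := by
  obtain ⟨w, hw⟩ := g88_omit f hf hinj
  have hw' : ∀ z ∈ ball (0 : ℂ) 1, f z - w ≠ 0 := fun z hz => sub_ne_zero.2 (hw z hz)
  set k : ℂ → ℂ := fun z => (f z - w)⁻¹ with hk
  have hkd : DifferentiableOn ℂ k (ball 0 1) := (hf.sub_const w).inv hw'
  have hki : InjOn k (ball 0 1) := by
    intro x hx y hy hxy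
    apply hinj hx hy
    have : (f x - w)⁻¹ = (f y - w)⁻¹ := hxy
    have := inv_injective this
    linear_combination this
  have hf1 : ∀ z ∈ ball (0 : ℂ) 1, HasDerivAt f (deriv f z) z := fun z hz =>
    (hf.differentiableAt (isOpen_ball.mem_nhds hz)).hasDerivAt
  have hk1 : ∀ z ∈ ball (0 : ℂ) 1, deriv k z = -deriv f z / (f z - w) ^ 2 := fun z hz =>
    (((hf1 z hz).sub_const w).inv (hw' z hz)).deriv
  set e := 1 - 3 * t / 2 with he
  have he0 : 0 < e := by rw [he]; linarith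
  have he1 : e < 1 := by rw [he]; linarith
  have I2 := hneg k hkd hki (-(2 - e)) (by linarith) (by linarith)
  set φ : ℂ → ℝ≥0∞ := fun u =>
    ENNReal.ofReal (2 ^ (2 + e)) * ENNReal.ofReal ((1 + ‖u - w‖) ^ (-(2 + e))) with hφ
  have I0 : ∫⁻ u, φ u < ⊤ := by
    rw [hφ, lintegral_const_mul' _ _ ENNReal.ofReal_ne_top]
    refine ENNReal.mul_lt_top ENNReal.ofReal_lt_top ?_
    rw [lintegral_sub_right_eq_self
      (fun u : ℂ => ENNReal.ofReal ((1 + ‖u‖) ^ (-(2 + e)))) w]
    refine finite_integral_one_add_norm ?_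
    rw [Complex.finrank_real_complex]
    push_cast
    linarith
  have I1 := (area_le f hf hinj φ).trans_lt I0
  have hmeas : Measurable fun z : ℂ => ‖deriv k z‖ₑ ^ (-(2 - e)) :=
    (measurable_deriv k).enorm.pow_const _
  have hle : ∫⁻ z in ball (0 : ℂ) 1, ‖deriv f z‖ₑ ^ t ≤ ∫⁻ z in ball (0 : ℂ) 1,
      (ENNReal.ofReal (‖deriv f z‖ ^ 2) * φ (f z) + (‖deriv k z‖ₑ ^ (-(2 - e)) + 1)) := by
    refine setLIntegral_mono' measurableSet_ball fun z hz => ?_
    have hB : 0 < ‖deriv f z‖ := norm_pos_iff.2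
      (Crest.Agent.Lib.Complex.deriv_ne_zero_of_injOn isOpen_ball hf hinj hz)
    have hA : 0 < ‖f z - w‖ := norm_pos_iff.2 (hw' z hz)
    have n1 : ‖deriv k z‖ = ‖deriv f z‖ / ‖f z - w‖ ^ 2 := by
      rw [hk1 z hz, norm_div, norm_neg, norm_pow]
    have := point_le hA hB ht0 ht
    rw [← he, ← n1] at this
    have hk0 : 0 < ‖deriv k z‖ := by rw [n1]; positivity
    rw [← ofReal_norm, ← ofReal_norm, ENNReal.ofReal_rpow_of_pos hB,
      ENNReal.ofReal_rpow_of_pos hk0, hφ]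
    simp only
    rw [← ENNReal.ofReal_mul (by positivity), ← ENNReal.ofReal_mul (by positivity),
      ← ENNReal.ofReal_one, ← ENNReal.ofReal_add (by positivity) (by positivity),
      ← ENNReal.ofReal_add (by positivity) (by positivity)]
    exact ENNReal.ofReal_le_ofReal (by linarith)
  refine hle.trans_lt ?_
  have hmeas' : Measurable fun z : ℂ => ‖deriv k z‖ₑ ^ (-(2 - e)) + 1 := hmeas.add_const 1
  rw [lintegral_add_right _ hmeas', lintegral_add_right _ measurable_const]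
  refine ENNReal.add_lt_top.2 ⟨I1, ENNReal.add_lt_top.2 ⟨I2, ?_⟩⟩
  simp only [lintegral_const, one_mul, Measure.restrict_apply MeasurableSet.univ, univ_inter]
  exact measure_ball_lt_top

/-- The full range `-2 < t < 2/3` from the means of `1/f'^2`. -/
theorem s0176_of_78 (h78 : Glue76.St78)
    (f : ℂ → ℂ) (hf : DifferentiableOn ℂ f (ball 0 1)) (hinj : InjOn f (ball 0 1))
    (t : ℝ) (ht₁ : -2 < t) (ht₂ : t < 2 / 3) :
    ∫⁻ w in ball (0 : ℂ) 1, ‖deriv f w‖ₑ ^ t < ⊤ :=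
  Glue76.s0176_of h78
    (pos88 fun g hg hi s hs1 hs2 => Glue76.neg_part h78 g hg hi s hs1 hs2.le) f hf hinj t ht₁ ht₂

end Crest.Agent.R131.P88
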