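import Mathlib

namespace Crest.Agent.R131

open MeasureTheory Metric Set
open scoped ENNReal Real

private lemma posArea_det (c : ℂ) :
    ((ContinuousLinearMap.toSpanSingleton ℂ c).restrictScalars ℝ : ℂ →L[ℝ] ℂ).det = ‖c‖ ^ 2 := by
  rw [ContinuousLinearMap.det, ← LinearMap.det_toMatrix Complex.basisOneI, Matrix.det_fin_two]
  simp [LinearMap.toMatrix_apply, Complex.sq_norm, Complex.normSq_apply]

/-- P0: area formula for an injective holomorphic map. -/
theorem pos_area_eq (h : ℂ → ℂ) (U : Set ℂ) (hU : IsOpen U) (hh : DifferentiableOn ℂ h U)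
    (hinj : Set.InjOn h U) (φ : ℂ → ℝ≥0∞) :
    ∫⁻ z in U, ENNReal.ofReal (‖deriv h z‖ ^ 2) * φ (h z) = ∫⁻ w in h '' U, φ w := by
  have hd : ∀ z ∈ U, HasFDerivWithinAt h
      ((ContinuousLinearMap.toSpanSingleton ℂ (deriv h z)).restrictScalars ℝ : ℂ →L[ℝ] ℂ) U z := by
    intro z hz
    have h1 : HasDerivAt h (deriv h z) z := ((hh z hz).differentiableAt (hU.mem_nhds hz)).hasDerivAt
    exact (h1.hasFDerivAt.restrictScalars ℝ).hasFDerivWithinAt
  rw [lintegral_image_eq_lintegral_abs_det_fderiv_mul volume hU.measurableSet hd hinj φ]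
  refine lintegral_congr fun z => ?_
  rw [posArea_det, abs_of_nonneg (by positivity)]

/-- P0': weighted area is finite for `α > 1`. -/
theorem pos_area_weight (f : ℂ → ℂ) (hf : DifferentiableOn ℂ f (ball 0 1))
    (hinj : Set.InjOn f (ball 0 1)) (α : ℝ) (hα : 1 < α) :
    ∫⁻ z in ball (0:ℂ) 1, ENNReal.ofReal (‖deriv f z‖ ^ 2 * (1 + ‖f z‖ ^ 2) ^ (-α)) < ⊤ := by
  have h1 := pos_area_eq f (ball 0 1) isOpen_ball hf hinj
    (fun w => ENNReal.ofReal ((1 + ‖w‖ ^ 2) ^ (-α)))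
  have h2 : ∀ z : ℂ, ENNReal.ofReal (‖deriv f z‖ ^ 2 * (1 + ‖f z‖ ^ 2) ^ (-α)) =
      ENNReal.ofReal (‖deriv f z‖ ^ 2) * ENNReal.ofReal ((1 + ‖f z‖ ^ 2) ^ (-α)) := fun z =>
    ENNReal.ofReal_mul (by positivity)
  simp_rw [h2]
  rw [h1]
  have h3 : Integrable (fun x : ℂ => ((1 : ℝ) + ‖x‖ ^ 2) ^ (-(2 * α) / 2)) volume :=
    integrable_rpow_neg_one_add_norm_sq (by rw [Complex.finrank_real_complex]; push_cast; linarith)
  have h4 : -(2 * α) / 2 = -α := by ring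
  rw [h4] at h3
  exact lt_of_le_of_lt (setLIntegral_le_lintegral _ _) h3.lintegral_lt_top

end Crest.Agent.R131
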