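import Mathlib

namespace Crest.Agent.R131

open MeasureTheory Metric Set
open scoped ENNReal Real

/-- P4c: the bootstrap. -/
theorem pos_boot (n : ℂ → ℝ) (hn : ContinuousOn n (ball 0 1)) (hn0 : ∀ z ∈ ball (0:ℂ) 1, 0 ≤ n z)
    (c : ℝ) (hc : 0 ≤ c)
    (h : ∀ ρ T : ℝ, ρ < 1 → (∀ w ∈ ball (0:ℂ) ρ, n w ≤ T) → ∀ z : ℂ, ‖z‖ < ρ →
      (n z) ^ 2 * (ρ ^ 2 - ‖z‖ ^ 2) ^ 2 ≤ c * T) :
    ∃ C : ℝ, ∀ z ∈ ball (0:ℂ) 1, (1 - ‖z‖) ^ 2 * n z ≤ C := by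
  refine ⟨1024 * c, fun z0 hz0 => ?_⟩
  have hz0' : ‖z0‖ < 1 := by simpa using hz0
  have hz00 := norm_nonneg z0
  set R : ℝ := (1 + ‖z0‖) / 2 with hR
  have hR1 : R < 1 := by rw [hR]; linarith
  have hR2 : 1 / 2 ≤ R := by rw [hR]; linarith
  have hR3 : ‖z0‖ < R := by rw [hR]; linarith
  have hsub : closedBall (0:ℂ) R ⊆ ball 0 1 := closedBall_subset_ball hR1
  have hg : ContinuousOn (fun w : ℂ => n w * (R - ‖w‖) ^ 2) (closedBall 0 R) :=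
    (hn.mono hsub).mul (by fun_prop)
  have hmem0 : z0 ∈ closedBall (0:ℂ) R := by simpa using hR3.le
  obtain ⟨z, hz, hmax⟩ := (isCompact_closedBall (0:ℂ) R).exists_isMaxOn ⟨z0, hmem0⟩ hg
  have hzR : ‖z‖ ≤ R := by simpa using hz
  have hnz : 0 ≤ n z := hn0 z (hsub hz)
  have hK : n z * (R - ‖z‖) ^ 2 ≤ 256 * c := by
    rcases hzR.eq_or_lt with h1 | h1
    · rw [h1]; simp; positivity
    rcases hnz.eq_or_lt with h2 | h2
    · rw [← h2]; simp; positivity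
    set δ : ℝ := R - ‖z‖ with hδ
    have hδ0 : 0 < δ := by rw [hδ]; linarith
    have hzn := norm_nonneg z
    have hT : ∀ w ∈ ball (0:ℂ) (R - δ / 2), n w ≤ 4 * n z := by
      intro w hw
      have hw' : ‖w‖ < R - δ / 2 := by simpa using hw
      have hwm : w ∈ closedBall (0:ℂ) R := by
        simp only [mem_closedBall, dist_zero_right]; linarith
      have h3 : n w * (R - ‖w‖) ^ 2 ≤ n z * δ ^ 2 := hmax hwm
      have hnw : 0 ≤ n w := hn0 w (hsub hwm)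
      have h4 : (δ / 2) ^ 2 ≤ (R - ‖w‖) ^ 2 := by
        apply pow_le_pow_left₀ (by positivity); linarith
      have h5 : n w * (δ / 2) ^ 2 ≤ n z * δ ^ 2 :=
        (mul_le_mul_of_nonneg_left h4 hnw).trans h3
      have h6 : n w * δ ^ 2 ≤ (4 * n z) * δ ^ 2 := by nlinarith
      exact le_of_mul_le_mul_right h6 (by positivity)
    have h7 := h (R - δ / 2) (4 * n z) (by linarith) hT z (by rw [hδ]; linarith)
    have h8 : δ / 8 ≤ (R - δ / 2) ^ 2 - ‖z‖ ^ 2 := by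
      have e : ‖z‖ = R - δ := by rw [hδ]; ring
      have hδR : δ ≤ R := by rw [hδ]; linarith
      rw [e]; nlinarith
    have h9 : (δ / 8) ^ 2 ≤ ((R - δ / 2) ^ 2 - ‖z‖ ^ 2) ^ 2 :=
      pow_le_pow_left₀ (by positivity) h8 2
    have h10 : n z ^ 2 * (δ / 8) ^ 2 ≤ c * (4 * n z) :=
      (mul_le_mul_of_nonneg_left h9 (by positivity)).trans h7
    have h11 : n z * (n z * δ ^ 2) ≤ n z * (256 * c) := by nlinarith
    exact le_of_mul_le_mul_left h11 h2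
  have h12 : n z0 * (R - ‖z0‖) ^ 2 ≤ n z * (R - ‖z‖) ^ 2 := hmax hmem0
  have h13 : (1 - ‖z0‖) ^ 2 * n z0 = 4 * (n z0 * (R - ‖z0‖) ^ 2) := by rw [hR]; ring
  rw [h13]; linarith

end Crest.Agent.R131
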