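import Mathlib

namespace Crest.Agent.R131

open MeasureTheory Metric Set
open scoped ENNReal Real

private theorem PosCauchy_pt (s : ℝ) (hs0 : 0 < s) (a w g : ℂ) (hw : ‖w‖ = s) (ha : ‖a‖ < s) :
    ‖(w * Complex.I) • ((w - a)⁻¹ • (g ^ 2 * (1 - (starRingEnd ℂ) a * w / (s : ℂ) ^ 2)))‖
      = ‖g‖ ^ 2 := by
  have hwa : w - a ≠ 0 := by
    intro h
    have : w = a := sub_eq_zero.mp h
    rw [this] at hw
    linarith
  have hs' : (s : ℂ) ≠ 0 := by exact_mod_cast hs0.ne'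
  have h1 : w * (starRingEnd ℂ) w = (s : ℂ) ^ 2 := by
    rw [Complex.mul_conj, Complex.normSq_eq_norm_sq, hw]; push_cast; ring
  have h2 : (1 - (starRingEnd ℂ) a * w / (s : ℂ) ^ 2) = (starRingEnd ℂ) (w - a) * w / (s : ℂ) ^ 2 := by
    rw [map_sub]
    field_simp
    linear_combination (-1 : ℂ) * h1
  rw [h2]
  have hn : ‖w - a‖ ≠ 0 := norm_ne_zero_iff.mpr hwa
  simp only [smul_eq_mul, norm_mul, norm_inv, norm_div, norm_pow, Complex.norm_I, Complex.norm_conj,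
    Complex.norm_real, Real.norm_eq_abs, abs_of_pos hs0, hw]
  field_simp

/-- P2: sharp point evaluation in `H²` of the circle of radius `s`. -/
theorem pos_cauchy (G : ℂ → ℂ) (hG : DifferentiableOn ℂ G (ball 0 1)) (s : ℝ) (hs0 : 0 < s)
    (hs : s < 1) (a : ℂ) (ha : ‖a‖ < s) :
    ‖G a‖ ^ 2 * (1 - ‖a‖ ^ 2 / s ^ 2) ≤
      (1 / (2 * π)) * ∫ θ in (-π)..π, ‖G (circleMap 0 s θ)‖ ^ 2 := by
  set H : ℂ → ℂ := fun w => G w ^ 2 * (1 - (starRingEnd ℂ) a * w / (s : ℂ) ^ 2) with hH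
  have hsub : closedBall (0 : ℂ) s ⊆ ball 0 1 := closedBall_subset_ball hs
  have hHd : DifferentiableOn ℂ H (ball 0 1) := by
    refine (hG.pow 2).mul ?_
    fun_prop
  have hint : (∮ z in C(0, s), (z - a)⁻¹ • H z) = (2 * π * Complex.I : ℂ) • H a := by
    refine Complex.circleIntegral_sub_inv_smul_of_differentiable_on_off_countable
      (s := ∅) countable_empty (by simpa using ha) (hHd.continuousOn.mono hsub) ?_
    intro x hx
    exact hHd.differentiableAt (isOpen_ball.mem_nhds (hsub (ball_subset_closedBall hx.1)))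
  have hle : ‖(∮ z in C(0, s), (z - a)⁻¹ • H z)‖ ≤ ∫ θ in (0 : ℝ)..2 * π, ‖G (circleMap 0 s θ)‖ ^ 2 := by
    unfold circleIntegral
    refine (intervalIntegral.norm_integral_le_integral_norm (by positivity)).trans (le_of_eq ?_)
    refine intervalIntegral.integral_congr fun θ _ => ?_
    simp only [deriv_circleMap, hH]
    exact PosCauchy_pt s hs0 a _ _ (by simp [abs_of_pos hs0]) ha
  have hper : Function.Periodic (fun θ : ℝ => ‖G (circleMap 0 s θ)‖ ^ 2) (2 * π) := by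
    intro θ
    simp only [periodic_circleMap 0 s θ]
  have hshift : ∫ θ in (0 : ℝ)..2 * π, ‖G (circleMap 0 s θ)‖ ^ 2
      = ∫ θ in (-π)..π, ‖G (circleMap 0 s θ)‖ ^ 2 := by
    have := hper.intervalIntegral_add_eq 0 (-π)
    rw [zero_add, show -π + 2 * π = π by ring] at this
    exact this
  have hs' : (s : ℂ) ≠ 0 := by exact_mod_cast hs0.ne'
  have hpos : 0 ≤ 1 - ‖a‖ ^ 2 / s ^ 2 := by
    have : ‖a‖ ^ 2 / s ^ 2 ≤ 1 := by
      rw [div_le_one (by positivity)]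
      exact pow_le_pow_left₀ (norm_nonneg _) ha.le 2
    linarith
  have hHa : ‖H a‖ = ‖G a‖ ^ 2 * (1 - ‖a‖ ^ 2 / s ^ 2) := by
    have e : (1 - (starRingEnd ℂ) a * a / (s : ℂ) ^ 2) = ((1 - ‖a‖ ^ 2 / s ^ 2 : ℝ) : ℂ) := by
      rw [mul_comm, Complex.mul_conj, Complex.normSq_eq_norm_sq]; push_cast; ring
    simp only [hH]
    rw [norm_mul, norm_pow, e, Complex.norm_real, Real.norm_eq_abs, abs_of_nonneg hpos]
  rw [hint, hshift, norm_smul, hHa] at hle
  have hn : ‖(2 * π * Complex.I : ℂ)‖ = 2 * π := by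
    simp [abs_of_pos Real.pi_pos]
  rw [hn] at hle
  have hp : 0 < 2 * π := by positivity
  rw [one_div, ← div_eq_inv_mul, le_div_iff₀ hp]
  linarith

end Crest.Agent.R131
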