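import Crest.Agent.R131.PosPolar
import Crest.Agent.R131.PosCauchy

namespace Crest.Agent.R131

open MeasureTheory Metric Set
open scoped ENNReal Real

/-- P3: growth of a function with bounded Dirichlet integral. -/
theorem pos_dirichlet (F : ℂ → ℂ) (hF : DifferentiableOn ℂ F (ball 0 1)) (ρ D : ℝ) (hρ : ρ < 1)
    (hD : 0 ≤ D) (z : ℂ) (hz : ‖z‖ < ρ)
    (hI : ∫⁻ w in ball (0:ℂ) ρ, ENNReal.ofReal (‖deriv F w‖ ^ 2) ≤ ENNReal.ofReal (π * D)) :
    ‖F z - F 0‖ ≤ D / 2 + (1 / 2) * Real.log (ρ ^ 2 / (ρ ^ 2 - ‖z‖ ^ 2)) := by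
  have hρ0 : 0 < ρ := (norm_nonneg z).trans_lt hz
  have hG : DifferentiableOn ℂ (deriv F) (ball 0 1) := hF.deriv isOpen_ball
  set c : ℂ := z / (ρ : ℂ) ^ 2 with hc
  set m : ℝ := ‖z‖ / ρ ^ 2 with hm
  have hcm : ‖c‖ = m := by
    rw [hc, norm_div, norm_pow, Complex.norm_real, Real.norm_of_nonneg hρ0.le]
  have hm0 : 0 ≤ m := by positivity
  have hmρ : m * ρ < 1 := by
    rw [hm, div_mul_eq_mul_div, div_lt_one (by positivity), sq]
    exact mul_lt_mul_of_pos_right hz hρ0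
  have hms : ∀ s ∈ Icc (0:ℝ) ρ, m * s < 1 := fun s hs =>
    (mul_le_mul_of_nonneg_left hs.2 hm0).trans_lt hmρ
  have hq : ∀ s ∈ Icc (0:ℝ) ρ, 0 < 1 - m ^ 2 * s ^ 2 := fun s hs => by
    have h1 := hms s hs
    have h2 := mul_nonneg hm0 hs.1
    nlinarith
  have hn : ∀ s : ℝ, ‖c * (s : ℂ) ^ 2‖ = m * s ^ 2 := fun s => by
    rw [norm_mul, hcm, norm_pow, Complex.norm_real, Real.norm_eq_abs, sq_abs]
  have hb : ∀ s ∈ Icc (0:ℝ) ρ, c * (s : ℂ) ^ 2 ∈ ball (0:ℂ) 1 := fun s hs => by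
    rw [mem_ball_zero_iff, hn]
    have h1 := hms s hs
    have h2 := mul_nonneg hm0 hs.1
    nlinarith [hs.1, hs.2]
  have hd : ∀ s ∈ uIcc (0:ℝ) ρ, HasDerivAt (fun s : ℝ => F (c * (s : ℂ) ^ 2))
      (deriv F (c * (s : ℂ) ^ 2) * (c * (2 * s))) s := fun s hs => by
    rw [uIcc_of_le hρ0.le] at hs
    have h1 : HasDerivAt F (deriv F (c * (s : ℂ) ^ 2)) (c * (s : ℂ) ^ 2) :=
      (hF.differentiableAt (isOpen_ball.mem_nhds (hb s hs))).hasDerivAt
    have h2 : HasDerivAt (fun w : ℂ => c * w ^ 2) (c * (2 * s)) (s : ℂ) := by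
      simpa using (hasDerivAt_pow 2 (s : ℂ)).const_mul c
    exact (h1.comp (s : ℂ) h2).comp_ofReal
  have hc1 : ContinuousOn (fun s : ℝ => deriv F (c * (s : ℂ) ^ 2) * (c * (2 * s))) (Icc 0 ρ) :=
    (hG.continuousOn.comp (by fun_prop) hb).mul (by fun_prop)
  have hc2 : ContinuousOn (fun s : ℝ => s * m ^ 2 / (1 - m ^ 2 * s ^ 2)) (Icc 0 ρ) :=
    ContinuousOn.div (by fun_prop) (by fun_prop) fun s hs => (hq s hs).ne'
  have e1 := intervalIntegral.integral_eq_sub_of_hasDerivAt hd (hc1.intervalIntegrable_of_Icc hρ0.le)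
  have e2 : c * (ρ : ℂ) ^ 2 = z := div_mul_cancel₀ _ (pow_ne_zero 2 (by exact_mod_cast hρ0.ne'))
  simp only [e2, Complex.ofReal_zero, ne_eq, OfNat.ofNat_ne_zero, not_false_eq_true, zero_pow,
    mul_zero] at e1
  have e3 : ∫ s in (0:ℝ)..ρ, s * m ^ 2 / (1 - m ^ 2 * s ^ 2) =
      (1 / 2) * Real.log (ρ ^ 2 / (ρ ^ 2 - ‖z‖ ^ 2)) := by
    have h1 : ∀ s ∈ uIcc (0:ℝ) ρ, HasDerivAt (fun s : ℝ => -(1 / 2) * Real.log (1 - m ^ 2 * s ^ 2))
        (s * m ^ 2 / (1 - m ^ 2 * s ^ 2)) s := fun s hs => by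
      rw [uIcc_of_le hρ0.le] at hs
      have h2 : HasDerivAt (fun s : ℝ => 1 - m ^ 2 * s ^ 2) (-(m ^ 2 * (2 * s))) s := by
        simpa using ((hasDerivAt_pow 2 s).const_mul (m ^ 2)).const_sub 1
      exact ((h2.log (hq s hs).ne').const_mul (-(1 / 2))).congr_deriv (by ring)
    rw [intervalIntegral.integral_eq_sub_of_hasDerivAt h1 (hc2.intervalIntegrable_of_Icc hρ0.le)]
    have h3 : ρ ^ 2 / (ρ ^ 2 - ‖z‖ ^ 2) = (1 - m ^ 2 * ρ ^ 2)⁻¹ := by
      rw [← inv_div, hm]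
      congr 1
      field_simp
    rw [h3, Real.log_inv]
    simp
  set ψ : ℝ → ℝ := fun s => max (‖deriv F (c * (s : ℂ) ^ 2) * (c * (2 * s))‖ -
    s * m ^ 2 / (1 - m ^ 2 * s ^ 2)) 0 with hψ
  have hc3 : ContinuousOn ψ (Icc 0 ρ) := (hc1.norm.sub hc2).sup continuousOn_const
  have k1 : ‖F z - F 0‖ ≤ (∫ s in (0:ℝ)..ρ, ψ s) + ∫ s in (0:ℝ)..ρ, s * m ^ 2 / (1 - m ^ 2 * s ^ 2) := by
    rw [← e1, ← intervalIntegral.integral_add (hc3.intervalIntegrable_of_Icc hρ0.le)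
      (hc2.intervalIntegrable_of_Icc hρ0.le)]
    refine (intervalIntegral.norm_integral_le_integral_norm hρ0.le).trans
      (intervalIntegral.integral_mono_on hρ0.le (hc1.norm.intervalIntegrable_of_Icc hρ0.le)
        ((hc3.add hc2).intervalIntegrable_of_Icc hρ0.le) fun s _ => ?_)
    exact sub_le_iff_le_add.1 (le_max_left _ _)
  have k2 : ∀ s ∈ Ioo (0:ℝ) ρ, ENNReal.ofReal (ψ s) ≤ ENNReal.ofReal (1 / (2 * π)) *
      ∫⁻ θ in Ioo (-π) π, ENNReal.ofReal (s * ‖deriv F (circleMap 0 s θ)‖ ^ 2) := fun s hs => by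
    have hs' : s ∈ Icc (0:ℝ) ρ := Ioo_subset_Icc_self hs
    have hs1 : s < 1 := hs.2.trans hρ
    have ha : ‖c * (s : ℂ) ^ 2‖ < s := by
      rw [hn]
      nlinarith [hms s hs', hs.1]
    have h1 := pos_cauchy (deriv F) hG s hs.1 hs1 _ ha
    have h2 : ‖c * (s : ℂ) ^ 2‖ ^ 2 / s ^ 2 = m ^ 2 * s ^ 2 := by
      rw [hn]
      have := hs.1.ne'
      field_simp
    rw [h2] at h1
    have hcc : Continuous fun θ => s * ‖deriv F (circleMap 0 s θ)‖ ^ 2 :=
      continuous_const.mul ((hG.continuousOn.comp_continuous (continuous_circleMap 0 s) fun θ => by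
        rw [mem_ball_zero_iff, norm_circleMap_zero, abs_of_pos hs.1]
        exact hs1).norm.pow 2)
    rw [← ofReal_integral_eq_lintegral_ofReal (hcc.integrableOn_Icc.mono_set Ioo_subset_Icc_self)
      (Filter.Eventually.of_forall fun θ => mul_nonneg hs.1.le (sq_nonneg _)),
      ← ENNReal.ofReal_mul (by positivity), ← integral_Ioc_eq_integral_Ioo,
      ← intervalIntegral.integral_of_le (by linarith [Real.pi_pos]),
      intervalIntegral.integral_const_mul]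
    refine ENNReal.ofReal_le_ofReal ?_
    have h3 := mul_le_mul_of_nonneg_left h1 hs.1.le
    have hq' := hq s hs'
    refine le_trans (max_le ?_ (by have := hs.1; positivity)) (h3.trans_eq (by ring))
    rw [norm_mul, norm_mul, hcm, norm_mul, Complex.norm_real, Real.norm_of_nonneg hs.1.le,
      Complex.norm_two, sub_le_iff_le_add, ← sub_le_iff_le_add', le_div_iff₀ hq']
    nlinarith [mul_nonneg hs.1.le (sq_nonneg (‖deriv F (c * (s : ℂ) ^ 2)‖ * (1 - m ^ 2 * s ^ 2) - m))]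
  have k3 : ∫ s in (0:ℝ)..ρ, ψ s ≤ D / 2 := by
    rw [intervalIntegral.integral_of_le hρ0.le, integral_Ioc_eq_integral_Ioo,
      ← ENNReal.ofReal_le_ofReal_iff (by positivity),
      ofReal_integral_eq_lintegral_ofReal (hc3.integrableOn_Icc.mono_set Ioo_subset_Icc_self)
        (Filter.Eventually.of_forall fun s => le_max_right _ _)]
    refine (setLIntegral_mono' measurableSet_Ioo k2).trans ?_
    rw [lintegral_const_mul' _ _ ENNReal.ofReal_ne_top,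
      ← pos_polar_r_cont (fun w => ‖deriv F w‖ ^ 2) ρ
        ((hG.continuousOn.mono (ball_subset_ball hρ.le)).norm.pow 2)]
    refine (mul_le_mul_right hI _).trans (le_of_eq ?_)
    rw [← ENNReal.ofReal_mul (by positivity)]
    congr 1
    field_simp
  linarith

end Crest.Agent.R131
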