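import Crest.Agent.R131.PosPolar
import Crest.Agent.R131.PosCauchy

namespace Crest.Agent.R131

open MeasureTheory Metric Set
open scoped ENNReal Real

theorem posDirH_log (k ρ : ℝ) (hρ : 0 < ρ) (hk : 0 ≤ k) (hkρ : k * ρ ^ 2 < 1) :
    ∫⁻ s in Ioo (0:ℝ) ρ, ENNReal.ofReal (s * k / (1 - k * s ^ 2)) =
      ENNReal.ofReal (-(1 / 2) * Real.log (1 - k * ρ ^ 2)) := by
  have hpos : ∀ s ∈ Icc (0:ℝ) ρ, 0 < 1 - k * s ^ 2 := by
    intro s hs
    have : s ^ 2 ≤ ρ ^ 2 := pow_le_pow_left₀ hs.1 hs.2 2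
    nlinarith
  have hcont : ContinuousOn (fun s : ℝ => s * k / (1 - k * s ^ 2)) (Icc 0 ρ) := by
    apply ContinuousOn.div (by fun_prop) (by fun_prop)
    intro s hs; exact (hpos s hs).ne'
  have hint : IntegrableOn (fun s : ℝ => s * k / (1 - k * s ^ 2)) (Ioo 0 ρ) :=
    (hcont.integrableOn_Icc).mono_set Ioo_subset_Icc_self
  rw [← ofReal_integral_eq_lintegral_ofReal hint]
  · congr 1
    rw [← integral_Ioc_eq_integral_Ioo, ← intervalIntegral.integral_of_le hρ.le]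
    have hd : ∀ s ∈ uIcc (0:ℝ) ρ, HasDerivAt (fun s : ℝ => -(1 / 2) * Real.log (1 - k * s ^ 2))
        (s * k / (1 - k * s ^ 2)) s := by
      intro s hs
      rw [uIcc_of_le hρ.le] at hs
      have h1 : HasDerivAt (fun s : ℝ => 1 - k * s ^ 2) (-(k * (2 * s))) s := by
        simpa using ((hasDerivAt_pow 2 s).const_mul k).const_sub 1
      have h2 := (h1.log (hpos s hs).ne').const_mul (-(1 / 2 : ℝ))
      exact h2.congr_deriv (by rw [div_eq_mul_inv, div_eq_mul_inv]; ring)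
    rw [intervalIntegral.integral_eq_sub_of_hasDerivAt hd
      ((hcont.mono (by rw [uIcc_of_le hρ.le])).intervalIntegrable)]
    simp
  · refine (ae_restrict_iff' measurableSet_Ioo).2 (Filter.Eventually.of_forall fun s hs => ?_)
    exact div_nonneg (mul_nonneg hs.1.le hk) (hpos s (Ioo_subset_Icc_self hs)).le

/-- P3: growth of a function with bounded Dirichlet integral. -/
theorem pos_dirichletH (F : ℂ → ℂ) (hF : DifferentiableOn ℂ F (ball 0 1)) (ρ D : ℝ) (hρ : ρ < 1)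
    (hD : 0 ≤ D) (z : ℂ) (hz : ‖z‖ < ρ)
    (hI : ∫⁻ w in ball (0:ℂ) ρ, ENNReal.ofReal (‖deriv F w‖ ^ 2) ≤ ENNReal.ofReal (π * D)) :
    ‖F z - F 0‖ ≤ D / 2 + (1 / 2) * Real.log (ρ ^ 2 / (ρ ^ 2 - ‖z‖ ^ 2)) := by
  have hρ0 : 0 < ρ := (norm_nonneg z).trans_lt hz
  have hG : DifferentiableOn ℂ (deriv F) (ball 0 1) := hF.deriv isOpen_ball
  set k : ℝ := ‖z‖ ^ 2 / ρ ^ 4 with hk
  have hk0 : 0 ≤ k := by positivity
  have hz2 : ‖z‖ ^ 2 < ρ ^ 2 := pow_lt_pow_left₀ hz (norm_nonneg _) two_ne_zero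
  have hkρ : k * ρ ^ 2 = ‖z‖ ^ 2 / ρ ^ 2 := by rw [hk]; field_simp
  have hkρ1 : k * ρ ^ 2 < 1 := by rw [hkρ, div_lt_one (by positivity)]; exact hz2
  set a : ℝ → ℂ := fun s => z * ((s ^ 2 / ρ ^ 2 : ℝ) : ℂ) with ha
  have hna : ∀ s : ℝ, ‖a s‖ = ‖z‖ * (s ^ 2 / ρ ^ 2) := by
    intro s
    simp only [ha, norm_mul, Complex.norm_real, Real.norm_eq_abs]
    rw [abs_of_nonneg (by positivity)]
  have hmem : ∀ s ∈ Icc (0:ℝ) ρ, a s ∈ ball (0:ℂ) 1 := by
    intro s hs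
    rw [mem_ball_zero_iff, hna]
    have : s ^ 2 / ρ ^ 2 ≤ 1 := by
      rw [div_le_one (by positivity)]; exact pow_le_pow_left₀ hs.1 hs.2 2
    nlinarith [norm_nonneg z]
  set φ' : ℝ → ℂ := fun s => deriv F (a s) * (z * ((2 * s / ρ ^ 2 : ℝ) : ℂ)) with hφ'
  have hda : ∀ s : ℝ, HasDerivAt a (z * ((2 * s / ρ ^ 2 : ℝ) : ℂ)) s := by
    intro s
    have h1 : HasDerivAt (fun s : ℝ => s ^ 2 / ρ ^ 2) (2 * s / ρ ^ 2) s := by
      simpa using (hasDerivAt_pow 2 s).div_const (ρ ^ 2)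
    exact h1.ofReal_comp.const_mul z
  have hd : ∀ s ∈ uIcc (0:ℝ) ρ, HasDerivAt (fun s => F (a s)) (φ' s) s := by
    intro s hs
    rw [uIcc_of_le hρ0.le] at hs
    have h1 : HasDerivAt F (deriv F (a s)) (a s) :=
      (hF.differentiableAt (isOpen_ball.mem_nhds (hmem s hs))).hasDerivAt
    exact h1.comp_of_eq s (hda s) rfl
  have hca : Continuous a := by
    rw [ha]; fun_prop
  have hcφ : ContinuousOn φ' (Icc 0 ρ) := by
    apply ContinuousOn.mul
    · exact hG.continuousOn.comp hca.continuousOn hmem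
    · fun_prop
  have hftc : F z - F 0 = ∫ s in (0:ℝ)..ρ, φ' s := by
    rw [intervalIntegral.integral_eq_sub_of_hasDerivAt hd
      ((hcφ.mono (by rw [uIcc_of_le hρ0.le])).intervalIntegrable)]
    have h1 : a ρ = z := by
      simp only [ha]; rw [div_self (by positivity)]; simp
    have h2 : a 0 = 0 := by simp [ha]
    rw [h1, h2]
  -- pointwise bound
  have hpt : ∀ s ∈ Ioo (0:ℝ) ρ, ‖φ' s‖ₑ ≤ ENNReal.ofReal (1 / (2 * π)) *
      (∫⁻ θ in Ioo (-π) π, ENNReal.ofReal (s * ‖deriv F (circleMap 0 s θ)‖ ^ 2)) +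
      ENNReal.ofReal (s * k / (1 - k * s ^ 2)) := by
    intro s hs
    have hs1 : s < 1 := hs.2.trans hρ
    have hs2 : s ^ 2 < ρ ^ 2 := pow_lt_pow_left₀ hs.2 hs.1.le two_ne_zero
    have hq : 0 < 1 - k * s ^ 2 := by nlinarith
    have hqa : ‖a s‖ ^ 2 / s ^ 2 = k * s ^ 2 := by
      have := hs.1.ne'
      rw [hna, hk]; field_simp
    have has : ‖a s‖ < s := by
      have h1 : ‖a s‖ ^ 2 < s ^ 2 := by
        have h2 : ‖a s‖ ^ 2 / s ^ 2 < 1 := by rw [hqa]; linarith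
        rwa [div_lt_one (pow_pos hs.1 2)] at h2
      exact lt_of_pow_lt_pow_left₀ 2 hs.1.le h1
    have hc := pos_cauchy (deriv F) hG s hs.1 hs1 (a s) has
    rw [hqa] at hc
    have hcm : Continuous fun θ : ℝ => ‖deriv F (circleMap 0 s θ)‖ ^ 2 := by
      have : Continuous fun θ : ℝ => deriv F (circleMap 0 s θ) := by
        apply hG.continuousOn.comp_continuous (continuous_circleMap 0 s)
        intro θ
        rw [mem_ball_zero_iff, norm_circleMap_zero, abs_of_pos hs.1]; exact hs1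
      fun_prop
    have hJ : ∫⁻ θ in Ioo (-π) π, ENNReal.ofReal (s * ‖deriv F (circleMap 0 s θ)‖ ^ 2) =
        ENNReal.ofReal (s * ∫ θ in (-π)..π, ‖deriv F (circleMap 0 s θ)‖ ^ 2) := by
      rw [← intervalIntegral.integral_const_mul,
        intervalIntegral.integral_of_le (by linarith [Real.pi_pos]), integral_Ioc_eq_integral_Ioo,
        ofReal_integral_eq_lintegral_ofReal]
      · exact ((continuous_const.mul hcm).integrableOn_Icc).mono_set Ioo_subset_Icc_self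
      · exact Filter.Eventually.of_forall fun θ => mul_nonneg hs.1.le (by positivity)
    set J : ℝ := ∫ θ in (-π)..π, ‖deriv F (circleMap 0 s θ)‖ ^ 2 with hJdef
    have hJ0 : 0 ≤ J := intervalIntegral.integral_nonneg (by linarith [Real.pi_pos])
      (fun θ _ => by positivity)
    rw [hJ, ← ENNReal.ofReal_mul (by positivity), ← ENNReal.ofReal_add
      (by have := hs.1; positivity) (div_nonneg (mul_nonneg hs.1.le hk0) hq.le),
      ← ofReal_norm]
    apply ENNReal.ofReal_le_ofReal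
    have hn : ‖φ' s‖ = ‖deriv F (a s)‖ * (‖z‖ * (2 * s / ρ ^ 2)) := by
      simp only [hφ', norm_mul, Complex.norm_real, Real.norm_eq_abs]
      rw [abs_of_nonneg (by have := hs.1; positivity)]
    rw [hn]
    set x := ‖deriv F (a s)‖
    set y := ‖z‖ / ρ ^ 2 with hy
    have hky : k = y ^ 2 := by rw [hk, hy]; field_simp
    set q := 1 - k * s ^ 2 with hqdef
    have h1 : 2 * x * y ≤ x ^ 2 * q + k / q := by
      rw [hky]
      have : x ^ 2 * q + y ^ 2 / q - 2 * x * y = (x * q - y) ^ 2 / q := by field_simp; ring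
      have h2 : 0 ≤ (x * q - y) ^ 2 / q := by positivity
      linarith
    have h3 : x * (‖z‖ * (2 * s / ρ ^ 2)) = s * (2 * x * y) := by rw [hy]; ring
    rw [h3]
    calc s * (2 * x * y) ≤ s * (1 / (2 * π) * J + k / q) :=
          mul_le_mul_of_nonneg_left (by linarith) hs.1.le
      _ = 1 / (2 * π) * (s * J) + s * k / q := by ring
  have hcont2 : ContinuousOn (fun w => ‖deriv F w‖ ^ 2) (ball (0:ℂ) ρ) :=
    ((hG.continuousOn.mono (ball_subset_ball hρ.le)).norm).pow 2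
  have hpol := pos_polar_r_cont (fun w => ‖deriv F w‖ ^ 2) ρ hcont2
  have hlog : -(1 / 2) * Real.log (1 - k * ρ ^ 2) =
      (1 / 2) * Real.log (ρ ^ 2 / (ρ ^ 2 - ‖z‖ ^ 2)) := by
    have h1 : ρ ^ 2 / (ρ ^ 2 - ‖z‖ ^ 2) = (1 - k * ρ ^ 2)⁻¹ := by
      rw [hkρ]
      have : ρ ^ 2 - ‖z‖ ^ 2 ≠ 0 := by linarith
      field_simp
    rw [h1, Real.log_inv]; ring
  have hlog0 : 0 ≤ (1 / 2) * Real.log (ρ ^ 2 / (ρ ^ 2 - ‖z‖ ^ 2)) := by
    apply mul_nonneg (by norm_num)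
    apply Real.log_nonneg
    rw [le_div_iff₀ (by linarith)]
    nlinarith [sq_nonneg ‖z‖]
  have key : ENNReal.ofReal ‖F z - F 0‖ ≤
      ENNReal.ofReal (D / 2 + (1 / 2) * Real.log (ρ ^ 2 / (ρ ^ 2 - ‖z‖ ^ 2))) := by
    rw [ofReal_norm, hftc, intervalIntegral.integral_of_le hρ0.le,
      integral_Ioc_eq_integral_Ioo]
    calc ‖∫ s in Ioo 0 ρ, φ' s‖ₑ ≤ ∫⁻ s in Ioo 0 ρ, ‖φ' s‖ₑ := enorm_integral_le_lintegral_enorm _
      _ ≤ ∫⁻ s in Ioo 0 ρ, (ENNReal.ofReal (1 / (2 * π)) *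
          (∫⁻ θ in Ioo (-π) π, ENNReal.ofReal (s * ‖deriv F (circleMap 0 s θ)‖ ^ 2)) +
          ENNReal.ofReal (s * k / (1 - k * s ^ 2))) := setLIntegral_mono' measurableSet_Ioo hpt
      _ = ENNReal.ofReal (1 / (2 * π)) * (∫⁻ s in Ioo 0 ρ,
          ∫⁻ θ in Ioo (-π) π, ENNReal.ofReal (s * ‖deriv F (circleMap 0 s θ)‖ ^ 2)) +
          ∫⁻ s in Ioo 0 ρ, ENNReal.ofReal (s * k / (1 - k * s ^ 2)) := by
          rw [lintegral_add_right _ (by fun_prop), lintegral_const_mul' _ _ ENNReal.ofReal_ne_top]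
      _ ≤ ENNReal.ofReal (1 / (2 * π)) * ENNReal.ofReal (π * D) +
          ENNReal.ofReal (-(1 / 2) * Real.log (1 - k * ρ ^ 2)) := by
          rw [posDirH_log k ρ hρ0 hk0 hkρ1, ← hpol]
          gcongr
      _ = _ := by
          rw [hlog, ← ENNReal.ofReal_mul (by positivity), ← ENNReal.ofReal_add
            (by positivity) hlog0]
          congr 2
          field_simp
  exact (ENNReal.ofReal_le_ofReal_iff (by linarith)).1 key

end Crest.Agent.R131
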