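import Crest.Agent.R131.PosPolar

namespace Crest.Agent.R131

open MeasureTheory Metric Set
open scoped ENNReal Real

private lemma PosRadial_ftc (C S : ℝ) (hS : 0 ≤ S) :
    ∫ r in (0:ℝ)..S, π / 2 * (1 / (1 + r) + C / ((1 + r) * √(1 + r))) =
      π / 2 * (Real.log (1 + S) - 2 * C / √(1 + S)) -
        π / 2 * (Real.log (1 + 0) - 2 * C / √(1 + 0)) := by
  have hcont : ContinuousOn (fun r : ℝ => π / 2 * (1 / (1 + r) + C / ((1 + r) * √(1 + r))))
      (uIcc 0 S) := by
    rw [uIcc_of_le hS]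
    refine ContinuousOn.mul continuousOn_const (ContinuousOn.add ?_ ?_)
    · refine ContinuousOn.div continuousOn_const (by fun_prop) ?_
      intro r hr
      have := hr.1
      positivity
    · refine ContinuousOn.div continuousOn_const (by fun_prop) ?_
      intro r hr
      have := hr.1
      positivity
  refine intervalIntegral.integral_eq_sub_of_hasDerivAt
    (f := fun r : ℝ => π / 2 * (Real.log (1 + r) - 2 * C / √(1 + r))) ?_
    hcont.intervalIntegrable
  intro r hr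
  rw [uIcc_of_le hS] at hr
  have h0 : 0 < 1 + r := by linarith [hr.1]
  have hs : 0 < √(1 + r) := Real.sqrt_pos.2 h0
  have h1 : HasDerivAt (fun r : ℝ => 1 + r) 1 r := (hasDerivAt_id r).const_add 1
  have h2 := h1.log h0.ne'
  have h3 := h1.sqrt h0.ne'
  have h4 := (hasDerivAt_const r (2 * C)).div h3 hs.ne'
  have h5 := (h2.sub h4).const_mul (π / 2)
  have hsq : √(1 + r) ^ 2 = 1 + r := Real.sq_sqrt h0.le
  refine h5.congr_deriv ?_
  rw [hsq]
  field_simp
  ring

/-- The radial integral of P4b. -/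
theorem pos_radial (C S : ℝ) (hC : 0 ≤ C) (hS : 0 ≤ S) :
    ∫⁻ w in closedBall (0:ℂ) S, ENNReal.ofReal
        ((1 / (1 + ‖w‖) + C / ((1 + ‖w‖) * √(1 + ‖w‖))) / (4 * ‖w‖)) ≤
      ENNReal.ofReal (π * ((1 / 2) * Real.log (1 + S) + C)) := by
  have hae : closedBall (0:ℂ) S =ᵐ[volume] ball (0:ℂ) S := by
    refine (ae_eq_of_subset_of_measure_ge ball_subset_closedBall ?_
      measurableSet_ball.nullMeasurableSet measure_closedBall_lt_top.ne).symm
    rw [Measure.addHaar_closedBall_eq_addHaar_ball]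
  rw [setLIntegral_congr hae, pos_polar_r _ (by fun_prop)]
  have hin : ∀ r ∈ Ioo (0:ℝ) S, ∫⁻ θ in Ioo (-π) π, ENNReal.ofReal r * ENNReal.ofReal
      ((1 / (1 + ‖circleMap 0 r θ‖) + C / ((1 + ‖circleMap 0 r θ‖) *
        √(1 + ‖circleMap 0 r θ‖))) / (4 * ‖circleMap 0 r θ‖)) =
      ENNReal.ofReal (π / 2 * (1 / (1 + r) + C / ((1 + r) * √(1 + r)))) := by
    intro r hr
    have hr0 : 0 < r := hr.1
    have hn : ∀ θ : ℝ, ‖circleMap 0 r θ‖ = r := by
      intro θ
      rw [norm_circleMap_zero, abs_of_pos hr0]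
    simp only [hn]
    rw [setLIntegral_const, Real.volume_Ioo, ← ENNReal.ofReal_mul hr0.le,
      ← ENNReal.ofReal_mul (by positivity)]
    congr 1
    field_simp
    ring
  rw [setLIntegral_congr_fun measurableSet_Ioo hin]
  have hcont : ContinuousOn (fun r : ℝ => π / 2 * (1 / (1 + r) + C / ((1 + r) * √(1 + r))))
      (Icc 0 S) := by
    refine ContinuousOn.mul continuousOn_const (ContinuousOn.add ?_ ?_)
    · refine ContinuousOn.div continuousOn_const (by fun_prop) ?_
      intro r hr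
      have := hr.1
      positivity
    · refine ContinuousOn.div continuousOn_const (by fun_prop) ?_
      intro r hr
      have := hr.1
      positivity
  have hint : IntegrableOn (fun r : ℝ => π / 2 * (1 / (1 + r) + C / ((1 + r) * √(1 + r))))
      (Ioo 0 S) := (hcont.integrableOn_Icc).mono_set Ioo_subset_Icc_self
  rw [← ofReal_integral_eq_lintegral_ofReal hint]
  · refine ENNReal.ofReal_le_ofReal ?_
    rw [← integral_Ioc_eq_integral_Ioo, ← intervalIntegral.integral_of_le hS,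
      PosRadial_ftc C S hS]
    have h1 : 0 ≤ 2 * C / √(1 + S) := by positivity
    have hpi := Real.pi_pos
    simp only [add_zero, Real.log_one, Real.sqrt_one, div_one]
    nlinarith [mul_nonneg hpi.le h1]
  · refine (ae_restrict_iff' measurableSet_Ioo).2 (Filter.Eventually.of_forall ?_)
    intro r hr
    have := hr.1
    simp only [Pi.zero_apply]
    positivity

/-- The majorant of P4b. -/
theorem pos_major (β δ : ℝ) (hβ : 0 ≤ β) (hδ : 0 < δ) :
    ∃ C : ℝ, 0 ≤ C ∧ ∀ σ s : ℝ, 0 ≤ σ → δ ≤ s → σ ≤ s + β →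
      1 / s ^ 2 ≤ 1 / (1 + σ ^ 2) + C / ((1 + σ ^ 2) * √(1 + σ ^ 2)) := by
  set g : ℝ := 1 + β with hg
  have hg0 : 0 < g := by linarith
  refine ⟨g * (2 + g / δ) * (1 + g / δ), by positivity, ?_⟩
  intro σ s hσ hs hσs
  have hs0 : 0 < s := lt_of_lt_of_le hδ hs
  have h0 : 0 < 1 + σ ^ 2 := by positivity
  set τ : ℝ := √(1 + σ ^ 2) with hτ
  have hτ0 : 0 < τ := Real.sqrt_pos.2 h0
  have hsq : τ ^ 2 = 1 + σ ^ 2 := Real.sq_sqrt h0.le
  have hτ1 : τ ≤ s + g := by
    have : τ ≤ 1 + σ := by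
      rw [hτ]
      exact Real.sqrt_le_iff.2 ⟨by linarith, by nlinarith⟩
    linarith
  have hgs : g ≤ g / δ * s := by
    rw [div_mul_eq_mul_div, le_div_iff₀ hδ]
    exact mul_le_mul_of_nonneg_left hs hg0.le
  have hq : 0 ≤ g / δ := by positivity
  have key : (τ ^ 2 - s ^ 2) * τ ≤ g * (2 + g / δ) * (1 + g / δ) * s ^ 2 := by
    have h1 : τ ^ 2 - s ^ 2 ≤ g * (2 * s + g) := by nlinarith
    have h2 : 2 * s + g ≤ (2 + g / δ) * s := by linarith
    have h3 : s + g ≤ (1 + g / δ) * s := by linarith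
    calc (τ ^ 2 - s ^ 2) * τ ≤ g * (2 * s + g) * τ :=
          mul_le_mul_of_nonneg_right h1 hτ0.le
      _ ≤ g * ((2 + g / δ) * s) * ((1 + g / δ) * s) := by
          refine mul_le_mul (mul_le_mul_of_nonneg_left h2 hg0.le) (hτ1.trans h3) hτ0.le ?_
          positivity
      _ = _ := by ring
  rw [← hsq]
  have e : 1 / τ ^ 2 + g * (2 + g / δ) * (1 + g / δ) / (τ ^ 2 * τ) =
      (τ + g * (2 + g / δ) * (1 + g / δ)) / (τ ^ 2 * τ) := by
    field_simp
  rw [e, div_le_div_iff₀ (by positivity) (by positivity)]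
  nlinarith

end Crest.Agent.R131
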