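import Crest.Agent.R131.PosArea
import Crest.Agent.R131.PosRadial

namespace Crest.Agent.R131

open MeasureTheory Metric Set
open scoped ENNReal Real

/-- P4b: Dirichlet integral of `log (g + b)`. -/
theorem pos_logarea (g F : ℂ → ℂ) (b : ℂ) (δ : ℝ) (hδ : 0 < δ)
    (hg : DifferentiableOn ℂ g (ball 0 1)) (hF : DifferentiableOn ℂ F (ball 0 1))
    (hinj : Set.InjOn (fun z => g z ^ 2) (ball 0 1)) (hg0 : ∀ z ∈ ball (0:ℂ) 1, g z ≠ 0)
    (hFe : ∀ z ∈ ball (0:ℂ) 1, Complex.exp (F z) = g z + b)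
    (hδb : ∀ z ∈ ball (0:ℂ) 1, δ ≤ ‖g z + b‖) :
    ∃ C₁ : ℝ, 0 ≤ C₁ ∧ ∀ ρ T : ℝ, ρ < 1 → 1 ≤ T → (∀ w ∈ ball (0:ℂ) ρ, 1 + ‖g w‖ ^ 2 ≤ T) →
      ∫⁻ w in ball (0:ℂ) ρ, ENNReal.ofReal (‖deriv F w‖ ^ 2) ≤
        ENNReal.ofReal (π * ((1 / 2) * Real.log T + C₁)) := by
  obtain ⟨C, hC0, hC⟩ := pos_major ‖b‖ δ (norm_nonneg _) hδ
  refine ⟨C, hC0, fun ρ T hρ hT hgT => ?_⟩
  have hsub : ball (0:ℂ) ρ ⊆ ball 0 1 := ball_subset_ball hρ.le
  set h : ℂ → ℂ := fun z => g z ^ 2 with hh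
  set φ : ℂ → ℝ≥0∞ := fun w => ENNReal.ofReal
    ((1 / (1 + ‖w‖) + C / ((1 + ‖w‖) * √(1 + ‖w‖))) / (4 * ‖w‖)) with hφ
  have hhd : DifferentiableOn ℂ h (ball 0 ρ) := (hg.mono hsub).pow 2
  have key : ∀ z ∈ ball (0:ℂ) ρ,
      ENNReal.ofReal (‖deriv F z‖ ^ 2) ≤ ENNReal.ofReal (‖deriv h z‖ ^ 2) * φ (h z) := by
    intro z hz
    have hz1 := hsub hz
    have hn : ball (0:ℂ) 1 ∈ nhds z := isOpen_ball.mem_nhds hz1
    have hgz : HasDerivAt g (deriv g z) z := (hg.differentiableAt hn).hasDerivAt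
    have hFz : HasDerivAt F (deriv F z) z := (hF.differentiableAt hn).hasDerivAt
    have h1 : HasDerivAt (fun w => Complex.exp (F w)) (Complex.exp (F z) * deriv F z) z :=
      hFz.cexp
    have h2 : HasDerivAt (fun w => g w + b) (deriv g z) z := hgz.add_const b
    have h3 : (fun w => Complex.exp (F w)) =ᶠ[nhds z] fun w => g w + b :=
      Filter.eventually_of_mem hn fun w hw => hFe w hw
    have h4 : Complex.exp (F z) * deriv F z = deriv g z := (h1.congr_of_eventuallyEq h3.symm).unique h2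
    rw [hFe z hz1] at h4
    have h5 : deriv h z = 2 * g z * deriv g z := by
      have := (hgz.pow 2).deriv
      simpa [hh, Pi.pow_def] using this
    have hs := hδb z hz1
    have hs0 : 0 < ‖g z + b‖ := lt_of_lt_of_le hδ hs
    have hσ : 0 < ‖g z‖ := norm_pos_iff.mpr (hg0 z hz1)
    have hσs : ‖g z‖ ≤ ‖g z + b‖ + ‖b‖ := by
      calc ‖g z‖ = ‖(g z + b) - b‖ := by ring_nf
        _ ≤ ‖g z + b‖ + ‖b‖ := norm_sub_le _ _
    have hm := hC ‖g z‖ ‖g z + b‖ hσ.le hs hσs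
    have hnh : ‖h z‖ = ‖g z‖ ^ 2 := by simp [hh, norm_pow]
    have h6 : ‖deriv g z‖ = ‖g z + b‖ * ‖deriv F z‖ := by rw [← h4, norm_mul]
    have h7 : ‖deriv h z‖ = 2 * ‖g z‖ * ‖deriv g z‖ := by
      rw [h5, norm_mul, norm_mul]; simp
    simp only [hφ]
    rw [← ENNReal.ofReal_mul (by positivity), hnh, h7, h6]
    refine ENNReal.ofReal_le_ofReal ?_
    set M := 1 / (1 + ‖g z‖ ^ 2) + C / ((1 + ‖g z‖ ^ 2) * √(1 + ‖g z‖ ^ 2)) with hM
    have h8 : (2 * ‖g z‖ * (‖g z + b‖ * ‖deriv F z‖)) ^ 2 * (M / (4 * ‖g z‖ ^ 2))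
        = ‖deriv F z‖ ^ 2 * (‖g z + b‖ ^ 2 * M) := by
      field_simp
      ring
    rw [h8]
    have h9 : 1 ≤ ‖g z + b‖ ^ 2 * M := by
      have := mul_le_mul_of_nonneg_left hm (sq_nonneg ‖g z + b‖)
      rwa [mul_one_div_cancel (by positivity)] at this
    nlinarith [sq_nonneg ‖deriv F z‖]
  have himg : h '' ball (0:ℂ) ρ ⊆ closedBall 0 (T - 1) := by
    rintro _ ⟨w, hw, rfl⟩
    have := hgT w hw
    simp only [mem_closedBall, dist_zero_right, hh, norm_pow]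
    linarith
  calc ∫⁻ w in ball (0:ℂ) ρ, ENNReal.ofReal (‖deriv F w‖ ^ 2)
      ≤ ∫⁻ z in ball (0:ℂ) ρ, ENNReal.ofReal (‖deriv h z‖ ^ 2) * φ (h z) :=
        setLIntegral_mono' measurableSet_ball key
    _ = ∫⁻ w in h '' ball (0:ℂ) ρ, φ w :=
        pos_area_eq h _ isOpen_ball hhd (hinj.mono hsub) φ
    _ ≤ ∫⁻ w in closedBall (0:ℂ) (T - 1), φ w := lintegral_mono_set himg
    _ ≤ ENNReal.ofReal (π * ((1 / 2) * Real.log (1 + (T - 1)) + C)) :=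
        pos_radial C (T - 1) hC0 (by linarith)
    _ = _ := by rw [show 1 + (T - 1) = T by ring]

end Crest.Agent.R131
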