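import Crest.Agent.R131.PosLog

namespace Crest.Agent.R131

open MeasureTheory Metric Set
open scoped ENNReal Real

/-- P4a: the square root of `f - w0` stays away from `-g 0`. -/
theorem pos_sqrt (f : ℂ → ℂ) (hf : DifferentiableOn ℂ f (ball 0 1))
    (hinj : Set.InjOn f (ball 0 1)) :
    ∃ (w0 : ℂ) (g : ℂ → ℂ) (δ : ℝ), 0 < δ ∧ DifferentiableOn ℂ g (ball 0 1) ∧
      (∀ z ∈ ball (0:ℂ) 1, g z ^ 2 = f z - w0) ∧ (∀ z ∈ ball (0:ℂ) 1, g z ≠ 0) ∧
      ∀ z ∈ ball (0:ℂ) 1, δ ≤ ‖g z + g 0‖ := by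
  obtain ⟨w0, hw0⟩ := pos_omit f hf hinj
  obtain ⟨L, hL, hLe⟩ := pos_log (fun z => f z - w0) (hf.sub_const w0)
    (fun z hz => sub_ne_zero.2 (hw0 z hz))
  have hg : DifferentiableOn ℂ (fun z => Complex.exp (L z / 2)) (ball 0 1) :=
    (hL.div_const 2).cexp
  have hsq : ∀ z ∈ ball (0:ℂ) 1, Complex.exp (L z / 2) ^ 2 = f z - w0 := by
    intro z hz
    rw [sq, ← Complex.exp_add, add_halves]
    exact hLe z hz
  have hsqi : ∀ z ∈ ball (0:ℂ) 1, ∀ u ∈ ball (0:ℂ) 1,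
      Complex.exp (L z / 2) ^ 2 = Complex.exp (L u / 2) ^ 2 → z = u := by
    intro z hz u hu h
    rw [hsq z hz, hsq u hu] at h
    exact hinj hz hu (sub_left_inj.1 h)
  have hgi : Set.InjOn (fun z => Complex.exp (L z / 2)) (ball 0 1) := by
    intro z hz u hu h
    exact hsqi z hz u hu (by rw [show Complex.exp (L z / 2) = Complex.exp (L u / 2) from h])
  have hop := Crest.Agent.Lib.Complex.isOpen_image_of_injOn isOpen_ball hg hgi isOpen_ball
    subset_rfl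
  obtain ⟨δ, hδ, hsub⟩ := Metric.isOpen_iff.1 hop (Complex.exp (L 0 / 2))
    ⟨0, mem_ball_self one_pos, rfl⟩
  refine ⟨w0, fun z => Complex.exp (L z / 2), δ, hδ, hg, hsq, fun z _ => Complex.exp_ne_zero _,
    fun z hz => ?_⟩
  by_contra hlt
  push Not at hlt
  have hm : -Complex.exp (L z / 2) ∈ ball (Complex.exp (L 0 / 2)) δ := by
    rw [mem_ball, dist_eq_norm, ← norm_neg, neg_sub, sub_neg_eq_add, add_comm]
    exact hlt
  obtain ⟨u, hu, hue⟩ := hsub hm
  have hue' : Complex.exp (L u / 2) = -Complex.exp (L z / 2) := hue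
  have huz : u = z := hsqi u hu z hz (by rw [hue']; ring)
  rw [huz] at hue'
  have : (2 : ℂ) * Complex.exp (L z / 2) = 0 := by linear_combination hue'
  exact Complex.exp_ne_zero _ ((mul_eq_zero.1 this).resolve_left two_ne_zero)

end Crest.Agent.R131
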