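import Crest.Agent.R131.PosDir
import Crest.Agent.R131.PosSqrt
import Crest.Agent.R131.PosLogArea
import Crest.Agent.R131.PosBoot

namespace Crest.Agent.R131

open MeasureTheory Metric Set
open scoped ENNReal Real

/-- P4: growth of a univalent function. -/
theorem pos_growth (f : ℂ → ℂ) (hf : DifferentiableOn ℂ f (ball 0 1))
    (hinj : Set.InjOn f (ball 0 1)) :
    ∃ C : ℝ, ∀ z ∈ ball (0:ℂ) 1, (1 - ‖z‖) ^ 2 * ‖f z‖ ≤ C := by
  obtain ⟨w0, g, δ, hδ, hg, hsq, hg0, hδb⟩ := pos_sqrt f hf hinj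
  obtain ⟨F, hF, hFe⟩ := pos_log (fun z => g z + g 0) (hg.add_const _) (fun z hz h0 => by
    have := hδb z hz
    rw [show g z + g 0 = 0 from h0, norm_zero] at this
    linarith)
  have hinj2 : Set.InjOn (fun z => g z ^ 2) (ball 0 1) := by
    intro z hz w hw hzw
    refine hinj hz hw ?_
    have e : g z ^ 2 = g w ^ 2 := hzw
    rw [hsq z hz, hsq w hw] at e
    exact sub_left_injective e
  obtain ⟨C₁, hC₁, hLA⟩ := pos_logarea g F (g 0) δ hδ hg hF hinj2 hg0 hFe hδb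
  set A : ℝ := 1 / δ ^ 2 + (1 + ‖g 0‖ / δ) ^ 2 with hA
  have hA0 : 0 ≤ A := by positivity
  have hm : ∀ z ∈ ball (0:ℂ) 1, ‖g z + g 0‖ = Real.exp (F z).re := by
    intro z hz
    rw [← Complex.norm_exp, hFe z hz]
  have hnA : ∀ z ∈ ball (0:ℂ) 1, 1 + ‖g z‖ ^ 2 ≤ A * ‖g z + g 0‖ ^ 2 := by
    intro z hz
    have h1 := hδb z hz
    have h2 : ‖g z‖ ≤ ‖g z + g 0‖ + ‖g 0‖ := by
      have := norm_sub_le (g z + g 0) (g 0); simpa using this
    have h3 : ‖g 0‖ ≤ ‖g 0‖ / δ * ‖g z + g 0‖ := by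
      rw [div_mul_eq_mul_div, le_div_iff₀ hδ]
      exact mul_le_mul_of_nonneg_left h1 (norm_nonneg _)
    have h4 : ‖g z‖ ^ 2 ≤ ((1 + ‖g 0‖ / δ) * ‖g z + g 0‖) ^ 2 :=
      pow_le_pow_left₀ (norm_nonneg _) (by linarith) 2
    have h5 : 1 ≤ 1 / δ ^ 2 * ‖g z + g 0‖ ^ 2 := by
      rw [div_mul_eq_mul_div, le_div_iff₀ (by positivity), one_mul, one_mul]
      exact pow_le_pow_left₀ hδ.le h1 2
    rw [mul_pow] at h4
    rw [hA, add_mul]
    linarith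
  obtain ⟨C, hC⟩ := pos_boot (fun z => 1 + ‖g z‖ ^ 2)
    (continuousOn_const.add (hg.continuousOn.norm.pow 2)) (fun z _ => by positivity)
    (A ^ 2 * Real.exp (4 * (F 0).re + 2 * C₁)) (by positivity) (fun ρ T hρ hT z hz => by
      have n0 := norm_nonneg z
      have hρ0 : 0 < ρ := n0.trans_lt hz
      have hT1 : 1 ≤ T := le_trans (le_add_of_nonneg_right (by positivity))
        (hT 0 (mem_ball_self hρ0))
      have hz1 : z ∈ ball (0:ℂ) 1 := by simpa using hz.trans hρ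
      have hD := pos_dirichlet F hF ρ ((1 / 2) * Real.log T + C₁) hρ
        (by have := Real.log_nonneg hT1; positivity) z hz (hLA ρ T hρ hT1 hT)
      have hre : (F z).re - (F 0).re ≤ ‖F z - F 0‖ := by
        rw [← Complex.sub_re]; exact Complex.re_le_norm _
      have hq : 0 < ρ ^ 2 - ‖z‖ ^ 2 := by nlinarith
      have hq' : 0 < ρ ^ 2 / (ρ ^ 2 - ‖z‖ ^ 2) := by positivity
      have h4 : ‖g z + g 0‖ ^ 4 ≤ Real.exp (4 * (F 0).re + 2 * C₁) * T *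
          (ρ ^ 2 / (ρ ^ 2 - ‖z‖ ^ 2)) ^ 2 := by
        rw [hm z hz1, ← Real.exp_nat_mul]
        calc Real.exp ((4 : ℕ) * (F z).re) ≤ Real.exp ((4 * (F 0).re + 2 * C₁) + Real.log T +
              (2 : ℕ) * Real.log (ρ ^ 2 / (ρ ^ 2 - ‖z‖ ^ 2))) := by
              refine Real.exp_le_exp.2 ?_
              push_cast
              linarith
          _ = _ := by
              rw [Real.exp_add, Real.exp_add _ (Real.log T), Real.exp_log (by linarith),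
                Real.exp_nat_mul, Real.exp_log hq']
      have h5 : (1 + ‖g z‖ ^ 2) ^ 2 ≤ A ^ 2 * ‖g z + g 0‖ ^ 4 := by
        calc (1 + ‖g z‖ ^ 2) ^ 2 ≤ (A * ‖g z + g 0‖ ^ 2) ^ 2 :=
              pow_le_pow_left₀ (by positivity) (hnA z hz1) 2
          _ = _ := by ring
      have h6 : (ρ ^ 2 / (ρ ^ 2 - ‖z‖ ^ 2)) ^ 2 * (ρ ^ 2 - ‖z‖ ^ 2) ^ 2 ≤ 1 := by
        rw [← mul_pow, div_mul_cancel₀ _ hq.ne', ← pow_mul]
        exact pow_le_one₀ hρ0.le hρ.le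
      have hE : 0 ≤ A ^ 2 * Real.exp (4 * (F 0).re + 2 * C₁) * T := by positivity
      calc (1 + ‖g z‖ ^ 2) ^ 2 * (ρ ^ 2 - ‖z‖ ^ 2) ^ 2
          ≤ (A ^ 2 * (Real.exp (4 * (F 0).re + 2 * C₁) * T *
              (ρ ^ 2 / (ρ ^ 2 - ‖z‖ ^ 2)) ^ 2)) * (ρ ^ 2 - ‖z‖ ^ 2) ^ 2 := by
            refine mul_le_mul_of_nonneg_right (h5.trans ?_) (by positivity)
            exact mul_le_mul_of_nonneg_left h4 (by positivity)
        _ = (A ^ 2 * Real.exp (4 * (F 0).re + 2 * C₁) * T) *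
              ((ρ ^ 2 / (ρ ^ 2 - ‖z‖ ^ 2)) ^ 2 * (ρ ^ 2 - ‖z‖ ^ 2) ^ 2) := by ring
        _ ≤ _ := by simpa using mul_le_mul_of_nonneg_left h6 hE)
  refine ⟨C + ‖w0‖, fun z hz => ?_⟩
  have h1 := hC z hz
  have hz1 : ‖z‖ < 1 := by simpa using hz
  have n0 := norm_nonneg z
  have h2 : ‖f z‖ ≤ ‖g z‖ ^ 2 + ‖w0‖ := by
    have e : f z = g z ^ 2 + w0 := by rw [hsq z hz]; ring
    rw [e, ← norm_pow]
    exact norm_add_le _ _
  have h3 : (1 - ‖z‖) ^ 2 ≤ 1 := by nlinarith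
  have h4 : 0 ≤ (1 - ‖z‖) ^ 2 := sq_nonneg _
  have h5 := mul_le_mul_of_nonneg_left h2 h4
  have h6 := mul_le_mul_of_nonneg_right h3 (norm_nonneg w0)
  nlinarith

end Crest.Agent.R131
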