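import Crest.Agent.R131.PosH35
import Crest.Agent.R131.Grow88
import Crest.Agent.R131.Glue76
import Crest.Agent.R131.Koebe64

/-! # Row 131, positive exponents from the near-sharp growth bound (helper35) -/

set_option autoImplicit false

open MeasureTheory Set Metric
open scoped ENNReal

namespace Crest.Agent.R131.H35b

open Crest.Agent.R131.H35

/-- the pointwise bound of the radial derivative -/
theorem phi_bound {F g z : ℂ} {s q β b K : ℝ} (hz : ‖z‖ ≤ 1) (hs0 : 1 / 2 ≤ s) (hs : s < 1)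
    (hq0 : 0 ≤ q) (hq : q ≤ 1) (hK2 : (1 + ‖F‖ ^ 2) ^ (β / 4) ≤ K * (1 - s) ^ (-b)) :
    |2 * inner ℝ F (g * z) * (q / 4) * (1 + ‖F‖ ^ 2) ^ (q / 4 - 1)| ≤
      K * ((1 - s) ^ (-b) *
        √(‖(s : ℂ) * g‖ ^ 2 * (1 + ‖F‖ ^ 2) ^ (-(1 + (β - q) / 2)))) := by
  set W := 1 + ‖F‖ ^ 2 with hW
  have hW0 : 0 < W := by positivity
  have h1s : 0 < 1 - s := by linarith
  have e1 : √(‖(s : ℂ) * g‖ ^ 2 * W ^ (-(1 + (β - q) / 2))) =
      s * ‖g‖ * W ^ (-(1 + (β - q) / 2) / 2) := by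
    rw [Real.sqrt_mul (by positivity), Real.sqrt_sq (norm_nonneg _), Real.sqrt_eq_rpow,
      ← Real.rpow_mul hW0.le, norm_mul, Complex.norm_real, Real.norm_of_nonneg (by linarith)]
    congr 2
    ring
  have hF : ‖F‖ ≤ W ^ (1 / 2 : ℝ) := by
    rw [← Real.sqrt_eq_rpow]
    exact Real.le_sqrt_of_sq_le (by linarith)
  have hin : |inner ℝ F (g * z)| ≤ W ^ (1 / 2 : ℝ) * ‖g‖ := by
    refine (abs_real_inner_le_norm _ _).trans ?_
    rw [norm_mul]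
    have : ‖g‖ * ‖z‖ ≤ ‖g‖ := mul_le_of_le_one_right (norm_nonneg _) hz
    exact mul_le_mul hF this (by positivity) (by positivity)
  have e2 : W ^ (1 / 2 : ℝ) * W ^ (q / 4 - 1) = W ^ (β / 4) * W ^ (-(1 + (β - q) / 2) / 2) := by
    rw [← Real.rpow_add hW0, ← Real.rpow_add hW0]
    congr 1
    ring
  rw [e1, abs_mul, abs_mul, abs_mul, abs_of_nonneg (by positivity : (0 : ℝ) ≤ q / 4),
    abs_of_nonneg (by positivity : (0 : ℝ) ≤ W ^ (q / 4 - 1)), abs_two]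
  have hA : 0 ≤ W ^ (q / 4 - 1) := by positivity
  have hB : 0 ≤ W ^ (-(1 + (β - q) / 2) / 2) := by positivity
  calc 2 * |inner ℝ F (g * z)| * (q / 4) * W ^ (q / 4 - 1)
      ≤ 2 * (W ^ (1 / 2 : ℝ) * ‖g‖) * (1 / 4) * W ^ (q / 4 - 1) := by gcongr
    _ = (W ^ (1 / 2 : ℝ) * W ^ (q / 4 - 1)) * (1 / 2 * ‖g‖) := by ring
    _ = W ^ (β / 4) * (1 / 2 * ‖g‖ * W ^ (-(1 + (β - q) / 2) / 2)) := by rw [e2]; ring
    _ ≤ (K * (1 - s) ^ (-b)) * (s * ‖g‖ * W ^ (-(1 + (β - q) / 2) / 2)) := by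
        gcongr
        exact (by positivity : 0 ≤ W ^ (β / 4)).trans hK2
    _ = _ := by ring

theorem growth_W (f : ℂ → ℂ) {K m β : ℝ} (hm0 : 0 ≤ m) (hβ : 0 ≤ β)
    (hK : ∀ z ∈ ball (0 : ℂ) 1, (1 - ‖z‖) ^ m * ‖f z‖ ≤ K)
    {z : ℂ} (hz : z ∈ ball (0 : ℂ) 1) {s : ℝ} (h0 : 0 ≤ s) (h1 : s < 1) :
    (1 + ‖f (s * z)‖ ^ 2) ^ (β / 4) ≤ (1 + K ^ 2) ^ (β / 4) * (1 - s) ^ (-(m * β / 2)) := by
  have hm := mem_mul hz h0 h1.le
  have h := hK _ hm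
  rw [mem_ball_zero_iff] at hm hz
  have h1s : 0 < 1 - s := by linarith
  have hn : ‖(s : ℂ) * z‖ ≤ s := by
    rw [norm_mul, Complex.norm_real, Real.norm_of_nonneg h0]
    nlinarith [norm_nonneg z]
  have h2 : (1 - s) ^ m ≤ (1 - ‖(s : ℂ) * z‖) ^ m := by gcongr
  have h3 : (1 - s) ^ m * ‖f (s * z)‖ ≤ K :=
    (mul_le_mul_of_nonneg_right h2 (norm_nonneg _)).trans h
  have h4 : ((1 - s) ^ m * ‖f (s * z)‖) ^ 2 ≤ K ^ 2 := by gcongr
  have h5 : (1 - s) ^ m ≤ 1 := Real.rpow_le_one h1s.le (by linarith) hm0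
  have h6 : 0 < (1 - s) ^ m := by positivity
  have h7 : (1 + ‖f (s * z)‖ ^ 2) * ((1 - s) ^ m) ^ 2 ≤ 1 + K ^ 2 := by nlinarith
  have h8 := Real.rpow_le_rpow (by positivity) h7 (by positivity : 0 ≤ β / 4)
  rw [Real.mul_rpow (by positivity) (by positivity), ← Real.rpow_natCast ((1 - s) ^ m),
    ← Real.rpow_mul h1s.le, ← Real.rpow_mul h1s.le] at h8
  have e : m * ((2 : ℕ) : ℝ) * (β / 4) = m * β / 2 := by push_cast; ring
  rw [e] at h8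
  rw [Real.rpow_neg h1s.le, ← div_eq_mul_inv, le_div_iff₀ (by positivity)]
  exact h8

/-- the pointwise Hardy bound -/
theorem point (f : ℂ → ℂ) (hf : DifferentiableOn ℂ f (ball 0 1)) (hm : Measurable f) {K q β b : ℝ}
    (hK0 : 0 ≤ K) (hK : ∀ z ∈ ball (0 : ℂ) 1, ∀ s : ℝ, 0 ≤ s → s < 1 →
      (1 + ‖f (s * z)‖ ^ 2) ^ (β / 4) ≤ K * (1 - s) ^ (-b)) (hq0 : 0 ≤ q) (hq : q ≤ 1)
    (hβ : q ≤ β) (hβ1 : b < 1) :
    ∃ C₁ C₂ : ℝ≥0∞, C₁ < ⊤ ∧ C₂ < ⊤ ∧ ∀ z ∈ ball (0 : ℂ) 1,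
      ENNReal.ofReal ((1 + ‖f z‖ ^ 2) ^ (q / 2)) ≤ C₁ + C₂ * ∫⁻ s in Icc (1 / 2 : ℝ) 1,
        ENNReal.ofReal ((1 - s) ^ (-b)) * (ENNReal.ofReal (‖(s : ℂ) * deriv f (s * z)‖ ^ 2) *
          ENNReal.ofReal ((1 + ‖f (s * z)‖ ^ 2) ^ (-(1 + (β - q) / 2)))) := by
  set B := ∫⁻ s in Icc (1 / 2 : ℝ) 1, ENNReal.ofReal ((1 - s) ^ (-b)) with hB
  have hBt : B < ⊤ := fin_P hβ1
  set a := ENNReal.ofReal (K * (1 - 1 / 2) ^ (-b)) with ha
  set c := ENNReal.ofReal K with hc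
  refine ⟨2 * a ^ 2, 2 * (c ^ 2 * B), ?_, ?_, fun z hz => ?_⟩
  · exact ENNReal.mul_lt_top (by simp) (ENNReal.pow_lt_top ENNReal.ofReal_lt_top)
  · exact ENNReal.mul_lt_top (by simp)
      (ENNReal.mul_lt_top (ENNReal.pow_lt_top ENNReal.ofReal_lt_top) hBt)
  set Q : ℝ → ℝ≥0∞ := fun s => ENNReal.ofReal (‖(s : ℂ) * deriv f (s * z)‖ ^ 2) *
          ENNReal.ofReal ((1 + ‖f (s * z)‖ ^ 2) ^ (-(1 + (β - q) / 2))) with hQ
  set P : ℝ → ℝ≥0∞ := fun s => ENNReal.ofReal ((1 - s) ^ (-b)) with hP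
  have hd := measurable_deriv f
  have hPm : Measurable P := by fun_prop
  have hQm : Measurable Q := by fun_prop
  set N := ∫⁻ s in Icc (1 / 2 : ℝ) 1, P s * Q s with hN
  have h1 := enorm_sub_le_lintegral_deriv_of_contDiffOn_Icc (phi_cd f hf hz (q / 4))
    (by norm_num)
  have h2 : ∫⁻ x in Icc (1 / 2 : ℝ) 1, ‖deriv (fun s : ℝ => (1 + ‖f (s * z)‖ ^ 2) ^ (q / 4)) x‖ₑ ≤
      ∫⁻ s in Icc (1 / 2 : ℝ) 1, c * (P s ^ (1 / 2 : ℝ) * (P s * Q s) ^ (1 / 2 : ℝ)) := by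
    rw [← restrict_Ico_eq_restrict_Icc]
    refine setLIntegral_mono' measurableSet_Ico fun s hs => ?_
    have hs0 : (0 : ℝ) ≤ s := by linarith [hs.1]
    rw [(phi_deriv f hf (mem_mul hz hs0 hs.2.le)).deriv, Real.enorm_eq_ofReal_abs]
    refine (ENNReal.ofReal_le_ofReal (phi_bound (mem_ball_zero_iff.1 hz).le hs.1 hs.2 hq0 hq
      (hK z hz s hs0 hs.2))).trans (le_of_eq ?_)
    have h1s : 0 < 1 - s := by linarith [hs.2]
    rw [ENNReal.ofReal_mul (by positivity), ENNReal.ofReal_mul (by positivity),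
      ENNReal.mul_rpow_of_nonneg _ _ (by norm_num), ← mul_assoc (P s ^ _),
      ← ENNReal.rpow_add_of_nonneg _ _ (by norm_num) (by norm_num), Real.sqrt_eq_rpow,
      ← ENNReal.ofReal_rpow_of_nonneg (p := 1 / 2) (by positivity) (by norm_num),
      ENNReal.ofReal_mul (by positivity)]
    norm_num [hP, hQ, hc]
  have h3 : ∫⁻ s in Icc (1 / 2 : ℝ) 1, c * (P s ^ (1 / 2 : ℝ) * (P s * Q s) ^ (1 / 2 : ℝ)) ≤
      c * (B ^ (1 / 2 : ℝ) * N ^ (1 / 2 : ℝ)) := by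
    rw [lintegral_const_mul' _ _ ENNReal.ofReal_ne_top]
    gcongr
    exact ENNReal.lintegral_mul_norm_pow_le hPm.aemeasurable (hPm.mul hQm).aemeasurable
      (by norm_num) (by norm_num) (by norm_num)
  have h4 : (1 + ‖f (((1 / 2 : ℝ) : ℂ) * z)‖ ^ 2) ^ (q / 4) ≤ K * (1 - 1 / 2) ^ (-b) :=
    (Real.rpow_le_rpow_of_exponent_le (le_add_of_nonneg_right (by positivity))
      (by linarith)).trans (hK z hz (1 / 2) (by norm_num) (by norm_num))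
  have h5 : ENNReal.ofReal ((1 + ‖f z‖ ^ 2) ^ (q / 4)) ≤
      a + c * (B ^ (1 / 2 : ℝ) * N ^ (1 / 2 : ℝ)) := by
    refine le_trans ?_ (add_le_add le_rfl (h1.trans (h2.trans h3)))
    rw [Real.enorm_eq_ofReal_abs, ha, ← ENNReal.ofReal_add (by positivity) (abs_nonneg _)]
    refine ENNReal.ofReal_le_ofReal ?_
    have := le_abs_self ((1 + ‖f (((1 : ℝ) : ℂ) * z)‖ ^ 2) ^ (q / 4) -
      (1 + ‖f (((1 / 2 : ℝ) : ℂ) * z)‖ ^ 2) ^ (q / 4))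
    have e : ((1 : ℝ) : ℂ) * z = z := by simp
    rw [e] at this ⊢
    linarith
  have e : ENNReal.ofReal ((1 + ‖f z‖ ^ 2) ^ (q / 2)) =
      ENNReal.ofReal ((1 + ‖f z‖ ^ 2) ^ (q / 4)) ^ (2 : ℝ) := by
    rw [ENNReal.ofReal_rpow_of_nonneg (by positivity) (by norm_num),
      ← Real.rpow_mul (by positivity)]
    congr 2
    ring
  rw [e]
  refine (ENNReal.rpow_le_rpow h5 (by norm_num)).trans
    ((ENNReal.rpow_add_le_mul_rpow_add_rpow _ _ (by norm_num)).trans (le_of_eq ?_))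
  rw [ENNReal.mul_rpow_of_nonneg _ _ (by norm_num), ENNReal.mul_rpow_of_nonneg _ _ (by norm_num),
    ← ENNReal.rpow_mul, ← ENNReal.rpow_mul]
  norm_num
  ring

theorem moment (f : ℂ → ℂ) (hf : DifferentiableOn ℂ f (ball 0 1)) (hm : Measurable f)
    (hinj : InjOn f (ball 0 1))
    (hK : ∀ δ : ℝ, 0 < δ → ∃ C : ℝ, ∀ z ∈ ball (0 : ℂ) 1, (1 - ‖z‖) ^ ((2 : ℝ) + δ) * ‖f z‖ ≤ C)
    {q : ℝ} (hq0 : 0 ≤ q) (hq : q < 1) :
    ∫⁻ z in ball (0 : ℂ) 1, ENNReal.ofReal ((1 + ‖f z‖ ^ 2) ^ (q / 2)) < ⊤ := by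
  obtain ⟨β, hqβ, hβ1⟩ := exists_between hq
  have hβ0 : 0 ≤ β := hq0.trans hqβ.le
  obtain ⟨K, hK⟩ := hK (1 - β) (by linarith)
  set b : ℝ := (2 + (1 - β)) * β / 2 with hb
  have hb1 : b < 1 := by rw [hb]; nlinarith
  obtain ⟨C₁, C₂, h1, h2, h⟩ := point f hf hm (K := (1 + K ^ 2) ^ (β / 4)) (b := b)
    (by positivity) (fun z hz s h0 h1 => growth_W f (by linarith) hβ0 hK hz h0 h1) hq0 hq.le
    hqβ.le hb1
  have hd := measurable_deriv f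
  refine (setLIntegral_mono' measurableSet_ball h).trans_lt ?_
  rw [lintegral_add_left measurable_const, lintegral_const_mul' _ _ h2.ne]
  refine ENNReal.add_lt_top.2 ⟨?_, ENNReal.mul_lt_top h2 ?_⟩
  · rw [setLIntegral_const]
    exact ENNReal.mul_lt_top h1 measure_ball_lt_top
  rw [lintegral_lintegral_swap (by fun_prop)]
  set J := ∫⁻ w : ℂ, ENNReal.ofReal ((1 + ‖w‖ ^ 2) ^ (-(1 + (β - q) / 2))) with hJ
  have hJt : J < ⊤ := fin_bracket (by linarith)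
  refine lt_of_le_of_lt (b := ∫⁻ s in Icc (1 / 2 : ℝ) 1, ENNReal.ofReal ((1 - s) ^ (-b)) * J)
    (setLIntegral_mono' measurableSet_Icc fun s hs => ?_) ?_
  · rw [lintegral_const_mul' _ _ ENNReal.ofReal_ne_top]
    gcongr
    have hs0 : (0 : ℝ) < s := by linarith [hs.1]
    refine area_le (fun z => f (s * z)) (fun z => (s : ℂ) * deriv f (s * z)) (fun z hz => ?_)
      (fun z hz w hw e => ?_) (fun w => ENNReal.ofReal ((1 + ‖w‖ ^ 2) ^ (-(1 + (β - q) / 2))))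
    · have h1 : HasDerivAt f (deriv f (s * z)) (s * z) :=
        (hf.differentiableAt (isOpen_ball.mem_nhds (mem_mul hz hs0.le hs.2))).hasDerivAt
      have := h1.comp z ((hasDerivAt_id z).const_mul (s : ℂ))
      simpa [Function.comp_def, mul_comm] using this
    · have := hinj (mem_mul hz hs0.le hs.2) (mem_mul hw hs0.le hs.2) e
      exact mul_left_cancel₀ (by exact_mod_cast hs0.ne') this
  · rw [lintegral_mul_const' _ _ hJt.ne]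
    exact ENNReal.mul_lt_top (fin_P hb1) hJt

theorem pos_meas (f : ℂ → ℂ) (hf : DifferentiableOn ℂ f (ball 0 1)) (hm : Measurable f)
    (hinj : InjOn f (ball 0 1))
    (hK : ∀ δ : ℝ, 0 < δ → ∃ C : ℝ, ∀ z ∈ ball (0 : ℂ) 1, (1 - ‖z‖) ^ ((2 : ℝ) + δ) * ‖f z‖ ≤ C)
    {t : ℝ} (ht0 : 0 ≤ t)
    (ht : t < 2 / 3) : ∫⁻ w in ball (0 : ℂ) 1, ‖deriv f w‖ₑ ^ t < ⊤ := by
  have h2t : 0 < 2 - t := by linarith
  -- `γ > 1` with `q = 2 γ t / (2 - t) < 1`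
  obtain ⟨γ, hγ, hq⟩ : ∃ γ : ℝ, 1 < γ ∧ 2 * γ * t / (2 - t) < 1 := by
    refine ⟨1 + (2 - 3 * t) / 2, by linarith, ?_⟩
    rw [div_lt_one h2t]
    nlinarith
  have hq0 : 0 ≤ 2 * γ * t / (2 - t) := by positivity
  have hd := measurable_deriv f
  have hpt : ∀ z ∈ ball (0 : ℂ) 1, ‖deriv f z‖ₑ ^ t ≤
      ENNReal.ofReal (‖deriv f z‖ ^ 2) * ENNReal.ofReal ((1 + ‖f z‖ ^ 2) ^ (-γ)) +
        ENNReal.ofReal ((1 + ‖f z‖ ^ 2) ^ (2 * γ * t / (2 - t) / 2)) := by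
    intro z _
    rw [← ofReal_norm, ENNReal.ofReal_rpow_of_nonneg (norm_nonneg _) ht0,
      ← ENNReal.ofReal_mul (by positivity), ← ENNReal.ofReal_add (by positivity) (by positivity)]
    refine ENNReal.ofReal_le_ofReal ?_
    set W := 1 + ‖f z‖ ^ 2 with hW
    have hW0 : 0 < W := by positivity
    have h := Real.geom_mean_le_arith_mean2_weighted (w₁ := t / 2) (w₂ := 1 - t / 2)
      (p₁ := ‖deriv f z‖ ^ 2 * W ^ (-γ)) (p₂ := W ^ (2 * γ * t / (2 - t) / 2)) (by positivity)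
      (by linarith) (by positivity) (by positivity) (by ring)
    have e : (‖deriv f z‖ ^ 2 * W ^ (-γ)) ^ (t / 2) * (W ^ (2 * γ * t / (2 - t) / 2)) ^ (1 - t / 2)
        = ‖deriv f z‖ ^ t := by
      rw [Real.mul_rpow (by positivity) (by positivity), ← Real.rpow_natCast,
        ← Real.rpow_mul (norm_nonneg _), ← Real.rpow_mul hW0.le, ← Real.rpow_mul hW0.le, mul_assoc,
        ← Real.rpow_add hW0]
      have e1 : -γ * (t / 2) + 2 * γ * t / (2 - t) / 2 * (1 - t / 2) = 0 := by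
        field_simp
        ring
      have e2 : ((2 : ℕ) : ℝ) * (t / 2) = t := by push_cast; ring
      rw [e1, e2, Real.rpow_zero, mul_one]
    rw [e] at h
    have hA : 0 ≤ ‖deriv f z‖ ^ 2 * W ^ (-γ) := by positivity
    have hB : 0 ≤ W ^ (2 * γ * t / (2 - t) / 2) := by positivity
    nlinarith
  refine (setLIntegral_mono' measurableSet_ball hpt).trans_lt ?_
  rw [lintegral_add_left (by fun_prop)]
  refine ENNReal.add_lt_top.2 ⟨?_, moment f hf hm hinj hK hq0 hq⟩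
  exact (area_le f (deriv f) (fun z hz =>
    (hf.differentiableAt (isOpen_ball.mem_nhds hz)).hasDerivAt) hinj
    (fun w => ENNReal.ofReal ((1 + ‖w‖ ^ 2) ^ (-γ)))).trans_lt (fin_bracket hγ)

theorem pos_of_growth_eps (f : ℂ → ℂ) (hf : DifferentiableOn ℂ f (ball 0 1))
    (hinj : InjOn f (ball 0 1))
    (hK : ∀ δ : ℝ, 0 < δ → ∃ C : ℝ, ∀ z ∈ ball (0 : ℂ) 1, (1 - ‖z‖) ^ ((2 : ℝ) + δ) * ‖f z‖ ≤ C)
    (t : ℝ) (ht0 : 0 ≤ t)
    (ht : t < 2 / 3) : ∫⁻ w in ball (0 : ℂ) 1, ‖deriv f w‖ₑ ^ t < ⊤ := by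
  classical
  set g : ℂ → ℂ := (ball (0 : ℂ) 1).piecewise f (fun _ => 0) with hg
  have he : EqOn g f (ball 0 1) := fun z hz => piecewise_eq_of_mem _ _ _ hz
  have hm : Measurable g :=
    hf.continuousOn.measurable_piecewise continuousOn_const measurableSet_ball
  have h := pos_meas g (hf.congr he) hm (hinj.congr he.symm)
    (fun δ hδ => (hK δ hδ).imp fun C hC z hz => by rw [he hz]; exact hC z hz) ht0 ht
  refine lt_of_eq_of_lt (setLIntegral_congr_fun measurableSet_ball fun z hz => ?_) h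
  have : g =ᶠ[nhds z] f := he.eventuallyEq_of_mem (isOpen_ball.mem_nhds hz)
  simp only [this.deriv_eq]

/-- S0176 from S0178. -/
theorem s0176_of_78 (h78 : Glue76.St78) (f : ℂ → ℂ) (hf : DifferentiableOn ℂ f (ball 0 1))
    (hinj : InjOn f (ball 0 1)) (t : ℝ) (ht₁ : -2 < t) (ht₂ : t < 2 / 3) :
    ∫⁻ w in ball (0 : ℂ) 1, ‖deriv f w‖ₑ ^ t < ⊤ :=
  Glue76.s0176_of h78 (fun g hg hi u hu0 hu =>
    pos_of_growth_eps g hg hi (fun δ hδ => growth_eps h78 koebe_weak g hg hi δ hδ) u hu0.le hu)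
    f hf hinj t ht₁ ht₂

end Crest.Agent.R131.H35b
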