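import Mathlib

namespace Crest.Agent.R131

open MeasureTheory Metric Set
open scoped ENNReal Real

theorem PosPolar_symm (p : ℝ × ℝ) : Complex.polarCoord.symm p = circleMap 0 p.1 p.2 := by
  rw [Complex.polarCoord_symm_apply, circleMap, Complex.exp_mul_I, Complex.ofReal_cos,
    Complex.ofReal_sin, zero_add]

theorem PosPolar_meas (Φ : ℂ → ℝ≥0∞) (hΦ : Measurable Φ) :
    Measurable fun p : ℝ × ℝ => ENNReal.ofReal p.1 * Φ (circleMap 0 p.1 p.2) := by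
  refine (ENNReal.measurable_ofReal.comp measurable_fst).mul (hΦ.comp ?_)
  unfold circleMap
  fun_prop

theorem PosPolar_prod (Φ : ℂ → ℝ≥0∞) (ρ : ℝ) :
    ∫⁻ z in ball (0:ℂ) ρ, Φ z =
      ∫⁻ p in Ioo (0:ℝ) ρ ×ˢ Ioo (-π) π, ENNReal.ofReal p.1 * Φ (circleMap 0 p.1 p.2) := by
  rw [← lintegral_indicator measurableSet_ball, ← Complex.lintegral_comp_polarCoord_symm]
  have ht : polarCoord.target = Ioi (0 : ℝ) ×ˢ Ioo (-π) π := rfl
  rw [ht, ← lintegral_indicator (measurableSet_Ioi.prod measurableSet_Ioo),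
    ← lintegral_indicator (measurableSet_Ioo.prod measurableSet_Ioo)]
  refine lintegral_congr fun p => ?_
  by_cases h1 : p ∈ Ioi (0 : ℝ) ×ˢ Ioo (-π) π
  · rw [indicator_of_mem h1, PosPolar_symm]
    have hp : 0 < p.1 := h1.1
    have hn : ‖circleMap 0 p.1 p.2‖ = p.1 := by
      rw [norm_circleMap_zero, abs_of_pos hp]
    by_cases h2 : p.1 < ρ
    · rw [indicator_of_mem (show p ∈ Ioo (0:ℝ) ρ ×ˢ Ioo (-π) π from ⟨⟨hp, h2⟩, h1.2⟩),
        indicator_of_mem (by rw [mem_ball_zero_iff, hn]; exact h2), smul_eq_mul]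
    · rw [indicator_of_notMem (show p ∉ Ioo (0:ℝ) ρ ×ˢ Ioo (-π) π from fun h => h2 h.1.2),
        indicator_of_notMem (by rw [mem_ball_zero_iff, hn]; exact h2), smul_zero]
  · rw [indicator_of_notMem h1,
      indicator_of_notMem (show p ∉ Ioo (0:ℝ) ρ ×ˢ Ioo (-π) π from fun h => h1 ⟨h.1.1, h.2⟩)]

/-- P1: polar coordinates on a disc, radius outside. -/
theorem pos_polar_r (Φ : ℂ → ℝ≥0∞) (hΦ : Measurable Φ) (ρ : ℝ) :
    ∫⁻ z in ball (0:ℂ) ρ, Φ z =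
      ∫⁻ r in Ioo (0:ℝ) ρ, ∫⁻ θ in Ioo (-π) π, ENNReal.ofReal r * Φ (circleMap 0 r θ) := by
  rw [PosPolar_prod, Measure.volume_eq_prod, ← Measure.prod_restrict,
    lintegral_prod _ (PosPolar_meas Φ hΦ).aemeasurable]

/-- P1: polar coordinates on a disc, angle outside. -/
theorem pos_polar_θ (Φ : ℂ → ℝ≥0∞) (hΦ : Measurable Φ) (ρ : ℝ) :
    ∫⁻ z in ball (0:ℂ) ρ, Φ z =
      ∫⁻ θ in Ioo (-π) π, ∫⁻ r in Ioo (0:ℝ) ρ, ENNReal.ofReal r * Φ (circleMap 0 r θ) := by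
  rw [PosPolar_prod, Measure.volume_eq_prod, ← Measure.prod_restrict,
    lintegral_prod_symm _ (PosPolar_meas Φ hΦ).aemeasurable]

theorem PosPolar_ext (Φ : ℂ → ℝ) (ρ : ℝ) (hΦ : ContinuousOn Φ (ball 0 ρ)) :
    ∃ Ψ : ℂ → ℝ≥0∞, Measurable Ψ ∧ ∀ z ∈ ball (0:ℂ) ρ, Ψ z = ENNReal.ofReal (Φ z) := by
  classical
  refine ⟨fun z => ENNReal.ofReal ((ball (0:ℂ) ρ).piecewise Φ (fun _ => 0) z), ?_, ?_⟩
  · exact ENNReal.measurable_ofReal.comp
      (hΦ.measurable_piecewise continuousOn_const measurableSet_ball)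
  · intro z hz
    simp only [piecewise_eq_of_mem _ _ _ hz]

theorem PosPolar_mem {ρ r : ℝ} (hr : r ∈ Ioo (0:ℝ) ρ) (θ : ℝ) :
    circleMap 0 r θ ∈ ball (0:ℂ) ρ := by
  rw [mem_ball_zero_iff, norm_circleMap_zero, abs_of_pos hr.1]; exact hr.2

/-- P1 for a function continuous on the disc, radius outside. -/
theorem pos_polar_r_cont (Φ : ℂ → ℝ) (ρ : ℝ) (hΦ : ContinuousOn Φ (ball 0 ρ)) :
    ∫⁻ z in ball (0:ℂ) ρ, ENNReal.ofReal (Φ z) =
      ∫⁻ r in Ioo (0:ℝ) ρ, ∫⁻ θ in Ioo (-π) π, ENNReal.ofReal (r * Φ (circleMap 0 r θ)) := by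
  obtain ⟨Ψ, hm, hΨ⟩ := PosPolar_ext Φ ρ hΦ
  rw [← setLIntegral_congr_fun measurableSet_ball hΨ, pos_polar_r Ψ hm]
  refine setLIntegral_congr_fun measurableSet_Ioo fun r hr => ?_
  refine lintegral_congr fun θ => ?_
  rw [hΨ _ (PosPolar_mem hr θ), ENNReal.ofReal_mul hr.1.le]

/-- P1 for a function continuous on the disc, angle outside. -/
theorem pos_polar_θ_cont (Φ : ℂ → ℝ) (ρ : ℝ) (hΦ : ContinuousOn Φ (ball 0 ρ)) :
    ∫⁻ z in ball (0:ℂ) ρ, ENNReal.ofReal (Φ z) =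
      ∫⁻ θ in Ioo (-π) π, ∫⁻ r in Ioo (0:ℝ) ρ, ENNReal.ofReal (r * Φ (circleMap 0 r θ)) := by
  obtain ⟨Ψ, hm, hΨ⟩ := PosPolar_ext Φ ρ hΦ
  rw [← setLIntegral_congr_fun measurableSet_ball hΨ, pos_polar_θ Ψ hm]
  refine lintegral_congr fun θ => ?_
  refine setLIntegral_congr_fun measurableSet_Ioo fun r hr => ?_
  show _ = ENNReal.ofReal (r * Φ (circleMap 0 r θ))
  rw [hΨ _ (PosPolar_mem hr θ), ENNReal.ofReal_mul hr.1.le]

end Crest.Agent.R131
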