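import Mathlib

namespace Crest.Agent.R131

open MeasureTheory Metric Set
open scoped ENNReal Real

private theorem posRay_alg {r q t d x C M p : ℝ} (hr0 : 0 ≤ r) (hr1 : r ≤ 1) (hq : 0 ≤ q) (ht : 0 ≤ t)
    (hd : 0 ≤ d) (hp0 : 0 ≤ p) (hp : p ≤ 1) (hx : x ≤ t * d) (hC : (1 - r) ^ 2 * t ≤ 1 + C)
    (hM : (1 - 5 / 4 * r) * (q * t ^ 3) ≤ M) :
    (1 - 2 * r) * (q * t ^ 3) + r * (1 - r) * (2 * x * (p / 2) * (q * t)) ≤
      M + (1 + C) / 2 * (r * (d ^ 2 * q)) - 1 / 4 * (r * (q * t ^ 3)) := by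
  have h1 : 2 * x * (p / 2) ≤ t * d := by
    have := mul_le_mul_of_nonneg_left hx hp0
    nlinarith [mul_nonneg ht hd]
  have h2 : (1 - r) * (2 * x * (p / 2)) ≤ (t ^ 2 + (1 - r) ^ 2 * d ^ 2) / 2 := by
    have := mul_le_mul_of_nonneg_left h1 (sub_nonneg.2 hr1)
    nlinarith [sq_nonneg (t - (1 - r) * d)]
  have h3 := mul_le_mul_of_nonneg_left h2 (mul_nonneg hr0 (mul_nonneg hq ht))
  have h4 := mul_le_mul_of_nonneg_left hC (mul_nonneg hr0 (mul_nonneg (sq_nonneg d) hq))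
  nlinarith

private theorem posRay_real (g : ℝ → ℂ) (g' : ℝ → ℂ) (C M p ρ : ℝ) (hp0 : 0 < p) (hp : p < 1)
    (hρ0 : 0 ≤ ρ) (hρ : ρ < 1) (hg : ∀ r ∈ Icc 0 ρ, HasDerivAt g (g' r) r)
    (hg' : ContinuousOn g' (Icc 0 ρ)) (hC : ∀ r ∈ Icc 0 ρ, (1 - r) ^ 2 * ‖g r‖ ≤ C)
    (hM : ∀ r ∈ Icc 0 ρ, r ≤ 4 / 5 → (1 + ‖g r‖ ^ 2) ^ (p / 2) ≤ M) :
    ∫⁻ r in Ioo 0 ρ, ENNReal.ofReal (r * (1 + ‖g r‖ ^ 2) ^ (p / 2)) ≤
      ENNReal.ofReal (4 * M) + ENNReal.ofReal (2 * (1 + C)) *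
        ∫⁻ r in Ioo 0 ρ, ENNReal.ofReal (r * (‖g' r‖ ^ 2 *
          (1 + ‖g r‖ ^ 2) ^ (-((3 - p) / 2)))) := by
  have hS : ∀ r, 0 < 1 + ‖g r‖ ^ 2 := fun r => by positivity
  have h0 : (0:ℝ) ∈ Icc 0 ρ := ⟨le_rfl, hρ0⟩
  have hM0 : 0 ≤ M := (Real.rpow_nonneg (hS 0).le _).trans (hM 0 h0 (by norm_num))
  have hC0 : 0 ≤ C := le_trans (by positivity) (hC 0 h0)
  have cg : ContinuousOn g (Icc 0 ρ) := fun r hr => (hg r hr).continuousAt.continuousWithinAt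
  have cS : ∀ a : ℝ, ContinuousOn (fun r => (1 + ‖g r‖ ^ 2) ^ a) (Icc 0 ρ) := fun a =>
    (continuousOn_const.add (cg.norm.pow 2)).rpow_const fun r _ => Or.inl (hS r).ne'
  have cu : ContinuousOn (fun r => r * (1 + ‖g r‖ ^ 2) ^ (p / 2)) (Icc 0 ρ) :=
    continuousOn_id.mul (cS _)
  have cW : ContinuousOn (fun r => r * (‖g' r‖ ^ 2 * (1 + ‖g r‖ ^ 2) ^ (-((3 - p) / 2))))
      (Icc 0 ρ) := continuousOn_id.mul ((hg'.norm.pow 2).mul (cS _))
  have iu := cu.intervalIntegrable_of_Icc (μ := volume) hρ0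
  have iW := cW.intervalIntegrable_of_Icc (μ := volume) hρ0
  have key := intervalIntegral.sub_le_integral_of_hasDeriv_right_of_le hρ0
    (g := fun r => r * (1 - r) * (1 + ‖g r‖ ^ 2) ^ (p / 2))
    (g' := fun r => (1 - 2 * r) * (1 + ‖g r‖ ^ 2) ^ (p / 2) + r * (1 - r) *
      (2 * inner ℝ (g r) (g' r) * (p / 2) * (1 + ‖g r‖ ^ 2) ^ (p / 2 - 1)))
    (φ := fun r => M + (1 + C) / 2 * (r * (‖g' r‖ ^ 2 * (1 + ‖g r‖ ^ 2) ^ (-((3 - p) / 2)))) -
      1 / 4 * (r * (1 + ‖g r‖ ^ 2) ^ (p / 2)))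
    ((continuousOn_id.mul (continuousOn_const.sub continuousOn_id)).mul (cS _))
    (fun r hr => by
      have h1 := ((hg r (Ioo_subset_Icc_self hr)).norm_sq.const_add 1).rpow_const (p := p / 2)
        (Or.inl (hS r).ne')
      have h2 : HasDerivAt (fun r : ℝ => r * (1 - r)) (1 - 2 * r) r := by
        exact ((hasDerivAt_id' r).mul ((hasDerivAt_id' r).const_sub 1)).congr_deriv (by ring)
      exact (h2.mul h1).hasDerivWithinAt)
    (((continuousOn_const.add (continuousOn_const.mul cW)).sub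
      (continuousOn_const.mul cu)).integrableOn_Icc)
    (fun r hr => by
      have hr' := Ioo_subset_Icc_self hr
      have hr1 : r ≤ 1 := hr.2.le.trans hρ.le
      have e1 : (1 + ‖g r‖ ^ 2) ^ (p / 2 - 1) =
          (1 + ‖g r‖ ^ 2) ^ (-((3 - p) / 2)) * Real.sqrt (1 + ‖g r‖ ^ 2) := by
        rw [Real.sqrt_eq_rpow, ← Real.rpow_add (hS r)]
        congr 1
        ring
      have e2 : (1 + ‖g r‖ ^ 2) ^ (p / 2) =
          (1 + ‖g r‖ ^ 2) ^ (-((3 - p) / 2)) * Real.sqrt (1 + ‖g r‖ ^ 2) ^ 3 := by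
        rw [Real.sqrt_eq_rpow, ← Real.rpow_natCast _ 3, ← Real.rpow_mul (hS r).le,
          ← Real.rpow_add (hS r)]
        congr 1
        push_cast
        ring
      have t1 : ‖g r‖ ≤ Real.sqrt (1 + ‖g r‖ ^ 2) := Real.le_sqrt_of_sq_le (by linarith)
      have t2 : Real.sqrt (1 + ‖g r‖ ^ 2) ≤ 1 + ‖g r‖ :=
        Real.sqrt_le_iff.2 ⟨by positivity, by nlinarith [norm_nonneg (g r)]⟩
      have t3 : (1 - 5 / 4 * r) * (1 + ‖g r‖ ^ 2) ^ (p / 2) ≤ M := by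
        have hu := Real.rpow_nonneg (hS r).le (p / 2)
        rcases le_total r (4 / 5) with h | h
        · nlinarith [hM r hr' h, mul_nonneg hr.1.le hu]
        · nlinarith [mul_nonneg (show 0 ≤ 5 / 4 * r - 1 by linarith) hu]
      rw [e1, e2] at *
      refine posRay_alg hr.1.le hr1 (Real.rpow_nonneg (hS r).le _) (Real.sqrt_nonneg _)
        (norm_nonneg _) hp0.le hp.le ((real_inner_le_norm _ _).trans
          (mul_le_mul_of_nonneg_right t1 (norm_nonneg _))) ?_ t3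
      have t4 := mul_le_mul_of_nonneg_left t2 (sq_nonneg (1 - r))
      have t5 : (1 - r) ^ 2 ≤ 1 := by nlinarith [hr.1]
      nlinarith [hC r hr'])
  rw [intervalIntegral.integral_sub (intervalIntegrable_const.add (iW.const_mul _)) (iu.const_mul _),
    intervalIntegral.integral_add intervalIntegrable_const (iW.const_mul _),
    intervalIntegral.integral_const_mul, intervalIntegral.integral_const_mul,
    intervalIntegral.integral_const, intervalIntegral.integral_of_le hρ0,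
    intervalIntegral.integral_of_le hρ0, integral_Ioc_eq_integral_Ioo,
    integral_Ioc_eq_integral_Ioo] at key
  have k1 : 0 ≤ ρ * (1 - ρ) * (1 + ‖g ρ‖ ^ 2) ^ (p / 2) :=
    mul_nonneg (mul_nonneg hρ0 (by linarith)) (Real.rpow_nonneg (hS ρ).le _)
  have nn : ∀ φ : ℝ → ℝ, (∀ r, 0 ≤ φ r) →
      0 ≤ᵐ[volume.restrict (Ioo 0 ρ)] fun r => r * φ r := fun φ hφ =>
    (ae_restrict_mem measurableSet_Ioo).mono fun r hr => mul_nonneg hr.1.le (hφ r)
  rw [← ofReal_integral_eq_lintegral_ofReal (cu.integrableOn_Icc.mono_set Ioo_subset_Icc_self)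
      (nn _ fun r => Real.rpow_nonneg (hS r).le _),
    ← ofReal_integral_eq_lintegral_ofReal (cW.integrableOn_Icc.mono_set Ioo_subset_Icc_self)
      (nn _ fun r => mul_nonneg (sq_nonneg _) (Real.rpow_nonneg (hS r).le _)),
    ← ENNReal.ofReal_mul (by positivity)]
  refine le_trans (ENNReal.ofReal_le_ofReal ?_) ENNReal.ofReal_add_le
  simp only [smul_eq_mul, zero_mul, sub_zero] at key
  nlinarith [mul_nonneg hM0 (sub_nonneg.2 hρ.le)]

/-- P5 along one ray (Hardy inequality). -/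
theorem pos_ray (f : ℂ → ℂ) (hf : DifferentiableOn ℂ f (ball 0 1)) (C M p : ℝ) (hp0 : 0 < p)
    (hp : p < 1) (hC : ∀ z ∈ ball (0:ℂ) 1, (1 - ‖z‖) ^ 2 * ‖f z‖ ≤ C)
    (hM : ∀ z : ℂ, ‖z‖ ≤ 4 / 5 → (1 + ‖f z‖ ^ 2) ^ (p / 2) ≤ M) (θ : ℝ) :
    ∫⁻ r in Ioo (0:ℝ) 1, ENNReal.ofReal (r * (1 + ‖f (circleMap 0 r θ)‖ ^ 2) ^ (p / 2)) ≤
      ENNReal.ofReal (4 * M) + ENNReal.ofReal (2 * (1 + C)) *
        ∫⁻ r in Ioo (0:ℝ) 1, ENNReal.ofReal (r * (‖deriv f (circleMap 0 r θ)‖ ^ 2 *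
          (1 + ‖f (circleMap 0 r θ)‖ ^ 2) ^ (-((3 - p) / 2)))) := by
  have hU : Ioo (0:ℝ) 1 = ⋃ n : ℕ, Ioo (0:ℝ) (1 - 1 / ((n:ℝ) + 1)) := by
    ext r
    simp only [mem_iUnion, mem_Ioo]
    constructor
    · rintro ⟨h0, h1⟩
      obtain ⟨n, hn⟩ := exists_nat_one_div_lt (sub_pos.2 h1)
      exact ⟨n, h0, by linarith⟩
    · rintro ⟨n, h0, h1⟩
      have : 0 < 1 / ((n:ℝ) + 1) := by positivity
      exact ⟨h0, by linarith⟩
  have hmono : Monotone fun n : ℕ => Ioo (0:ℝ) (1 - 1 / ((n:ℝ) + 1)) := fun n m h =>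
    Ioo_subset_Ioo_right (by
      have := Nat.one_div_le_one_div (α := ℝ) h
      linarith)
  conv_lhs => rw [hU, setLIntegral_iUnion_of_directed _ hmono.directed_le]
  refine iSup_le fun n => ?_
  have h1 : 0 < 1 / ((n:ℝ) + 1) := by positivity
  have h2 : 1 / ((n:ℝ) + 1) ≤ 1 := by
    rw [div_le_one (by positivity)]
    linarith [(Nat.cast_nonneg n : (0:ℝ) ≤ n)]
  obtain ⟨ρ, hρ⟩ : ∃ ρ, ρ = 1 - 1 / ((n:ℝ) + 1) := ⟨_, rfl⟩
  rw [← hρ]
  have hρ0 : 0 ≤ ρ := by linarith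
  have hρ1 : ρ < 1 := by linarith
  have hn : ∀ r ∈ Icc 0 ρ, ‖circleMap 0 r θ‖ = r := fun r hr => by
    rw [norm_circleMap_zero, abs_of_nonneg hr.1]
  have hb : ∀ r ∈ Icc 0 ρ, circleMap 0 r θ ∈ ball (0:ℂ) 1 := fun r hr => by
    rw [mem_ball_zero_iff, hn r hr]
    exact hr.2.trans_lt hρ1
  have hd : ∀ r : ℝ, HasDerivAt (fun r : ℝ => circleMap 0 r θ) (Complex.exp (θ * Complex.I)) r :=
    fun r => by
      simpa [circleMap] using (Complex.ofRealCLM.hasDerivAt (x := r)).mul_const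
        (Complex.exp (θ * Complex.I))
  have hc : Continuous fun r : ℝ => circleMap 0 r θ :=
    continuous_iff_continuousAt.2 fun r => (hd r).continuousAt
  have := posRay_real (fun r => f (circleMap 0 r θ))
    (fun r => deriv f (circleMap 0 r θ) * Complex.exp (θ * Complex.I)) C M p ρ hp0 hp hρ0 hρ1
    (fun r hr => by
      have h3 := (hf.differentiableAt (isOpen_ball.mem_nhds (hb r hr))).hasDerivAt
      have h4 := (h3.hasFDerivAt.restrictScalars ℝ).comp_hasDerivAt r (hd r)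
      exact h4.congr_deriv (by simp [mul_comm]))
    (((hf.deriv isOpen_ball).continuousOn.comp hc.continuousOn hb).mul continuousOn_const)
    (fun r hr => by simpa only [hn r hr] using hC _ (hb r hr))
    (fun r hr h => hM _ (by rwa [hn r hr]))
  simp only [norm_mul, Complex.norm_exp_ofReal_mul_I, mul_one] at this
  refine this.trans ?_
  gcongr

end Crest.Agent.R131
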