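import Crest.Agent.R131.PosArea
import Crest.Agent.R131.PosPolar
import Crest.Agent.R131.PosRay

namespace Crest.Agent.R131

open MeasureTheory Metric Set
open scoped ENNReal Real

/-- P5: `|f|^p` is integrable on the disc for `p < 1`. -/
theorem pos_hardy (f : ℂ → ℂ) (hf : DifferentiableOn ℂ f (ball 0 1))
    (hinj : Set.InjOn f (ball 0 1)) (C : ℝ)
    (hC : ∀ z ∈ ball (0:ℂ) 1, (1 - ‖z‖) ^ 2 * ‖f z‖ ≤ C) (p : ℝ) (hp0 : 0 < p) (hp : p < 1) :
    ∫⁻ z in ball (0:ℂ) 1, ENNReal.ofReal ((1 + ‖f z‖ ^ 2) ^ (p / 2)) < ⊤ := by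
  have hfc : ContinuousOn f (ball 0 1) := hf.continuousOn
  have hdc : ContinuousOn (deriv f) (ball 0 1) := (hf.deriv isOpen_ball).continuousOn
  have hb : ContinuousOn (fun z => 1 + ‖f z‖ ^ 2) (ball (0:ℂ) 1) :=
    continuousOn_const.add (hfc.norm.pow 2)
  have hc1 : ContinuousOn (fun z => (1 + ‖f z‖ ^ 2) ^ (p / 2)) (ball (0:ℂ) 1) :=
    hb.rpow_const fun z _ => Or.inl (by positivity)
  have hc2 : ContinuousOn (fun z => ‖deriv f z‖ ^ 2 * (1 + ‖f z‖ ^ 2) ^ (-((3 - p) / 2)))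
      (ball (0:ℂ) 1) :=
    (hdc.norm.pow 2).mul (hb.rpow_const fun z _ => Or.inl (by positivity))
  obtain ⟨M, hM⟩ := (isCompact_closedBall (0:ℂ) (4 / 5)).exists_bound_of_continuousOn
    (hc1.mono (closedBall_subset_ball (by norm_num)))
  have hM' : ∀ z : ℂ, ‖z‖ ≤ 4 / 5 → (1 + ‖f z‖ ^ 2) ^ (p / 2) ≤ M := fun z hz =>
    (le_abs_self _).trans (by
      have := hM z (by simpa using hz)
      rwa [Real.norm_eq_abs] at this)
  have hfin := pos_area_weight f hf hinj ((3 - p) / 2) (by linarith)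
  rw [pos_polar_θ_cont _ 1 hc2] at hfin
  rw [pos_polar_θ_cont _ 1 hc1]
  refine lt_of_le_of_lt (lintegral_mono fun θ => pos_ray f hf C M p hp0 hp hC hM' θ) ?_
  rw [lintegral_add_left measurable_const, lintegral_const_mul' _ _ ENNReal.ofReal_ne_top]
  refine ENNReal.add_lt_top.2 ⟨?_, ENNReal.mul_lt_top ENNReal.ofReal_lt_top hfin⟩
  rw [setLIntegral_const]
  exact ENNReal.mul_lt_top ENNReal.ofReal_lt_top measure_Ioo_lt_top

end Crest.Agent.R131
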