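import Crest.Agent.Lib.Complex.Univalent

namespace Crest.Agent.R131

open MeasureTheory Metric Set
open scoped ENNReal Real

/-- A univalent function on the disc omits a value. -/
theorem pos_omit (f : ℂ → ℂ) (hf : DifferentiableOn ℂ f (ball 0 1))
    (hinj : Set.InjOn f (ball 0 1)) : ∃ w0 : ℂ, ∀ z ∈ ball (0:ℂ) 1, f z ≠ w0 := by
  by_contra hcon
  push Not at hcon
  have himg : f '' ball (0:ℂ) 1 = univ := by
    refine eq_univ_of_forall fun w => ?_
    obtain ⟨z, hz, hw⟩ := hcon w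
    exact ⟨z, hz, hw⟩
  have hd := Crest.Agent.Lib.Complex.differentiableOn_invFunOn isOpen_ball hf hinj
  rw [himg] at hd
  have hd' : Differentiable ℂ (Function.invFunOn f (ball (0:ℂ) 1)) :=
    differentiableOn_univ.1 hd
  have hb : Bornology.IsBounded (range (Function.invFunOn f (ball (0:ℂ) 1))) := by
    refine (isBounded_ball (x := (0:ℂ)) (r := 1)).subset ?_
    rintro _ ⟨w, rfl⟩
    exact Function.invFunOn_mem (hcon w)
  have h0 : (0:ℂ) ∈ ball (0:ℂ) 1 := mem_ball_self one_pos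
  have h1 : (1 / 2 : ℂ) ∈ ball (0:ℂ) 1 := by
    rw [mem_ball_zero_iff]; norm_num
  have h2 := hd'.apply_eq_apply_of_bounded hb (f 0) (f (1 / 2))
  rw [hinj.leftInvOn_invFunOn h0, hinj.leftInvOn_invFunOn h1] at h2
  norm_num at h2

/-- Holomorphic logarithm of a zero-free function on the disc. -/
theorem pos_log (h : ℂ → ℂ) (hh : DifferentiableOn ℂ h (ball 0 1))
    (h0 : ∀ z ∈ ball (0:ℂ) 1, h z ≠ 0) :
    ∃ L : ℂ → ℂ, DifferentiableOn ℂ L (ball 0 1) ∧ ∀ z ∈ ball (0:ℂ) 1, Complex.exp (L z) = h z := by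
  have hq : DifferentiableOn ℂ (fun z => deriv h z / h z) (ball 0 1) :=
    (hh.deriv isOpen_ball).div hh h0
  obtain ⟨L, hL0, hL⟩ := hq.isExactOn_ball.with_val_at 0 (Complex.log (h 0))
  have hz0 : (0:ℂ) ∈ ball (0:ℂ) 1 := mem_ball_self one_pos
  have hLd : DifferentiableOn ℂ L (ball 0 1) := fun z hz =>
    (hL z hz).differentiableAt.differentiableWithinAt
  refine ⟨L, hLd, fun z hz => ?_⟩
  have hder : ∀ w ∈ ball (0:ℂ) 1, HasDerivAt (fun w => h w * Complex.exp (-L w)) 0 w := by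
    intro w hw
    have h1 := (hh.differentiableAt (isOpen_ball.mem_nhds hw)).hasDerivAt
    have h2 := h1.mul (hL w hw).neg.cexp
    have h3 := h0 w hw
    refine h2.congr_deriv ?_
    field_simp
    ring
  have hc : h z * Complex.exp (-L z) = h 0 * Complex.exp (-L 0) :=
    isOpen_ball.is_const_of_deriv_eq_zero (𝕜 := ℂ) (f := fun w => h w * Complex.exp (-L w))
      (convex_ball (0:ℂ) 1).isPreconnected
      (fun w hw => (hder w hw).differentiableAt.differentiableWithinAt)
      (fun w hw => (hder w hw).deriv) hz hz0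
  rw [hL0, Complex.exp_neg, Complex.exp_neg, Complex.exp_log (h0 0 hz0), mul_inv_cancel₀ (h0 0 hz0),
    mul_inv_eq_one₀ (Complex.exp_ne_zero _)] at hc
  exact hc.symm

end Crest.Agent.R131
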