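import Mathlib

namespace Crest.Agent.R131

open MeasureTheory Metric Set
open scoped ENNReal Real

/-- the pointwise arithmetic of the Hardy inequality -/
theorem posRayH_arith (N x y r C M p u' : ℝ) (hp0 : 0 < p) (hp : p < 1) (hr0 : 0 ≤ r) (hr : r < 1)
    (hy : 0 ≤ y) (hx : 0 ≤ x) (hN : N = 1 + y ^ 2) (hC : (1 - r) ^ 2 * y ≤ C) (hM0 : 0 ≤ M)
    (hM : r ≤ 4 / 5 → N ^ (p / 2) ≤ M) (hu : u' ≤ p / 2 * N ^ (p / 2 - 1) * (2 * (y * x))) :
    (1 - 2 * r) * N ^ (p / 2) + r * (1 - r) * u' ≤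
      M + (1 + C) / 2 * (r * (x ^ 2 * N ^ (-((3 - p) / 2)))) - r * N ^ (p / 2) / 4 := by
  have hN0 : 0 < N := by rw [hN]; positivity
  have hC0 : 0 ≤ C := le_trans (by positivity) hC
  set v := N ^ (p / 2 - 1) with hv
  have hv0 : 0 < v := Real.rpow_pos_of_pos hN0 _
  have hu1 : N ^ (p / 2) = v * N := by
    rw [hv, ← Real.rpow_add_one hN0.ne']; congr 1; ring
  set w := N ^ (-((3 - p) / 2)) with hw
  have hw0 : 0 < w := Real.rpow_pos_of_pos hN0 _
  have hvw : v = w * √N := by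
    rw [hv, hw, Real.sqrt_eq_rpow, ← Real.rpow_add hN0]; congr 1; ring
  have hs : √N ≤ 1 + y := by
    rw [Real.sqrt_le_left (by positivity), hN]; nlinarith
  have h1r : 0 ≤ 1 - r := by linarith
  have hs2 : (1 - r) ^ 2 * √N ≤ 1 + C := by
    have h1 : (1 - r) ^ 2 * √N ≤ (1 - r) ^ 2 * (1 + y) := by gcongr
    have h2 : (1 - r) ^ 2 ≤ 1 := by nlinarith
    nlinarith
  -- (1-r) u' ≤ u/2 + (1+C)/2 x² w
  have h3 : (1 - r) * u' ≤ v * N / 2 + (1 + C) / 2 * (x ^ 2 * w) := by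
    have h4 : (1 - r) * u' ≤ (1 - r) * (p / 2 * v * (2 * (y * x))) := by gcongr
    have h5 : (1 - r) * (p / 2 * v * (2 * (y * x))) ≤ v * ((1 - r) * (y * x)) := by
      have : 0 ≤ v * ((1 - r) * (y * x)) := by positivity
      nlinarith
    have h6 : (1 - r) * (y * x) ≤ N / 2 + (1 - r) ^ 2 * x ^ 2 / 2 := by
      rw [hN]; nlinarith [sq_nonneg (y - (1 - r) * x)]
    have h7 : v * ((1 - r) * (y * x)) ≤ v * (N / 2 + (1 - r) ^ 2 * x ^ 2 / 2) := by gcongr
    have h8 : v * ((1 - r) ^ 2 * x ^ 2 / 2) ≤ (1 + C) / 2 * (x ^ 2 * w) := by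
      rw [hvw]
      have : w * √N * ((1 - r) ^ 2 * x ^ 2 / 2) = ((1 - r) ^ 2 * √N) / 2 * (x ^ 2 * w) := by ring
      rw [this]
      gcongr
    nlinarith
  have h9 : r * ((1 - r) * u') ≤ r * (v * N / 2 + (1 + C) / 2 * (x ^ 2 * w)) := by gcongr
  rw [hu1] at hM ⊢
  have hvN : 0 < v * N := by positivity
  have h10 : (1 - 5 * r / 4) * (v * N) ≤ M := by
    by_cases h : r ≤ 4 / 5
    · have := hM h
      nlinarith
    · have : (1 - 5 * r / 4) * (v * N) ≤ 0 :=
        mul_nonpos_of_nonpos_of_nonneg (by linarith [not_le.1 h]) hvN.le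
      linarith
  nlinarith

/-- P5 along one ray (Hardy inequality). -/
theorem pos_rayH (f : ℂ → ℂ) (hf : DifferentiableOn ℂ f (ball 0 1)) (C M p : ℝ) (hp0 : 0 < p)
    (hp : p < 1) (hC : ∀ z ∈ ball (0:ℂ) 1, (1 - ‖z‖) ^ 2 * ‖f z‖ ≤ C)
    (hM : ∀ z : ℂ, ‖z‖ ≤ 4 / 5 → (1 + ‖f z‖ ^ 2) ^ (p / 2) ≤ M) (θ : ℝ) :
    ∫⁻ r in Ioo (0:ℝ) 1, ENNReal.ofReal (r * (1 + ‖f (circleMap 0 r θ)‖ ^ 2) ^ (p / 2)) ≤
      ENNReal.ofReal (4 * M) + ENNReal.ofReal (2 * (1 + C)) *
        ∫⁻ r in Ioo (0:ℝ) 1, ENNReal.ofReal (r * (‖deriv f (circleMap 0 r θ)‖ ^ 2 *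
          (1 + ‖f (circleMap 0 r θ)‖ ^ 2) ^ (-((3 - p) / 2)))) := by
  have hM0 : 0 ≤ M := le_trans (by positivity) (hM 0 (by norm_num))
  have hC0 : 0 ≤ C := le_trans (by positivity) (hC 0 (by simp))
  have hG : DifferentiableOn ℂ (deriv f) (ball 0 1) := hf.deriv isOpen_ball
  set e : ℂ := Complex.exp (θ * Complex.I) with he
  have hne : ‖e‖ = 1 := by rw [he]; exact Complex.norm_exp_ofReal_mul_I θ
  set γ : ℝ → ℂ := fun r => circleMap 0 r θ with hγ
  have hγe : γ = fun r : ℝ => (r : ℂ) * e := by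
    funext r; simp [hγ, circleMap, he]
  have hγc : Continuous γ := by rw [hγe]; fun_prop
  have hγd : ∀ r : ℝ, HasDerivAt γ e r := by
    intro r; rw [hγe]
    simpa using (hasDerivAt_id r).ofReal_comp.mul_const e
  have hγn : ∀ r : ℝ, 0 ≤ r → ‖γ r‖ = r := by
    intro r hr; simp [hγ, abs_of_nonneg hr]
  set u : ℝ → ℝ := fun r => (1 + ‖f (γ r)‖ ^ 2) ^ (p / 2) with hu
  set W : ℝ → ℝ := fun r => ‖deriv f (γ r)‖ ^ 2 * (1 + ‖f (γ r)‖ ^ 2) ^ (-((3 - p) / 2)) with hW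
  have hu0 : ∀ r, 0 ≤ u r := fun r => by simp only [hu]; positivity
  have hW0 : ∀ r, 0 ≤ W r := fun r => by simp only [hW]; positivity
  have main : ∀ ρ : ℝ, 0 ≤ ρ → ρ < 1 → ∫⁻ r in Ioo (0:ℝ) ρ, ENNReal.ofReal (r * u r) ≤
      ENNReal.ofReal (4 * M) + ENNReal.ofReal (2 * (1 + C)) *
        ∫⁻ r in Ioo (0:ℝ) 1, ENNReal.ofReal (r * W r) := by
    intro ρ hρ0 hρ
    have hmem : ∀ r ∈ Icc (0:ℝ) ρ, γ r ∈ ball (0:ℂ) 1 := by
      intro r hr
      rw [mem_ball_zero_iff, hγn r hr.1]; exact hr.2.trans_lt hρ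
    have hfc : ContinuousOn (fun r => f (γ r)) (Icc 0 ρ) :=
      hf.continuousOn.comp hγc.continuousOn hmem
    have hgc : ContinuousOn (fun r => deriv f (γ r)) (Icc 0 ρ) :=
      hG.continuousOn.comp hγc.continuousOn hmem
    have hNc : ContinuousOn (fun r => 1 + ‖f (γ r)‖ ^ 2) (Icc 0 ρ) :=
      continuousOn_const.add (hfc.norm.pow 2)
    have huc : ContinuousOn u (Icc 0 ρ) :=
      hNc.rpow_const fun r _ => Or.inl (by positivity)
    have hWc : ContinuousOn W (Icc 0 ρ) :=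
      (hgc.norm.pow 2).mul (hNc.rpow_const fun r _ => Or.inl (by positivity))
    have hruc : ContinuousOn (fun r => r * u r) (Icc 0 ρ) := continuousOn_id.mul huc
    have hrWc : ContinuousOn (fun r => r * W r) (Icc 0 ρ) := continuousOn_id.mul hWc
    set u' : ℝ → ℝ := fun r => (2 * inner ℝ (f (γ r)) (deriv f (γ r) * e)) * (p / 2) *
      (1 + ‖f (γ r)‖ ^ 2) ^ (p / 2 - 1) with hu'
    have hud : ∀ r ∈ Icc (0:ℝ) ρ, HasDerivAt u (u' r) r := by
      intro r hr
      have h1 : HasDerivAt f (deriv f (γ r)) (γ r) :=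
        (hf.differentiableAt (isOpen_ball.mem_nhds (hmem r hr))).hasDerivAt
      have h2 : HasDerivAt (fun r => f (γ r)) (deriv f (γ r) * e) r :=
        h1.comp_of_eq r (hγd r) rfl
      have h3 := (h2.norm_sq.const_add 1).rpow_const (p := p / 2) (Or.inl (by positivity))
      exact h3
    have hψ := intervalIntegral.sub_le_integral_of_hasDeriv_right_of_le (a := 0) (b := ρ)
      (g := fun r => r * (1 - r) * u r)
      (g' := fun r => (1 - 2 * r) * u r + r * (1 - r) * u' r)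
      (φ := fun r => M + (1 + C) / 2 * (r * W r) - r * u r / 4) hρ0
      ((continuousOn_id.mul (continuousOn_const.sub continuousOn_id)).mul huc)
      (by
        intro r hr
        have h1 : HasDerivAt (fun r : ℝ => r * (1 - r)) (1 - 2 * r) r := by
          have := (hasDerivAt_id r).mul ((hasDerivAt_id r).const_sub 1)
          exact this.congr_deriv (by simp; ring)
        exact (h1.mul (hud r (Ioo_subset_Icc_self hr))).hasDerivWithinAt)
      (((continuousOn_const.add (continuousOn_const.mul hrWc)).sub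
        (hruc.div_const 4)).integrableOn_Icc)
      (by
        intro r hr
        have hn := hγn r hr.1.le
        refine posRayH_arith (1 + ‖f (γ r)‖ ^ 2) ‖deriv f (γ r)‖ ‖f (γ r)‖ r C M p (u' r) hp0 hp
          hr.1.le (hr.2.trans hρ) (norm_nonneg _) (norm_nonneg _) rfl ?_ hM0 ?_ ?_
        · have := hC (γ r) (hmem r (Ioo_subset_Icc_self hr))
          rwa [hn] at this
        · intro h
          exact hM (γ r) (by rwa [hn])
        · have h1 : inner ℝ (f (γ r)) (deriv f (γ r) * e) ≤ ‖f (γ r)‖ * ‖deriv f (γ r)‖ := by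
            have := real_inner_le_norm (f (γ r)) (deriv f (γ r) * e)
            rwa [norm_mul, hne, mul_one] at this
          have h2 : 0 ≤ p / 2 * (1 + ‖f (γ r)‖ ^ 2) ^ (p / 2 - 1) := by positivity
          simp only [hu']
          nlinarith)
    have hI1 : IntervalIntegrable (fun r => r * u r) volume 0 ρ :=
      (hruc.mono (by rw [uIcc_of_le hρ0])).intervalIntegrable
    have hI2 : IntervalIntegrable (fun r => r * W r) volume 0 ρ :=
      (hrWc.mono (by rw [uIcc_of_le hρ0])).intervalIntegrable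
    rw [intervalIntegral.integral_sub (intervalIntegrable_const.add (hI2.const_mul _))
      (hI1.div_const 4), intervalIntegral.integral_add intervalIntegrable_const (hI2.const_mul _),
      intervalIntegral.integral_const_mul, intervalIntegral.integral_div,
      intervalIntegral.integral_const] at hψ
    have hpos : 0 ≤ ρ * (1 - ρ) * u ρ := mul_nonneg (mul_nonneg hρ0 (by linarith)) (hu0 ρ)
    have conv : ∀ g : ℝ → ℝ, (∀ r, 0 ≤ g r) → ContinuousOn (fun r => r * g r) (Icc 0 ρ) →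
        ∫⁻ r in Ioo (0:ℝ) ρ, ENNReal.ofReal (r * g r) = ENNReal.ofReal (∫ r in (0:ℝ)..ρ, r * g r) := by
      intro g hg hgc
      rw [intervalIntegral.integral_of_le hρ0, integral_Ioc_eq_integral_Ioo,
        ofReal_integral_eq_lintegral_ofReal
          (hgc.integrableOn_Icc.mono_set Ioo_subset_Icc_self)]
      exact (ae_restrict_iff' measurableSet_Ioo).2
        (Filter.Eventually.of_forall fun s hs => mul_nonneg hs.1.le (hg s))
    have hB0 : 0 ≤ ∫ r in (0:ℝ)..ρ, r * W r :=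
      intervalIntegral.integral_nonneg hρ0 fun r hr => mul_nonneg hr.1 (hW0 r)
    calc ∫⁻ r in Ioo (0:ℝ) ρ, ENNReal.ofReal (r * u r)
        = ENNReal.ofReal (∫ r in (0:ℝ)..ρ, r * u r) := conv u hu0 hruc
      _ ≤ ENNReal.ofReal (4 * M + 2 * (1 + C) * ∫ r in (0:ℝ)..ρ, r * W r) := by
          apply ENNReal.ofReal_le_ofReal
          simp only [smul_eq_mul, sub_zero, zero_mul] at hψ
          nlinarith
      _ = ENNReal.ofReal (4 * M) + ENNReal.ofReal (2 * (1 + C)) *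
          ∫⁻ r in Ioo (0:ℝ) ρ, ENNReal.ofReal (r * W r) := by
          rw [conv W hW0 hrWc, ENNReal.ofReal_add (by positivity) (by positivity),
            ENNReal.ofReal_mul (p := 2 * (1 + C)) (by positivity)]
      _ ≤ _ := by
          gcongr
  have hU : Ioo (0:ℝ) 1 = ⋃ n : ℕ, Ioo (0:ℝ) (1 - 1 / ((n:ℝ) + 1)) := by
    ext r
    simp only [mem_Ioo, mem_iUnion]
    constructor
    · rintro ⟨h0, h1⟩
      obtain ⟨n, hn⟩ := exists_nat_one_div_lt (sub_pos.2 h1)
      exact ⟨n, h0, by linarith⟩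
    · rintro ⟨n, h0, h1⟩
      have : 0 < 1 / ((n:ℝ) + 1) := by positivity
      exact ⟨h0, by linarith⟩
  have hmono : Monotone fun n : ℕ => Ioo (0:ℝ) (1 - 1 / ((n:ℝ) + 1)) := by
    intro m n hmn
    apply Ioo_subset_Ioo_right
    have : 1 / ((n:ℝ) + 1) ≤ 1 / ((m:ℝ) + 1) := Nat.one_div_le_one_div hmn
    linarith
  change ∫⁻ r in Ioo (0:ℝ) 1, ENNReal.ofReal (r * u r) ≤
      ENNReal.ofReal (4 * M) + ENNReal.ofReal (2 * (1 + C)) *
        ∫⁻ r in Ioo (0:ℝ) 1, ENNReal.ofReal (r * W r)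
  generalize hX : ENNReal.ofReal (4 * M) + ENNReal.ofReal (2 * (1 + C)) *
        ∫⁻ r in Ioo (0:ℝ) 1, ENNReal.ofReal (r * W r) = X at main ⊢
  rw [hU, setLIntegral_iUnion_of_directed _ hmono.directed_le]
  refine iSup_le fun n => main _ ?_ ?_
  · have : 1 / ((n:ℝ) + 1) ≤ 1 := by
      rw [div_le_one (by positivity)]; linarith [Nat.cast_nonneg (α := ℝ) n]
    linarith
  · have : 0 < 1 / ((n:ℝ) + 1) := by positivity
    linarith

end Crest.Agent.R131
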