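import Crest.Agent.R131.StGain
import Crest.Agent.R131.StDepth
import Crest.Agent.R131.StN

/-! Row 131, part (B): the improved inequality holds (helper31). -/

set_option autoImplicit false

namespace Crest.Agent.R131

theorem stGain_holds : StGain := stGain minDepth nonDeg

end Crest.Agent.R131
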