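import Crest.Agent.R131.Wt3
import Crest.Agent.R131.StDefs
import Crest.Agent.R131.Univ
import Crest.Agent.R131.Dist13
import Crest.Agent.R131.Dilate

/-! Row 131: S0177 from the improved inequality `StGain` (helper3). -/

set_option autoImplicit false

open MeasureTheory Set Metric
open scoped ENNReal Real

noncomputable section

namespace Crest.Agent.R131.StFin

open Crest.Agent.R131.Wt3

theorem rad_fin (β : ℝ) (hβ : 0 < β) :
    ∫⁻ z in ball (0 : ℂ) 1, ENNReal.ofReal ((1 - ‖z‖ ^ 2) ^ (β - 1) * ‖z‖⁻¹) ≠ ⊤ := by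
  rw [polar_ball _ (by fun_prop)]
  have e : ∫⁻ r in Ioo (0 : ℝ) 1, ENNReal.ofReal r * ∫⁻ θ in Ioo (-π) π, ENNReal.ofReal
      ((1 - ‖(r : ℂ) * Complex.exp ((θ : ℂ) * Complex.I)‖ ^ 2) ^ (β - 1) *
        ‖(r : ℂ) * Complex.exp ((θ : ℂ) * Complex.I)‖⁻¹) =
      ∫⁻ r in Ioo (0 : ℝ) 1, ENNReal.ofReal (π - -π) *
        ENNReal.ofReal (r ^ (0 : ℝ) * (1 - r ^ 2) ^ (β - 1)) := by
    refine setLIntegral_congr_fun measurableSet_Ioo fun r hr => ?_
    have hn : ∀ θ : ℝ, ‖(r : ℂ) * Complex.exp ((θ : ℂ) * Complex.I)‖ = r := by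
      intro θ
      rw [norm_mul, Complex.norm_exp_ofReal_mul_I, mul_one, Complex.norm_real, Real.norm_eq_abs,
        abs_of_pos hr.1]
    simp only [hn]
    rw [setLIntegral_const, Real.volume_Ioo, ← mul_assoc, ← ENNReal.ofReal_mul hr.1.le, mul_comm]
    congr 2
    have := hr.1.ne'
    rw [Real.rpow_zero]
    field_simp
  rw [e, lintegral_const_mul' _ _ ENNReal.ofReal_ne_top]
  exact ENNReal.mul_ne_top ENNReal.ofReal_ne_top
    ((integrableOn_rad 0 β le_rfl hβ).lintegral_lt_top.ne)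

theorem stM_ne_top (b : ℝ) (hb : 0 < b) (f : ℂ → ℂ) (R : ℝ) (hR : 1 < R)
    (hf : DifferentiableOn ℂ f (ball 0 R)) (hinj : InjOn f (ball 0 R)) : stM b f ≠ ⊤ := by
  have hsub : closedBall (0 : ℂ) 1 ⊆ ball 0 R := closedBall_subset_ball hR
  have hc : ContinuousOn (fun z => ‖deriv f z‖⁻¹) (closedBall (0 : ℂ) 1) := by
    refine (((hf.deriv isOpen_ball).continuousOn.mono hsub).norm).inv₀ fun z hz => ?_
    exact norm_ne_zero_iff.2
      (Crest.Agent.Lib.Complex.deriv_ne_zero_of_injOn isOpen_ball hf hinj (hsub hz))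
  obtain ⟨B, hB⟩ := (isCompact_closedBall (0 : ℂ) 1).exists_bound_of_continuousOn hc
  have h1 : stM b f ≤ ∫⁻ z in ball (0 : ℂ) 1, ENNReal.ofReal B *
      ENNReal.ofReal ((1 - ‖z‖ ^ 2) ^ (b - 1) * ‖z‖⁻¹) := by
    refine setLIntegral_mono' measurableSet_ball fun z hz => ?_
    have h2 := hB z (ball_subset_closedBall hz)
    rw [Real.norm_eq_abs, abs_of_nonneg (by positivity)] at h2
    have hz1 : ‖z‖ < 1 := by simpa using hz
    have hd : 0 ≤ 1 - ‖z‖ ^ 2 := by nlinarith [norm_nonneg z]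
    rw [← ENNReal.ofReal_mul (le_trans (by positivity) h2)]
    refine ENNReal.ofReal_le_ofReal ?_
    unfold stW
    rw [mul_assoc]
    exact mul_le_mul_of_nonneg_right h2 (by positivity)
  rw [lintegral_const_mul' _ _ ENNReal.ofReal_ne_top] at h1
  exact ne_top_of_le_ne_top (ENNReal.mul_ne_top ENNReal.ofReal_ne_top (rad_fin b hb)) h1

/-- the part of the mass with an extra factor `1 - |z|²` is small -/
theorem low_le (ε : ℝ) (hε : 0 < ε) : ∃ C : ℝ, 0 ≤ C ∧ ∀ (b : ℝ) (f : ℂ → ℂ), 0 ≤ b →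
    DifferentiableOn ℂ f (ball 0 1) → InjOn f (ball 0 1) → deriv f 0 = 1 →
      ∫⁻ z in ball (0 : ℂ) 1, ENNReal.ofReal (‖deriv f z‖⁻¹ * ((1 - ‖z‖ ^ 2) ^ b * ‖z‖⁻¹)) ≤
        ENNReal.ofReal ε * stM b f + ENNReal.ofReal C := by
  set A := ∫⁻ z in ball (0 : ℂ) 1, ENNReal.ofReal ((1 - ‖z‖ ^ 2) ^ ((1 : ℝ) - 1) * ‖z‖⁻¹) with hA
  have hAt : A ≠ ⊤ := rad_fin 1 one_pos
  set E := Real.exp (50000 / (ε / 2)) with hE
  have hE0 : 0 < E := Real.exp_pos _
  refine ⟨E * A.toReal, by positivity, fun b f hb hf hinj h1 => ?_⟩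
  have hm : Measurable fun z => ENNReal.ofReal ε * ENNReal.ofReal (stW b f z) :=
    (ENNReal.measurable_ofReal.comp (measurable_stW b f)).const_mul _
  have h2 : ∫⁻ z in ball (0 : ℂ) 1,
      ENNReal.ofReal (‖deriv f z‖⁻¹ * ((1 - ‖z‖ ^ 2) ^ b * ‖z‖⁻¹)) ≤
      ∫⁻ z in ball (0 : ℂ) 1, (ENNReal.ofReal ε * ENNReal.ofReal (stW b f z) +
        ENNReal.ofReal E * ENNReal.ofReal ((1 - ‖z‖ ^ 2) ^ ((1 : ℝ) - 1) * ‖z‖⁻¹)) := by
    refine setLIntegral_mono' measurableSet_ball fun z hz => ?_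
    have hz1 : ‖z‖ < 1 := by simpa using hz
    have hz0 := norm_nonneg z
    have hd : 0 < 1 - ‖z‖ ^ 2 := by nlinarith
    rcases le_total (1 - ‖z‖ ^ 2) ε with h | h
    · refine le_trans ?_ le_self_add
      rw [← ENNReal.ofReal_mul hε.le]
      refine ENNReal.ofReal_le_ofReal ?_
      unfold stW
      have q : (1 - ‖z‖ ^ 2) ^ b = (1 - ‖z‖ ^ 2) ^ (b - 1) * (1 - ‖z‖ ^ 2) := by
        rw [← Real.rpow_add_one hd.ne']; congr 1; ring
      rw [q]
      have : 0 ≤ ‖deriv f z‖⁻¹ * (1 - ‖z‖ ^ 2) ^ (b - 1) * ‖z‖⁻¹ := by positivity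
      nlinarith
    · refine le_trans ?_ le_add_self
      rw [← ENNReal.ofReal_mul hE0.le]
      refine ENNReal.ofReal_le_ofReal ?_
      have hr : ‖z‖ ≤ 1 - ε / 2 := by nlinarith
      have h3 := harnack13 f hf hinj (r := 1 - ε / 2) (by linarith) (z := z) (w := 0) hr
        (by rw [norm_zero]; linarith)
      rw [h1, norm_one, zero_sub, norm_neg, sub_sub_cancel] at h3
      have h4 : Real.exp (50000 / (ε / 2) * ‖z‖) ≤ E := by
        rw [hE, Real.exp_le_exp]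
        have : 0 ≤ 50000 / (ε / 2) := by positivity
        nlinarith
      have hne : 0 < ‖deriv f z‖ := norm_pos_iff.2 (univ_deriv_ne_zero hf hinj z hz)
      have h5 : ‖deriv f z‖⁻¹ ≤ E := by
        rw [inv_le_comm₀ hne hE0, inv_le_iff_one_le_mul₀ hE0]
        nlinarith
      have h6 : (1 - ‖z‖ ^ 2) ^ b ≤ 1 := Real.rpow_le_one hd.le (by nlinarith) hb
      rw [sub_self, Real.rpow_zero]
      exact mul_le_mul h5 (mul_le_mul_of_nonneg_right h6 (by positivity)) (by positivity) hE0.le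
  refine h2.trans (le_of_eq ?_)
  rw [lintegral_add_left hm, lintegral_const_mul' _ _ ENNReal.ofReal_ne_top,
    lintegral_const_mul' _ _ ENNReal.ofReal_ne_top, ENNReal.ofReal_mul hE0.le,
    ENNReal.ofReal_toReal hAt]
  rfl

theorem exists_root (f : ℂ → ℂ) (hf : DifferentiableOn ℂ f (ball 0 1))
    (hinj : InjOn f (ball 0 1)) : ∃ g : ℂ → ℂ, DifferentiableOn ℂ g (ball 0 1) ∧
      ∀ z ∈ ball (0 : ℂ) 1, ‖g z‖ ^ 2 = ‖deriv f z‖⁻¹ ∧
        deriv g z = -(1 / 2) * (deriv (deriv f) z / deriv f z) * g z := by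
  obtain ⟨L, hL, h1, h2⟩ := univ_exists_log_deriv hf hinj
  refine ⟨fun z => Complex.exp (-(1 / 2) * L z), (hL.const_mul _).cexp, fun z hz => ⟨?_, ?_⟩⟩
  · rw [← h1 z hz, ← norm_pow, ← Complex.exp_nat_mul, ← norm_inv, ← Complex.exp_neg]
    congr 2
    push_cast
    ring
  · rw [((h2 z hz).const_mul (-(1 / 2) : ℂ)).cexp.deriv]
    ring

theorem rpow_one_sub_two (x : ℝ) : x ^ ((1 : ℝ) - 2) = x⁻¹ := by
  rw [← Real.rpow_neg_one]; norm_num

theorem nice_bound (hG : StGain)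
    (hS : ∀ (c : ℝ) (f : ℂ → ℂ) (R : ℝ), 1 < R → DifferentiableOn ℂ f (ball 0 R) →
      InjOn f (ball 0 R) → -1 < c → StarP c f) :
    ∃ ε : ℝ, 0 < ε ∧ ε < 1 / 4 ∧ ∃ C : ℝ, ∀ (f : ℂ → ℂ) (R : ℝ), 1 < R →
      DifferentiableOn ℂ f (ball 0 R) → InjOn f (ball 0 R) → f 0 = 0 → deriv f 0 = 1 →
      ∀ r : ℝ, 1 / 2 ≤ r → r < 1 →
        ∫⁻ θ in Ioc (-π) π, (‖deriv f ((r : ℂ) * Complex.exp ((θ : ℂ) * Complex.I))‖ₑ)⁻¹ ≤
          ENNReal.ofReal (C * (1 - r) ^ (-(1 / 4 : ℝ) + ε)) := by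
  obtain ⟨η, hη, hη2, C₁, hG⟩ := hG 100000
  obtain ⟨C₂, hC₂, hlow⟩ := low_le (η / 400) (by positivity)
  set b : ℝ := 1 / 4 - η / 16 with hb
  set c : ℝ := (1 + 2 * b) / 3 with hc
  have hb1 : 1 / 5 ≤ b := by rw [hb]; linarith
  have hb2 : b ≤ 1 / 4 := by rw [hb]; linarith
  set M₀ : ℝ := 2 / η * (max C₁ 0 + 100 * C₂) with hM₀
  have hM₀0 : 0 ≤ M₀ := by positivity
  refine ⟨η / 16, by positivity, by linarith, 2 * M₀, fun f R hR hfR hiR _ h1 r hr0 hr1 => ?_⟩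
  have hsub : ball (0 : ℂ) 1 ⊆ ball 0 R := ball_subset_ball hR.le
  have hf := hfR.mono hsub
  have hinj := hiR.mono hsub
  have hOK : StOK 100000 f := ⟨hf, univ_deriv_ne_zero hf hinj, dist13 f hf hinj⟩
  have hfin := stM_ne_top b (by linarith) f R hR hfR hiR
  have g1 := hG b f hb1 hb2 hOK h1 (hS _ f R hR hfR hiR (by linarith)) hfin
  obtain ⟨g, hg, hgz⟩ := exists_root f hf hinj
  have w := wt_lower 1 b c le_rfl (by linarith) (by linarith) (by rw [hc]; linarith)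
    (by rw [hc]; linarith) g hg
  have eM : ∫⁻ z in ball (0 : ℂ) 1,
      ENNReal.ofReal (‖g z‖ ^ 2 * ((1 - ‖z‖ ^ 2) ^ (b - 1) * ‖z‖ ^ ((1 : ℝ) - 2))) = stM b f := by
    refine setLIntegral_congr_fun measurableSet_ball fun z hz => ?_
    simp only [(hgz z hz).1, rpow_one_sub_two, stW, mul_assoc]
  have eX : ∫⁻ z in ball (0 : ℂ) 1, ENNReal.ofReal (‖((c * ‖z‖ ^ 2 : ℝ) : ℂ) * g z +
      ((-(2 / 1 * (1 - ‖z‖ ^ 2)) : ℝ) : ℂ) * (z * deriv g z)‖ ^ 2 *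
        ((1 - ‖z‖ ^ 2) ^ (b - 1) * ‖z‖ ^ ((1 : ℝ) - 2))) =
      ∫⁻ z in ball (0 : ℂ) 1, ENNReal.ofReal (‖stX c f z‖ ^ 2 * stW b f z) := by
    refine setLIntegral_congr_fun measurableSet_ball fun z hz => ?_
    have : ((c * ‖z‖ ^ 2 : ℝ) : ℂ) * g z + ((-(2 / 1 * (1 - ‖z‖ ^ 2)) : ℝ) : ℂ) * (z * deriv g z) =
        stX c f z * g z := by
      rw [(hgz z hz).2]; unfold stX; push_cast; ring
    simp only [this, norm_mul, mul_pow, (hgz z hz).1, rpow_one_sub_two, stW, mul_assoc]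
  have eL : ∫⁻ z in ball (0 : ℂ) 1,
      ENNReal.ofReal (‖g z‖ ^ 2 * ((1 - ‖z‖ ^ 2) ^ b * ‖z‖ ^ ((1 : ℝ) - 2))) =
      ∫⁻ z in ball (0 : ℂ) 1, ENNReal.ofReal (‖deriv f z‖⁻¹ * ((1 - ‖z‖ ^ 2) ^ b * ‖z‖⁻¹)) := by
    refine setLIntegral_congr_fun measurableSet_ball fun z hz => ?_
    simp only [(hgz z hz).1, rpow_one_sub_two]
  rw [eM, eX, eL] at w
  have l1 := hlow b f (by linarith) hf hinj h1
  set X := ∫⁻ z in ball (0 : ℂ) 1, ENNReal.ofReal (‖stX c f z‖ ^ 2 * stW b f z) with hX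
  set m := (stM b f).toReal with hm
  have hm0 : 0 ≤ m := ENNReal.toReal_nonneg
  have hMm : stM b f = ENNReal.ofReal m := (ENNReal.ofReal_toReal hfin).symm
  have hθ : 4 * b ≤ (c - 2 * b / 1) ^ 2 + 4 * b / 1 ^ 2 := by
    have := sq_nonneg (c - 2 * b / 1)
    rw [one_pow, div_one (4 * b)]; linarith
  have w2 : ENNReal.ofReal (4 * b * m) ≤ X + ENNReal.ofReal (100 * (η / 400 * m + C₂)) := by
    calc ENNReal.ofReal (4 * b * m) = ENNReal.ofReal (4 * b) * stM b f := by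
          rw [hMm, ← ENNReal.ofReal_mul (by linarith)]
      _ ≤ _ := mul_le_mul_left (ENNReal.ofReal_le_ofReal hθ) _
      _ ≤ _ := w
      _ ≤ X + ENNReal.ofReal 100 * (ENNReal.ofReal (η / 400) * stM b f + ENNReal.ofReal C₂) := by
          gcongr
      _ = _ := by
          rw [hMm, ← ENNReal.ofReal_mul (by positivity), ← ENNReal.ofReal_add (by positivity) hC₂,
            ← ENNReal.ofReal_mul (by norm_num)]
  have w3 : ENNReal.ofReal (4 * b * m + η * m) ≤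
      ENNReal.ofReal (m + max C₁ 0 + 100 * (η / 400 * m + C₂)) := by
    calc ENNReal.ofReal (4 * b * m + η * m)
        = ENNReal.ofReal (4 * b * m) + ENNReal.ofReal η * stM b f := by
          rw [hMm, ← ENNReal.ofReal_mul hη.le, ← ENNReal.ofReal_add (by positivity) (by positivity)]
      _ ≤ X + ENNReal.ofReal (100 * (η / 400 * m + C₂)) + ENNReal.ofReal η * stM b f := by gcongr
      _ = (X + ENNReal.ofReal η * stM b f) + ENNReal.ofReal (100 * (η / 400 * m + C₂)) := by ring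
      _ ≤ (stM b f + ENNReal.ofReal (max C₁ 0)) + ENNReal.ofReal (100 * (η / 400 * m + C₂)) := by
          exact add_le_add (g1.trans (add_le_add le_rfl
            (ENNReal.ofReal_le_ofReal (le_max_left _ _)))) le_rfl
      _ = _ := by
          rw [hMm, ← ENNReal.ofReal_add hm0 (le_max_right _ _),
            ← ENNReal.ofReal_add (by positivity) (by positivity)]
  have w4 := (ENNReal.ofReal_le_ofReal_iff (by positivity)).1 w3
  have w5 : m ≤ M₀ := by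
    rw [hM₀, div_mul_eq_mul_div, le_div_iff₀ hη]
    rw [hb] at w4
    nlinarith
  have mn := means_le b (by linarith) (by linarith) g hg r (by linarith) hr1
  rw [eM, hMm] at mn
  have h1r : 0 < 1 - r := by linarith
  have hp : 0 < (1 - r) ^ b / 2 := by positivity
  have eI : ∫⁻ θ in Ioc (-π) π, (‖deriv f ((r : ℂ) * Complex.exp ((θ : ℂ) * Complex.I))‖ₑ)⁻¹ =
      ∫⁻ θ in Ioo (-π) π, ENNReal.ofReal (‖g (r * Complex.exp (θ * Complex.I))‖ ^ 2) := by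
    rw [← setLIntegral_congr Ioo_ae_eq_Ioc]
    refine lintegral_congr fun θ => ?_
    have hz : (r : ℂ) * Complex.exp (θ * Complex.I) ∈ ball (0 : ℂ) 1 := by
      rw [mem_ball_zero_iff, norm_mul, Complex.norm_exp_ofReal_mul_I, mul_one, Complex.norm_real,
        Real.norm_eq_abs, abs_of_nonneg (by linarith)]
      exact hr1
    rw [(hgz _ hz).1, ENNReal.ofReal_inv_of_pos (norm_pos_iff.2 (hOK.ne _ hz)), ofReal_norm]
  rw [eI]
  have hne : ENNReal.ofReal ((1 - r) ^ b / 2) ≠ 0 := by simpa using hp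
  rw [← ENNReal.mul_le_mul_iff_right hne ENNReal.ofReal_ne_top]
  refine mn.trans ?_
  rw [← ENNReal.ofReal_mul hp.le]
  refine ENNReal.ofReal_le_ofReal (w5.trans (le_of_eq ?_))
  have : -(1 / 4 : ℝ) + η / 16 = -b := by rw [hb]; ring
  rw [this, Real.rpow_neg h1r.le]
  have : 0 < (1 - r) ^ b := by positivity
  field_simp

/-- **S0177 from the improved inequality** -/
theorem s0177_of (hG : StGain)
    (hS : ∀ (c : ℝ) (f : ℂ → ℂ) (R : ℝ), 1 < R → DifferentiableOn ℂ f (ball 0 R) →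
      InjOn f (ball 0 R) → -1 < c → StarP c f) :
    ∃ ε : ℝ, 0 < ε ∧ ε < 1 / 4 ∧ ∃ C : ℝ, ∀ f : ℂ → ℂ,
      DifferentiableOn ℂ f (Metric.ball 0 1) → Set.InjOn f (Metric.ball 0 1) → f 0 = 0 →
      deriv f 0 = 1 → ∀ r : ℝ, 1 / 2 ≤ r → r < 1 →
        ∫⁻ θ in Set.Ioc (-Real.pi) Real.pi,
            (‖deriv f ((r : ℂ) * Complex.exp ((θ : ℂ) * Complex.I))‖ₑ)⁻¹ ≤
          ENNReal.ofReal (2 * Real.pi * C * (1 - r) ^ (-(1 / 4 : ℝ) + ε)) := by
  obtain ⟨ε, h0, h1, h⟩ := nice_bound hG hS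
  exact ⟨ε, h0, h1, Dilate.dilate (fun w => (‖w‖ₑ)⁻¹) _ (by linarith) h⟩

end Crest.Agent.R131.StFin
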