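import Crest.Agent.R131.StStar
import Crest.Agent.R131.Dilate
import Crest.Agent.R131.Dist13

/-! Row 131: final assembly of S0177 from `StGain` and the weights lemma (helper13, hedge). -/

set_option autoImplicit false

open MeasureTheory Set Metric
open scoped ENNReal

noncomputable section

namespace Crest.Agent.R131.F13

open Crest.Agent.R131

/-- the weights lemma for fixed parameters (form announced by helper87) -/
def Wts (τ c b η : ℝ) : Prop :=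
  ∃ K : ℝ, 0 < K ∧ ∃ r₀ : ℝ, r₀ < 1 ∧ ∀ (g : ℂ → ℂ) (R : ℝ), 1 < R →
    DifferentiableOn ℂ g (ball 0 R) → ∀ C₀ M₀ : ℝ, 0 ≤ C₀ →
    (∀ z : ℂ, ‖z‖ ≤ r₀ → ‖g z‖ ^ 2 ≤ M₀) →
    (∫⁻ z in ball (0 : ℂ) 1, ENNReal.ofReal
        (‖((c * ‖z‖ ^ 2 : ℝ) : ℂ) * g z -
            ((2 / τ * (1 - ‖z‖ ^ 2) : ℝ) : ℂ) * z * deriv g z‖ ^ 2 *
          (1 - ‖z‖ ^ 2) ^ (b - 1) * ‖z‖ ^ (τ - 2))) ≤
      ENNReal.ofReal (1 - η) * (∫⁻ z in ball (0 : ℂ) 1, ENNReal.ofReal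
        (‖g z‖ ^ 2 * (1 - ‖z‖ ^ 2) ^ (b - 1) * ‖z‖ ^ (τ - 2))) + ENNReal.ofReal C₀ →
    ∀ r : ℝ, 1 / 2 ≤ r → r < 1 →
      ∫⁻ θ in Ioc (-Real.pi) Real.pi,
          ENNReal.ofReal (‖g ((r : ℂ) * Complex.exp ((θ : ℂ) * Complex.I))‖ ^ 2) ≤
        ENNReal.ofReal (K * (C₀ + M₀) * (1 - r) ^ (-b))

/-- the root `g = (f')^(-τ/2)` -/
theorem root {f : ℂ → ℂ} {R : ℝ} (hR : 0 < R) (hf : DifferentiableOn ℂ f (ball 0 R))
    (hinj : InjOn f (ball 0 R)) (τ : ℝ) :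
    ∃ g : ℂ → ℂ, DifferentiableOn ℂ g (ball 0 R) ∧ ∀ z ∈ ball (0 : ℂ) R,
      ‖g z‖ ^ 2 = ‖deriv f z‖ ^ (-τ) ∧
        deriv g z = -((τ / 2 : ℝ) : ℂ) * (deriv (deriv f) z / deriv f z) * g z := by
  have hne : ∀ z ∈ ball (0 : ℂ) R, deriv f z ≠ 0 := fun z hz =>
    Lib.Complex.deriv_ne_zero_of_injOn isOpen_ball hf hinj hz
  have hf1 : DifferentiableOn ℂ (deriv f) (ball 0 R) := hf.deriv isOpen_ball
  obtain ⟨L, hLd, -, hL⟩ := Dist13_log hR hf1 hne
  refine ⟨fun z => Complex.exp (-((τ / 2 : ℝ) : ℂ) * L z), (hLd.const_mul _).cexp, fun z hz => ?_⟩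
  have hLz : HasDerivAt L (deriv L z) z :=
    ((hLd z hz).differentiableAt (isOpen_ball.mem_nhds hz)).hasDerivAt
  have hev : (fun w => Complex.exp (L w)) =ᶠ[nhds z] deriv f := by
    filter_upwards [isOpen_ball.mem_nhds hz] with w hw using hL w hw
  have h2 : deriv (deriv f) z = deriv f z * deriv L z := by
    rw [← hev.deriv_eq, hLz.cexp.deriv, hL z hz]
  constructor
  · rw [← hL z hz, Complex.norm_exp, Complex.norm_exp, ← Real.exp_mul, ← Real.exp_nat_mul]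
    congr 1
    simp only [neg_mul, Complex.neg_re, Complex.re_ofReal_mul]
    push_cast; ring
  · rw [(hLz.const_mul (-((τ / 2 : ℝ) : ℂ))).cexp.deriv, h2]
    have := hne z hz
    field_simp

/-- the radial weight is integrable -/
theorem wfin {b : ℝ} (hb : 0 < b) :
    IntegrableOn (fun z : ℂ => (1 - ‖z‖ ^ 2) ^ (b - 1) * ‖z‖⁻¹) (ball 0 1) := by
  rw [integrableOn_fun_norm_addHaar volume (f := fun y : ℝ => (1 - y ^ 2) ^ (b - 1) * y⁻¹)]
  have h1 : IntervalIntegrable (fun y : ℝ => (1 - y) ^ (b - 1)) volume 0 1 := by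
    have := (intervalIntegral.intervalIntegrable_rpow' (r := b - 1) (a := 1) (b := 0)
      (by linarith)).comp_sub_left 1
    simpa using this
  have h2 : IntervalIntegrable (fun y : ℝ => (1 - y) ^ (b - 1) * (1 + y) ^ (b - 1))
      volume 0 1 := by
    refine h1.mul_continuousOn ?_
    refine ContinuousOn.rpow_const (by fun_prop) fun y hy => Or.inl ?_
    rw [uIcc_of_le zero_le_one] at hy
    linarith [hy.1]
  rw [intervalIntegrable_iff_integrableOn_Ioo_of_le zero_le_one] at h2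
  refine h2.congr_fun (fun y hy => ?_) measurableSet_Ioo
  have e : 1 - y ^ 2 = (1 - y) * (1 + y) := by ring
  simp only [Complex.finrank_real_complex, smul_eq_mul]
  rw [e, Real.mul_rpow (by linarith [hy.2]) (by linarith [hy.1])]
  have := hy.1.ne'
  field_simp
  norm_num
  ring

theorem stM_ne_top {f : ℂ → ℂ} {R b : ℝ} (hR : 1 < R) (hf : DifferentiableOn ℂ f (ball 0 R))
    (hinj : InjOn f (ball 0 R)) (hb : 0 < b) : stM b f ≠ ⊤ := by
  have hne : ∀ z ∈ ball (0 : ℂ) R, deriv f z ≠ 0 := fun z hz =>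
    Lib.Complex.deriv_ne_zero_of_injOn isOpen_ball hf hinj hz
  have hsub : closedBall (0 : ℂ) 1 ⊆ ball 0 R := closedBall_subset_ball hR
  have hc : ContinuousOn (fun z => (deriv f z)⁻¹) (closedBall 0 1) :=
    (((hf.deriv isOpen_ball).continuousOn).mono hsub).inv₀ fun z hz => hne z (hsub hz)
  obtain ⟨B, hB⟩ := (isCompact_closedBall (0 : ℂ) 1).exists_bound_of_continuousOn hc
  have hi := ((wfin hb).const_mul B).lintegral_lt_top
  refine (lt_of_le_of_lt ?_ hi).ne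
  unfold stM
  refine setLIntegral_mono' measurableSet_ball fun z hz => ENNReal.ofReal_le_ofReal ?_
  have h1 := hB z (ball_subset_closedBall hz)
  rw [norm_inv] at h1
  have h2 : ‖z‖ < 1 := by simpa using hz
  have h3 : 0 ≤ 1 - ‖z‖ ^ 2 := by nlinarith [norm_nonneg z]
  unfold stW
  rw [mul_assoc]
  exact mul_le_mul_of_nonneg_right h1 (by positivity)

/-- lower bound for `f'` on compact discs -/
theorem inv_deriv_le {f : ℂ → ℂ} (hf : DifferentiableOn ℂ f (ball 0 1))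
    (hinj : InjOn f (ball 0 1)) (h1 : deriv f 0 = 1) {r : ℝ} (hr : r < 1) {z : ℂ}
    (hz : ‖z‖ ≤ r) : ‖deriv f z‖⁻¹ ≤ Real.exp (50000 / (1 - r)) := by
  have hz1 : ‖z‖ < 1 := hz.trans_lt hr
  have hne : deriv f z ≠ 0 :=
    Lib.Complex.deriv_ne_zero_of_injOn isOpen_ball hf hinj (mem_ball_zero_iff.2 hz1)
  have h := harnack13 f hf hinj hr (z := z) (w := 0) hz
    (by simpa using (norm_nonneg z).trans hz)
  rw [h1, norm_one, zero_sub, norm_neg] at h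
  have hp : 0 < ‖deriv f z‖ := norm_pos_iff.2 hne
  rw [inv_le_iff_one_le_mul₀ hp]
  refine h.trans (mul_le_mul_of_nonneg_right (Real.exp_le_exp.2 ?_) hp.le)
  have : 0 ≤ 50000 / (1 - r) := div_nonneg (by norm_num) (by linarith)
  nlinarith

theorem s77_of (hG : StGain)
    (hW : ∀ c b η : ℝ, 0 < b → 0 < η → η ≤ 1 / 2 →
      0 < (c - 2 * b / 1) ^ 2 + 4 * b / 1 ^ 2 - 1 + η → Wts 1 c b η) :
    ∃ ε : ℝ, 0 < ε ∧ ε < 1 / 4 ∧ ∃ C : ℝ, ∀ f : ℂ → ℂ,
      DifferentiableOn ℂ f (Metric.ball 0 1) → Set.InjOn f (Metric.ball 0 1) → f 0 = 0 →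
      deriv f 0 = 1 → ∀ r : ℝ, 1 / 2 ≤ r → r < 1 →
        ∫⁻ θ in Set.Ioc (-Real.pi) Real.pi,
            (‖deriv f ((r : ℂ) * Complex.exp ((θ : ℂ) * Complex.I))‖ₑ)⁻¹ ≤
          ENNReal.ofReal (2 * Real.pi * C * (1 - r) ^ (-(1 / 4 : ℝ) + ε)) := by
  obtain ⟨η, hη, hη2, C, hC⟩ := hG 100000
  set b : ℝ := 1 / 4 - η / 16 with hb
  set c : ℝ := (1 + 2 * b) / 3 with hc
  have hb1 : 1 / 5 ≤ b := by rw [hb]; linarith
  have hb2 : b ≤ 1 / 4 := by rw [hb]; linarith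
  obtain ⟨K, hK, r₀, hr₀, hw⟩ := hW c b η (by linarith) hη hη2 (by
    have := sq_nonneg (c - 2 * b / 1)
    have e : 4 * b / 1 ^ 2 - 1 + η = 3 / 4 * η := by rw [hb]; ring
    linarith)
  refine ⟨η / 16, by linarith, by linarith, ?_⟩
  refine Dilate.dilate (fun w => (‖w‖ₑ)⁻¹) (-(1 / 4 : ℝ) + η / 16) (by linarith)
    ⟨K * (max C 0 + Real.exp (50000 / (1 - r₀))), fun f R hR hf hinj h0 h1 r hr1 hr2 => ?_⟩
  have hsub : ball (0 : ℂ) 1 ⊆ ball 0 R := ball_subset_ball hR.le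
  have hf' := hf.mono hsub
  have hinj' := hinj.mono hsub
  have hne : ∀ z ∈ ball (0 : ℂ) R, deriv f z ≠ 0 := fun z hz =>
    Lib.Complex.deriv_ne_zero_of_injOn isOpen_ball hf hinj hz
  have hOK : StOK 100000 f := ⟨hf', fun z hz => hne z (hsub hz), dist13 f hf' hinj'⟩
  have hM := stM_ne_top hR hf hinj (b := b) (by linarith)
  have hgain := hC b f hb1 hb2 hOK h1 (starP _ f R hR hf hinj (by linarith)) hM
  obtain ⟨g, hg, hg2⟩ := root (by linarith) hf hinj 1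
  have hg1 : ∀ z ∈ ball (0 : ℂ) R, ‖g z‖ ^ 2 = ‖deriv f z‖⁻¹ := fun z hz => by
    rw [(hg2 z hz).1, Real.rpow_neg_one]
  have e12 : (1 : ℝ) - 2 = -1 := by norm_num
  have eM : (∫⁻ z in ball (0 : ℂ) 1, ENNReal.ofReal
      (‖g z‖ ^ 2 * (1 - ‖z‖ ^ 2) ^ (b - 1) * ‖z‖ ^ ((1 : ℝ) - 2))) = stM b f := by
    unfold stM
    refine setLIntegral_congr_fun measurableSet_ball fun z hz => ?_
    simp only [stW]
    rw [hg1 z (hsub hz), e12, Real.rpow_neg_one]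
  have eA : (∫⁻ z in ball (0 : ℂ) 1, ENNReal.ofReal
      (‖((c * ‖z‖ ^ 2 : ℝ) : ℂ) * g z -
          ((2 / 1 * (1 - ‖z‖ ^ 2) : ℝ) : ℂ) * z * deriv g z‖ ^ 2 *
        (1 - ‖z‖ ^ 2) ^ (b - 1) * ‖z‖ ^ ((1 : ℝ) - 2))) =
      ∫⁻ z in ball (0 : ℂ) 1, ENNReal.ofReal (‖stX c f z‖ ^ 2 * stW b f z) := by
    refine setLIntegral_congr_fun measurableSet_ball fun z hz => ?_
    have e : ((c * ‖z‖ ^ 2 : ℝ) : ℂ) * g z -
        ((2 / 1 * (1 - ‖z‖ ^ 2) : ℝ) : ℂ) * z * deriv g z = stX c f z * g z := by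
      rw [(hg2 z (hsub hz)).2]
      unfold stX
      push_cast
      ring
    simp only [stW]
    rw [e, norm_mul, mul_pow, hg1 z (hsub hz), e12, Real.rpow_neg_one]
    congr 1
    ring
  have hsplit : stM b f = ENNReal.ofReal (1 - η) * stM b f + ENNReal.ofReal η * stM b f := by
    rw [← add_mul, ← ENNReal.ofReal_add (by linarith) hη.le]
    simp
  have hyp : (∫⁻ z in ball (0 : ℂ) 1, ENNReal.ofReal (‖stX c f z‖ ^ 2 * stW b f z)) ≤
      ENNReal.ofReal (1 - η) * stM b f + ENNReal.ofReal (max C 0) := by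
    have hfin : ENNReal.ofReal η * stM b f ≠ ⊤ := ENNReal.mul_ne_top ENNReal.ofReal_ne_top hM
    refine (ENNReal.add_le_add_iff_right hfin).1 (hgain.trans ?_)
    calc stM b f + ENNReal.ofReal C
        ≤ stM b f + ENNReal.ofReal (max C 0) := by gcongr; exact le_max_left _ _
      _ = _ := by
        conv_lhs => rw [hsplit]
        ring
  have hfinal := hw g R hR hg (max C 0) (Real.exp (50000 / (1 - r₀))) (le_max_right _ _)
    (fun z hz => by
      rw [hg1 z (hsub (mem_ball_zero_iff.2 (hz.trans_lt hr₀)))]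
      exact inv_deriv_le hf' hinj' h1 hr₀ hz)
    (by rw [eA, eM]; exact hyp) r hr1 hr2
  have eb : -b = -(1 / 4 : ℝ) + η / 16 := by rw [hb]; ring
  rw [eb] at hfinal
  refine le_trans (le_of_eq ?_) hfinal
  refine lintegral_congr fun θ => ?_
  have hz : (r : ℂ) * Complex.exp ((θ : ℂ) * Complex.I) ∈ ball (0 : ℂ) R := by
    rw [mem_ball_zero_iff, norm_mul, Complex.norm_exp_ofReal_mul_I, Complex.norm_real,
      Real.norm_eq_abs, abs_of_nonneg (by linarith)]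
    linarith
  rw [hg1 _ hz, ENNReal.ofReal_inv_of_pos (norm_pos_iff.2 (hne _ hz)), ofReal_norm]

end Crest.Agent.R131.F13
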