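import Crest.Agent.R131.StDefs

/-! Row 131, part (B): `MinDepth → NonDeg → StGain` (helper8, hedge). -/

set_option autoImplicit false

open MeasureTheory Set Metric
open scoped ENNReal ComplexConjugate

noncomputable section

namespace Crest.Agent.R131.G8

open Crest.Agent.R131

/-- the critical level -/
def uu (c : ℝ) (f : ℂ → ℂ) (z : ℂ) : ℝ :=
  ‖deriv f z‖ ^ 2 * (1 - ‖z‖ ^ 2) ^ (1 - c) / ((1 + c) ^ 2 * ‖z‖ ^ 2)

/-- the test weight -/
def Ph (b c : ℝ) (f : ℂ → ℂ) (z : ℂ) : ℝ :=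
  (1 + c) ^ 2 * (‖deriv f z‖⁻¹) ^ 3 * (1 - ‖z‖ ^ 2) ^ (b - 1) * ‖z‖ ^ 3

theorem d_pos {z : ℂ} (hz : z ∈ ball (0 : ℂ) 1) : 0 < 1 - ‖z‖ ^ 2 := by
  have h : ‖z‖ < 1 := by simpa using hz
  nlinarith [norm_nonneg z]

theorem G_eq {c : ℝ} (hc : 0 < 1 + c) (f : ℂ → ℂ) {z : ℂ} (hz : z ∈ ball (0 : ℂ) 1) :
    stG c f (stF c f z) z = uu c f z := by
  have hd := d_pos hz
  unfold stG stF uu
  rw [sub_add_cancel_left, norm_neg, norm_div, norm_mul, norm_mul, Complex.norm_real,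
    Complex.norm_real, Complex.norm_conj, Real.norm_of_nonneg hd.le, Real.norm_of_nonneg hc.le]
  have h1 : (1 - ‖z‖ ^ 2) ^ (1 - c) = (1 - ‖z‖ ^ 2) ^ 2 / (1 - ‖z‖ ^ 2) ^ (1 + c) := by
    rw [← Real.rpow_two (1 - ‖z‖ ^ 2), ← Real.rpow_sub hd]; congr 1; ring
  rw [h1, div_pow, mul_pow, mul_pow]
  ring

theorem Ph_nonneg (b c : ℝ) (f : ℂ → ℂ) {z : ℂ} (hz : z ∈ ball (0 : ℂ) 1) : 0 ≤ Ph b c f z := by
  have hd := d_pos hz
  unfold Ph; positivity

theorem uu_pos {c : ℝ} (hc : 0 < 1 + c) (f : ℂ → ℂ) {z : ℂ} (hz : z ∈ ball (0 : ℂ) 1)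
    (hz0 : z ≠ 0) (hf : deriv f z ≠ 0) : 0 < uu c f z := by
  have hd := d_pos hz
  have h1 : 0 < ‖z‖ := norm_pos_iff.2 hz0
  have h2 : 0 < ‖deriv f z‖ := norm_pos_iff.2 hf
  unfold uu; positivity

theorem J_Ph (b : ℝ) {c : ℝ} (hc : 0 < 1 + c) (f : ℂ → ℂ) {z : ℂ} (hf : deriv f z ≠ 0) :
    stJ c f z * Ph b c f z = (‖stX c f z‖ ^ 2 - 1) * stW b f z := by
  unfold stJ Ph stW
  by_cases hz0 : z = 0
  · subst hz0; simp
  have h1 : ‖z‖ ≠ 0 := norm_ne_zero_iff.2 hz0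
  have h2 : ‖deriv f z‖ ≠ 0 := norm_ne_zero_iff.2 hf
  field_simp

theorem Ph_uu {b c : ℝ} (hbc : c = (1 + 2 * b) / 3) (hc : 0 < 1 + c) (f : ℂ → ℂ) {z : ℂ}
    (hz : z ∈ ball (0 : ℂ) 1) (hz0 : z ≠ 0) (hf : deriv f z ≠ 0) :
    Ph b c f z ^ 2 * uu c f z ^ 3 = 1 / (1 + c) ^ 2 := by
  have hd := d_pos hz
  have h1 : ‖z‖ ≠ 0 := norm_ne_zero_iff.2 hz0
  have h2 : ‖deriv f z‖ ≠ 0 := norm_ne_zero_iff.2 hf
  have h3 : ((1 - ‖z‖ ^ 2) ^ (b - 1)) ^ 2 * ((1 - ‖z‖ ^ 2) ^ (1 - c)) ^ 3 = 1 := by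
    rw [← Real.rpow_mul_natCast hd.le, ← Real.rpow_mul_natCast hd.le, ← Real.rpow_add hd]
    have : (b - 1) * ((2 : ℕ) : ℝ) + (1 - c) * ((3 : ℕ) : ℝ) = 0 := by
      rw [hbc]; push_cast; ring
    rw [this, Real.rpow_zero]
  unfold Ph uu
  generalize (1 - ‖z‖ ^ 2) ^ (b - 1) = A at h3 ⊢
  generalize (1 - ‖z‖ ^ 2) ^ (1 - c) = B at h3 ⊢
  field_simp
  linear_combination h3

theorem Ph_le {b c : ℝ} (hbc : c = (1 + 2 * b) / 3) (hc : 0 < 1 + c) (f : ℂ → ℂ) {s m : ℂ}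
    (hs : s ∈ ball (0 : ℂ) 1) (hs0 : s ≠ 0) (hfs : deriv f s ≠ 0)
    (hm : m ∈ ball (0 : ℂ) 1) (hm0 : m ≠ 0) (hfm : deriv f m ≠ 0) {l : ℝ} (hl : 1 ≤ l)
    (h : l * uu c f m ≤ uu c f s) : l * Ph b c f s ≤ Ph b c f m := by
  have e1 := Ph_uu hbc hc f hs hs0 hfs
  have e2 := Ph_uu hbc hc f hm hm0 hfm
  have p1 := uu_pos hc f hm hm0 hfm
  have p2 := Ph_nonneg b c f hs
  have p3 := Ph_nonneg b c f hm
  have h1 : (l * uu c f m) ^ 3 ≤ uu c f s ^ 3 := pow_le_pow_left₀ (by positivity) h 3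
  have h2 : (Ph b c f s ^ 2 * l ^ 3) * uu c f m ^ 3 ≤ Ph b c f m ^ 2 * uu c f m ^ 3 := by
    rw [e2, ← e1, mul_assoc, ← mul_pow]
    exact mul_le_mul_of_nonneg_left h1 (sq_nonneg _)
  have h3 := le_of_mul_le_mul_right h2 (by positivity)
  have h4 : l ^ 2 ≤ l ^ 3 := pow_le_pow_right₀ hl (by norm_num)
  have h5 : (l * Ph b c f s) ^ 2 ≤ Ph b c f m ^ 2 := by
    have := mul_le_mul_of_nonneg_left h4 (sq_nonneg (Ph b c f s))
    nlinarith
  exact (pow_le_pow_iff_left₀ (by positivity) p3 two_ne_zero).1 h5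

theorem alg {X2 Ip Im Ig A Ab M Cc : ℝ≥0∞} {κ η η' : ℝ} (hκ0 : 0 ≤ κ) (hκ1 : κ ≤ 1) (hη : 0 < η)
    (hη' : 0 ≤ η') (hη2 : η' ≤ κ * η / 4) (hM : M ≠ ⊤) (hC : Cc ≠ ⊤)
    (a : Ip ≤ A) (b : A + ENNReal.ofReal κ * Ig ≤ Im) (c : ENNReal.ofReal η * M ≤ Ab + Cc)
    (c' : Ab ≤ Ip + Im) (d : Im ≤ Ig + ENNReal.ofReal (η / 4) * M) (e : X2 + Im = M + Ip)
    (f : Im ≤ M) (g : Ig ≤ M) : X2 + ENNReal.ofReal η' * M ≤ M + Cc := by
  have hIm : Im ≠ ⊤ := ne_top_of_le_ne_top hM f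
  have hIg : Ig ≠ ⊤ := ne_top_of_le_ne_top hM g
  have hA : A ≠ ⊤ := ne_top_of_le_ne_top hIm (le_self_add.trans b)
  have hIp : Ip ≠ ⊤ := ne_top_of_le_ne_top hA a
  have hAb : Ab ≠ ⊤ := ne_top_of_le_ne_top (ENNReal.add_ne_top.2 ⟨hIp, hIm⟩) c'
  have hX : X2 ≠ ⊤ := ne_top_of_le_ne_top (ENNReal.add_ne_top.2 ⟨hM, hIp⟩) (le_self_add.trans e.le)
  lift M to NNReal using hM
  lift Cc to NNReal using hC
  lift Im to NNReal using hIm
  lift Ig to NNReal using hIg
  lift A to NNReal using hA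
  lift Ip to NNReal using hIp
  lift Ab to NNReal using hAb
  lift X2 to NNReal using hX
  have h4 : 0 ≤ η / 4 := by positivity
  rw [ENNReal.ofReal_eq_coe_nnreal hκ0] at b
  rw [ENNReal.ofReal_eq_coe_nnreal hη.le] at c
  rw [ENNReal.ofReal_eq_coe_nnreal h4] at d
  rw [ENNReal.ofReal_eq_coe_nnreal hη']
  norm_cast at a b c c' d e f g ⊢
  rw [← NNReal.coe_le_coe] at a b c c' d f g ⊢
  rw [← NNReal.coe_inj] at e
  simp only [NNReal.coe_add, NNReal.coe_mul, NNReal.coe_mk] at a b c c' d e f g ⊢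
  have q1 := M.2
  have q2 := Cc.2
  have q3 := Ig.2
  have q4 : (0 : ℝ) ≤ κ * Ig := mul_nonneg hκ0 Ig.2
  have q5 : η * M / 4 - Cc / 2 ≤ (Ig : ℝ) := by linarith
  have q6 := mul_le_mul_of_nonneg_left q5 hκ0
  have q7 : η' * M ≤ κ * η / 4 * M := mul_le_mul_of_nonneg_right hη2 M.2
  have q8 : κ * Cc ≤ 1 * Cc := mul_le_mul_of_nonneg_right hκ1 Cc.2
  have q9 : (0 : ℝ) ≤ Cc := Cc.2
  nlinarith

theorem stGain (h1 : MinDepth) (h2 : NonDeg) : StGain := by
  intro K
  obtain ⟨η, hη, C, hC⟩ := h2 K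
  obtain ⟨δ₁, hδ₁, hD⟩ := h1 K (η / 8) (by positivity)
  have hω1 : Real.exp (-δ₁) < 1 := by
    rw [← Real.exp_zero]; exact Real.exp_lt_exp.2 (by linarith)
  have hω0 : 0 < Real.exp (-δ₁) := Real.exp_pos _
  have hκ : 0 < 1 - Real.exp (-δ₁) := by linarith
  refine ⟨min ((1 - Real.exp (-δ₁)) * η / 4) (1 / 2), by positivity, min_le_right _ _, C, ?_⟩
  intro b f hb1 hb2 hOK hf1 hS hM
  set c := (1 + 2 * b) / 3 with hbc
  have hc1 : 1 / 3 ≤ c := by rw [hbc]; linarith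
  have hc2 : c ≤ 1 / 2 := by rw [hbc]; linarith
  have hc : 0 < 1 + c := by linarith
  have mX := measurable_stX c f
  have mW := measurable_stW b f
  have mJ := measurable_stJ c f
  have mPh : Measurable (Ph b c f) := by
    unfold Ph
    have h1 : Measurable (deriv f) := measurable_deriv f
    fun_prop
  have mG : MeasurableSet {z | ‖stX c f z‖ ≤ 1 - η / 8} :=
    measurableSet_le mX.norm measurable_const
  classical
  set ω : ℂ → ℝ := fun z => if ‖stX c f z‖ ≤ 1 - η / 8 then Real.exp (-δ₁) else 1 with hω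
  set g : ℂ → ℝ := fun z => if ‖stX c f z‖ ≤ 1 - η / 8 then 1 else 0 with hg
  have mω : Measurable ω := Measurable.ite mG measurable_const measurable_const
  have mg : Measurable g := Measurable.ite mG measurable_const measurable_const
  have hW := fun z hz => stW_nonneg b f (z := z) hz
  have hJP := fun z hz => J_Ph b hc f (hOK.ne z hz)
  have hstar := hS (fun z => ENNReal.ofReal (Ph b c f z))
    (fun z => ENNReal.ofReal (ω z * Ph b c f z)) mPh.ennreal_ofReal (mω.mul mPh).ennreal_ofReal (by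
      intro s hs m hm hs0 hm0 hF hJs hJm hG hCC
      apply ENNReal.ofReal_le_ofReal
      have hGs := G_eq hc f hs
      have hGm := G_eq hc f hm
      by_cases hgood : ‖stX c f m‖ ≤ 1 - η / 8
      · obtain ⟨ρ, hρ, hin, hsph⟩ := hD c f hc1 hc2 hOK m hm hm0 hgood
        obtain ⟨CC, hCC, hsC, hmC, hsub⟩ := hCC
        have hXs : 1 < ‖stX c f s‖ := by
          by_contra hcon
          have h0 : ‖stX c f s‖ ^ 2 - 1 ≤ 0 := by nlinarith [norm_nonneg (stX c f s)]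
          have : stJ c f s ≤ 0 := by
            unfold stJ
            exact div_nonpos_of_nonpos_of_nonneg (mul_nonpos_of_nonneg_of_nonpos (sq_nonneg _) h0)
              (by positivity)
          linarith
        have hsρ : ρ < dist s m := by
          by_contra hcon
          have := hin s (mem_closedBall.2 (not_lt.1 hcon))
          linarith
        have hcont : ContinuousOn (fun z => dist z m) CC := by fun_prop
        obtain ⟨z, hzC, hz⟩ := hCC.intermediate_value hmC hsC hcont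
          (show ρ ∈ Icc (dist m m) (dist s m) from ⟨by simpa using hρ.le, hsρ.le⟩)
        have e1 := hsph z (mem_sphere.2 hz)
        have e2 := (hsub hzC).2
        rw [hGs, hF] at e2
        rw [hGm] at e1
        have := Ph_le hbc hc f hs hs0 (hOK.ne s hs) hm hm0 (hOK.ne m hm)
          (Real.one_le_exp hδ₁.le) (e1.trans e2)
        simp only [hω, if_pos hgood]
        have h3 := mul_le_mul_of_nonneg_left this hω0.le
        rw [← mul_assoc, ← Real.exp_add, neg_add_cancel, Real.exp_zero, one_mul] at h3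
        exact h3
      · simp only [hω, if_neg hgood]
        rw [hGs, hF, hGm] at hG
        have := Ph_le hbc hc f hs hs0 (hOK.ne s hs) hm hm0 (hOK.ne m hm) le_rfl
          (by simpa using hG)
        linarith)
  have mP : Measurable fun z => (‖stX c f z‖ ^ 2 - 1) * stW b f z := by fun_prop
  have mN : Measurable fun z => (1 - ‖stX c f z‖ ^ 2) * stW b f z := by fun_prop
  have mgN : Measurable fun z => g z * ((1 - ‖stX c f z‖ ^ 2) * stW b f z) := mg.mul mN
  have mωN : Measurable fun z => ω z * ((1 - ‖stX c f z‖ ^ 2) * stW b f z) := mω.mul mN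
  refine alg (κ := 1 - Real.exp (-δ₁)) (η := η)
    (Ip := ∫⁻ z in ball (0 : ℂ) 1, ENNReal.ofReal ((‖stX c f z‖ ^ 2 - 1) * stW b f z))
    (Im := ∫⁻ z in ball (0 : ℂ) 1, ENNReal.ofReal ((1 - ‖stX c f z‖ ^ 2) * stW b f z))
    (Ig := ∫⁻ z in ball (0 : ℂ) 1, ENNReal.ofReal (g z * ((1 - ‖stX c f z‖ ^ 2) * stW b f z)))
    (A := ∫⁻ z in ball (0 : ℂ) 1, ENNReal.ofReal (ω z * ((1 - ‖stX c f z‖ ^ 2) * stW b f z)))
    hκ.le (by linarith) hη (by positivity) (min_le_left _ _) hM ENNReal.ofReal_ne_top ?_ ?_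
    (hC b c f hb1 hb2 hc1 hc2 hOK hf1) ?_ ?_ ?_ ?_ ?_
  · refine le_trans ?_ (hstar.trans ?_)
    · have hS1 : MeasurableSet {z | z ∈ ball (0 : ℂ) 1 ∧ 0 < stJ c f z} :=
        measurableSet_ball.inter (measurableSet_lt measurable_const mJ)
      rw [← lintegral_indicator measurableSet_ball, ← lintegral_indicator hS1]
      refine lintegral_mono fun z => ?_
      by_cases hz : z ∈ ball (0 : ℂ) 1
      · by_cases hJ : 0 < stJ c f z
        · rw [indicator_of_mem hz, indicator_of_mem (show z ∈ {z | z ∈ ball (0 : ℂ) 1 ∧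
            0 < stJ c f z} from ⟨hz, hJ⟩), ← hJP z hz, ENNReal.ofReal_mul hJ.le]
        · rw [indicator_of_mem hz, ← hJP z hz, ENNReal.ofReal_of_nonpos
            (mul_nonpos_of_nonpos_of_nonneg (not_lt.1 hJ) (Ph_nonneg b c f hz))]
          exact zero_le
      · rw [indicator_of_notMem hz]; exact zero_le
    · refine le_trans (setLIntegral_mono' (measurableSet_ball.inter
        (measurableSet_lt mJ measurable_const)) fun z hz => ?_)
        (lintegral_mono_set (fun z hz => hz.1))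
      rw [← ENNReal.ofReal_mul (by linarith [hz.2])]
      apply le_of_eq; congr 1
      have := hJP z hz.1
      linear_combination (-ω z) * this
  · rw [← lintegral_const_mul _ mgN.ennreal_ofReal,
      ← lintegral_add_left mωN.ennreal_ofReal]
    refine setLIntegral_mono' measurableSet_ball fun z hz => ?_
    by_cases hgood : ‖stX c f z‖ ≤ 1 - η / 8
    · have h0 : 0 ≤ (1 - ‖stX c f z‖ ^ 2) * stW b f z :=
        mul_nonneg (by nlinarith [norm_nonneg (stX c f z)]) (hW z hz)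
      simp only [hω, hg, if_pos hgood]
      rw [← ENNReal.ofReal_mul hκ.le, ← ENNReal.ofReal_add (by positivity) (by positivity)]
      apply le_of_eq; congr 1; ring
    · simp [hω, hg, if_neg hgood]
  · rw [← lintegral_add_left mP.ennreal_ofReal]
    refine setLIntegral_mono' measurableSet_ball fun z hz => ?_
    rcases abs_cases (‖stX c f z‖ ^ 2 - 1) with h | h
    · rw [h.1]; exact le_self_add
    · rw [h.1, neg_sub]; exact le_add_self
  · unfold stM
    rw [← lintegral_const_mul _ mW.ennreal_ofReal,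
      ← lintegral_add_left mgN.ennreal_ofReal]
    refine setLIntegral_mono' measurableSet_ball fun z hz => ?_
    by_cases hgood : ‖stX c f z‖ ≤ 1 - η / 8
    · simp only [hg, if_pos hgood, one_mul]; exact le_self_add
    · refine le_trans ?_ le_add_self
      rw [← ENNReal.ofReal_mul (by positivity)]
      apply ENNReal.ofReal_le_ofReal
      refine mul_le_mul_of_nonneg_right ?_ (hW z hz)
      have := not_le.1 hgood
      nlinarith [norm_nonneg (stX c f z), sq_nonneg (‖stX c f z‖ - 1)]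
  · unfold stM
    rw [← lintegral_add_right _ mN.ennreal_ofReal, ← lintegral_add_right _ mP.ennreal_ofReal]
    refine setLIntegral_congr_fun measurableSet_ball fun z hz => ?_
    have h0 := hW z hz
    rcases le_total (‖stX c f z‖ ^ 2) 1 with h | h
    · have p1 : 0 ≤ (1 - ‖stX c f z‖ ^ 2) * stW b f z := mul_nonneg (by linarith) h0
      have p2 : (‖stX c f z‖ ^ 2 - 1) * stW b f z ≤ 0 := by linarith
      rw [ENNReal.ofReal_of_nonpos p2, add_zero, ← ENNReal.ofReal_add (by positivity) p1]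
      congr 1; ring
    · have p1 : 0 ≤ (‖stX c f z‖ ^ 2 - 1) * stW b f z := mul_nonneg (by linarith) h0
      have p2 : (1 - ‖stX c f z‖ ^ 2) * stW b f z ≤ 0 := by linarith
      rw [ENNReal.ofReal_of_nonpos p2, add_zero, ← ENNReal.ofReal_add h0 p1]
      congr 1; ring
  · unfold stM
    refine setLIntegral_mono' measurableSet_ball fun z hz => ENNReal.ofReal_le_ofReal ?_
    have := mul_nonneg (sq_nonneg ‖stX c f z‖) (hW z hz)
    linarith
  · unfold stM
    refine setLIntegral_mono' measurableSet_ball fun z hz => ENNReal.ofReal_le_ofReal ?_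
    have := mul_nonneg (sq_nonneg ‖stX c f z‖) (hW z hz)
    have h0 := hW z hz
    by_cases hgood : ‖stX c f z‖ ≤ 1 - η / 8
    · simp only [hg, if_pos hgood]; linarith
    · simp only [hg, if_neg hgood]; linarith

end Crest.Agent.R131.G8
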