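import Crest.Agent.R131.StDefs
import Crest.Agent.R131.Univ
import Crest.Agent.R131.StrictMax
import Crest.Agent.R131.StrLip
import Crest.Agent.R131.StrDouble

/-! Row 131, part (B2): `NonDeg` (hedge, helper17). -/

set_option autoImplicit false

open MeasureTheory Set Metric
open scoped ENNReal

noncomputable section

namespace Crest.Agent.R131.N17

theorem inv_fin : ∫⁻ z in ball (0 : ℂ) 1, ENNReal.ofReal ‖z‖⁻¹ ≠ ⊤ := by
  have h : IntegrableOn (fun z : ℂ => ‖z‖⁻¹) (ball 0 1) volume := by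
    refine integrableOn_ball_of_norm_le_rpow (C := 1) (α := 1) (by simp) (by simp) ?_ ?_
    · refine Filter.Eventually.of_forall fun z => ?_
      simp [Real.rpow_neg_one]
    · exact (measurable_norm.inv).aestronglyMeasurable
  exact (h.lintegral_lt_top).ne

theorem diff_d {K : ℝ} {f : ℂ → ℂ} (h : StOK K f) : DifferentiableOn ℂ (deriv f) (ball 0 1) :=
  h.diff.deriv isOpen_ball

theorem diff_phi {K : ℝ} {f : ℂ → ℂ} (h : StOK K f) :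
    DifferentiableOn ℂ (fun z => deriv (deriv f) z / deriv f z) (ball 0 1) :=
  ((diff_d h).deriv isOpen_ball).div (diff_d h) h.ne

theorem phi_bd {K : ℝ} {f : ℂ → ℂ} (h : StOK K f) :
    ∀ z ∈ ball (0 : ℂ) 1, (1 - ‖z‖ ^ 2) * ‖deriv (deriv f) z / deriv f z‖ ≤ K := by
  intro z hz
  have h1 := h.pre z hz
  have h2 : 0 < ‖deriv f z‖ := norm_pos_iff.2 (h.ne z hz)
  rw [norm_div, ← mul_div_assoc, div_le_iff₀ h2]
  exact h1

theorem harn {K b : ℝ} {f : ℂ → ℂ} (h : StOK K f) (hb0 : 0 ≤ b) (hb1 : b ≤ 1) {z0 z : ℂ}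
    (h0 : 9 / 10 ≤ ‖z0‖ ^ 2) (h1 : ‖z0‖ < 1) (hz : ‖z - z0‖ < 1 / 8 * (1 - ‖z0‖ ^ 2)) :
    stW b f z0 ≤ 4 * Real.exp (2 * K) * stW b f z := by
  obtain ⟨hz1, hd1, hd2⟩ := d_compare le_rfl h1 hz
  have hn0 := norm_nonneg z0
  have hnz := norm_nonneg z
  have hhalf : 1 / 2 ≤ ‖z0‖ := by nlinarith
  have hzb : z ∈ ball (0 : ℂ) 1 := by simpa using hz1
  have hz0b : z0 ∈ ball (0 : ℂ) 1 := by simpa using h1
  have hA : ‖deriv f z‖ ≤ Real.exp (2 * K) * ‖deriv f z0‖ :=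
    univ_doubling (diff_d h) h.ne h.pre (z := z0) h1 (by simp; linarith) (by nlinarith)
  have hp : 0 < ‖deriv f z‖ := norm_pos_iff.2 (h.ne z hzb)
  have hp0 : 0 < ‖deriv f z0‖ := norm_pos_iff.2 (h.ne z0 hz0b)
  have e1 : ‖deriv f z0‖⁻¹ ≤ Real.exp (2 * K) * ‖deriv f z‖⁻¹ := by
    rw [← div_eq_mul_inv, le_div_iff₀ hp, inv_mul_le_iff₀ hp0]
    linarith
  have hdz : 0 < 1 - ‖z‖ ^ 2 := by nlinarith
  have hd0 : 0 < 1 - ‖z0‖ ^ 2 := by nlinarith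
  have e2 : (1 - ‖z0‖ ^ 2) ^ (b - 1) ≤ 2 * (1 - ‖z‖ ^ 2) ^ (b - 1) := by
    have a1 : (1 - ‖z0‖ ^ 2) ^ (b - 1) ≤ ((1 - ‖z‖ ^ 2) / 2) ^ (b - 1) :=
      Real.rpow_le_rpow_of_nonpos (by positivity) (by linarith) (by linarith)
    have a2 : ((1 - ‖z‖ ^ 2) / 2) ^ (b - 1) = (1 - ‖z‖ ^ 2) ^ (b - 1) * (2 : ℝ) ^ (1 - b) := by
      rw [Real.div_rpow hdz.le (by norm_num), div_eq_mul_inv, ← Real.rpow_neg (by norm_num)]
      congr 2; ring
    have a3 : (2 : ℝ) ^ (1 - b) ≤ 2 := by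
      calc (2 : ℝ) ^ (1 - b) ≤ (2 : ℝ) ^ (1 : ℝ) :=
            Real.rpow_le_rpow_of_exponent_le (by norm_num) (by linarith)
        _ = 2 := by simp
    have a4 : 0 ≤ (1 - ‖z‖ ^ 2) ^ (b - 1) := by positivity
    nlinarith
  have hzpos : 0 < ‖z‖ := by
    have := norm_sub_norm_le z0 z
    rw [norm_sub_rev] at this
    nlinarith
  have e3 : ‖z0‖⁻¹ ≤ 2 * ‖z‖⁻¹ := by
    have b1 : ‖z0‖⁻¹ ≤ 2 := by
      rw [inv_le_comm₀ (by linarith) (by norm_num)]; linarith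
    have b2 : 1 ≤ ‖z‖⁻¹ := by
      rw [one_le_inv₀ hzpos]; exact hz1.le
    linarith
  unfold stW
  calc ‖deriv f z0‖⁻¹ * (1 - ‖z0‖ ^ 2) ^ (b - 1) * ‖z0‖⁻¹
      ≤ (Real.exp (2 * K) * ‖deriv f z‖⁻¹) * (2 * (1 - ‖z‖ ^ 2) ^ (b - 1)) * (2 * ‖z‖⁻¹) := by
        gcongr
    _ = _ := by ring

theorem inner {K b : ℝ} {f : ℂ → ℂ} (h : StOK K f) (h1 : deriv f 0 = 1) (hb0 : 0 ≤ b)
    (hb1 : b ≤ 1) {z : ℂ} (hz : ‖z‖ ^ 2 < 9 / 10) :
    stW b f z ≤ (((1 / 20 : ℝ) ^ K)⁻¹ * 10) * ‖z‖⁻¹ := by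
  have hK : 0 ≤ K := univ_K_nonneg h.ne h.pre
  have hnz := norm_nonneg z
  have hz1 : ‖z‖ ≤ 19 / 20 := by nlinarith
  have hD := (univ_distortion (diff_d h) h.ne h.pre (z := z) (by linarith)).1
  rw [h1, norm_one, mul_one] at hD
  have a1 : (1 / 20 : ℝ) ^ K ≤ (1 - ‖z‖) ^ K :=
    Real.rpow_le_rpow (by norm_num) (by linarith) hK
  have a0 : 0 < (1 / 20 : ℝ) ^ K := by positivity
  have e1 : ‖deriv f z‖⁻¹ ≤ ((1 / 20 : ℝ) ^ K)⁻¹ := inv_anti₀ a0 (a1.trans hD)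
  have e2 : (1 - ‖z‖ ^ 2) ^ (b - 1) ≤ 10 := by
    have c1 : (1 - ‖z‖ ^ 2) ^ (b - 1) ≤ (1 / 10 : ℝ) ^ (b - 1) :=
      Real.rpow_le_rpow_of_nonpos (by norm_num) (by linarith) (by linarith)
    have c2 : (1 / 10 : ℝ) ^ (b - 1) ≤ (1 / 10 : ℝ) ^ (-1 : ℝ) :=
      Real.rpow_le_rpow_of_exponent_ge (by norm_num) (by norm_num) (by linarith)
    have c3 : (1 / 10 : ℝ) ^ (-1 : ℝ) = 10 := by rw [Real.rpow_neg_one]; norm_num
    linarith
  have hd : 0 ≤ 1 - ‖z‖ ^ 2 := by linarith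
  unfold stW
  gcongr

theorem sub_ball {K c : ℝ} {f : ℂ → ℂ} (h : StOK K f) (hc0 : 0 ≤ c) (hc1 : c ≤ 1 / 2) {η : ℝ}
    (hη : η ≤ 1 / 16) (hη2 : Lip.L2 K * η ≤ 1 / 12800) {z0 : ℂ}
    (h0 : 9 / 10 ≤ ‖z0‖ ^ 2) (h1 : ‖z0‖ < 1) :
    ∃ z1, ball z1 (η * (1 - ‖z0‖ ^ 2)) ⊆
      {z | z ∈ ball (0 : ℂ) 1 ∧ 1 / 12800 ≤ |‖stX c f z‖ ^ 2 - 1|} ∩
        ball z0 (1 / 8 * (1 - ‖z0‖ ^ 2)) := by
  have hd0 : 0 < 1 - ‖z0‖ ^ 2 := by nlinarith [norm_nonneg z0]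
  have hh : DifferentiableOn ℂ (fun z => z * (deriv (deriv f) z / deriv f z)) (ball 0 1) :=
    differentiableOn_id.mul (diff_phi h)
  have hQ : ∀ z, SM.Q c (fun z => z * (deriv (deriv f) z / deriv f z)) z
      = ‖stX c f z‖ ^ 2 - 1 := by
    intro z; unfold SM.Q stX; rw [mul_assoc]
  have hP : ∀ z, Lip.PP (fun z => deriv (deriv f) z / deriv f z) c z = stX c f z := fun z => rfl
  have key : ∃ z1, ‖z1 - z0‖ ≤ 1 / 16 * (1 - ‖z0‖ ^ 2) ∧ 1 / 6400 ≤ |‖stX c f z1‖ ^ 2 - 1| := by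
    rcases SM.strict_max (c := c) (ρ := 1 / 16) hc0 (by linarith) (by norm_num) (by norm_num)
      hh h0 h1 with h2 | ⟨z, hz, h2⟩
    · refine ⟨z0, by simp; linarith, ?_⟩
      rw [hQ] at h2
      exact le_trans (by linarith) (le_abs_self _)
    · refine ⟨z, by simpa [dist_eq_norm] using hz, ?_⟩
      rw [hQ] at h2
      exact le_trans (by linarith) (neg_le_abs _)
  obtain ⟨z1, hz1, hq⟩ := key
  refine ⟨z1, fun z hz => ?_⟩
  rw [mem_ball, dist_eq_norm] at hz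
  obtain ⟨s1, s2⟩ := Lip.subdisc (ρ := 1 / 16) (δ := 1 / 12800) hc0 (by linarith) (diff_phi h)
    (phi_bd h) le_rfl hη hη2 h1 hz1 hz
  rw [hP, hP] at s2
  have s3 : ‖z - z0‖ < 1 / 8 * (1 - ‖z0‖ ^ 2) := by linarith
  refine ⟨⟨by simpa using (d_compare le_rfl h1 s3).1, ?_⟩, by rw [mem_ball, dist_eq_norm]; exact s3⟩
  have := abs_sub_abs_le_abs_sub (‖stX c f z1‖ ^ 2 - 1) (‖stX c f z‖ ^ 2 - 1)
  rw [abs_sub_comm] at s2
  have e : ‖stX c f z1‖ ^ 2 - 1 - (‖stX c f z‖ ^ 2 - 1) = ‖stX c f z1‖ ^ 2 - ‖stX c f z‖ ^ 2 := by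
    ring
  rw [e] at this
  linarith

theorem nonDeg17 : NonDeg := by
  intro K
  by_cases hK : 0 ≤ K
  swap
  · exact ⟨1, one_pos, 0, fun b c f _ _ _ _ h _ => absurd (univ_K_nonneg h.ne h.pre) hK⟩
  have hL := Lip.L2_pos hK
  set η0 : ℝ := min (1 / 16) (1 / 12800 / Lip.L2 K) with hη0
  have hη0p : 0 < η0 := lt_min (by norm_num) (by positivity)
  have hη1 : η0 ≤ 1 / 16 := min_le_left _ _
  have hη2 : Lip.L2 K * η0 ≤ 1 / 12800 := by
    have : η0 ≤ 1 / 12800 / Lip.L2 K := min_le_right _ _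
    rwa [le_div_iff₀ hL, mul_comm] at this
  set H : ℝ := 4 * Real.exp (2 * K) with hH
  have hHp : 0 < H := by positivity
  set C1 : ℝ := ((1 / 20 : ℝ) ^ K)⁻¹ * 10 with hC1
  have hC1p : 0 ≤ C1 := by positivity
  set I0 : ℝ≥0∞ := ∫⁻ z in ball (0 : ℂ) 1, ENNReal.ofReal ‖z‖⁻¹ with hI0
  set η : ℝ := 1 / 12800 / (H * (1 / η0 ^ 2)) with hη
  have hηp : 0 < η := by positivity
  refine ⟨η, hηp, η * (C1 * I0.toReal), fun b c f hb0 hb1 hc0 hc1 h h1 => ?_⟩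
  set A : Set ℂ := {z | 9 / 10 ≤ ‖z‖ ^ 2 ∧ ‖z‖ < 1} with hA
  set N : Set ℂ := {z | z ∈ ball (0 : ℂ) 1 ∧ 1 / 12800 ≤ |‖stX c f z‖ ^ 2 - 1|} with hN
  have hAm : MeasurableSet A :=
    (measurableSet_le (f := fun _ : ℂ => (9 / 10 : ℝ)) (g := fun z : ℂ => ‖z‖ ^ 2)
      measurable_const (by fun_prop)).inter
      (measurableSet_lt (f := fun z : ℂ => ‖z‖) (g := fun _ => (1 : ℝ)) (by fun_prop)
        measurable_const)
  have hX := measurable_stX c f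
  have hNm : MeasurableSet N :=
    measurableSet_ball.inter (measurableSet_le (f := fun _ : ℂ => (1 / 12800 : ℝ))
      (g := fun z : ℂ => |‖stX c f z‖ ^ 2 - 1|) measurable_const (by fun_prop))
  have hW : Measurable fun z => ENNReal.ofReal (stW b f z) := (measurable_stW b f).ennreal_ofReal
  have hdb := doubling _ hW A N hAm hNm (fun z hz => by simpa using hz.2) (1 / 8) η0 hη0p le_rfl
    (ENNReal.ofReal H)
    (fun z0 hz0 z hz => by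
      rw [← ENNReal.ofReal_mul hHp.le]
      exact ENNReal.ofReal_le_ofReal (harn h (by linarith) (by linarith) hz0.1 hz0.2 hz))
    (fun z0 hz0 => sub_ball h (by linarith) hc1 hη1 hη2 hz0.1 hz0.2)
  have hin : ∫⁻ z in ball (0 : ℂ) 1 \ A, ENNReal.ofReal (stW b f z)
      ≤ ENNReal.ofReal (C1 * I0.toReal) := by
    calc ∫⁻ z in ball (0 : ℂ) 1 \ A, ENNReal.ofReal (stW b f z)
        ≤ ∫⁻ z in ball (0 : ℂ) 1 \ A, ENNReal.ofReal C1 * ENNReal.ofReal ‖z‖⁻¹ := by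
          refine setLIntegral_mono' (measurableSet_ball.diff hAm) fun z hz => ?_
          rw [← ENNReal.ofReal_mul hC1p]
          refine ENNReal.ofReal_le_ofReal (inner h h1 (by linarith) (by linarith) ?_)
          by_contra hc
          exact hz.2 ⟨not_lt.1 hc, by simpa using hz.1⟩
      _ ≤ ∫⁻ z in ball (0 : ℂ) 1, ENNReal.ofReal C1 * ENNReal.ofReal ‖z‖⁻¹ :=
          lintegral_mono_set sdiff_subset
      _ = ENNReal.ofReal C1 * I0 := lintegral_const_mul' _ _ ENNReal.ofReal_ne_top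
      _ = _ := by rw [ENNReal.ofReal_mul hC1p, ENNReal.ofReal_toReal inv_fin]
  have hNle : ENNReal.ofReal (1 / 12800) * ∫⁻ z in N, ENNReal.ofReal (stW b f z) ≤
      ∫⁻ z in ball (0 : ℂ) 1, ENNReal.ofReal (|‖stX c f z‖ ^ 2 - 1| * stW b f z) := by
    rw [← lintegral_const_mul' _ _ ENNReal.ofReal_ne_top]
    refine le_trans (setLIntegral_mono' hNm fun z hz => ?_) (lintegral_mono_set fun z hz => hz.1)
    rw [← ENNReal.ofReal_mul (by norm_num)]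
    exact ENNReal.ofReal_le_ofReal (mul_le_mul_of_nonneg_right hz.2 (stW_nonneg b f hz.1))
  have hsplit : stM b f ≤ (∫⁻ z in A, ENNReal.ofReal (stW b f z)) +
      ∫⁻ z in ball (0 : ℂ) 1 \ A, ENNReal.ofReal (stW b f z) := by
    unfold stM
    refine le_trans (lintegral_mono_set ?_) (lintegral_union_le _ _ _)
    intro z hz
    by_cases hzA : z ∈ A
    · exact Or.inl hzA
    · exact Or.inr ⟨hz, hzA⟩
  have hc : ENNReal.ofReal η * (ENNReal.ofReal H * ENNReal.ofReal (1 / η0 ^ 2))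
      = ENNReal.ofReal (1 / 12800) := by
    rw [← ENNReal.ofReal_mul hHp.le, ← ENNReal.ofReal_mul hηp.le]
    congr 1
    rw [hη]; field_simp
  calc ENNReal.ofReal η * stM b f
      ≤ ENNReal.ofReal η * ((ENNReal.ofReal H * ENNReal.ofReal (1 / η0 ^ 2) *
          ∫⁻ z in N, ENNReal.ofReal (stW b f z)) + ENNReal.ofReal (C1 * I0.toReal)) := by
        gcongr
        exact hsplit.trans (add_le_add hdb hin)
    _ = ENNReal.ofReal (1 / 12800) * (∫⁻ z in N, ENNReal.ofReal (stW b f z)) +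
          ENNReal.ofReal (η * (C1 * I0.toReal)) := by
        rw [mul_add, ← mul_assoc, hc, ENNReal.ofReal_mul hηp.le]
    _ ≤ _ := by gcongr

end Crest.Agent.R131.N17
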