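import Crest.Agent.R131.StDefs
import Crest.Agent.R131.StrictMax
import Crest.Agent.R131.StrLip
import Crest.Agent.R131.StrDouble
import Crest.Agent.R131.Univ

/-! Row 131, (B2): `NonDeg` -/

set_option autoImplicit false

open MeasureTheory Set Metric
open scoped ENNReal

noncomputable section

namespace Crest.Agent.R131.N68

variable {K b c : ℝ} {f : ℂ → ℂ}

theorem diff1 (h : StOK K f) : DifferentiableOn ℂ (deriv f) (ball 0 1) :=
  h.diff.deriv isOpen_ball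

theorem diffq (h : StOK K f) :
    DifferentiableOn ℂ (fun z => deriv (deriv f) z / deriv f z) (ball 0 1) :=
  ((diff1 h).deriv isOpen_ball).div (diff1 h) h.ne

theorem bdq (h : StOK K f) : ∀ z ∈ ball (0 : ℂ) 1,
    (1 - ‖z‖ ^ 2) * ‖deriv (deriv f) z / deriv f z‖ ≤ K := fun z hz => by
  rw [norm_div, ← mul_div_assoc, div_le_iff₀ (norm_pos_iff.2 (h.ne z hz))]
  exact h.pre z hz

theorem point (h : StOK K f) (c0 : 0 ≤ c) (c1 : c ≤ 1 / 2) {z0 : ℂ} (h0 : 9 / 10 ≤ ‖z0‖ ^ 2)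
    (h1 : ‖z0‖ < 1) : ∃ z1, ‖z1 - z0‖ ≤ 1 / 16 * (1 - ‖z0‖ ^ 2) ∧
      1 / 6400 ≤ |‖stX c f z1‖ ^ 2 - 1| := by
  have e : ∀ z, SM.Q c (fun z => z * (deriv (deriv f) z / deriv f z)) z =
      ‖stX c f z‖ ^ 2 - 1 := fun z => by rw [SM.Q, stX, mul_assoc]
  have hd : 0 ≤ 1 - ‖z0‖ ^ 2 := by nlinarith [norm_nonneg z0]
  rcases SM.strict_max (c := c) (ρ := 1 / 16) c0 (by linarith) (by norm_num) (by norm_num)
    (differentiableOn_id.mul (diffq h)) h0 h1 with h2 | ⟨z, hz, h2⟩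
  · refine ⟨z0, by simpa using hd, ?_⟩
    rw [← e]
    exact le_trans (by norm_num) (h2.trans (le_abs_self _))
  · refine ⟨z, by simpa [dist_eq_norm] using hz, ?_⟩
    rw [← e]
    exact le_trans (by norm_num) ((le_neg.1 h2).trans (neg_le_abs _))

theorem harn (h : StOK K f) (b0 : 0 ≤ b) (b1 : b ≤ 1) {z0 z : ℂ} (h0 : 9 / 10 ≤ ‖z0‖ ^ 2)
    (h1 : ‖z0‖ < 1) (hz : ‖z - z0‖ < 1 / 8 * (1 - ‖z0‖ ^ 2)) :
    stW b f z0 ≤ 4 * Real.exp (2 * K) * stW b f z := by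
  obtain ⟨z1, -, d2⟩ := d_compare le_rfl h1 hz
  have n0 := norm_nonneg z0
  have n1 := norm_nonneg z
  have hz0 : 1 / 2 ≤ ‖z0‖ := by nlinarith
  have hzb : z ∈ ball (0 : ℂ) 1 := by simpa using z1
  have hz0b : z0 ∈ ball (0 : ℂ) 1 := by simpa using h1
  have hzp : 0 < ‖z‖ := by
    have := norm_sub_norm_le z0 z
    rw [norm_sub_rev] at this
    nlinarith
  have hd : 0 < 1 - ‖z‖ ^ 2 := by nlinarith
  have a1 : ‖deriv f z0‖⁻¹ ≤ Real.exp (2 * K) * ‖deriv f z‖⁻¹ := by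
    have := univ_doubling (diff1 h) h.ne h.pre (z := z0) (u := z0) (w := z) h1
      (by simp; linarith) (by nlinarith)
    have p0 := norm_pos_iff.2 (h.ne z0 hz0b)
    have p1 := norm_pos_iff.2 (h.ne z hzb)
    rw [← div_eq_mul_inv, inv_eq_one_div, div_le_div_iff₀ p0 p1, one_mul]
    exact this
  have a2 : (1 - ‖z0‖ ^ 2) ^ (b - 1) ≤ 2 * (1 - ‖z‖ ^ 2) ^ (b - 1) := by
    calc (1 - ‖z0‖ ^ 2) ^ (b - 1) ≤ (2⁻¹ * (1 - ‖z‖ ^ 2)) ^ (b - 1) :=
          Real.rpow_le_rpow_of_nonpos (by positivity) (by linarith) (by linarith)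
      _ = 2 ^ (1 - b) * (1 - ‖z‖ ^ 2) ^ (b - 1) := by
          rw [Real.mul_rpow (by norm_num) hd.le, Real.inv_rpow (by norm_num),
            ← Real.rpow_neg (by norm_num), neg_sub]
      _ ≤ _ := by
          refine mul_le_mul_of_nonneg_right ?_ (Real.rpow_nonneg hd.le _)
          calc (2 : ℝ) ^ (1 - b) ≤ 2 ^ (1 : ℝ) :=
                Real.rpow_le_rpow_of_exponent_le (by norm_num) (by linarith)
            _ = 2 := Real.rpow_one 2
  have a3 : ‖z0‖⁻¹ ≤ 2 * ‖z‖⁻¹ := by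
    rw [← div_eq_mul_inv, inv_eq_one_div, div_le_div_iff₀ (by linarith) hzp]
    linarith
  have hd0 : 0 ≤ 1 - ‖z0‖ ^ 2 := by nlinarith
  unfold stW
  calc _ ≤ Real.exp (2 * K) * ‖deriv f z‖⁻¹ * (2 * (1 - ‖z‖ ^ 2) ^ (b - 1)) * (2 * ‖z‖⁻¹) := by
        gcongr
    _ = _ := by ring

theorem inner (h : StOK K f) (hK : 0 ≤ K) (h1 : deriv f 0 = 1) (b0 : 0 ≤ b) (b1 : b ≤ 1) {z : ℂ}
    (hz : ‖z‖ ^ 2 < 9 / 10) : stW b f z ≤ ((1 / 20 : ℝ) ^ K)⁻¹ * 10 * ‖z‖⁻¹ := by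
  have n0 := norm_nonneg z
  have z1 : ‖z‖ < 1 := by nlinarith
  have a1 : ‖deriv f z‖⁻¹ ≤ ((1 / 20 : ℝ) ^ K)⁻¹ := by
    have := (univ_distortion (diff1 h) h.ne h.pre z1).1
    rw [h1, norm_one, mul_one] at this
    exact inv_anti₀ (by positivity)
      ((Real.rpow_le_rpow (by norm_num) (by nlinarith) hK).trans this)
  have a2 : (1 - ‖z‖ ^ 2) ^ (b - 1) ≤ 10 := by
    calc (1 - ‖z‖ ^ 2) ^ (b - 1) ≤ (10⁻¹ : ℝ) ^ (b - 1) :=
          Real.rpow_le_rpow_of_nonpos (by norm_num) (by linarith) (by linarith)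
      _ ≤ (10⁻¹ : ℝ) ^ (-1 : ℝ) :=
          Real.rpow_le_rpow_of_exponent_ge (by norm_num) (by norm_num) (by linarith)
      _ = 10 := by rw [Real.rpow_neg_one, inv_inv]
  have hd : 0 ≤ 1 - ‖z‖ ^ 2 := by linarith
  unfold stW
  gcongr

theorem inv_fin : ∫⁻ z in ball (0 : ℂ) 1, ENNReal.ofReal ‖z‖⁻¹ ≠ ⊤ := by
  have : IntegrableOn (fun z : ℂ => ‖z‖⁻¹) (ball 0 1) := by
    refine integrableOn_ball_of_norm_le_rpow (C := 1) (α := 1) (by simp) (by simp)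
      (Filter.Eventually.of_forall fun z => ?_) (by fun_prop : Measurable _).aestronglyMeasurable
    simp [Real.rpow_neg_one]
  exact this.lintegral_lt_top.ne

theorem nonDeg : NonDeg := by
  intro K
  by_cases hK : 0 ≤ K
  swap
  · exact ⟨1, one_pos, 0, fun b c f _ _ _ _ h _ => (hK (univ_K_nonneg h.ne h.pre)).elim⟩
  have hL := Lip.L2_pos hK
  obtain ⟨e, e0, e1, e2⟩ : ∃ e : ℝ, 0 < e ∧ e ≤ 1 / 16 ∧ Lip.L2 K * e ≤ 1 / 12800 := by
    refine ⟨min (1 / 16) (1 / 12800 / Lip.L2 K), by positivity, min_le_left _ _, ?_⟩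
    rw [← le_div_iff₀' hL]
    exact min_le_right _ _
  set H := 4 * Real.exp (2 * K) with hH
  have H0 : 0 < H := by positivity
  set η := e ^ 2 / (12800 * H) with hη
  have η0 : 0 < η := by positivity
  refine ⟨η, η0, η * (((1 / 20 : ℝ) ^ K)⁻¹ * 10 *
    (∫⁻ z in ball (0 : ℂ) 1, ENNReal.ofReal ‖z‖⁻¹).toReal), fun b c f b0 b1 c0 c1 h h1 => ?_⟩
  have mW : Measurable fun z => ENNReal.ofReal (stW b f z) := (measurable_stW b f).ennreal_ofReal
  have mX := measurable_stX c f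
  set A : Set ℂ := ball 0 1 ∩ {z | 9 / 10 ≤ ‖z‖ ^ 2} with hA
  set N : Set ℂ := ball 0 1 ∩ {z | 1 / 12800 ≤ |‖stX c f z‖ ^ 2 - 1|} with hN
  have mS : MeasurableSet {z : ℂ | 9 / 10 ≤ ‖z‖ ^ 2} :=
    measurableSet_le measurable_const (by fun_prop)
  have mN : MeasurableSet N :=
    measurableSet_ball.inter (measurableSet_le measurable_const (by fun_prop))
  have k1 := doubling _ mW A N (measurableSet_ball.inter mS) mN inter_subset_left (1 / 8) e e0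
    le_rfl (ENNReal.ofReal H) (fun z0 hz0 z hz => by
      rw [← ENNReal.ofReal_mul H0.le]
      exact ENNReal.ofReal_le_ofReal
        (harn h (by linarith) (by linarith) hz0.2 (by simpa using hz0.1) hz)) fun z0 hz0 => by
      have h01 : ‖z0‖ < 1 := by simpa using hz0.1
      obtain ⟨z1, p1, p2⟩ := point h (c := c) (by linarith) c1 hz0.2 h01
      refine ⟨z1, fun z hz => ?_⟩
      obtain ⟨q1, q2⟩ := Lip.subdisc (c := c) (by linarith) (by linarith) (diffq h) (bdq h) le_rfl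
        e1 e2 h01 p1 (z := z) (by simpa [dist_eq_norm] using hz)
      have q1' : ‖z - z0‖ < 1 / 8 * (1 - ‖z0‖ ^ 2) := by linarith
      refine ⟨⟨by simpa using (d_compare le_rfl h01 q1').1, ?_⟩, by
        rw [mem_ball, dist_eq_norm]; exact q1'⟩
      change |‖stX c f z‖ ^ 2 - ‖stX c f z1‖ ^ 2| ≤ _ at q2
      have := abs_sub_abs_le_abs_sub (‖stX c f z1‖ ^ 2 - 1) (‖stX c f z‖ ^ 2 - 1)
      rw [sub_sub_sub_cancel_right, abs_sub_comm (‖stX c f z1‖ ^ 2) (‖stX c f z‖ ^ 2)] at this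
      change _ ≤ |‖stX c f z‖ ^ 2 - 1|
      linarith
  have k2 : ENNReal.ofReal (1 / 12800) * ∫⁻ z in N, ENNReal.ofReal (stW b f z) ≤
      ∫⁻ z in ball (0 : ℂ) 1, ENNReal.ofReal (|‖stX c f z‖ ^ 2 - 1| * stW b f z) := by
    rw [← lintegral_const_mul _ mW]
    refine le_trans (setLIntegral_mono' mN fun z hz => ?_) (lintegral_mono_set inter_subset_left)
    rw [← ENNReal.ofReal_mul (by norm_num)]
    exact ENNReal.ofReal_le_ofReal (mul_le_mul_of_nonneg_right hz.2 (stW_nonneg b f hz.1))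
  have k3 : ∫⁻ z in ball (0 : ℂ) 1 \ {z | 9 / 10 ≤ ‖z‖ ^ 2}, ENNReal.ofReal (stW b f z) ≤
      ENNReal.ofReal (((1 / 20 : ℝ) ^ K)⁻¹ * 10 *
        (∫⁻ z in ball (0 : ℂ) 1, ENNReal.ofReal ‖z‖⁻¹).toReal) := by
    rw [ENNReal.ofReal_mul (by positivity), ENNReal.ofReal_toReal inv_fin,
      ← lintegral_const_mul _ (by fun_prop)]
    refine le_trans (setLIntegral_mono' (measurableSet_ball.diff mS) fun z hz => ?_)
      (lintegral_mono_set sdiff_subset)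
    rw [← ENNReal.ofReal_mul (by positivity)]
    exact ENNReal.ofReal_le_ofReal
      (inner h hK h1 (by linarith) (by linarith) (not_le.1 hz.2))
  rw [stM, ← lintegral_inter_add_sdiff _ _ mS, mul_add, ENNReal.ofReal_mul η0.le]
  refine add_le_add (le_trans ?_ k2) (by gcongr)
  refine (mul_le_mul_right k1 _).trans_eq ?_
  rw [← mul_assoc, ← ENNReal.ofReal_mul H0.le, ← ENNReal.ofReal_mul η0.le]
  congr 2
  rw [hη]
  field_simp

end Crest.Agent.R131.N68
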