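import Crest.Agent.R131.Morse
import Crest.Agent.R131.StarDefs
import Crest.Agent.Lib.Complex.Univalent

/-! # Row 131: second derivative tests for `sG` -/

set_option autoImplicit false

namespace Crest.Agent.R131.T18

open Set Metric Filter Topology Complex
open scoped ComplexConjugate

theorem strict_min {e e' : ℝ → ℝ} {k : ℝ} (h1 : ∀ᶠ s in 𝓝 (0 : ℝ), HasDerivAt e (e' s) s)
    (h0 : e' 0 = 0) (h2 : HasDerivAt e' k 0) (hk : 0 < k) : ∀ᶠ s in 𝓝[≠] (0 : ℝ), e 0 < e s := by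
  have h3 : ∀ᶠ s in 𝓝[≠] (0 : ℝ), 0 < slope e' 0 s :=
    (hasDerivAt_iff_tendsto_slope.1 h2).eventually (lt_mem_nhds hk)
  obtain ⟨δ, hδ, hd⟩ := Metric.mem_nhdsWithin_iff.1 h3
  obtain ⟨δ', hδ', hd'⟩ := Metric.eventually_nhds_iff_ball.1 h1
  filter_upwards [mem_nhdsWithin_of_mem_nhds (ball_mem_nhds (0 : ℝ) (lt_min hδ hδ')),
    self_mem_nhdsWithin] with s hs hs0
  rw [mem_ball_zero_iff, Real.norm_eq_abs, lt_min_iff, abs_lt, abs_lt] at hs
  have D : ∀ t, -δ' < t → t < δ' → HasDerivAt e (e' t) t := fun t a b =>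
    hd' t (by rw [mem_ball_zero_iff, Real.norm_eq_abs, abs_lt]; exact ⟨a, b⟩)
  have S : ∀ t, t ≠ 0 → -δ < t → t < δ → 0 < e' t / t := fun t n a b => by
    have := hd ⟨by rw [mem_ball_zero_iff, Real.norm_eq_abs, abs_lt]; exact ⟨a, b⟩, n⟩
    simpa [slope_def_field, h0] using this
  rcases lt_or_gt_of_ne (show s ≠ 0 from hs0) with h | h
  · obtain ⟨t, ht, e1⟩ := exists_hasDerivAt_eq_slope e e' h (fun t ht =>
      (D t (by linarith [ht.1, hs.2.1]) (by linarith [ht.2])).continuousAt.continuousWithinAt)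
      fun t ht => D t (by linarith [ht.1, hs.2.1]) (by linarith [ht.2])
    have := S t ht.2.ne (by linarith [ht.1, hs.1.1]) (by linarith [ht.2])
    have h4 : e' t < 0 := by
      by_contra h4
      exact absurd this (not_lt.2 (div_nonpos_of_nonneg_of_nonpos (not_lt.1 h4) ht.2.le))
    rw [e1, div_lt_iff₀ (by linarith)] at h4
    linarith
  · obtain ⟨t, ht, e1⟩ := exists_hasDerivAt_eq_slope e e' h (fun t ht =>
      (D t (by linarith [ht.1]) (by linarith [ht.2, hs.2.2])).continuousAt.continuousWithinAt)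
      fun t ht => D t (by linarith [ht.1]) (by linarith [ht.2, hs.2.2])
    have := S t ht.1.ne' (by linarith [ht.1]) (by linarith [ht.2, hs.1.2])
    rw [e1, div_pos_iff_of_pos_right ht.1, div_pos_iff_of_pos_right (by linarith)] at this
    linarith

theorem log_norm {g : ℝ → ℂ} {g' : ℂ} {s : ℝ} (h : HasDerivAt g g' s) (h0 : g s ≠ 0) :
    HasDerivAt (fun s => Real.log (‖g s‖ ^ 2)) (2 * (g' / g s).re) s := by
  have n0 : ‖g s‖ ^ 2 ≠ 0 := pow_ne_zero _ (norm_ne_zero_iff.2 h0)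
  convert h.norm_sq.log n0 using 1
  rw [Complex.inner, div_re, Complex.sq_norm, mul_re, conj_re, conj_im]
  ring

variable {f : ℂ → ℂ} {c : ℝ} {a p : ℂ}

/-- the gradient of `log sG` -/
noncomputable def W (f : ℂ → ℂ) (c : ℝ) (a z : ℂ) : ℂ :=
  deriv f z / (f z - a) + (1 + c) * (conj z / (1 - z * conj z))

theorem one_sub (z : ℂ) : 1 - z * conj z = ((1 - ‖z‖ ^ 2 : ℝ) : ℂ) := by
  rw [mul_conj']; push_cast; rfl

theorem dpos (hp : p ∈ ball (0 : ℂ) 1) : 0 < 1 - ‖p‖ ^ 2 := by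
  have := mem_ball_zero_iff.1 hp
  nlinarith [norm_nonneg p]

theorem sG_pos (hp : p ∈ ball (0 : ℂ) 1) (ha : f p ≠ a) : 0 < sG f c a p :=
  div_pos (pow_pos (norm_pos_iff.2 (sub_ne_zero.2 ha)) _) (Real.rpow_pos_of_pos (dpos hp) _)

theorem line (p v : ℂ) (s : ℝ) : HasDerivAt (fun s : ℝ => p + s * v) v s := by
  simpa using ((hasDerivAt_id s).ofReal_comp.mul_const v).const_add p

theorem near (hf : DifferentiableOn ℂ f (ball 0 1)) (hp : p ∈ ball (0 : ℂ) 1) (ha : f p ≠ a)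
    (v : ℂ) : ∀ᶠ s : ℝ in 𝓝 0, p + s * v ∈ ball (0 : ℂ) 1 ∧ f (p + s * v) ≠ a := by
  have t : Tendsto (fun s : ℝ => p + s * v) (𝓝 0) (𝓝 p) := by
    simpa using (line p v 0).continuousAt.tendsto
  have b := isOpen_ball.mem_nhds hp
  exact t.eventually (Eventually.and b ((hf.continuousOn.continuousAt b).eventually_ne ha))

theorem d1 (hf : DifferentiableOn ℂ f (ball 0 1)) (hp : p ∈ ball (0 : ℂ) 1) (ha : f p ≠ a)
    (v : ℂ) : ∀ᶠ s : ℝ in 𝓝 0, HasDerivAt (fun s : ℝ => Real.log (sG f c a (p + s * v)))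
      (2 * (W f c a (p + s * v) * v).re) s := by
  filter_upwards [near hf hp ha v, (near hf hp ha v).eventually_nhds] with s hs hs'
  have h1 := (((hf.differentiableAt (isOpen_ball.mem_nhds hs.1)).hasDerivAt.comp_of_eq s
    (line p v s) rfl).sub_const a)
  have h2 := log_norm h1 (sub_ne_zero.2 hs.2)
  have h3 := (((line p v s).norm_sq.const_sub 1).log (dpos hs.1).ne').const_mul (1 + c)
  refine ((h2.sub h3).congr_of_eventuallyEq ?_).congr_deriv ?_
  · filter_upwards [hs'] with t ht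
    rw [sG, Real.log_div (pow_ne_zero _ (norm_ne_zero_iff.2 (sub_ne_zero.2 ht.2)))
      (Real.rpow_pos_of_pos (dpos ht.1) _).ne', Real.log_rpow (dpos ht.1)]
    rfl
  · have e : W f c a (p + s * v) * v = deriv f (p + s * v) * v / (f (p + s * v) - a) +
        ((1 + c) / (1 - ‖p + s * v‖ ^ 2) : ℝ) * (v * conj (p + s * v)) := by
      rw [W, one_sub]; push_cast; ring
    rw [e, add_re, re_ofReal_mul, Complex.inner]
    simp only [Function.comp]
    ring

/-- the holomorphic part of the Hessian -/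
noncomputable def B (f : ℂ → ℂ) (c : ℝ) (a p : ℂ) : ℂ :=
  deriv (deriv f) p / (f p - a) - (deriv f p / (f p - a)) ^ 2 +
    (1 + c) * (conj p / (1 - p * conj p)) ^ 2

theorem d2 (hf : DifferentiableOn ℂ f (ball 0 1)) (hp : p ∈ ball (0 : ℂ) 1) (ha : f p ≠ a)
    (v : ℂ) : HasDerivAt (fun s : ℝ => 2 * (W f c a (p + s * v) * v).re)
      (2 * ((B f c a p * v ^ 2).re + (1 + c) / (1 - ‖p‖ ^ 2) ^ 2 * ‖v‖ ^ 2)) 0 := by
  have b := isOpen_ball.mem_nhds hp
  have e0 : p = p + (0 : ℝ) * v := by simp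
  have h1 := ((hf.differentiableAt b).hasDerivAt.comp_of_eq (0 : ℝ) (line p v 0) e0).sub_const a
  have h2 := ((hf.deriv isOpen_ball).differentiableAt b).hasDerivAt.comp_of_eq (0 : ℝ)
    (line p v 0) e0
  have h3 := (line p v 0).star
  have n1 : f p - a ≠ 0 := sub_ne_zero.2 ha
  have n2 : 1 - p * conj p ≠ 0 := by rw [one_sub]; exact ofReal_ne_zero.2 (dpos hp).ne'
  have h4 := ((h2.div h1 (by simpa using n1)).add ((h3.div (((line p v 0).mul h3).const_sub 1)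
    (by simpa using n2)).const_mul (1 + c : ℂ))).mul_const v
  have h5 := (reCLM.hasFDerivAt.comp_hasDerivAt (0 : ℝ) h4).const_mul 2
  refine h5.congr_deriv ?_
  congr 1
  rw [reCLM_apply, ← ofReal_re ((1 + c) / (1 - ‖p‖ ^ 2) ^ 2 * ‖v‖ ^ 2), ← add_re]
  congr 1
  rw [ofReal_mul, ofReal_div, ofReal_pow, ← one_sub, ofReal_pow, ← mul_conj']
  simp only [Function.comp, ofReal_zero, zero_mul, add_zero, B, Pi.mul_apply, RCLike.star_def]
  push_cast
  field_simp
  ring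

theorem up (hf : DifferentiableOn ℂ f (ball 0 1)) (hp : p ∈ ball (0 : ℂ) 1) (ha : f p ≠ a)
    (hW : W f c a p = 0) {v : ℂ}
    (h : 0 < (B f c a p * v ^ 2).re + (1 + c) / (1 - ‖p‖ ^ 2) ^ 2 * ‖v‖ ^ 2) :
    ∀ᶠ s : ℝ in 𝓝[≠] 0, sG f c a p < sG f c a (p + s * v) := by
  filter_upwards [strict_min (d1 (c := c) hf hp ha v) (by simp [hW]) (d2 (c := c) hf hp ha v) (by linarith),
    mem_nhdsWithin_of_mem_nhds (near hf hp ha v)] with s h1 h2
  rw [Real.log_lt_log_iff (by simpa using sG_pos hp ha) (sG_pos h2.1 h2.2)] at h1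
  simpa using h1

theorem down (hf : DifferentiableOn ℂ f (ball 0 1)) (hp : p ∈ ball (0 : ℂ) 1) (ha : f p ≠ a)
    (hW : W f c a p = 0) {v : ℂ}
    (h : (B f c a p * v ^ 2).re + (1 + c) / (1 - ‖p‖ ^ 2) ^ 2 * ‖v‖ ^ 2 < 0) :
    ∀ᶠ s : ℝ in 𝓝[≠] 0, sG f c a (p + s * v) < sG f c a p := by
  filter_upwards [strict_min ((d1 (c := c) hf hp ha v).mono fun s hs => hs.neg) (by simp [hW])
    (d2 (c := c) hf hp ha v).neg (by linarith), mem_nhdsWithin_of_mem_nhds (near hf hp ha v)] with s h1 h2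
  simp only [Pi.neg_apply, neg_lt_neg_iff] at h1
  rw [Real.log_lt_log_iff (sG_pos h2.1 h2.2) (by simpa using sG_pos hp ha)] at h1
  simpa using h1

theorem crit (hf : DifferentiableOn ℂ f (ball 0 1)) (hp : p ∈ ball (0 : ℂ) 1) (ha : f p ≠ a)
    (h : IsLocalExtr (sG f c a) p) : W f c a p = 0 := by
  have key : ∀ v, (W f c a p * v).re = 0 := by
    intro v
    have t : Tendsto (fun s : ℝ => p + s * v) (𝓝 0) (𝓝 p) := by
      simpa using (line p v 0).continuousAt.tendsto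
    have e : IsLocalExtr (fun s : ℝ => Real.log (sG f c a (p + s * v))) 0 := by
      rcases h with h | h
      · refine Or.inl ?_
        filter_upwards [t.eventually h] with s hs
        simpa using Real.log_le_log (sG_pos hp ha) hs
      · refine Or.inr ?_
        filter_upwards [t.eventually h, near hf hp ha v] with s hs h2
        simpa using Real.log_le_log (sG_pos h2.1 h2.2) hs
    simpa using e.hasDerivAt_eq_zero (d1 hf hp ha v).self_of_nhds
  exact Complex.ext (by simpa using key 1) (by simpa using key I)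

theorem ne_of_pos (h : 0 < sG f c a p) : f p ≠ a := fun e => by simp [sG, e] at h

theorem not_le_line {G : ℂ → ℝ} {v : ℂ} {r : ℝ → ℝ → Prop} (h : ∀ᶠ z in 𝓝 p, r (G z) (G p))
    (h' : ∀ᶠ s : ℝ in 𝓝[≠] 0, ¬r (G (p + s * v)) (G p)) : False := by
  have t : Tendsto (fun s : ℝ => p + s * v) (𝓝[≠] 0) (𝓝 p) := by
    simpa using (line p v 0).continuousAt.tendsto.mono_left nhdsWithin_le_nhds
  obtain ⟨s, h1, h2⟩ := ((t.eventually h).and h').exists
  exact h2 h1

theorem nomax (hf : DifferentiableOn ℂ f (ball 0 1)) (hc : -1 < c) (hp : p ∈ ball (0 : ℂ) 1)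
    (h0 : 0 < sG f c a p) : ¬IsLocalMax (sG f c a) p := by
  intro h
  have ha := ne_of_pos h0
  have hW := crit hf hp ha (Or.inr h)
  have A0 : 0 < (1 + c) / (1 - ‖p‖ ^ 2) ^ 2 := div_pos (by linarith) (pow_pos (dpos hp) _)
  rcases le_total 0 (B f c a p).re with h1 | h1
  · exact not_le_line (r := (· ≤ ·)) h ((up hf hp ha hW (v := 1) (by simp; linarith)).mono
      fun s hs => not_le.2 hs)
  · exact not_le_line (r := (· ≤ ·)) h ((up hf hp ha hW (v := I) (by simp; linarith)).mono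
      fun s hs => not_le.2 hs)

theorem good {R : ℝ} (hR : 1 < R) (hf : DifferentiableOn ℂ f (ball 0 R))
    (hinj : InjOn f (ball 0 R)) (hc : -1 < c) (ha : ∀ z : ℂ, ‖z‖ = 1 → f z ≠ a) :
    Good (sG f c a) := by
  have s1 : ball (0 : ℂ) 1 ⊆ ball 0 R := ball_subset_ball hR.le
  have c0 : 0 < 1 + c := by linarith
  have cr : Continuous fun z : ℂ => (1 - ‖z‖ ^ 2) ^ (1 + c) :=
    (Real.continuous_rpow_const c0.le).comp (by fun_prop)
  have zero : ∀ z ∈ ball (0 : ℂ) 1, sG f c a z = 0 → f z = a := fun z hz h => by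
    by_contra hn
    exact (sG_pos hz hn).ne' h
  refine ⟨(((hf.continuousOn.mono s1).sub continuousOn_const).norm.pow 2).div cr.continuousOn
    fun z hz => (Real.rpow_pos_of_pos (dpos hz) _).ne', fun l => ?_, fun z hz =>
    div_nonneg (sq_nonneg _) (Real.rpow_pos_of_pos (dpos hz) _).le, fun z hz y hy h1 h2 =>
    hinj (s1 hz) (s1 hy) ((zero z hz h1).trans (zero y hy h2).symm),
    fun z hz => nomax (hf.mono s1) hc hz⟩
  have e : {z ∈ ball (0 : ℂ) 1 | sG f c a z ≤ l} =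
      {z ∈ closedBall (0 : ℂ) 1 | ‖f z - a‖ ^ 2 ≤ l * (1 - ‖z‖ ^ 2) ^ (1 + c)} := by
    ext z
    refine ⟨fun h => ⟨ball_subset_closedBall h.1,
      (div_le_iff₀ (Real.rpow_pos_of_pos (dpos h.1) _)).1 h.2⟩, fun h => ?_⟩
    have hz : z ∈ ball (0 : ℂ) 1 := by
      refine mem_ball_zero_iff.2 ((mem_closedBall_zero_iff.1 h.1).lt_of_ne fun e => ?_)
      have h2 := h.2
      rw [e, one_pow, sub_self, Real.zero_rpow c0.ne', mul_zero] at h2
      exact absurd h2 (not_le.2 (pow_pos (norm_pos_iff.2 (sub_ne_zero.2 (ha z e))) _))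
    exact ⟨hz, (div_le_iff₀ (Real.rpow_pos_of_pos (dpos hz) _)).2 h.2⟩
  rw [e]
  exact (isCompact_closedBall _ _).of_isClosed_subset (isClosed_closedBall.isClosed_le
    (((hf.continuousOn.mono (closedBall_subset_ball hR)).sub continuousOn_const).norm.pow 2)
    (continuous_const.mul cr).continuousOn) fun z hz => hz.1

theorem sad (hf : DifferentiableOn ℂ f (ball 0 1)) (hc : -1 < c) (hp : p ∈ ball (0 : ℂ) 1)
    (hF : sF f c p = a) (hJ : 0 < sJ f c p) : ∃ v w, IsSad (sG f c a) p v w := by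
  have p0 : p ≠ 0 := by rintro rfl; simp [sJ] at hJ
  have f0 : deriv f p ≠ 0 := fun e => by simp [sJ, e] at hJ
  have c0 : 0 < 1 + c := by linarith
  have c1 : (1 + c : ℂ) ≠ 0 := by exact_mod_cast c0.ne'
  have n2 : 1 - p * conj p ≠ 0 := by rw [one_sub]; exact ofReal_ne_zero.2 (dpos hp).ne'
  have p1 : conj p ≠ 0 := (map_ne_zero _).2 p0
  have e : f p - a = -((1 - p * conj p) * deriv f p / ((1 + c) * conj p)) := by
    rw [← hF, sF, one_sub]; push_cast; ring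
  have ha : f p ≠ a := sub_ne_zero.1 (by
    rw [e]; exact neg_ne_zero.2 (div_ne_zero (mul_ne_zero n2 f0) (mul_ne_zero c1 p1)))
  have hW : W f c a p = 0 := by
    rw [W, e]; field_simp; ring
  set A := (1 + c) / (1 - ‖p‖ ^ 2) ^ 2 with hA
  have A0 : 0 < A := div_pos c0 (pow_pos (dpos hp) _)
  have hB : B f c a p = -(A * (conj p / p) * sX f c p) := by
    rw [B, e, sX, hA, ofReal_div, ofReal_pow, ← one_sub, ofReal_mul, ofReal_pow, ← mul_conj']
    push_cast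
    field_simp
    ring
  have hX : 1 < ‖sX f c p‖ := by
    have h1 := (div_pos_iff_of_pos_right (by positivity)).1 hJ
    have h2 := (mul_pos_iff_of_pos_left (by positivity)).1 h1
    nlinarith [norm_nonneg (sX f c p)]
  have nB : A < ‖B f c a p‖ := by
    rw [hB, norm_neg, norm_mul, norm_mul, norm_div, RCLike.norm_conj,
      div_self (norm_ne_zero_iff.2 p0), mul_one, norm_real, Real.norm_of_nonneg A0.le]
    nlinarith
  have B0 : B f c a p ≠ 0 := norm_pos_iff.1 (A0.trans nB)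
  obtain ⟨w, hw⟩ := IsAlgClosed.exists_pow_nat_eq ((‖B f c a p‖ : ℂ) / B f c a p) two_pos
  have w1 : ‖w‖ ^ 2 = 1 := by
    rw [← norm_pow, hw, norm_div, norm_real, norm_norm, div_self (norm_ne_zero_iff.2 B0)]
  have w2 : B f c a p * w ^ 2 = ‖B f c a p‖ := by rw [hw]; field_simp
  refine ⟨I * w, w, ?_, (down hf hp ha hW ?_).and (up hf hp ha hW ?_)⟩
  · rw [map_mul, mul_assoc, conj_mul', ← ofReal_pow, w1]
    simp
  · rw [mul_pow, I_sq, neg_one_mul, mul_neg, w2, norm_mul, norm_I, one_mul, w1, neg_re, ofReal_re]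
    linarith
  · rw [w2, w1, ofReal_re]
    linarith

theorem min (hf : DifferentiableOn ℂ f (ball 0 1)) (hinj : InjOn f (ball 0 1)) (hc : -1 < c)
    (hp : p ∈ ball (0 : ℂ) 1) (h : IsLocalMin (sG f c a) p) (h0 : 0 < sG f c a p) :
    p ≠ 0 ∧ sF f c p = a ∧ sJ f c p ≤ 0 := by
  have ha := ne_of_pos h0
  have hW := crit hf hp ha (Or.inl h)
  have f0 := Lib.Complex.deriv_ne_zero_of_injOn isOpen_ball hf hinj hp
  have n1 : f p - a ≠ 0 := sub_ne_zero.2 ha
  have c1 : (1 + c : ℂ) ≠ 0 := by exact_mod_cast (by linarith : (1 + c : ℝ) ≠ 0)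
  have n2 : 1 - p * conj p ≠ 0 := by rw [one_sub]; exact ofReal_ne_zero.2 (dpos hp).ne'
  have p0 : p ≠ 0 := by
    rintro rfl
    simp [W, f0, n1] at hW
  have p1 : conj p ≠ 0 := (map_ne_zero _).2 p0
  have hF : sF f c p = a := by
    rw [W, ← mul_div_assoc, div_add_div _ _ n1 n2, div_eq_zero_iff,
      or_iff_left (mul_ne_zero n1 n2)] at hW
    rw [sF, ← one_sub]
    push_cast
    field_simp
    linear_combination hW
  refine ⟨p0, hF, not_lt.1 fun hJ => ?_⟩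
  obtain ⟨v, w, -, hs⟩ := sad hf hc hp hF hJ
  exact not_le_line (r := (· ≥ ·)) h (hs.mono fun s hs => not_le.2 hs.1)

/-- the pairing on one fibre of `sF` -/
theorem fibre {R : ℝ} (hR : 1 < R) (hf : DifferentiableOn ℂ f (ball 0 R))
    (hinj : InjOn f (ball 0 R)) (hc : -1 < c) (ha : ∀ z : ℂ, ‖z‖ = 1 → f z ≠ a) :
    ∃ π : ℂ → ℂ, InjOn π {z | z ∈ ball (0 : ℂ) 1 ∧ 0 < sJ f c z ∧ sF f c z = a} ∧
      ∀ z ∈ ball (0 : ℂ) 1, 0 < sJ f c z → sF f c z = a → z ≠ 0 ∧ π z ∈ ball (0 : ℂ) 1 ∧ π z ≠ 0 ∧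
        f (π z) ≠ a ∧ sF f c (π z) = a ∧ sJ f c (π z) ≤ 0 ∧ sG f c a (π z) < sG f c a z ∧
        ∃ C ⊆ {y | y ∈ ball (0 : ℂ) 1 ∧ sG f c a y ≤ sG f c a z}, IsPreconnected C ∧ z ∈ C ∧
          π z ∈ C ∧ ∃ m ∈ C, m ≠ π z ∧ sG f c a m ≤ sG f c a (π z) := by
  have s1 : ball (0 : ℂ) 1 ⊆ ball 0 R := ball_subset_ball hR.le
  choose! v w hs using fun z (hz : z ∈ {z | z ∈ ball (0 : ℂ) 1 ∧ 0 < sJ f c z ∧ sF f c z = a}) =>
    sad (hf.mono s1) hc hz.1 hz.2.2 hz.2.1
  obtain ⟨π, hi, h⟩ := (good hR hf hinj hc ha).pairing (fun z hz => hz.1) hs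
  refine ⟨π, hi, fun z h1 h2 h3 => ?_⟩
  obtain ⟨a1, a2, a3, a4, ⟨C, b1, b2, b3, b4, m, b5, b6, -, b7⟩, -⟩ := h z ⟨h1, h2, h3⟩
  obtain ⟨c1, c2, c3⟩ := min (hf.mono s1) (hinj.mono s1) hc a1 a2 a3
  exact ⟨by rintro rfl; simp [sJ] at h2, a1, c1, ne_of_pos a3, c2, c3, a4, C, b1, b2, b3, b4, m,
    b5, b6, b7⟩

end Crest.Agent.R131.T18
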