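import Crest.Agent.R131.StarDefs
import Crest.Agent.R131.Area
import Crest.Agent.R131.Jac
import Crest.Agent.R131.Pair
import Crest.Agent.R131.Test18
import Crest.Agent.Lib.Complex.Univalent

set_option autoImplicit false
open MeasureTheory Set Metric Filter Topology
open scoped ENNReal ComplexConjugate

namespace Crest.Agent.R131

theorem star_pairing (V : ℂ → ℝ) (hV : ContinuousOn V (ball 0 1))
    (hprop : ∀ s : ℝ, ∃ r < (1 : ℝ), ∀ z ∈ ball (0 : ℂ) 1, V z ≤ s → ‖z‖ ≤ r)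
    (hnomax : ∀ z ∈ ball (0 : ℂ) 1, ¬IsLocalMax V z) (Sad : Set ℂ) (v w : ℂ → ℂ)
    (hseg : ∀ p ∈ Sad, ∀ t : ℝ, |t| ≤ 1 →
      p + t * v p ∈ ball (0 : ℂ) 1 ∧ (t ≠ 0 → V (p + t * v p) < V p))
    (hvw : ∀ p ∈ Sad, (w p / v p).im ≠ 0)
    (hup : ∀ p ∈ Sad, ∀ᶠ t : ℝ in 𝓝[≠] 0, V p < V (p + t * w p)) :
    ∃ φ : ℂ → ℂ, InjOn φ Sad ∧ ∀ p ∈ Sad, φ p ∈ ball (0 : ℂ) 1 ∧ IsLocalMin V (φ p) ∧
      V (φ p) ≤ V p ∧
      (∃ C : Set ℂ, IsPreconnected C ∧ p ∈ C ∧ φ p ∈ C ∧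
        C ⊆ {z | z ∈ ball (0 : ℂ) 1 ∧ V z ≤ V p}) ∧
      ∃ m ∈ ball (0 : ℂ) 1, m ≠ φ p ∧ V m ≤ V (φ p) := by
  obtain ⟨φ, h1, h2⟩ := pairing V hV hprop hnomax Sad v w hseg hvw hup
  refine ⟨φ, h1, fun p hp => ?_⟩
  obtain ⟨g1, g2, -, g4, g5⟩ := h2 p hp
  obtain ⟨γ, hγ⟩ := g4
  refine ⟨g1, g2, ?_, ⟨range γ, isPreconnected_range γ.continuous, ⟨1, γ.target⟩,
    ⟨0, γ.source⟩, range_subset_iff.2 hγ⟩, g5⟩
  simpa using (hγ 0).2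

section
variable {f : ℂ → ℂ} {R c : ℝ}

theorem star_jac (hR : 1 < R) (hf : DifferentiableOn ℂ f (ball 0 R))
    (hinj : InjOn f (ball 0 R)) (hc : -1 < c) {z : ℂ} (hz : z ∈ ball (0 : ℂ) 1) (h0 : z ≠ 0) :
    ∃ A : ℂ →L[ℝ] ℂ, HasStrictFDerivAt (sF f c) A z ∧ A.det = sJ f c z := by
  have hzR : z ∈ ball (0 : ℂ) R := ball_subset_ball hR.le hz
  have hc' : 1 + c ≠ 0 := by linarith
  exact ⟨JacF.F1 f c z,
    JacF.hasStrictFDerivAt_Fm hc' (hf.analyticAt (isOpen_ball.mem_nhds hzR)) h0,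
    JacF.det_F1 hc' h0 (Lib.Complex.deriv_ne_zero_of_injOn isOpen_ball hf hinj hzR)⟩

theorem star_nomax (hR : 1 < R) (hf : DifferentiableOn ℂ f (ball 0 R))
    (hinj : InjOn f (ball 0 R)) (hc : -1 < c) (a : ℂ) {z : ℂ} (hz : z ∈ ball (0 : ℂ) 1) :
    ¬IsLocalMax (sG f c a) z := by
  have s1 : ball (0 : ℂ) 1 ⊆ ball 0 R := ball_subset_ball hR.le
  by_cases ha : f z = a
  · intro h
    have h0 : sG f c a z = 0 := by simp [sG, ha]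
    have h1 : ∀ᶠ y in 𝓝[≠] z, sG f c a y ≤ sG f c a z ∧ y ∈ ball (0 : ℂ) 1 :=
      mem_nhdsWithin_of_mem_nhds (Eventually.and h (isOpen_ball.mem_nhds hz))
    obtain ⟨y, ⟨h2, h3⟩, h4⟩ := (h1.and self_mem_nhdsWithin).exists
    have h5 : f y ≠ a := fun e => h4 (hinj (s1 h3) (s1 hz) (e.trans ha.symm))
    exact absurd (T18.sG_pos (c := c) h3 h5) (not_lt.2 (h2.trans h0.le))
  · exact T18.nomax (hf.mono s1) hc hz (T18.sG_pos hz ha)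

theorem star_min (hR : 1 < R) (hf : DifferentiableOn ℂ f (ball 0 R))
    (hinj : InjOn f (ball 0 R)) (hc : -1 < c) (a : ℂ) {z : ℂ} (hz : z ∈ ball (0 : ℂ) 1)
    (hm : IsLocalMin (sG f c a) z) (ha : f z ≠ a) :
    z ≠ 0 ∧ sF f c z = a ∧ sJ f c z ≤ 0 :=
  T18.min (hf.mono (ball_subset_ball hR.le)) (hinj.mono (ball_subset_ball hR.le)) hc hz hm
    (T18.sG_pos hz ha)

theorem star_sad (hR : 1 < R) (hf : DifferentiableOn ℂ f (ball 0 R))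
    (hinj : InjOn f (ball 0 R)) (hc : -1 < c) (a : ℂ) {p : ℂ} (hp : p ∈ ball (0 : ℂ) 1)
    (hF : sF f c p = a) (hJ : 0 < sJ f c p) :
    ∃ v w : ℂ, (w / v).im ≠ 0 ∧ (∀ᶠ t : ℝ in 𝓝[≠] 0, sG f c a (p + t * v) < sG f c a p) ∧
      ∀ᶠ t : ℝ in 𝓝[≠] 0, sG f c a p < sG f c a (p + t * w) := by
  obtain ⟨v, w, h1, h2⟩ := T18.sad (hf.mono (ball_subset_ball hR.le)) hc hp hF hJ
  refine ⟨v, w, fun h => h1 ?_, h2.mono fun s hs => hs.1, h2.mono fun s hs => hs.2⟩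
  by_cases hv : v = 0
  · simp [hv]
  · have e : conj v * w = (‖v‖ ^ 2 : ℝ) * (w / v) := by
      rw [Complex.ofReal_pow, ← Complex.conj_mul']; field_simp
    rw [e, Complex.im_ofReal_mul, h, mul_zero]

theorem star_dpos {z : ℂ} (hz : z ∈ ball (0 : ℂ) 1) : 0 < 1 - ‖z‖ ^ 2 := by
  have h : ‖z‖ < 1 := by simpa using hz
  nlinarith [norm_nonneg z]

theorem star_cont (hR : 1 < R) (hf : DifferentiableOn ℂ f (ball 0 R)) (a : ℂ) :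
    ContinuousOn (sG f c a) (ball 0 1) := by
  have h1 : ContinuousOn f (ball 0 1) := hf.continuousOn.mono (ball_subset_ball hR.le)
  unfold sG
  refine ContinuousOn.div ((h1.sub continuousOn_const).norm.pow 2) ?_ ?_
  · refine ContinuousOn.rpow_const (by fun_prop) fun z hz => Or.inl (star_dpos hz).ne'
  · intro z hz
    exact (Real.rpow_pos_of_pos (star_dpos hz) _).ne'

theorem star_prop (hR : 1 < R) (hf : DifferentiableOn ℂ f (ball 0 R)) (hc : -1 < c) (a : ℂ)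
    (ha : ∀ z : ℂ, ‖z‖ = 1 → f z ≠ a) (s : ℝ) :
    ∃ r < (1 : ℝ), ∀ z ∈ ball (0 : ℂ) 1, sG f c a z ≤ s → ‖z‖ ≤ r := by
  -- the set `K` is compact and misses the circle
  let K : Set ℂ := {z | z ∈ closedBall (0 : ℂ) 1 ∧ ‖f z - a‖ ^ 2 ≤ s * (1 - ‖z‖ ^ 2) ^ (1 + c)}
  have h1 : ContinuousOn f (closedBall 0 1) :=
    hf.continuousOn.mono (closedBall_subset_ball hR)
  have h2 : Continuous fun z : ℂ => s * (1 - ‖z‖ ^ 2) ^ (1 + c) :=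
    continuous_const.mul (Continuous.rpow_const (by fun_prop) fun _ => Or.inr (by linarith))
  have hK : IsCompact K := by
    refine (isCompact_closedBall (0 : ℂ) 1).of_isClosed_subset ?_ fun z hz => hz.1
    exact isClosed_closedBall.isClosed_le ((h1.sub continuousOn_const).norm.pow 2) h2.continuousOn
  have hK1 : ∀ z ∈ K, ‖z‖ < 1 := by
    intro z hz
    have h3 : ‖z‖ ≤ 1 := by simpa using hz.1
    refine lt_of_le_of_ne h3 fun h4 => ha z h4 ?_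
    have h5 := hz.2
    rw [h4, one_pow, sub_self, Real.zero_rpow (by linarith), mul_zero] at h5
    have h6 : ‖f z - a‖ = 0 := by nlinarith [norm_nonneg (f z - a)]
    exact sub_eq_zero.1 (norm_eq_zero.1 h6)
  have hsub : ∀ z ∈ ball (0 : ℂ) 1, sG f c a z ≤ s → z ∈ K := fun z hz h =>
    ⟨ball_subset_closedBall hz, (div_le_iff₀ (Real.rpow_pos_of_pos (star_dpos hz) _)).1 h⟩
  rcases K.eq_empty_or_nonempty with hE | hne
  · exact ⟨0, one_pos, fun z hz h => by simpa [hE] using hsub z hz h⟩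
  · obtain ⟨z₀, hz₀, hmax⟩ := hK.exists_isMaxOn hne continuous_norm.continuousOn
    exact ⟨‖z₀‖, hK1 z₀ hz₀, fun z hz h => hmax (hsub z hz h)⟩

theorem star_seg {V : ℂ → ℝ} {p v : ℂ} (hp : p ∈ ball (0 : ℂ) 1)
    (h : ∀ᶠ t : ℝ in 𝓝[≠] 0, V (p + t * v) < V p) :
    ∃ ε : ℝ, 0 < ε ∧ ∀ t : ℝ, |t| ≤ 1 →
      p + t * (ε * v) ∈ ball (0 : ℂ) 1 ∧ (t ≠ 0 → V (p + t * (ε * v)) < V p) := by
  have h1 : ∀ᶠ t : ℝ in 𝓝 0, p + t * v ∈ ball (0 : ℂ) 1 := by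
    have hc : Continuous fun t : ℝ => p + t * v := by fun_prop
    exact hc.continuousAt.eventually_mem (isOpen_ball.mem_nhds (by simpa using hp))
  rw [eventually_nhdsWithin_iff] at h
  obtain ⟨δ, hδ, hb⟩ := Metric.eventually_nhds_iff.1 (h1.and h)
  refine ⟨δ / 2, by positivity, fun t ht => ?_⟩
  have h2 : dist (t * (δ / 2)) 0 < δ := by
    rw [Real.dist_eq, sub_zero, abs_mul, abs_of_pos (by positivity : 0 < δ / 2)]
    nlinarith [abs_nonneg t]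
  have h3 := hb h2
  have e : p + ((t * (δ / 2) : ℝ) : ℂ) * v = p + t * (((δ / 2 : ℝ) : ℂ) * v) := by
    push_cast; ring
  rw [e] at h3
  exact ⟨h3.1, fun h0 => h3.2 (mul_ne_zero h0 (by positivity))⟩

theorem measurable_sJ (f : ℂ → ℂ) (c : ℝ) : Measurable (sJ f c) := by
  have h1 : Measurable (deriv f) := measurable_deriv f
  have h2 : Measurable (deriv (deriv f)) := measurable_deriv _
  unfold sJ sX
  fun_prop

theorem sG_nonneg (a : ℂ) {z : ℂ} (hz : z ∈ ball (0 : ℂ) 1) : 0 ≤ sG f c a z :=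
  div_nonneg (sq_nonneg _) (Real.rpow_pos_of_pos (star_dpos hz) _).le

theorem sG_le_zero {a z : ℂ} (hz : z ∈ ball (0 : ℂ) 1) (h : sG f c a z ≤ 0) : f z = a := by
  have h1 := (div_le_iff₀ (Real.rpow_pos_of_pos (star_dpos hz) (1 + c))).1 h
  have h6 : ‖f z - a‖ = 0 := by nlinarith [norm_nonneg (f z - a)]
  exact sub_eq_zero.1 (norm_eq_zero.1 h6)

/-- the pairing in one regular fibre -/
theorem star_fibre (hR : 1 < R) (hf : DifferentiableOn ℂ f (ball 0 R))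
    (hinj : InjOn f (ball 0 R)) (hc : -1 < c) (a : ℂ) (ha : ∀ z : ℂ, ‖z‖ = 1 → f z ≠ a)
    (hreg : ∀ z ∈ ball (0 : ℂ) 1, z ≠ 0 → sF f c z = a → sJ f c z ≠ 0) :
    ∃ φ : ℂ → ℂ, InjOn φ {z | (z ∈ ball (0 : ℂ) 1 ∧ 0 < sJ f c z) ∧ sF f c z = a} ∧
      ∀ s, s ∈ ball (0 : ℂ) 1 → 0 < sJ f c s → sF f c s = a →
        φ s ∈ ball (0 : ℂ) 1 ∧ φ s ≠ 0 ∧ sF f c (φ s) = a ∧ sJ f c (φ s) < 0 ∧
        sG f c a (φ s) ≤ sG f c a s ∧
        ∃ C : Set ℂ, IsPreconnected C ∧ s ∈ C ∧ φ s ∈ C ∧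
          C ⊆ {z | z ∈ ball (0 : ℂ) 1 ∧ sG f c a z ≤ sG f c a s} := by
  set Sad : Set ℂ := {z | (z ∈ ball (0 : ℂ) 1 ∧ 0 < sJ f c z) ∧ sF f c z = a} with hSad
  have hex : ∀ p ∈ Sad, ∃ v w : ℂ, (w / v).im ≠ 0 ∧ (∀ t : ℝ, |t| ≤ 1 →
      p + t * v ∈ ball (0 : ℂ) 1 ∧ (t ≠ 0 → sG f c a (p + t * v) < sG f c a p)) ∧
      ∀ᶠ t : ℝ in 𝓝[≠] 0, sG f c a p < sG f c a (p + t * w) := by
    intro p hp
    obtain ⟨v, w, h1, h2, h3⟩ := star_sad hR hf hinj hc a hp.1.1 hp.2 hp.1.2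
    obtain ⟨ε, hε, h4⟩ := star_seg hp.1.1 h2
    refine ⟨ε * v, w, ?_, h4, h3⟩
    have e : w / (ε * v) = ((ε⁻¹ : ℝ) : ℂ) * (w / v) := by
      push_cast; rw [mul_comm (ε : ℂ) v, ← div_div, div_eq_mul_inv _ (ε : ℂ), mul_comm]
    rw [e, Complex.im_ofReal_mul]
    exact mul_ne_zero (inv_ne_zero hε.ne') h1
  choose! v w hvw hseg hup using hex
  obtain ⟨φ, hφ, h⟩ := star_pairing (sG f c a) (star_cont hR hf a) (star_prop hR hf hc a ha)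
    (fun z hz => star_nomax hR hf hinj hc a hz) Sad v w hseg hvw hup
  refine ⟨φ, hφ, fun s hs hJ hF => ?_⟩
  obtain ⟨h1, h2, h3, h4, m, hm, hm1, hm2⟩ := h s ⟨⟨hs, hJ⟩, hF⟩
  have hne : f (φ s) ≠ a := by
    intro h5
    have h6 : sG f c a (φ s) = 0 := by simp [sG, h5]
    have h7 : f m = a := sG_le_zero hm (hm2.trans h6.le)
    exact hm1 (hinj (ball_subset_ball hR.le hm) (ball_subset_ball hR.le h1) (h7.trans h5.symm))
  obtain ⟨h5, h6, h7⟩ := star_min hR hf hinj hc a h1 h2 hne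
  exact ⟨h1, h5, h6, lt_of_le_of_ne h7 (hreg _ h1 h5 h6), h3, h4⟩

theorem sJ_zero (f : ℂ → ℂ) (c : ℝ) : sJ f c 0 = 0 := by simp [sJ]

end

/-- STAR': the Morse pairing inequality, integrated in `a`. -/
theorem star' (f : ℂ → ℂ) (R : ℝ) (hR : 1 < R) (hf : DifferentiableOn ℂ f (ball 0 R))
    (hinj : InjOn f (ball 0 R)) (c : ℝ) (hc : -1 < c) (Φ₁ Φ₂ : ℂ → ℝ≥0∞)
    (h₁ : Measurable Φ₁) (h₂ : Measurable Φ₂)
    (hpair : ∀ a s m : ℂ, s ∈ ball (0 : ℂ) 1 → m ∈ ball (0 : ℂ) 1 → s ≠ 0 → m ≠ 0 →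
      sF f c s = a → sF f c m = a → 0 < sJ f c s → sJ f c m < 0 →
      sG f c a m ≤ sG f c a s →
      (∃ C : Set ℂ, IsPreconnected C ∧ s ∈ C ∧ m ∈ C ∧
        C ⊆ {z | z ∈ ball (0 : ℂ) 1 ∧ sG f c a z ≤ sG f c a s}) →
      Φ₁ s ≤ Φ₂ m) :
    ∫⁻ z in {z | z ∈ ball (0 : ℂ) 1 ∧ 0 < sJ f c z}, ENNReal.ofReal (sJ f c z) * Φ₁ z ≤
      ∫⁻ z in {z | z ∈ ball (0 : ℂ) 1 ∧ sJ f c z < 0}, ENNReal.ofReal (-sJ f c z) * Φ₂ z := by
  have hex : ∀ z, z ∈ ball (0 : ℂ) 1 ∧ z ≠ 0 →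
      ∃ A : ℂ →L[ℝ] ℂ, HasStrictFDerivAt (sF f c) A z ∧ A.det = sJ f c z :=
    fun z hz => star_jac hR hf hinj hc hz.1 hz.2
  choose! F1 hF1 hdet using hex
  have hm := measurable_sJ f c
  have hS₁ : MeasurableSet {z | z ∈ ball (0 : ℂ) 1 ∧ 0 < sJ f c z} :=
    measurableSet_ball.inter (measurableSet_lt measurable_const hm)
  have hS₂ : MeasurableSet {z | z ∈ ball (0 : ℂ) 1 ∧ sJ f c z < 0} :=
    measurableSet_ball.inter (measurableSet_lt hm measurable_const)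
  have n1 : ∀ z, 0 < sJ f c z → z ≠ 0 := by
    rintro z h rfl; simp [sJ_zero] at h
  have n2 : ∀ z, sJ f c z < 0 → z ≠ 0 := by
    rintro z h rfl; simp [sJ_zero] at h
  have hsard := Area.sard (F := sF f c) (F1 := F1) (U := {z | z ∈ ball (0 : ℂ) 1 ∧ z ≠ 0})
    fun z hz => (hF1 z hz).hasFDerivAt
  have hcirc := Area.ae_notMem_image_sphere (f := f) fun z hz =>
    hf.differentiableAt (isOpen_ball.mem_nhds (by simpa [hz] using hR))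
  have key := Area.area_compare (F := sF f c) (F1 := F1) hS₁ hS₂
    (fun z hz => hF1 z ⟨hz.1, n1 z hz.2⟩) (fun z hz => hF1 z ⟨hz.1, n2 z hz.2⟩)
    (fun z hz => by rw [hdet z ⟨hz.1, n1 z hz.2⟩]; exact hz.2.ne')
    (fun z hz => by rw [hdet z ⟨hz.1, n2 z hz.2⟩]; exact hz.2.ne) h₁ h₂ (by
      filter_upwards [hsard, hcirc] with a ha1 ha2
      obtain ⟨φ, hφ, h⟩ := star_fibre hR hf hinj hc a ha2 fun z hz h0 hF => by
        rw [← hdet z ⟨hz, h0⟩]; exact ha1 z ⟨hz, h0⟩ hF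
      refine ⟨φ, hφ, fun z hz hF => ?_⟩
      obtain ⟨g1, g2, g3, g4, g5, g6⟩ := h z hz.1 hz.2 hF
      exact ⟨⟨g1, g4⟩, g3, hpair a z (φ z) hz.1 g1 (n1 z hz.2) g2 hF g3 hz.2 g4 g5 g6⟩)
  refine le_trans (le_of_eq ?_) (key.trans (le_of_eq ?_))
  · refine setLIntegral_congr_fun hS₁ fun z hz => ?_
    simp only [hdet z ⟨hz.1, n1 z hz.2⟩, abs_of_pos hz.2]
  · refine setLIntegral_congr_fun hS₂ fun z hz => ?_
    simp only [hdet z ⟨hz.1, n2 z hz.2⟩, abs_of_neg hz.2]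

end Crest.Agent.R131
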