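import Crest.Agent.R131.StarDefs
import Crest.Agent.R131.Jac
import Crest.Agent.R131.Pair
import Crest.Agent.Lib.Complex.Univalent

set_option autoImplicit false
open MeasureTheory Set Metric Filter Topology
open scoped ENNReal ComplexConjugate

namespace Crest.Agent.R131.S29

open Crest.Agent.R131

theorem star_pairing (V : ℂ → ℝ) (hV : ContinuousOn V (ball 0 1))
    (hprop : ∀ s : ℝ, ∃ r < (1 : ℝ), ∀ z ∈ ball (0 : ℂ) 1, V z ≤ s → ‖z‖ ≤ r)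
    (hnomax : ∀ z ∈ ball (0 : ℂ) 1, ¬IsLocalMax V z) (Sad : Set ℂ) (v w : ℂ → ℂ)
    (hseg : ∀ p ∈ Sad, ∀ t : ℝ, |t| ≤ 1 →
      p + t * v p ∈ ball (0 : ℂ) 1 ∧ (t ≠ 0 → V (p + t * v p) < V p))
    (hvw : ∀ p ∈ Sad, (w p / v p).im ≠ 0)
    (hup : ∀ p ∈ Sad, ∀ᶠ t : ℝ in 𝓝[≠] 0, V p < V (p + t * w p)) :
    ∃ φ : ℂ → ℂ, InjOn φ Sad ∧ ∀ p ∈ Sad, φ p ∈ ball (0 : ℂ) 1 ∧ IsLocalMin V (φ p) ∧
      V (φ p) ≤ V p ∧
      (∃ C : Set ℂ, IsPreconnected C ∧ p ∈ C ∧ φ p ∈ C ∧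
        C ⊆ {z | z ∈ ball (0 : ℂ) 1 ∧ V z ≤ V p}) ∧
      ∃ m ∈ ball (0 : ℂ) 1, m ≠ φ p ∧ V m ≤ V (φ p) := by
  obtain ⟨φ, hφ, h⟩ := pairing V hV hprop hnomax Sad v w hseg hvw hup
  refine ⟨φ, hφ, fun p hp => ?_⟩
  obtain ⟨h1, h2, -, h4, h5⟩ := h p hp
  refine ⟨h1, h2, h4.source_mem.2, ?_, h5⟩
  obtain ⟨γ, hγ⟩ := h4
  refine ⟨range γ, isPreconnected_range γ.continuous, ⟨1, γ.target⟩, ⟨0, γ.source⟩, ?_⟩
  rintro _ ⟨t, rfl⟩
  exact hγ t

section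
variable {f : ℂ → ℂ} {R c : ℝ}

theorem star_jac (hR : 1 < R) (hf : DifferentiableOn ℂ f (ball 0 R))
    (hinj : InjOn f (ball 0 R)) (hc : -1 < c) {z : ℂ} (hz : z ∈ ball (0 : ℂ) 1) (h0 : z ≠ 0) :
    ∃ A : ℂ →L[ℝ] ℂ, HasStrictFDerivAt (sF f c) A z ∧ A.det = sJ f c z := by
  have hzR : z ∈ ball (0 : ℂ) R := ball_subset_ball hR.le hz
  have hc' : 1 + c ≠ 0 := by linarith
  have han : AnalyticAt ℂ f z := hf.analyticAt (isOpen_ball.mem_nhds hzR)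
  have h1 : deriv f z ≠ 0 :=
    Crest.Agent.Lib.Complex.deriv_ne_zero_of_injOn isOpen_ball hf hinj hzR
  exact ⟨JacF.F1 f c z, JacF.hasStrictFDerivAt_Fm hc' han h0, JacF.det_F1 hc' h0 h1⟩

theorem mob_id (p z : ℂ) :
    ‖1 - conj p * z‖ ^ 2 = (1 - ‖z‖ ^ 2) * (1 - ‖p‖ ^ 2) + ‖z - p‖ ^ 2 := by
  simp only [← Complex.normSq_eq_norm_sq, Complex.normSq_apply, Complex.sub_re, Complex.sub_im,
    Complex.mul_re, Complex.mul_im, Complex.conj_re, Complex.conj_im, Complex.one_re,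
    Complex.one_im]
  ring

theorem star_nomax (hR : 1 < R) (hf : DifferentiableOn ℂ f (ball 0 R))
    (hinj : InjOn f (ball 0 R)) (hc : -1 < c) (a : ℂ) {z : ℂ} (hz : z ∈ ball (0 : ℂ) 1) :
    ¬IsLocalMax (sG f c a) z := by
  intro hmax
  have hsub : ball (0 : ℂ) 1 ⊆ ball 0 R := ball_subset_ball hR.le
  have hc' : 0 < 1 + c := by linarith
  have hzn : ‖z‖ < 1 := mem_ball_zero_iff.1 hz
  have hdz : 0 < 1 - ‖z‖ ^ 2 := by nlinarith [norm_nonneg z]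
  have hball : ∀ᶠ w in 𝓝 z, w ∈ ball (0 : ℂ) 1 := isOpen_ball.mem_nhds hz
  have hslit : ∀ w ∈ ball (0 : ℂ) 1, 1 - conj z * w ∈ Complex.slitPlane := by
    intro w hw
    have hwn : ‖w‖ < 1 := mem_ball_zero_iff.1 hw
    have : ‖-(conj z * w)‖ < 1 := by
      rw [norm_neg, norm_mul, Complex.norm_conj]
      nlinarith [norm_nonneg z, norm_nonneg w]
    simpa [sub_eq_add_neg] using Complex.mem_slitPlane_of_norm_lt_one this
  set h : ℂ → ℂ := fun w => (f w - a) / (1 - conj z * w) ^ ((1 + c : ℝ) : ℂ) with hh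
  have hnorm : ∀ w, ‖h w‖ ^ 2 = ‖f w - a‖ ^ 2 / (‖1 - conj z * w‖ ^ 2) ^ (1 + c) := by
    intro w
    simp only [hh, norm_div, Complex.norm_cpow_real, div_pow]
    rw [← Real.rpow_natCast (‖1 - conj z * w‖ ^ (1 + c)), ← Real.rpow_mul (norm_nonneg _),
      ← Real.rpow_natCast ‖1 - conj z * w‖, ← Real.rpow_mul (norm_nonneg _), mul_comm (1 + c)]
  have hdiff : ∀ᶠ w in 𝓝 z, DifferentiableAt ℂ h w := by
    filter_upwards [hball] with w hw
    have h1 : DifferentiableAt ℂ f w := hf.differentiableAt (isOpen_ball.mem_nhds (hsub hw))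
    have h2 : DifferentiableAt ℂ (fun w => (1 - conj z * w) ^ ((1 + c : ℝ) : ℂ)) w :=
      DifferentiableAt.cpow_const (by fun_prop) (hslit w hw)
    refine (h1.sub_const a).div h2 ?_
    rw [Ne, Complex.cpow_eq_zero_iff, not_and_or]
    exact Or.inl (Complex.slitPlane_ne_zero (hslit w hw))
  have hz2 : ‖h z‖ ^ 2 = sG f c a z / (1 - ‖z‖ ^ 2) ^ (1 + c) := by
    rw [hnorm, mob_id, sub_self, norm_zero, sG, div_div, ← Real.mul_rpow hdz.le hdz.le]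
    norm_num
  have hG0 : 0 ≤ sG f c a z := by unfold sG; positivity
  -- comparison
  have hcmp : ∀ w ∈ ball (0 : ℂ) 1, sG f c a w ≤ sG f c a z →
      ‖h w‖ ^ 2 * (‖1 - conj z * w‖ ^ 2) ^ (1 + c)
        ≤ ‖h z‖ ^ 2 * ((1 - ‖w‖ ^ 2) * (1 - ‖z‖ ^ 2)) ^ (1 + c) := by
    intro w hw hle
    have hwn : ‖w‖ < 1 := mem_ball_zero_iff.1 hw
    have hdw : 0 < 1 - ‖w‖ ^ 2 := by nlinarith [norm_nonneg w]
    have hp : 0 < ‖1 - conj z * w‖ := norm_pos_iff.2 (Complex.slitPlane_ne_zero (hslit w hw))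
    have hA : 0 < (‖1 - conj z * w‖ ^ 2) ^ (1 + c) := by positivity
    have hB : 0 < (1 - ‖w‖ ^ 2) ^ (1 + c) := by positivity
    have hC : 0 < (1 - ‖z‖ ^ 2) ^ (1 + c) := by positivity
    rw [hnorm, hz2, div_mul_cancel₀ _ hA.ne', Real.mul_rpow hdw.le hdz.le]
    have h3 : ‖f w - a‖ ^ 2 ≤ sG f c a z * (1 - ‖w‖ ^ 2) ^ (1 + c) := by
      rw [← div_le_iff₀ hB]; exact hle
    calc ‖f w - a‖ ^ 2 ≤ sG f c a z * (1 - ‖w‖ ^ 2) ^ (1 + c) := h3
      _ = _ := by field_simp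
  have hlt : ∀ w ∈ ball (0 : ℂ) 1, w ≠ z →
      ((1 - ‖w‖ ^ 2) * (1 - ‖z‖ ^ 2)) ^ (1 + c) < (‖1 - conj z * w‖ ^ 2) ^ (1 + c) := by
    intro w hw hne
    have hwn : ‖w‖ < 1 := mem_ball_zero_iff.1 hw
    have hdw : 0 < 1 - ‖w‖ ^ 2 := by nlinarith [norm_nonneg w]
    refine Real.rpow_lt_rpow (by positivity) ?_ hc'
    rw [mob_id]
    have : 0 < ‖w - z‖ := norm_pos_iff.2 (sub_ne_zero.2 hne)
    nlinarith
  have hloc : IsLocalMax (norm ∘ h) z := by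
    filter_upwards [hball, hmax] with w hw hle
    by_cases hne : w = z
    · subst hne; exact le_rfl
    have h1 := hcmp w hw hle
    have h2 := hlt w hw hne
    have hp : 0 < ‖1 - conj z * w‖ := norm_pos_iff.2 (Complex.slitPlane_ne_zero (hslit w hw))
    have hA : 0 < (‖1 - conj z * w‖ ^ 2) ^ (1 + c) := by positivity
    have h3 : ‖h w‖ ^ 2 ≤ ‖h z‖ ^ 2 := by
      refine le_of_mul_le_mul_right (h1.trans ?_) hA
      exact mul_le_mul_of_nonneg_left h2.le (by positivity)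
    exact (pow_le_pow_iff_left₀ (norm_nonneg _) (norm_nonneg _) two_ne_zero).1 h3
  have hconst := Complex.eventually_eq_of_isLocalMax_norm hdiff hloc
  have hev : ∀ᶠ w in 𝓝[≠] z, False := by
    filter_upwards [nhdsWithin_le_nhds hball, nhdsWithin_le_nhds hmax,
      nhdsWithin_le_nhds hconst, self_mem_nhdsWithin] with w hw hle heq hne
    have hne' : w ≠ z := hne
    have h1 := hcmp w hw hle
    have h2 := hlt w hw hne'
    rw [heq] at h1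
    have h0 : h z = 0 := by
      by_contra h0
      have : 0 < ‖h z‖ ^ 2 := by positivity
      exact absurd (le_of_mul_le_mul_left h1 this) (not_le.2 h2)
    have key : ∀ u ∈ ball (0 : ℂ) 1, h u = 0 → f u = a := by
      intro u hu hu0
      simp only [hh, div_eq_zero_iff, Complex.cpow_eq_zero_iff] at hu0
      rcases hu0 with h3 | h3
      · exact sub_eq_zero.1 h3
      · exact absurd h3.1 (Complex.slitPlane_ne_zero (hslit u hu))
    exact hne' (hinj (hsub hw) (hsub hz) ((key w hw (heq.trans h0)).trans (key z hz h0).symm))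
  exact hev.exists.elim fun _ h => h

end

end Crest.Agent.R131.S29
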