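import Crest.Agent.R131.StarArea
import Crest.Agent.R131.Morse48
import Crest.Agent.Lib.Complex.Univalent

set_option autoImplicit false
open MeasureTheory Set Metric Filter Topology
open scoped ENNReal ComplexConjugate

namespace Crest.Agent.R131.S48

/-- strict one-dimensional second derivative test -/
theorem lt_of_d2_pos {h h1 : ℝ → ℝ} {B : ℝ} (hd : ∀ᶠ t in 𝓝 (0 : ℝ), HasDerivAt h (h1 t) t)
    (h0 : h1 0 = 0) (h2 : HasDerivAt h1 B 0) (hB : 0 < B) :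
    ∀ᶠ t in 𝓝[≠] (0 : ℝ), h 0 < h t := by
  have hk : ∀ᶠ t in 𝓝 (0 : ℝ), HasDerivAt (fun s => h s - B / 4 * s ^ 2) (h1 t - B / 2 * t) t := by
    filter_upwards [hd] with t ht
    have := ht.sub (((hasDerivAt_id t).pow 2).const_mul (B / 4))
    refine HasDerivAt.congr_deriv this ?_
    simp; ring
  have he : deriv (fun s => h s - B / 4 * s ^ 2) =ᶠ[𝓝 0] fun t => h1 t - B / 2 * t := by
    filter_upwards [hk] with t ht using ht.deriv
  have hm : IsLocalMin (fun s => h s - B / 4 * s ^ 2) 0 := by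
    refine isLocalMin_of_deriv_deriv_pos ?_ ?_ hk.self_of_nhds.continuousAt
    · rw [he.deriv_eq]
      have := (h2.sub ((hasDerivAt_id (0 : ℝ)).const_mul (B / 2))).deriv
      have e : (fun t : ℝ => h1 t - B / 2 * t) = (h1 - fun y => B / 2 * id y) := by
        funext t; simp
      rw [e, this]; linarith
    · rw [he.self_of_nhds]; simp [h0]
  filter_upwards [nhdsWithin_le_nhds hm, self_mem_nhdsWithin] with t ht ht0
  have : 0 < t ^ 2 := by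
    have : t ≠ 0 := ht0
    positivity
  have ht' : h 0 - B / 4 * 0 ^ 2 ≤ h t - B / 4 * t ^ 2 := ht
  nlinarith

theorem lt_of_d2_neg {h h1 : ℝ → ℝ} {B : ℝ} (hd : ∀ᶠ t in 𝓝 (0 : ℝ), HasDerivAt h (h1 t) t)
    (h0 : h1 0 = 0) (h2 : HasDerivAt h1 B 0) (hB : B < 0) :
    ∀ᶠ t in 𝓝[≠] (0 : ℝ), h t < h 0 := by
  have := lt_of_d2_pos (h := fun s => -h s) (h1 := fun s => -h1 s) (B := -B)
    (by filter_upwards [hd] with t ht using ht.neg) (by simp [h0]) h2.neg (by linarith)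
  filter_upwards [this] with t ht
  linarith

/-- first derivative of `log G` along the line `p + t v` -/
noncomputable def D1 (f : ℂ → ℂ) (c : ℝ) (a v z : ℂ) : ℝ :=
  2 * (v * deriv f z / (f z - a)).re + (1 + c) * (2 * (conj z * v).re / (1 - ‖z‖ ^ 2))

noncomputable def D2 (f : ℂ → ℂ) (c : ℝ) (a v z : ℂ) : ℝ :=
  2 * (v * v * ((deriv (deriv f) z * (f z - a) - deriv f z * deriv f z) / (f z - a) ^ 2)).re +
    (1 + c) * ((2 * ‖v‖ ^ 2 * (1 - ‖z‖ ^ 2) + (2 * (conj z * v).re) ^ 2) / (1 - ‖z‖ ^ 2) ^ 2)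

theorem line_deriv (p v : ℂ) (t : ℝ) : HasDerivAt (fun s : ℝ => p + s * v) v t := by
  simpa using ((Complex.ofRealCLM.hasDerivAt (x := t)).mul_const v).const_add p

theorem normsq_deriv {u : ℝ → ℂ} {u' : ℂ} {t : ℝ} (hu : HasDerivAt u u' t) :
    HasDerivAt (fun s => ‖u s‖ ^ 2) (2 * (conj (u t) * u').re) t := by
  have := hu.norm_sq
  convert this using 2
  rw [Complex.inner]; rw [mul_comm]

theorem d_pos {z : ℂ} (hz : z ∈ ball (0 : ℂ) 1) : 0 < 1 - ‖z‖ ^ 2 := by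
  have : ‖z‖ < 1 := by simpa using hz
  nlinarith [norm_nonneg z]

theorem line1_at {f : ℂ → ℂ} {c : ℝ} {a p v : ℂ} {t : ℝ} (hz : p + t * v ∈ ball (0 : ℂ) 1)
    (hf : DifferentiableAt ℂ f (p + t * v)) (ha : f (p + t * v) ≠ a) :
    HasDerivAt (fun s : ℝ => Real.log (‖f (p + s * v) - a‖ ^ 2) -
      (1 + c) * Real.log (1 - ‖p + s * v‖ ^ 2)) (D1 f c a v (p + t * v)) t := by
  have hl := line_deriv p v t
  have hu : HasDerivAt (fun s : ℝ => f (p + s * v) - a) (deriv f (p + t * v) * v) t := by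
    have := (hf.hasDerivAt.comp_of_eq t hl rfl).sub_const a
    exact this
  have hne : f (p + t * v) - a ≠ 0 := sub_ne_zero.2 ha
  have hn : ‖f (p + t * v) - a‖ ^ 2 ≠ 0 := by positivity
  have h1 := (normsq_deriv hu).log hn
  have hd := d_pos hz
  have h2 := ((normsq_deriv hl).const_sub 1).log hd.ne'
  refine HasDerivAt.congr_deriv (h1.sub (h2.const_mul (1 + c))) ?_
  unfold D1
  set w := f (p + t * v) - a
  have e : v * deriv f (p + t * v) / w =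
      conj w * (deriv f (p + t * v) * v) * ((‖w‖ ^ 2 : ℝ)⁻¹ : ℝ) := by
    have : ((‖w‖ ^ 2 : ℝ) : ℂ) = conj w * w := by
      rw [Complex.conj_mul']; push_cast; rfl
    have hc : conj w ≠ 0 := by simpa using hne
    rw [Complex.ofReal_inv, this]; field_simp
  rw [e, Complex.re_mul_ofReal]
  ring

theorem logG {f : ℂ → ℂ} {c : ℝ} {a z : ℂ} (hz : z ∈ ball (0 : ℂ) 1) (ha : f z ≠ a) :
    sG f c a z = Real.exp (Real.log (‖f z - a‖ ^ 2) - (1 + c) * Real.log (1 - ‖z‖ ^ 2)) := by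
  have hne : f z - a ≠ 0 := sub_ne_zero.2 ha
  have hn : 0 < ‖f z - a‖ ^ 2 := by positivity
  rw [Real.exp_sub, Real.exp_log hn, sG, Real.rpow_def_of_pos (d_pos hz), mul_comm]

theorem line2 {f : ℂ → ℂ} {c : ℝ} {a p v : ℂ} (hz : p ∈ ball (0 : ℂ) 1)
    (hf : AnalyticAt ℂ f p) (ha : f p ≠ a) :
    HasDerivAt (fun s : ℝ => D1 f c a v (p + s * v)) (D2 f c a v p) 0 := by
  have hl := line_deriv p v 0
  have e0 : p + ((0 : ℝ) : ℂ) * v = p := by simp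
  have hu : HasDerivAt (fun s : ℝ => f (p + s * v) - a) (deriv f p * v) 0 :=
    (hf.differentiableAt.hasDerivAt.comp_of_eq (0 : ℝ) hl e0.symm).sub_const a
  have hu1 : HasDerivAt (fun s : ℝ => deriv f (p + s * v)) (deriv (deriv f) p * v) 0 :=
    hf.deriv.differentiableAt.hasDerivAt.comp_of_eq (0 : ℝ) hl e0.symm
  have hne : f p - a ≠ 0 := sub_ne_zero.2 ha
  have h1 := (hu1.const_mul v).div hu (by rw [e0]; exact hne)
  have h1' := (Complex.reCLM.hasFDerivAt.comp_hasDerivAt (0 : ℝ) h1).const_mul 2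
  have hc : HasDerivAt (fun s : ℝ => conj (p + s * v) * v) (conj v * v) 0 :=
    ((Complex.conjCLE.toContinuousLinearMap.hasFDerivAt.comp_hasDerivAt (0 : ℝ) hl)).mul_const v
  have hc' := (Complex.reCLM.hasFDerivAt.comp_hasDerivAt (0 : ℝ) hc).const_mul 2
  have hd := d_pos hz
  have h3 := (hc'.div ((normsq_deriv hl).const_sub 1) (by rw [e0]; exact hd.ne')).const_mul (1 + c)
  refine HasDerivAt.congr_deriv (h1'.add h3) ?_
  simp only [D2, e0, Complex.reCLM_apply, Function.comp_apply]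
  have e1 : (conj v * v).re = ‖v‖ ^ 2 := by
    rw [Complex.conj_mul']; norm_cast
  rw [e1]
  congr 1
  · congr 2; ring
  · congr 2; ring

section tests
variable {f : ℂ → ℂ} {c : ℝ} {a p : ℂ}

theorem ev_line (hz : p ∈ ball (0 : ℂ) 1) (hf : AnalyticAt ℂ f p) (ha : f p ≠ a) (v : ℂ) :
    ∀ᶠ t : ℝ in 𝓝 0, p + t * v ∈ ball (0 : ℂ) 1 ∧ DifferentiableAt ℂ f (p + t * v) ∧
      f (p + t * v) ≠ a := by
  have hl : Tendsto (fun s : ℝ => p + s * v) (𝓝 0) (𝓝 p) := by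
    have := (line_deriv p v 0).continuousAt.tendsto
    simpa using this
  refine hl.eventually (p := fun z => z ∈ ball (0 : ℂ) 1 ∧ DifferentiableAt ℂ f z ∧ f z ≠ a) ?_
  filter_upwards [isOpen_ball.mem_nhds hz, hf.eventually_analyticAt,
    hf.continuousAt.eventually_ne ha] with z h1 h2 h3 using ⟨h1, h2.differentiableAt, h3⟩

theorem up_of (hz : p ∈ ball (0 : ℂ) 1) (hf : AnalyticAt ℂ f p) (ha : f p ≠ a) {v : ℂ}
    (h1 : D1 f c a v p = 0) (h2 : 0 < D2 f c a v p) :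
    ∀ᶠ t : ℝ in 𝓝[≠] 0, sG f c a p < sG f c a (p + t * v) := by
  have he := ev_line hz hf ha v
  have := lt_of_d2_pos (h := fun s : ℝ => Real.log (‖f (p + s * v) - a‖ ^ 2) -
      (1 + c) * Real.log (1 - ‖p + s * v‖ ^ 2)) (h1 := fun s : ℝ => D1 f c a v (p + s * v))
    (by filter_upwards [he] with t ht using line1_at ht.1 ht.2.1 ht.2.2) (by simpa using h1)
    (line2 hz hf ha) h2
  filter_upwards [this, nhdsWithin_le_nhds he] with t ht ht'
  rw [logG hz ha, logG ht'.1 ht'.2.2, Real.exp_lt_exp]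
  simpa using ht

theorem down_of (hz : p ∈ ball (0 : ℂ) 1) (hf : AnalyticAt ℂ f p) (ha : f p ≠ a) {v : ℂ}
    (h1 : D1 f c a v p = 0) (h2 : D2 f c a v p < 0) :
    ∀ᶠ t : ℝ in 𝓝[≠] 0, sG f c a (p + t * v) < sG f c a p := by
  have he := ev_line hz hf ha v
  have := lt_of_d2_neg (h := fun s : ℝ => Real.log (‖f (p + s * v) - a‖ ^ 2) -
      (1 + c) * Real.log (1 - ‖p + s * v‖ ^ 2)) (h1 := fun s : ℝ => D1 f c a v (p + s * v))
    (by filter_upwards [he] with t ht using line1_at ht.1 ht.2.1 ht.2.2) (by simpa using h1)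
    (line2 hz hf ha) h2
  filter_upwards [this, nhdsWithin_le_nhds he] with t ht ht'
  rw [logG hz ha, logG ht'.1 ht'.2.2, Real.exp_lt_exp]
  simpa using ht

/-- at a local extremum the first derivative vanishes -/
theorem D1_of_extr (hz : p ∈ ball (0 : ℂ) 1) (hf : AnalyticAt ℂ f p) (ha : f p ≠ a)
    (h : IsLocalExtr (sG f c a) p) (v : ℂ) : D1 f c a v p = 0 := by
  have he := ev_line hz hf ha v
  have hl : Tendsto (fun s : ℝ => p + s * v) (𝓝 0) (𝓝 p) := by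
    have := (line_deriv p v 0).continuousAt.tendsto
    simpa using this
  have h0 := he.self_of_nhds
  have hd := line1_at (c := c) h0.1 h0.2.1 h0.2.2
  have hx : IsLocalExtr (fun s : ℝ => Real.log (‖f (p + s * v) - a‖ ^ 2) -
      (1 + c) * Real.log (1 - ‖p + s * v‖ ^ 2)) 0 := by
    rcases h with h | h
    · left
      filter_upwards [hl.eventually h, he] with t ht ht'
      rw [logG hz ha, logG ht'.1 ht'.2.2, Real.exp_le_exp] at ht
      simpa using ht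
    · right
      filter_upwards [hl.eventually h, he] with t ht ht'
      rw [logG hz ha, logG ht'.1 ht'.2.2, Real.exp_le_exp] at ht
      simpa using ht
  simpa using hx.hasDerivAt_eq_zero hd

noncomputable def EE (f : ℂ → ℂ) (c : ℝ) (a z : ℂ) : ℂ :=
  deriv f z / (f z - a) + ((1 + c : ℝ) : ℂ) * conj z / ((1 - ‖z‖ ^ 2 : ℝ) : ℂ)

theorem D1_eq (v : ℂ) : D1 f c a v p = 2 * (v * EE f c a p).re := by
  have e : v * EE f c a p = v * deriv f p / (f p - a) +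
      (conj p * v) * (((1 + c) / (1 - ‖p‖ ^ 2) : ℝ) : ℂ) := by
    unfold EE; push_cast; ring
  rw [e, Complex.add_re, Complex.re_mul_ofReal, D1]; ring

theorem EE_of_extr (hz : p ∈ ball (0 : ℂ) 1) (hf : AnalyticAt ℂ f p) (ha : f p ≠ a)
    (h : IsLocalExtr (sG f c a) p) : EE f c a p = 0 := by
  have h1 := D1_of_extr hz hf ha h 1
  have h2 := D1_of_extr hz hf ha h Complex.I
  rw [D1_eq] at h1 h2
  apply Complex.ext
  · simpa using h1
  · simpa using h2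

theorem tendsto_ne_line (v : ℂ) : Tendsto (fun s : ℝ => p + s * v) (𝓝[≠] 0) (𝓝 p) := by
  have := (line_deriv p v 0).continuousAt.tendsto
  simp only [Complex.ofReal_zero, zero_mul, add_zero] at this
  exact this.mono_left nhdsWithin_le_nhds

theorem not_max (hc : -1 < c) (hz : p ∈ ball (0 : ℂ) 1) (hf : AnalyticAt ℂ f p) (ha : f p ≠ a) :
    ¬ IsLocalMax (sG f c a) p := by
  intro h
  have key : ∀ v, ¬ 0 < D2 f c a v p := fun v hv => by
    have := up_of hz hf ha (D1_of_extr hz hf ha h.isExtr v) hv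
    obtain ⟨t, h1, h2⟩ := (this.and ((tendsto_ne_line v).eventually h)).exists
    exact absurd h1 (not_lt.2 h2)
  have h1 := key 1
  have h2 := key Complex.I
  have hd := d_pos hz
  unfold D2 at h1 h2
  rw [Complex.I_mul_I, neg_one_mul, Complex.neg_re, Complex.norm_I] at h2
  rw [one_mul, one_mul, norm_one] at h1
  have p1 : 0 < (1 + c) * ((2 * 1 ^ 2 * (1 - ‖p‖ ^ 2) + (2 * (conj p * 1).re) ^ 2) /
      (1 - ‖p‖ ^ 2) ^ 2) := by
    have : 0 < 1 + c := by linarith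
    positivity
  have p2 : 0 < (1 + c) * ((2 * 1 ^ 2 * (1 - ‖p‖ ^ 2) + (2 * (conj p * Complex.I).re) ^ 2) /
      (1 - ‖p‖ ^ 2) ^ 2) := by
    have : 0 < 1 + c := by linarith
    positivity
  linarith

theorem ne_of_sF (hc : -1 < c) (hz : p ∈ ball (0 : ℂ) 1) (h0 : p ≠ 0) (h1 : deriv f p ≠ 0)
    (hF : sF f c p = a) :
    f p - a = -(((1 - ‖p‖ ^ 2 : ℝ) : ℂ) * deriv f p / (((1 + c : ℝ) : ℂ) * conj p)) ∧ f p ≠ a := by
  have e : f p - a = -(((1 - ‖p‖ ^ 2 : ℝ) : ℂ) * deriv f p / (((1 + c : ℝ) : ℂ) * conj p)) := by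
    rw [← hF, sF]; ring
  refine ⟨e, fun h => ?_⟩
  have hd : ((1 - ‖p‖ ^ 2 : ℝ) : ℂ) ≠ 0 := Complex.ofReal_ne_zero.2 (d_pos hz).ne'
  have hc' : ((1 + c : ℝ) : ℂ) ≠ 0 := Complex.ofReal_ne_zero.2 (by linarith)
  have hp : conj p ≠ 0 := by simpa using h0
  rw [h, sub_self] at e
  exact (neg_ne_zero.2 (div_ne_zero (mul_ne_zero hd h1) (mul_ne_zero hc' hp))) e.symm

theorem EE_of_sF (hc : -1 < c) (hz : p ∈ ball (0 : ℂ) 1) (h0 : p ≠ 0) (h1 : deriv f p ≠ 0)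
    (hF : sF f c p = a) : EE f c a p = 0 := by
  have hd : ((1 - ‖p‖ ^ 2 : ℝ) : ℂ) ≠ 0 := Complex.ofReal_ne_zero.2 (d_pos hz).ne'
  have hc' : ((1 + c : ℝ) : ℂ) ≠ 0 := Complex.ofReal_ne_zero.2 (by linarith)
  have hp : conj p ≠ 0 := by simpa using h0
  rw [EE, (ne_of_sF hc hz h0 h1 hF).1]
  generalize ((1 - ‖p‖ ^ 2 : ℝ) : ℂ) = d at *
  generalize ((1 + c : ℝ) : ℂ) = k at *
  field_simp
  ring

theorem sF_of_EE (hc : -1 < c) (hz : p ∈ ball (0 : ℂ) 1) (h1 : deriv f p ≠ 0) (ha : f p ≠ a)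
    (hE : EE f c a p = 0) : p ≠ 0 ∧ sF f c p = a := by
  have hd : ((1 - ‖p‖ ^ 2 : ℝ) : ℂ) ≠ 0 := Complex.ofReal_ne_zero.2 (d_pos hz).ne'
  have hc' : ((1 + c : ℝ) : ℂ) ≠ 0 := Complex.ofReal_ne_zero.2 (by linarith)
  have hne : f p - a ≠ 0 := sub_ne_zero.2 ha
  have h0 : p ≠ 0 := by
    rintro rfl
    simp [EE, h1, hne] at hE
  refine ⟨h0, ?_⟩
  have hp : conj p ≠ 0 := by simpa using h0
  unfold EE at hE
  unfold sF
  generalize ((1 - ‖p‖ ^ 2 : ℝ) : ℂ) = d at *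
  generalize ((1 + c : ℝ) : ℂ) = k at *
  field_simp at hE ⊢
  linear_combination hE

theorem D2_eq (hc : -1 < c) (hz : p ∈ ball (0 : ℂ) 1) (h0 : p ≠ 0) (h1 : deriv f p ≠ 0)
    (hF : sF f c p = a) (v : ℂ) :
    D2 f c a v p = 2 * (1 + c) / (1 - ‖p‖ ^ 2) ^ 2 *
      (‖v‖ ^ 2 - (v * v * (conj p / p * sX f c p)).re) := by
  have hd0 := d_pos hz
  have hd : ((1 - ‖p‖ ^ 2 : ℝ) : ℂ) ≠ 0 := Complex.ofReal_ne_zero.2 hd0.ne'
  have hc' : ((1 + c : ℝ) : ℂ) ≠ 0 := Complex.ofReal_ne_zero.2 (by linarith)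
  have hp : conj p ≠ 0 := by simpa using h0
  have hn : ((c * ‖p‖ ^ 2 : ℝ) : ℂ) = (((1 + c : ℝ) : ℂ) - 1) * (conj p * p) := by
    rw [Complex.conj_mul']; push_cast; ring
  have e : v * v * ((deriv (deriv f) p * (f p - a) - deriv f p * deriv f p) / (f p - a) ^ 2) =
      -((v * v * (conj p / p * sX f c p) + (conj p * v) * (conj p * v)) *
        (((1 + c) / (1 - ‖p‖ ^ 2) ^ 2 : ℝ) : ℂ)) := by
    rw [(ne_of_sF hc hz h0 h1 hF).1, sX, hn, Complex.ofReal_div, Complex.ofReal_pow]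
    generalize ((1 - ‖p‖ ^ 2 : ℝ) : ℂ) = d at *
    generalize ((1 + c : ℝ) : ℂ) = k at *
    field_simp
    ring
  have e2 : (2 * (conj p * v).re) ^ 2 =
      2 * ((conj p * v) * (conj p * v)).re + 2 * (‖p‖ ^ 2 * ‖v‖ ^ 2) := by
    have : ‖p‖ ^ 2 * ‖v‖ ^ 2 = (conj p * v).re ^ 2 + (conj p * v).im ^ 2 := by
      rw [← mul_pow, ← Complex.norm_conj p, ← norm_mul, Complex.sq_norm, Complex.normSq_apply]
      ring
    rw [this, Complex.mul_re (conj p * v) (conj p * v)]; ring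
  rw [D2, e, e2, Complex.neg_re, Complex.re_mul_ofReal, Complex.add_re]
  field_simp
  ring

theorem sJ_pos (h : 0 < sJ f c p) : p ≠ 0 ∧ deriv f p ≠ 0 ∧ 1 < ‖sX f c p‖ := by
  unfold sJ at h
  refine ⟨?_, ?_, ?_⟩
  · rintro rfl; simp at h
  · intro h1; simp [h1] at h
  · by_contra hx
    have : ‖sX f c p‖ ^ 2 - 1 ≤ 0 := by nlinarith [norm_nonneg (sX f c p), not_lt.1 hx]
    exact absurd h (not_lt.2 (div_nonpos_of_nonpos_of_nonneg
      (mul_nonpos_of_nonneg_of_nonpos (by positivity) this) (by positivity)))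

theorem saddle (hc : -1 < c) (hz : p ∈ ball (0 : ℂ) 1) (hf : AnalyticAt ℂ f p)
    (hF : sF f c p = a) (hJ : 0 < sJ f c p) : M48.Saddle (sG f c a) p := by
  obtain ⟨h0, h1, hX⟩ := sJ_pos hJ
  have ha := (ne_of_sF hc hz h0 h1 hF).2
  have hE := EE_of_sF hc hz h0 h1 hF
  set Y := conj p / p * sX f c p with hY
  have hYn : ‖Y‖ = ‖sX f c p‖ := by
    rw [hY, norm_mul, norm_div, Complex.norm_conj, div_self (norm_ne_zero_iff.2 h0), one_mul]
  obtain ⟨v, hv⟩ := IsAlgClosed.exists_eq_mul_self (conj Y)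
  have hvn : ‖v‖ ^ 2 = ‖Y‖ := by rw [sq, ← norm_mul, ← hv, Complex.norm_conj]
  have hre : (v * v * Y).re = ‖Y‖ ^ 2 := by
    rw [← hv, Complex.conj_mul']; norm_cast
  have hv0 : v ≠ 0 := by
    rintro rfl
    simp only [norm_zero] at hvn
    nlinarith
  have hk : 0 < 2 * (1 + c) / (1 - ‖p‖ ^ 2) ^ 2 := by
    have := d_pos hz
    have : 0 < 1 + c := by linarith
    positivity
  refine ⟨v, Complex.I * v, by rw [mul_div_assoc, div_self hv0]; simp, ?_, ?_⟩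
  · refine down_of hz hf ha (by rw [D1_eq, hE]; simp) ?_
    rw [D2_eq hc hz h0 h1 hF, ← hY, hre, hvn]
    exact mul_neg_of_pos_of_neg hk (by nlinarith)
  · refine up_of hz hf ha (by rw [D1_eq, hE]; simp) ?_
    have e : Complex.I * v * (Complex.I * v) * Y = -(v * v * Y) := by
      linear_combination (v * v * Y) * Complex.I_mul_I
    rw [D2_eq hc hz h0 h1 hF, ← hY, e, Complex.neg_re, hre, norm_mul, Complex.norm_I, one_mul, hvn]
    exact mul_pos hk (by nlinarith)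

theorem not_min_of_saddle {G : ℂ → ℝ} (h : M48.Saddle G p) : ¬ IsLocalMin G p := by
  obtain ⟨v, w, -, h1, -⟩ := h
  intro hm
  obtain ⟨t, h1, h2⟩ := (h1.and ((tendsto_ne_line v).eventually hm)).exists
  exact absurd h1 (not_lt.2 h2)

end tests

theorem cont_sG {f : ℂ → ℂ} (c : ℝ) (a : ℂ) (hf : ContinuousOn f (ball 0 1)) :
    ContinuousOn (sG f c a) (ball 0 1) := by
  unfold sG
  refine ContinuousOn.div ((hf.sub continuousOn_const).norm.pow 2) ?_ ?_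
  · exact ContinuousOn.rpow_const (by fun_prop) fun z hz => Or.inl (d_pos hz).ne'
  · exact fun z hz => (Real.rpow_pos_of_pos (d_pos hz) _).ne'

theorem proper_sG {f : ℂ → ℂ} {c : ℝ} (hc : -1 < c) {a : ℂ} (hf : ContinuousOn f (closedBall 0 1))
    (ha : a ∉ f '' sphere 0 1) (s : ℝ) :
    ∃ ρ < 1, ∀ z ∈ ball (0 : ℂ) 1, sG f c a z ≤ s → ‖z‖ ≤ ρ := by
  have hK : IsClosed {z ∈ closedBall (0 : ℂ) 1 |
      ‖f z - a‖ ^ 2 ≤ s * (1 - ‖z‖ ^ 2) ^ (1 + c)} := by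
    refine isClosed_closedBall.isClosed_le ((hf.sub continuousOn_const).norm.pow 2) ?_
    exact (continuous_const.mul (Continuous.rpow_const (by fun_prop)
      fun _ => Or.inr (by linarith))).continuousOn
  obtain ⟨ρ, hρ, hs⟩ := exists_lt_subset_ball hK (x := (0 : ℂ)) (r := 1) (by
    rintro z ⟨h1, h2⟩
    by_contra hz
    have hn : ‖z‖ = 1 := le_antisymm (by simpa using h1) (by simpa using hz)
    rw [hn, one_pow, sub_self, Real.zero_rpow (by linarith), mul_zero] at h2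
    have : f z - a = 0 := by
      rw [← norm_eq_zero]; exact pow_eq_zero_iff (two_ne_zero) |>.1 (le_antisymm h2 (by positivity))
    exact ha ⟨z, by simpa using hn, sub_eq_zero.1 this⟩)
  refine ⟨ρ, hρ, fun z hz h => ?_⟩
  have := hs ⟨ball_subset_closedBall hz, by
    rwa [sG, div_le_iff₀ (Real.rpow_pos_of_pos (d_pos hz) _)] at h⟩
  exact (mem_ball_zero_iff.1 this).le

/-- the pairing at a regular value `a` -/
theorem pair_at (f : ℂ → ℂ) (R : ℝ) (hR : 1 < R) (hf : DifferentiableOn ℂ f (ball 0 R))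
    (hinj : InjOn f (ball 0 R)) (c : ℝ) (hc : -1 < c) (a : ℂ) (ha : a ∉ f '' sphere 0 1) :
    ∃ π : ℂ → ℂ, InjOn π {z | z ∈ ball (0 : ℂ) 1 ∧ 0 < sJ f c z ∧ sF f c z = a} ∧
      ∀ z ∈ ball (0 : ℂ) 1, 0 < sJ f c z → sF f c z = a →
        z ≠ 0 ∧ π z ∈ ball (0 : ℂ) 1 ∧ π z ≠ 0 ∧ f (π z) ≠ a ∧ sF f c (π z) = a ∧
          sJ f c (π z) ≤ 0 ∧ IsLocalMin (sG f c a) (π z) ∧ sG f c a (π z) < sG f c a z ∧
          JoinedIn {w | w ∈ ball (0 : ℂ) 1 ∧ sG f c a w ≤ sG f c a z} z (π z) := by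
  classical
  have hsub : ball (0 : ℂ) 1 ⊆ ball 0 R := ball_subset_ball hR.le
  have han : ∀ z ∈ ball (0 : ℂ) 1, AnalyticAt ℂ f z := fun z hz =>
    hf.analyticAt (isOpen_ball.mem_nhds (hsub hz))
  have hnn : ∀ z ∈ ball (0 : ℂ) 1, 0 ≤ sG f c a z := fun z hz =>
    div_nonneg (by positivity) (Real.rpow_nonneg (d_pos hz).le _)
  obtain ⟨z₀, hz₀⟩ : ∃ z₀ : ℂ, ∀ z ∈ ball (0 : ℂ) 1, f z = a → z = z₀ := by
    by_cases h : ∃ z ∈ ball (0 : ℂ) 1, f z = a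
    · obtain ⟨z₀, h0, h1⟩ := h
      exact ⟨z₀, fun z hz h => hinj (hsub hz) (hsub h0) (h.trans h1.symm)⟩
    · exact ⟨0, fun z hz h' => (h ⟨z, hz, h'⟩).elim⟩
  obtain ⟨π, hi, hπ⟩ := M48.pairing (G := sG f c a) (m := 0)
    (cont_sG c a (hf.continuousOn.mono hsub))
    (proper_sG hc (hf.continuousOn.mono (closedBall_subset_ball hR)) ha)
    (fun z hz h => not_max hc hz (han z hz) (fun e => by simp [sG, e] at h)) z₀
  refine ⟨π, InjOn.mono (fun z hz => ?_) hi, fun z hz hJ hF => ?_⟩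
  · exact ⟨hz.1, hnn z hz.1, saddle hc hz.1 (han z hz.1) hz.2.2 hz.2.1⟩
  obtain ⟨h1, h2, h3, h4, h5⟩ := hπ z hz (hnn z hz) (saddle hc hz (han z hz) hF hJ)
  have hne : f (π z) ≠ a := fun e => h3 (hz₀ _ h1 e)
  have hE := EE_of_extr h1 (han _ h1) hne h2.isExtr
  obtain ⟨h6, h7⟩ := sF_of_EE hc h1
    (Crest.Agent.Lib.Complex.deriv_ne_zero_of_injOn isOpen_ball hf hinj (hsub h1)) hne hE
  exact ⟨(sJ_pos hJ).1, h1, h6, hne, h7,
    not_lt.1 fun hJ' => not_min_of_saddle (saddle hc h1 (han _ h1) h7 hJ') h2, h2, h4, h5⟩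

theorem nomax48 {f : ℂ → ℂ} {R c : ℝ} (hR : 1 < R) (hf : DifferentiableOn ℂ f (ball 0 R))
    (hinj : InjOn f (ball 0 R)) (hc : -1 < c) (a : ℂ) {z : ℂ} (hz : z ∈ ball (0 : ℂ) 1) :
    ¬IsLocalMax (sG f c a) z := by
  have hsub : ball (0 : ℂ) 1 ⊆ ball 0 R := ball_subset_ball hR.le
  by_cases ha : f z = a
  · intro h
    have h1 : ∀ᶠ w in 𝓝[≠] z, w ∈ ball (0 : ℂ) 1 ∧ sG f c a w ≤ sG f c a z :=
      nhdsWithin_le_nhds ((show ∀ᶠ w in 𝓝 z, w ∈ ball (0 : ℂ) 1 from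
        isOpen_ball.mem_nhds hz).and h)
    obtain ⟨w, ⟨hw, h2⟩, h3⟩ := (h1.and self_mem_nhdsWithin).exists
    have h4 : f w - a ≠ 0 := fun e =>
      h3 (hinj (hsub hw) (hsub hz) ((sub_eq_zero.1 e).trans ha.symm))
    have h5 : 0 < sG f c a w := div_pos (by positivity) (Real.rpow_pos_of_pos (d_pos hw) _)
    have h6 : sG f c a z = 0 := by simp [sG, ha]
    linarith
  · exact not_max hc hz (hf.analyticAt (isOpen_ball.mem_nhds (hsub hz))) ha

theorem min48 {f : ℂ → ℂ} {R c : ℝ} (hR : 1 < R) (hf : DifferentiableOn ℂ f (ball 0 R))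
    (hinj : InjOn f (ball 0 R)) (hc : -1 < c) (a : ℂ) {z : ℂ} (hz : z ∈ ball (0 : ℂ) 1)
    (hm : IsLocalMin (sG f c a) z) (ha : f z ≠ a) :
    z ≠ 0 ∧ sF f c z = a ∧ sJ f c z ≤ 0 := by
  have hsub : ball (0 : ℂ) 1 ⊆ ball 0 R := ball_subset_ball hR.le
  have han := hf.analyticAt (isOpen_ball.mem_nhds (hsub hz))
  obtain ⟨h6, h7⟩ := sF_of_EE hc hz
    (Crest.Agent.Lib.Complex.deriv_ne_zero_of_injOn isOpen_ball hf hinj (hsub hz)) ha
    (EE_of_extr hz han ha hm.isExtr)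
  exact ⟨h6, h7, not_lt.1 fun hJ' => not_min_of_saddle (saddle hc hz han h7 hJ') hm⟩

theorem sad48 {f : ℂ → ℂ} {R c : ℝ} (hR : 1 < R) (hf : DifferentiableOn ℂ f (ball 0 R))
    (hc : -1 < c) (a : ℂ) {p : ℂ} (hp : p ∈ ball (0 : ℂ) 1)
    (hF : sF f c p = a) (hJ : 0 < sJ f c p) :
    ∃ v w : ℂ, (w / v).im ≠ 0 ∧ (∀ᶠ t : ℝ in 𝓝[≠] 0, sG f c a (p + t * v) < sG f c a p) ∧
      ∀ᶠ t : ℝ in 𝓝[≠] 0, sG f c a p < sG f c a (p + t * w) :=
  saddle hc hp (hf.analyticAt (isOpen_ball.mem_nhds (ball_subset_ball hR.le hp))) hF hJ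

/-- STAR' (the statement of `star'`, verbatim). -/
theorem star48 (f : ℂ → ℂ) (R : ℝ) (hR : 1 < R) (hf : DifferentiableOn ℂ f (ball 0 R))
    (hinj : InjOn f (ball 0 R)) (c : ℝ) (hc : -1 < c) (Φ₁ Φ₂ : ℂ → ℝ≥0∞)
    (h₁ : Measurable Φ₁) (h₂ : Measurable Φ₂)
    (hpair : ∀ a s m : ℂ, s ∈ ball (0 : ℂ) 1 → m ∈ ball (0 : ℂ) 1 → s ≠ 0 → m ≠ 0 →
      sF f c s = a → sF f c m = a → 0 < sJ f c s → sJ f c m < 0 →
      sG f c a m ≤ sG f c a s →
      (∃ C : Set ℂ, IsPreconnected C ∧ s ∈ C ∧ m ∈ C ∧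
        C ⊆ {z | z ∈ ball (0 : ℂ) 1 ∧ sG f c a z ≤ sG f c a s}) →
      Φ₁ s ≤ Φ₂ m) :
    ∫⁻ z in {z | z ∈ ball (0 : ℂ) 1 ∧ 0 < sJ f c z}, ENNReal.ofReal (sJ f c z) * Φ₁ z ≤
      ∫⁻ z in {z | z ∈ ball (0 : ℂ) 1 ∧ sJ f c z < 0}, ENNReal.ofReal (-sJ f c z) * Φ₂ z := by
  have hf1 : DifferentiableOn ℂ f (ball 0 1) := hf.mono (ball_subset_ball hR.le)
  refine star_area f hf1 c hc Φ₁ Φ₂ h₁ h₂ ?_
  filter_upwards [star_sard f hf1 c hc, star_sphere f R hR hf] with a hs ha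
  obtain ⟨π, hi, hπ⟩ := pair_at f R hR hf hinj c hc a (by
    rintro ⟨z, hz, e⟩
    exact ha z (by simpa using hz) e)
  refine ⟨π, hi, fun z hz hJ hF => ?_⟩
  obtain ⟨h0, h1, h2, h3, h4, h5, -, h6, γ, hγ⟩ := hπ z hz hJ hF
  have hJ' : sJ f c (π z) < 0 := lt_of_le_of_ne h5 (hs _ h1 h2 h4 h3)
  refine ⟨h1, hJ', h4, hpair a z (π z) hz h1 h0 h2 hF h4 hJ hJ' h6.le
    ⟨range γ, isPreconnected_range γ.continuous, γ.source_mem_range, γ.target_mem_range, ?_⟩⟩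
  rintro _ ⟨t, rfl⟩
  exact hγ t

end Crest.Agent.R131.S48
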