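import Crest.Agent.R131.StarDefs
import Crest.Agent.R131.Area
import Crest.Agent.R131.Jac

/-! Row 131: the area formula for `sF` (helper74). -/

set_option autoImplicit false
open MeasureTheory Set Metric Filter Topology
open scoped ENNReal ComplexConjugate

namespace Crest.Agent.R131

lemma sa_sF_eq (f : ℂ → ℂ) (c : ℝ) : sF f c = JacF.Fm f c := rfl

lemma sa_sX_eq (f : ℂ → ℂ) (c : ℝ) : sX f c = JacF.Pm f c := rfl

lemma sa_det {f : ℂ → ℂ} {c : ℝ} (hc : -1 < c) {z : ℂ} (hz : z ≠ 0) (h1 : deriv f z ≠ 0) :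
    (JacF.F1 f c z).det = sJ f c z :=
  JacF.det_F1 (by linarith) hz h1

lemma sa_ne_of_sJ_ne {f : ℂ → ℂ} {c : ℝ} {z : ℂ} (h : sJ f c z ≠ 0) :
    z ≠ 0 ∧ deriv f z ≠ 0 := by
  constructor
  · rintro rfl
    exact h (by simp [sJ])
  · intro h1
    exact h (by simp [sJ, h1])

lemma sa_measurable_sX (f : ℂ → ℂ) (c : ℝ) : Measurable (sX f c) := JacF.measurable_Pm f c

lemma sa_measurable_sJ (f : ℂ → ℂ) (c : ℝ) : Measurable (sJ f c) := by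
  have h1 : Measurable (deriv f) := measurable_deriv f
  have h2 := sa_measurable_sX f c
  unfold sJ
  fun_prop

lemma sa_hasStrictFDerivAt {f : ℂ → ℂ} (hf : DifferentiableOn ℂ f (ball 0 1)) {c : ℝ}
    (hc : -1 < c) {z : ℂ} (hz : z ∈ ball (0 : ℂ) 1) (hz0 : z ≠ 0) :
    HasStrictFDerivAt (sF f c) (JacF.F1 f c z) z :=
  JacF.hasStrictFDerivAt_Fm (by linarith) (hf.analyticAt (isOpen_ball.mem_nhds hz)) hz0

/-- The area formula turns an a.e. fibrewise pairing into the integrated inequality. -/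
theorem star_area (f : ℂ → ℂ) (hf : DifferentiableOn ℂ f (ball 0 1)) (c : ℝ) (hc : -1 < c)
    (Φ₁ Φ₂ : ℂ → ℝ≥0∞) (h₁ : Measurable Φ₁) (h₂ : Measurable Φ₂)
    (hpair : ∀ᵐ a : ℂ, ∃ π : ℂ → ℂ,
      InjOn π {z | z ∈ ball (0 : ℂ) 1 ∧ 0 < sJ f c z ∧ sF f c z = a} ∧
      ∀ z ∈ ball (0 : ℂ) 1, 0 < sJ f c z → sF f c z = a →
        π z ∈ ball (0 : ℂ) 1 ∧ sJ f c (π z) < 0 ∧ sF f c (π z) = a ∧ Φ₁ z ≤ Φ₂ (π z)) :
    ∫⁻ z in {z | z ∈ ball (0 : ℂ) 1 ∧ 0 < sJ f c z}, ENNReal.ofReal (sJ f c z) * Φ₁ z ≤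
      ∫⁻ z in {z | z ∈ ball (0 : ℂ) 1 ∧ sJ f c z < 0}, ENNReal.ofReal (-sJ f c z) * Φ₂ z := by
  have hm := sa_measurable_sJ f c
  have hS₁ : MeasurableSet {z | z ∈ ball (0 : ℂ) 1 ∧ 0 < sJ f c z} :=
    measurableSet_ball.inter (measurableSet_lt measurable_const hm)
  have hS₂ : MeasurableSet {z | z ∈ ball (0 : ℂ) 1 ∧ sJ f c z < 0} :=
    measurableSet_ball.inter (measurableSet_lt hm measurable_const)
  have hd₁ : ∀ z ∈ {z | z ∈ ball (0 : ℂ) 1 ∧ 0 < sJ f c z},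
      (JacF.F1 f c z).det = sJ f c z := fun z hz =>
    sa_det hc (sa_ne_of_sJ_ne hz.2.ne').1 (sa_ne_of_sJ_ne hz.2.ne').2
  have hd₂ : ∀ z ∈ {z | z ∈ ball (0 : ℂ) 1 ∧ sJ f c z < 0},
      (JacF.F1 f c z).det = sJ f c z := fun z hz =>
    sa_det hc (sa_ne_of_sJ_ne hz.2.ne).1 (sa_ne_of_sJ_ne hz.2.ne).2
  have key := Area.area_compare (F := sF f c) (F1 := JacF.F1 f c) hS₁ hS₂
    (fun z hz => sa_hasStrictFDerivAt hf hc hz.1 (sa_ne_of_sJ_ne hz.2.ne').1)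
    (fun z hz => sa_hasStrictFDerivAt hf hc hz.1 (sa_ne_of_sJ_ne hz.2.ne).1)
    (fun z hz => by rw [hd₁ z hz]; exact hz.2.ne')
    (fun z hz => by rw [hd₂ z hz]; exact hz.2.ne) h₁ h₂
    (hpair.mono fun a ⟨π, hπ, hh⟩ => ⟨π, fun _ hz _ hw h => hπ ⟨hz.1.1, hz.1.2, hz.2⟩ ⟨hw.1.1, hw.1.2, hw.2⟩ h,
      fun z hz hza => by
        obtain ⟨h1, h2, h3, h4⟩ := hh z hz.1 hz.2 hza
        exact ⟨⟨h1, h2⟩, h3, h4⟩⟩)
  calc _ = ∫⁻ z in {z | z ∈ ball (0 : ℂ) 1 ∧ 0 < sJ f c z},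
        ENNReal.ofReal |(JacF.F1 f c z).det| * Φ₁ z := by
        refine setLIntegral_congr_fun hS₁ fun z hz => ?_
        rw [hd₁ z hz, abs_of_pos hz.2]
    _ ≤ _ := key
    _ = _ := by
        refine setLIntegral_congr_fun hS₂ fun z hz => ?_
        rw [hd₂ z hz, abs_of_neg hz.2]

/-- Sard for `sF`. -/
theorem star_sard' (f : ℂ → ℂ) (hf : DifferentiableOn ℂ f (ball 0 1)) (c : ℝ) (hc : -1 < c) :
    ∀ᵐ a : ℂ, ∀ z ∈ ball (0 : ℂ) 1, z ≠ 0 → sF f c z = a → deriv f z ≠ 0 → sJ f c z ≠ 0 := by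
  have h := Area.sard (F := sF f c) (F1 := JacF.F1 f c) (U := {z | z ∈ ball (0 : ℂ) 1 ∧ z ≠ 0})
    (fun z hz => (sa_hasStrictFDerivAt hf hc hz.1 hz.2).hasFDerivAt)
  refine h.mono fun a ha z hz hz0 hza h1 => ?_
  rw [← sa_det hc hz0 h1]
  exact ha z ⟨hz, hz0⟩ hza

/-- Sard for `sF`, second form. -/
theorem star_sard (f : ℂ → ℂ) (hf : DifferentiableOn ℂ f (ball 0 1)) (c : ℝ) (hc : -1 < c) :
    ∀ᵐ a : ℂ, ∀ z ∈ ball (0 : ℂ) 1, z ≠ 0 → sF f c z = a → f z ≠ a → sJ f c z ≠ 0 := by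
  refine (star_sard' f hf c hc).mono fun a ha z hz hz0 hza h1 => ha z hz hz0 hza fun h2 => h1 ?_
  rw [← hza]
  simp [sF, h2]

/-- Almost every value is omitted on the unit circle. -/
theorem star_sphere (f : ℂ → ℂ) (R : ℝ) (hR : 1 < R) (hf : DifferentiableOn ℂ f (ball 0 R)) :
    ∀ᵐ a : ℂ, ∀ z : ℂ, ‖z‖ = 1 → f z ≠ a :=
  Area.ae_notMem_image_sphere fun z hz =>
    hf.differentiableAt (isOpen_ball.mem_nhds (by simpa [hz] using hR))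

end Crest.Agent.R131
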