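import Crest.Agent.R131.Star
import Crest.Agent.R131.Defs

set_option autoImplicit false
open MeasureTheory Set Metric Filter Topology
open scoped ENNReal ComplexConjugate

namespace Crest.Agent.R131

theorem sJ_eq_Jac (f : ℂ → ℂ) (c : ℝ) : sJ f c = Jac c f := by
  funext z
  simp only [sJ, Jac, JJ, sX, XX, dd, mul_div_assoc]

/-- STAR' in the form of `Defs` (sets `Sad`, `Mi`). -/
theorem star_defs {f : ℂ → ℂ} (hN : Nice f) {c : ℝ} (hc : -1 < c) (Φ₁ Φ₂ : ℂ → ℝ≥0∞)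
    (h₁ : Measurable Φ₁) (h₂ : Measurable Φ₂)
    (hpair : ∀ s ∈ Sad c f, ∀ m ∈ Mi c f, FF c f s = FF c f m →
      GG c f (FF c f s) m ≤ GG c f (FF c f s) s →
      (∃ C : Set ℂ, IsPreconnected C ∧ s ∈ C ∧ m ∈ C ∧
        C ⊆ {z | z ∈ ball (0 : ℂ) 1 ∧ GG c f (FF c f s) z ≤ GG c f (FF c f s) s}) →
      Φ₁ s ≤ Φ₂ m) :
    ∫⁻ z in Sad c f, ENNReal.ofReal (Jac c f z) * Φ₁ z ≤
      ∫⁻ z in Mi c f, ENNReal.ofReal (-Jac c f z) * Φ₂ z := by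
  obtain ⟨R, hR, hf, hinj⟩ := hN
  have hpos : ∀ z ∈ ball (0 : ℂ) 1, z ≠ 0 →
      0 < ‖deriv f z‖ ^ 2 / ((1 + c) ^ 2 * ‖z‖ ^ 4) := by
    intro z hz h0
    have h1 := Lib.Complex.deriv_ne_zero_of_injOn isOpen_ball hf hinj (ball_subset_ball hR.le hz)
    have h2 : 0 < 1 + c := by linarith
    positivity
  have hJ : ∀ z, Jac c f z = ‖deriv f z‖ ^ 2 / ((1 + c) ^ 2 * ‖z‖ ^ 4) * JJ c f z := by
    intro z; unfold Jac; ring
  have h0 : Jac c f 0 = 0 := by simp [Jac]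
  have e1 : Sad c f = {z | z ∈ ball (0 : ℂ) 1 ∧ 0 < Jac c f z} := by
    ext z
    constructor
    · rintro ⟨⟨h1, h2⟩, h3⟩
      exact ⟨h1, by rw [hJ]; exact mul_pos (hpos z h1 h2) h3⟩
    · rintro ⟨h1, h2⟩
      have h3 : z ≠ 0 := by rintro rfl; simp [h0] at h2
      rw [hJ] at h2
      exact ⟨⟨h1, h3⟩, (mul_pos_iff_of_pos_left (hpos z h1 h3)).1 h2⟩
  have e2 : Mi c f = {z | z ∈ ball (0 : ℂ) 1 ∧ Jac c f z < 0} := by
    ext z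
    constructor
    · rintro ⟨⟨h1, h2⟩, h3⟩
      exact ⟨h1, by rw [hJ]; exact mul_neg_of_pos_of_neg (hpos z h1 h2) h3⟩
    · rintro ⟨h1, h2⟩
      have h3 : z ≠ 0 := by rintro rfl; simp [h0] at h2
      rw [hJ] at h2
      exact ⟨⟨h1, h3⟩, by
        by_contra h4
        exact absurd h2 (not_lt.2 (mul_nonneg (hpos z h1 h3).le (not_lt.1 h4)))⟩
  rw [e1, e2] at hpair ⊢
  rw [← sJ_eq_Jac] at hpair ⊢
  refine star' f R hR hf hinj c hc Φ₁ Φ₂ h₁ h₂ ?_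
  intro a s m hs hm hs0 hm0 hFs hFm hJs hJm hG hC
  subst hFs
  exact hpair s ⟨hs, hJs⟩ m ⟨hm, hJm⟩ hFm.symm hG hC

end Crest.Agent.R131
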