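import Mathlib
import Crest.Agent.R131.StrDouble

/-!
# Row 131: `|c|z|² + (1-|z|²) K|² - 1` is not small on a hyperbolic ball (helper79)
-/

set_option autoImplicit false

open Set Metric Filter Topology

namespace Crest.Agent.R131

/-- the one-dimensional second derivative test at a local minimum -/
theorem sd_test {φ φ' : ℝ → ℝ} {q : ℝ} (hm : IsLocalMin φ 0)
    (h1 : ∀ᶠ t in 𝓝 (0 : ℝ), HasDerivAt φ (φ' t) t) (h2 : HasDerivAt φ' q 0) :
    φ' 0 = 0 ∧ 0 ≤ q := by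
  have h0 : φ' 0 = 0 := hm.hasDerivAt_eq_zero h1.self_of_nhds
  refine ⟨h0, ?_⟩
  by_contra hq
  push Not at hq
  have h3 := (hasDerivAt_iff_tendsto_slope_zero.1 h2).eventually (gt_mem_nhds hq)
  rw [eventually_nhdsWithin_iff] at h3
  obtain ⟨δ, hδ, hb⟩ := Metric.eventually_nhds_iff.1 (h3.and (h1.and hm))
  have hmem : ∀ t ∈ Icc (0 : ℝ) (δ / 2), dist t 0 < δ := fun t ht => by
    rw [Real.dist_eq, sub_zero, abs_of_nonneg ht.1]; linarith [ht.2]
  obtain ⟨c, hc, hc'⟩ := exists_hasDerivAt_eq_slope φ φ' (by linarith : (0 : ℝ) < δ / 2)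
    (fun t ht => (hb (hmem t ht)).2.1.continuousAt.continuousWithinAt)
    (fun t ht => (hb (hmem t (Ioo_subset_Icc_self ht))).2.1)
  have e1 := (hb (hmem c (Ioo_subset_Icc_self hc))).1 hc.1.ne'
  have e2 := (hb (hmem (δ / 2) ⟨by linarith, le_rfl⟩)).2.2
  simp only [zero_add, h0, sub_zero, smul_eq_mul] at e1
  have e3 : 0 ≤ φ' c := by
    rw [hc']; exact div_nonneg (by linarith) (by linarith)
  have := mul_nonneg (inv_pos.2 hc.1).le e3
  linarith

theorem alg_ineq (P s d c y1 R g B : ℝ) (hd : d = 1 - s) (hd0 : 0 ≤ d) (hs0 : 0 ≤ s)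
    (hc0 : 0 ≤ c) (hc : c ≤ 3 / 4) (hP1 : 9 / 10 ≤ P) (hP2 : P ≤ 11 / 10) (hy : y1 ^ 2 ≤ P)
    (hB : B ≤ 1 / 25) (hg0 : 0 ≤ g) (hg : g ≤ (1 / 400) ^ 2) (hR : R ^ 2 ≤ g * s * P)
    (h : 0 ≤ 2 * (-2 * d * P * (P - c * y1) - 2 * s * P * (P - c ^ 2) - 2 * c * R + g) +
      P * (2 * B)) : False := by
  have hs1 : s ≤ 1 := by linarith
  have hR2 : R ^ 2 ≤ (1 / 300) ^ 2 := by
    have a0 : g * s ≤ g * 1 := mul_le_mul_of_nonneg_left hs1 hg0
    have a1 : g * s ≤ (1 / 400) ^ 2 := by linarith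
    have a2 : g * s * P ≤ (1 / 400) ^ 2 * (11 / 10) :=
      mul_le_mul a1 hP2 (by linarith) (by norm_num)
    linarith
  have hR3 : -(1 / 300) ≤ R := (abs_le_of_sq_le_sq' hR2 (by norm_num)).1
  have hy1 : y1 ≤ 21 / 20 :=
    (abs_le_of_sq_le_sq' (a := y1) (b := 21 / 20) (by linarith) (by norm_num)).2
  have b0 : c * y1 ≤ c * (21 / 20) := mul_le_mul_of_nonneg_left hy1 hc0
  have b1 : 1 / 10 ≤ P - c * y1 := by linarith
  have b2' : c ^ 2 ≤ (3 / 4) ^ 2 := pow_le_pow_left₀ hc0 hc 2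
  have b2 : 1 / 10 ≤ P - c ^ 2 := by linarith
  have b3 : 9 / 10 * (1 / 10) ≤ P * (P - c * y1) := mul_le_mul hP1 b1 (by norm_num) (by linarith)
  have b4 : 9 / 10 * (1 / 10) ≤ P * (P - c ^ 2) := mul_le_mul hP1 b2 (by norm_num) (by linarith)
  have b5 := mul_le_mul_of_nonneg_left b3 hd0
  have b6 := mul_le_mul_of_nonneg_left b4 hs0
  have b7 : c * (-(1 / 300)) ≤ c * R := mul_le_mul_of_nonneg_left hR3 hc0
  have b8 : P * B ≤ P * (1 / 25) := mul_le_mul_of_nonneg_left hB (by linarith)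
  linarith

/-- the algebraic core -/
theorem alg_core (x w y1 y2 k1 k2 c d B G1 G2 : ℝ) (hd : d = 1 - x ^ 2 - w ^ 2) (hd0 : 0 ≤ d)
    (hc0 : 0 ≤ c) (hc : c ≤ 3 / 4) (hP1 : 9 / 10 ≤ y1 ^ 2 + y2 ^ 2)
    (hP2 : y1 ^ 2 + y2 ^ 2 ≤ 11 / 10) (hB : B ≤ 1 / 25)
    (hG1 : G1 = y1 * (-2 * x * (y1 - c) + k1) + y2 * (-2 * x * y2 + k2))
    (hG2 : G2 = y1 * (-2 * w * (y1 - c) - k2) + y2 * (-2 * w * y2 + k1))
    (hG : G1 ^ 2 + G2 ^ 2 ≤ (1 / 400) ^ 2)
    (h : 0 ≤ y1 * (-4 * d * (y1 - c) - 4 * (x * k1 - w * k2)) +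
      y2 * (-4 * d * y2 - 4 * (x * k2 + w * k1)) +
      ((-2 * x * (y1 - c) + k1) ^ 2 + (-2 * x * y2 + k2) ^ 2) +
      ((-2 * w * (y1 - c) - k2) ^ 2 + (-2 * w * y2 + k1) ^ 2) + 2 * B) : False := by
  refine alg_ineq (y1 ^ 2 + y2 ^ 2) (x ^ 2 + w ^ 2) d c y1
    ((G1 * x + G2 * w) * y1 + (G1 * w - G2 * x) * y2) (G1 ^ 2 + G2 ^ 2) B (by linarith) hd0
    (by positivity) hc0 hc hP1 hP2 (le_add_of_nonneg_right (sq_nonneg _)) hB (by positivity)
    hG ?_ ?_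
  · have : (G1 ^ 2 + G2 ^ 2) * (x ^ 2 + w ^ 2) * (y1 ^ 2 + y2 ^ 2) =
        ((G1 * x + G2 * w) * y1 + (G1 * w - G2 * x) * y2) ^ 2 +
          ((G1 * x + G2 * w) * y2 - (G1 * w - G2 * x) * y1) ^ 2 := by ring
    rw [this]; exact le_add_of_nonneg_right (sq_nonneg _)
  · have h' := mul_nonneg (by positivity : (0 : ℝ) ≤ y1 ^ 2 + y2 ^ 2) h
    refine h'.trans_eq ?_
    rw [hG1, hG2]; ring

/-- the test along one line -/
theorem line_test (k : ℂ → ℂ) (hk : DifferentiableOn ℂ k (ball 0 1)) (c A : ℝ) (z z0 u : ℂ)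
    (hz : z ∈ ball (0 : ℂ) 1)
    (hm : IsLocalMin (fun p : ℂ => Complex.normSq (c + (1 - Complex.normSq p : ℝ) * k p) +
      A * Complex.normSq (p - z0)) z) :
    let d : ℂ := 1 - (z.re ^ 2 + z.im ^ 2)
    let Y := c + d * k z
    let Y1 := -2 * (z.re * u.re + z.im * u.im) * k z + d * (deriv k z * u)
    let Y2 := -2 * (u.re ^ 2 + u.im ^ 2) * k z -
      4 * (z.re * u.re + z.im * u.im) * (deriv k z * u) + d * (deriv (deriv k) z * u ^ 2)
    Y.re * Y1.re + Y.im * Y1.im + A * ((z - z0).re * u.re + (z - z0).im * u.im) = 0 ∧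
      0 ≤ Y.re * Y2.re + Y.im * Y2.im + (Y1.re ^ 2 + Y1.im ^ 2) + A * (u.re ^ 2 + u.im ^ 2) := by
  intro d Y Y1 Y2
  have hka : AnalyticOnNhd ℂ k (ball 0 1) := hk.analyticOnNhd isOpen_ball
  have hk1 : AnalyticOnNhd ℂ (deriv k) (ball 0 1) := hka.deriv
  set y : ℂ → ℂ := fun τ => c + (1 - ((z.re + τ * u.re) ^ 2 + (z.im + τ * u.im) ^ 2)) *
    k (z + τ * u) with hy
  set y1 : ℂ → ℂ := fun τ => -2 * ((z.re + τ * u.re) * u.re + (z.im + τ * u.im) * u.im) *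
    k (z + τ * u) + (1 - ((z.re + τ * u.re) ^ 2 + (z.im + τ * u.im) ^ 2)) *
      (deriv k (z + τ * u) * u) with hy1
  have hl : ∀ τ : ℂ, HasDerivAt (fun τ : ℂ => z + τ * u) u τ := fun τ => by
    simpa using ((hasDerivAt_id τ).mul_const u).const_add z
  have ha : ∀ (a b τ : ℂ), HasDerivAt (fun τ : ℂ => a + τ * b) b τ := fun a b τ => by
    simpa using ((hasDerivAt_id τ).mul_const b).const_add a
  have hD : ∀ τ : ℂ, HasDerivAt
      (fun τ : ℂ => 1 - ((z.re + τ * u.re) ^ 2 + (z.im + τ * u.im) ^ 2))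
      (-2 * ((z.re + τ * u.re) * u.re + (z.im + τ * u.im) * u.im)) τ := fun τ => by
    have := (((ha z.re u.re τ).fun_pow 2).fun_add ((ha z.im u.im τ).fun_pow 2)).const_sub 1
    refine this.congr_deriv ?_
    push_cast; ring
  have d1 : ∀ τ : ℂ, z + τ * u ∈ ball (0 : ℂ) 1 → HasDerivAt y (y1 τ) τ := fun τ hτ => by
    have e1 : HasDerivAt (fun τ : ℂ => k (z + τ * u)) (deriv k (z + τ * u) * u) τ :=
      (hka _ hτ).differentiableAt.hasDerivAt.comp τ (hl τ)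
    exact ((hD τ).fun_mul e1).const_add (c : ℂ)
  have d2 : HasDerivAt y1 Y2 0 := by
    have hz' : z + 0 * u ∈ ball (0 : ℂ) 1 := by simpa using hz
    have e1 : HasDerivAt (fun τ : ℂ => k (z + τ * u)) (deriv k (z + 0 * u) * u) 0 :=
      (hka _ hz').differentiableAt.hasDerivAt.comp 0 (hl 0)
    have e2 : HasDerivAt (fun τ : ℂ => deriv k (z + τ * u))
        (deriv (deriv k) (z + 0 * u) * u) 0 :=
      HasDerivAt.comp (h₂ := deriv k) (h := fun τ : ℂ => z + τ * u) 0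
        (hk1 _ hz').differentiableAt.hasDerivAt (hl 0)
    have e3 := ((((ha z.re u.re 0).mul_const (u.re : ℂ)).fun_add
      ((ha z.im u.im 0).mul_const (u.im : ℂ))).const_mul (-2 : ℂ))
    have := (e3.fun_mul e1).fun_add ((hD 0).fun_mul (e2.mul_const u))
    refine this.congr_deriv ?_
    simp only [Y2, d, zero_mul, add_zero]
    ring
  have hev : ∀ᶠ t : ℝ in 𝓝 0, z + (t : ℂ) * u ∈ ball (0 : ℂ) 1 := by
    have : Continuous fun t : ℝ => z + (t : ℂ) * u := by fun_prop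
    exact this.continuousAt.eventually_mem (by simpa using isOpen_ball.mem_nhds hz)
  have hc : ContinuousAt (fun t : ℝ => z + (t : ℂ) * u) 0 := by fun_prop
  have hm' : IsLocalMin (fun t : ℝ => (y t).re ^ 2 + (y t).im ^ 2 +
      A * (((z - z0).re + t * u.re) ^ 2 + ((z - z0).im + t * u.im) ^ 2)) 0 := by
    have h0 : IsLocalMin (fun p : ℂ => Complex.normSq (c + (1 - Complex.normSq p : ℝ) * k p) +
        A * Complex.normSq (p - z0)) ((fun t : ℝ => z + (t : ℂ) * u) 0) := by simpa using hm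
    have := IsLocalMin.comp_continuous (g := fun t : ℝ => z + (t : ℂ) * u) h0 hc
    refine this.congr (Eventually.of_forall fun t => ?_)
    have e : (((1 - Complex.normSq (z + (t : ℂ) * u) : ℝ)) : ℂ) =
        1 - ((z.re + (t : ℂ) * u.re) ^ 2 + (z.im + (t : ℂ) * u.im) ^ 2) := by
      rw [Complex.normSq_apply]
      simp only [Complex.add_re, Complex.add_im, Complex.re_ofReal_mul, Complex.im_ofReal_mul]
      push_cast; ring
    simp only [Function.comp, hy, e]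
    rw [Complex.normSq_apply, Complex.normSq_apply (z + (t : ℂ) * u - z0)]
    simp only [Complex.sub_re, Complex.sub_im, Complex.add_re (z) (_), Complex.add_im z _,
      Complex.re_ofReal_mul, Complex.im_ofReal_mul]
    ring
  have hre : ∀ {e : ℂ → ℂ} {e' : ℂ} {t : ℝ}, HasDerivAt e e' t →
      HasDerivAt (fun s : ℝ => (e s).re) e'.re t := fun h =>
    Complex.reCLM.hasFDerivAt.comp_hasDerivAt _ h.comp_ofReal
  have him : ∀ {e : ℂ → ℂ} {e' : ℂ} {t : ℝ}, HasDerivAt e e' t →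
      HasDerivAt (fun s : ℝ => (e s).im) e'.im t := fun h =>
    Complex.imCLM.hasFDerivAt.comp_hasDerivAt _ h.comp_ofReal
  have hr : ∀ (a b t : ℝ), HasDerivAt (fun t : ℝ => a + t * b) b t := fun a b t => by
    simpa using ((hasDerivAt_id t).mul_const b).const_add a
  have y0 : y ((0 : ℝ) : ℂ) = Y := by simp [hy, Y, d]
  have y10 : y1 ((0 : ℝ) : ℂ) = Y1 := by simp [hy1, Y1, d]
  have t1 : ∀ᶠ t : ℝ in 𝓝 0, HasDerivAt (fun t : ℝ => (y t).re ^ 2 + (y t).im ^ 2 +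
      A * (((z - z0).re + t * u.re) ^ 2 + ((z - z0).im + t * u.im) ^ 2))
      (2 * ((y t).re * (y1 t).re + (y t).im * (y1 t).im +
        A * (((z - z0).re + t * u.re) * u.re + ((z - z0).im + t * u.im) * u.im))) t := by
    filter_upwards [hev] with t ht
    have := (((hre (d1 t ht)).fun_pow 2).fun_add ((him (d1 t ht)).fun_pow 2)).fun_add
      ((((hr (z - z0).re u.re t).fun_pow 2).fun_add
        ((hr (z - z0).im u.im t).fun_pow 2)).const_mul A)
    refine this.congr_deriv ?_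
    push_cast; ring
  have d10 : HasDerivAt y (y1 ((0 : ℝ) : ℂ)) ((0 : ℝ) : ℂ) := d1 _ (by simpa using hz)
  have d20 : HasDerivAt y1 Y2 ((0 : ℝ) : ℂ) := by simpa using d2
  have t2 : HasDerivAt (fun t : ℝ => 2 * ((y t).re * (y1 t).re + (y t).im * (y1 t).im +
        A * (((z - z0).re + t * u.re) * u.re + ((z - z0).im + t * u.im) * u.im)))
      (2 * (Y.re * Y2.re + Y.im * Y2.im + (Y1.re ^ 2 + Y1.im ^ 2) +
        A * (u.re ^ 2 + u.im ^ 2))) 0 := by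
    have := ((((hre d10).fun_mul (hre d20)).fun_add ((him d10).fun_mul (him d20))).fun_add
      ((((hr (z - z0).re u.re 0).mul_const u.re).fun_add
        ((hr (z - z0).im u.im 0).mul_const u.im)).const_mul A)).const_mul 2
    refine this.congr_deriv ?_
    rw [y0, y10]; ring
  obtain ⟨r1, r2⟩ := sd_test hm' t1 t2
  rw [y0, y10] at r1
  constructor
  · simp only [zero_mul, add_zero] at r1; linarith
  · linarith

/-- **Ball lemma**. -/
theorem ball_lemma (K : ℂ → ℂ) (hK : DifferentiableOn ℂ K (ball 0 1)) (c : ℝ) (hc0 : 0 ≤ c)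
    (hc : c ≤ 3 / 4) (ρ : ℝ) (hρ0 : 0 < ρ) (hρ : ρ ≤ 1 / 8) (z0 : ℂ) (hz0 : z0 ∈ ball (0 : ℂ) 1) :
    ∃ z : ℂ, ‖z - z0‖ ≤ ρ * (1 - ‖z0‖ ^ 2) ∧ ‖z‖ < 1 ∧
      ρ ^ 2 / 300 ≤ |‖(c : ℂ) * (‖z‖ : ℂ) ^ 2 + (1 - (‖z‖ : ℂ) ^ 2) * K z‖ ^ 2 - 1| := by
  by_contra hcon
  push Not at hcon
  have h0 : ‖z0‖ < 1 := by simpa using hz0
  have hd0 : 0 < 1 - ‖z0‖ ^ 2 := by nlinarith [norm_nonneg z0]
  set d0 := 1 - ‖z0‖ ^ 2 with hd0e
  have hin : ∀ z : ℂ, ‖z - z0‖ ≤ ρ * d0 → ‖z‖ < 1 := fun z hz => by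
    have t1 : ‖z‖ ≤ ‖z0‖ + ‖z - z0‖ := by
      have := norm_add_le z0 (z - z0); simpa using this
    nlinarith [norm_nonneg z0]
  set k : ℂ → ℂ := fun z => K z - c with hk
  have hkd : DifferentiableOn ℂ k (ball 0 1) := hK.sub_const _
  set A : ℝ := 1 / (100 * d0 ^ 2) with hA
  have hA0 : 0 < A := by positivity
  set Q : ℂ → ℝ := fun p => Complex.normSq (c + (1 - Complex.normSq p : ℝ) * k p) with hQ
  have hQe : ∀ z : ℂ, Q z = ‖(c : ℂ) * (‖z‖ : ℂ) ^ 2 + (1 - (‖z‖ : ℂ) ^ 2) * K z‖ ^ 2 := by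
    intro z
    simp only [hQ, hk]
    rw [Complex.normSq_eq_norm_sq, Complex.normSq_eq_norm_sq]
    congr 2
    push_cast; ring
  have hQb : ∀ z : ℂ, ‖z - z0‖ ≤ ρ * d0 → |Q z - 1| < ρ ^ 2 / 300 := fun z hz => by
    rw [hQe]; exact hcon z hz (hin z hz)
  have hsub : closedBall z0 (ρ * d0) ⊆ ball (0 : ℂ) 1 := fun z hz => by
    simpa using hin z (by simpa [dist_eq_norm] using hz)
  have hcont : ContinuousOn (fun p => Q p + A * Complex.normSq (p - z0))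
      (closedBall z0 (ρ * d0)) := by
    have := (hkd.continuousOn).mono hsub
    refine ContinuousOn.add (Complex.continuous_normSq.comp_continuousOn ?_) ?_
    · refine continuousOn_const.add (ContinuousOn.mul ?_ this)
      exact (Complex.continuous_ofReal.comp
        (continuous_const.sub Complex.continuous_normSq)).continuousOn
    · exact (continuous_const.mul (Complex.continuous_normSq.comp
        (continuous_id.sub continuous_const))).continuousOn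
  obtain ⟨z, hz, hmin⟩ := (isCompact_closedBall z0 (ρ * d0)).exists_isMinOn
    ⟨z0, mem_closedBall_self (by positivity)⟩ hcont
  have hz' : ‖z - z0‖ ≤ ρ * d0 := by simpa [dist_eq_norm] using hz
  have hlt : ‖z - z0‖ < ρ * d0 := by
    refine lt_of_le_of_ne hz' fun he => ?_
    have a1 := hmin (mem_closedBall_self (by positivity : (0 : ℝ) ≤ ρ * d0))
    simp only [mem_ofPred_eq, sub_self, map_zero, mul_zero, add_zero] at a1
    rw [Complex.normSq_eq_norm_sq (z - z0), he] at a1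
    have a2 : A * (ρ * d0) ^ 2 = ρ ^ 2 / 100 := by rw [hA]; field_simp
    have a3 := abs_lt.1 (hQb z hz')
    have a4 := abs_lt.1 (hQb z0 (by simp; positivity))
    linarith [a3.1, a4.2]
  have hloc : IsLocalMin (fun p => Q p + A * Complex.normSq (p - z0)) z :=
    hmin.isLocalMin (mem_of_superset (isOpen_ball.mem_nhds (by simpa [dist_eq_norm] using hlt))
      ball_subset_closedBall)
  obtain ⟨hz1, -, hd2⟩ := d_compare hρ h0 hlt
  have hzb : z ∈ ball (0 : ℂ) 1 := by simpa using hz1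
  obtain ⟨p1, p2⟩ := line_test k hkd c A z z0 1 hzb hloc
  obtain ⟨q1, q2⟩ := line_test k hkd c A z z0 Complex.I hzb hloc
  have hn : ‖z‖ ^ 2 = z.re ^ 2 + z.im ^ 2 := by
    rw [← Complex.normSq_eq_norm_sq, Complex.normSq_apply]; ring
  have hn0 : ‖z - z0‖ ^ 2 = (z - z0).re ^ 2 + (z - z0).im ^ 2 := by
    rw [← Complex.normSq_eq_norm_sq, Complex.normSq_apply]; ring
  have hQz : Q z = (c + (1 - z.re ^ 2 - z.im ^ 2) * (k z).re) ^ 2 +
      ((1 - z.re ^ 2 - z.im ^ 2) * (k z).im) ^ 2 := by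
    simp only [hQ]
    rw [Complex.normSq_apply, Complex.normSq_apply z]
    simp only [Complex.add_re, Complex.add_im, Complex.re_ofReal_mul, Complex.im_ofReal_mul,
      Complex.ofReal_re, Complex.ofReal_im]
    ring
  have a3 := abs_lt.1 (hQb z hz')
  have hρ2 : ρ ^ 2 ≤ (1 / 8) ^ 2 := pow_le_pow_left₀ hρ0.le hρ 2
  have e1 : (1 - ((z.re : ℂ) ^ 2 + (z.im : ℂ) ^ 2)) = ((1 - z.re ^ 2 - z.im ^ 2 : ℝ) : ℂ) := by
    push_cast; ring
  simp only [e1] at p1 p2 q1 q2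
  generalize deriv (deriv k) z = k2 at p2 q2
  generalize deriv k z = k1 at p1 p2 q1 q2
  generalize k z = k0 at p1 p2 q1 q2 hQz
  have hdn : 0 ≤ 1 - z.re ^ 2 - z.im ^ 2 := by
    have := pow_le_pow_left₀ (norm_nonneg z) hz1.le 2
    linarith
  have hd2' : 1 - z.re ^ 2 - z.im ^ 2 ≤ 2 * d0 := by linarith
  obtain ⟨d, hd⟩ : ∃ d, d = 1 - z.re ^ 2 - z.im ^ 2 := ⟨_, rfl⟩
  rw [← hd] at hdn hd2' p1 p2 q1 q2 hQz
  simp [pow_two] at p1 p2 q1 q2
  have hdd : d ^ 2 ≤ 4 * d0 ^ 2 := by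
    have := pow_le_pow_left₀ hdn hd2' 2
    linarith
  have hAd : A * d ^ 2 ≤ 1 / 25 := by
    rw [hA, div_mul_eq_mul_div, div_le_div_iff₀ (by positivity) (by positivity)]; linarith
  refine alg_core z.re z.im (c + d * k0.re) (d * k0.im) (d ^ 2 * k1.re) (d ^ 2 * k1.im) c d
    (A * d ^ 2) (-(A * d * (z - z0).re)) (-(A * d * (z - z0).im)) hd hdn hc0 hc
    (by linarith [a3.1]) (by linarith [a3.2]) hAd ?_ ?_ ?_ ?_
  · simp only [Complex.sub_re]; linear_combination (-d) * p1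
  · simp only [Complex.sub_im]; linear_combination (-d) * q1
  · have b1 : ‖z - z0‖ ^ 2 ≤ (ρ * d0) ^ 2 := by gcongr
    have b2 : (-(A * d * (z - z0).re)) ^ 2 + (-(A * d * (z - z0).im)) ^ 2 =
        A ^ 2 * d ^ 2 * ‖z - z0‖ ^ 2 := by rw [hn0]; ring
    have b3 : A ^ 2 * (4 * d0 ^ 2) * (ρ * d0) ^ 2 = ρ ^ 2 / 2500 := by
      rw [hA]; field_simp; ring
    have b4 : A ^ 2 * d ^ 2 * ‖z - z0‖ ^ 2 ≤ A ^ 2 * (4 * d0 ^ 2) * (ρ * d0) ^ 2 := by gcongr
    rw [b2]; linarith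
  · have := mul_nonneg (sq_nonneg d) (add_nonneg p2 q2)
    refine this.trans_eq ?_
    ring

end Crest.Agent.R131
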