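import Crest.Agent.R131.StrictIBPa

/-!
# Row 131: the modulus of `c |z|² + (1 - |z|²) k` cannot be close to one on average (helper71)
-/

set_option autoImplicit false

open MeasureTheory Set Metric
open scoped ComplexConjugate

noncomputable section

namespace Crest.Agent.R131.IBP

/-- the combination of three exact derivatives -/
def ee (c b s x xb w wb : ℂ) : ℂ :=
  let d := 1 - s
  let P := c * s + x
  let Pb := c * s + xb
  let DP := c * (d * s) + (-s * x + w)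
  let EP := c * (d * s) + (-s * x)
  let DPb := c * (d * s) + (-s * xb)
  let EPb := c * (d * s) + (-s * xb + wb)
  let Φ := P * Pb - 1
  let DΦ := DP * Pb + P * DPb
  let EΦ := EP * Pb + P * EPb
  let q := c * (-(d * s) * s + d * (d * s))
  let EDP := q - (d * s * x + s * (-s * x)) - 2 * s * w
  let EDPb := q - (d * s * xb + s * (-s * xb + wb))
  let EDΦ := EDP * Pb + DP * EPb + EP * DPb + P * EDPb
  let β := b * s - d / 2 + x / 2
  let βb := b * s - d / 2 + xb / 2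
  let A1 := Pb * P * DΦ
  let EA1 := EPb * P * DΦ + Pb * EP * DΦ + Pb * P * EDΦ
  let B1 := P * (βb * Pb - EPb + 2 * Pb)
  let Dβb := b * (d * s) + d * s / 2 + (-s * xb) / 2
  let DEPb := q - (d * s * xb + s * (-s * xb)) - 2 * s * wb
  let DB1 := DP * (βb * Pb - EPb + 2 * Pb) + P * (Dβb * Pb + βb * DPb - DEPb + 2 * DPb)
  let A2 := Φ * B1
  let DA2 := DΦ * B1 + Φ * DB1
  let B2 := Pb * (w - x - P)
  let EB2 := EPb * (w - x - P) + Pb * (-2 * s * w + s * x - EP)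
  let A3 := Φ * B2
  let EA3 := EΦ * B2 + Φ * EB2;
  -(EA1 - βb * A1) - (DA2 - β * A2) + (EA3 - βb * A3)

theorem ee_bdry (c b x xb w wb : ℂ) (h : (c + x) * (c + xb) = 1) :
    ee c b 1 x xb w wb = 2 * (1 - c ^ 2) := by
  have hP : c + x ≠ 0 := fun h0 => by simp [h0] at h
  obtain ⟨P, rfl⟩ : ∃ P, x = P - c := ⟨c + x, by ring⟩
  have hP' : P ≠ 0 := by simpa using hP
  have : xb = P⁻¹ - c := by
    have h2 : P * (c + xb) = 1 := by linear_combination h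
    field_simp
    linear_combination h2
  subst this
  simp only [ee]
  field_simp
  ring

theorem compact_lin {X : Type} [TopologicalSpace X] {S : Set X} (hS : IsCompact S) {F h : X → ℝ}
    (hF : Continuous F) (hh : Continuous h) (h0 : ∀ p ∈ S, 0 ≤ h p)
    (h1 : ∀ p ∈ S, h p = 0 → 1 < F p) : ∃ C : ℝ, 0 ≤ C ∧ ∀ p ∈ S, 1 ≤ F p + C * h p := by
  obtain ⟨B, hB⟩ := hS.exists_bound_of_continuousOn hF.continuousOn
  have hT : IsCompact (S ∩ {p | F p ≤ 1}) := hS.inter_right (isClosed_le hF continuous_const)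
  rcases (S ∩ {p | F p ≤ 1}).eq_empty_or_nonempty with he | hne
  · refine ⟨0, le_rfl, fun p hp => ?_⟩
    by_contra hlt
    have : p ∈ S ∩ {p | F p ≤ 1} := ⟨hp, by show F p ≤ 1; linarith⟩
    rw [he] at this; exact this
  · obtain ⟨p0, hp0, hmin⟩ := hT.exists_isMinOn hne hh.continuousOn
    have hpos : 0 < h p0 := lt_of_le_of_ne (h0 _ hp0.1) fun e =>
      absurd (h1 _ hp0.1 e.symm) (not_lt.2 hp0.2)
    have hB0 : 0 ≤ B := (norm_nonneg _).trans (hB _ hp0.1)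
    refine ⟨(1 + B) / h p0, by positivity, fun p hp => ?_⟩
    by_cases hle : F p ≤ 1
    · have h2 : h p0 ≤ h p := hmin ⟨hp, hle⟩
      have h3 : (1 + B) / h p0 * h p0 ≤ (1 + B) / h p0 * h p :=
        mul_le_mul_of_nonneg_left h2 (by positivity)
      rw [div_mul_cancel₀ _ hpos.ne'] at h3
      have h4 := (abs_le.1 (hB p hp)).1
      linarith
    · have : 0 ≤ (1 + B) / h p0 * h p := mul_nonneg (by positivity) (h0 p hp)
      linarith [not_le.1 hle]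

theorem ee_lower (M : ℝ) : ∃ C : ℝ, 0 ≤ C ∧ ∀ (c b s : ℝ) (x w : ℂ), c ∈ Icc (0 : ℝ) (1 / 2) →
    b ∈ Icc (0 : ℝ) 1 → s ∈ Icc (0 : ℝ) 1 → ‖x‖ ≤ M → ‖w‖ ≤ M →
      1 ≤ (ee c b s x (conj x) w (conj w)).re + C * (|‖(c : ℂ) * s + x‖ ^ 2 - 1| + (1 - s)) := by
  have hcj : Continuous fun z : ℂ => conj z := Complex.continuous_conj
  obtain ⟨C, hC, h⟩ := compact_lin (X := ℝ × ℝ × ℝ × ℂ × ℂ)
    (S := Icc (0 : ℝ) (1 / 2) ×ˢ Icc (0 : ℝ) 1 ×ˢ Icc (0 : ℝ) 1 ×ˢ closedBall (0 : ℂ) M ×ˢ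
      closedBall (0 : ℂ) M)
    (isCompact_Icc.prod (isCompact_Icc.prod (isCompact_Icc.prod
      ((isCompact_closedBall _ _).prod (isCompact_closedBall _ _)))))
    (F := fun p => (ee p.1 p.2.1 p.2.2.1 p.2.2.2.1 (conj p.2.2.2.1) p.2.2.2.2 (conj p.2.2.2.2)).re)
    (h := fun p => |‖(p.1 : ℂ) * p.2.2.1 + p.2.2.2.1‖ ^ 2 - 1| + (1 - p.2.2.1))
    (by
      have h0 : Continuous fun p : ℂ × ℂ × ℂ × ℂ × ℂ × ℂ × ℂ =>
          ee p.1 p.2.1 p.2.2.1 p.2.2.2.1 p.2.2.2.2.1 p.2.2.2.2.2.1 p.2.2.2.2.2.2 := by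
        simp only [ee]; fun_prop
      exact Complex.continuous_re.comp (h0.comp (f := fun p : ℝ × ℝ × ℝ × ℂ × ℂ =>
        ((p.1 : ℂ), (p.2.1 : ℂ), (p.2.2.1 : ℂ), p.2.2.2.1, conj p.2.2.2.1, p.2.2.2.2,
          conj p.2.2.2.2)) (by fun_prop)))
    (by fun_prop)
    (fun p hp => add_nonneg (abs_nonneg _) (by linarith [hp.2.2.1.2]))
    (by
      rintro ⟨c, b, s, x, w⟩ ⟨hc, -, hs, -⟩ h0
      simp only at h0 hc hs ⊢
      have h1 : s = 1 := by linarith [abs_nonneg (‖(c : ℂ) * s + x‖ ^ 2 - 1), hs.2]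
      subst h1
      have h2 : ‖(c : ℂ) + x‖ ^ 2 = 1 := by
        have : |‖(c : ℂ) * (1 : ℝ) + x‖ ^ 2 - 1| = 0 := by linarith
        rw [abs_eq_zero] at this
        simpa [sub_eq_zero] using this
      have h3 : ((c : ℂ) + x) * (c + conj x) = 1 := by
        have h4 := Complex.mul_conj ((c : ℂ) + x)
        rw [Complex.normSq_eq_norm_sq, h2, map_add, Complex.conj_ofReal] at h4
        simpa using h4
      rw [Complex.ofReal_one, ee_bdry _ _ _ _ _ _ h3]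
      have h5 : (2 * (1 - (c : ℂ) ^ 2)) = ((2 * (1 - c ^ 2) : ℝ) : ℂ) := by push_cast; ring
      rw [h5, Complex.ofReal_re]
      nlinarith [hc.1, hc.2])
  exact ⟨C, hC, fun c b s x w hc hb hs hx hw =>
    h (c, b, s, x, w) ⟨hc, hb, hs, by simpa using hx, by simpa using hw⟩⟩

/-- `|z|²` -/
def ss (z : ℂ) : ℂ := z * conj z
/-- the scaled logarithmic derivative -/
def xx (k : ℂ → ℂ) (z : ℂ) : ℂ := (1 - ss z) * k z
/-- its scaled derivative -/
def ww (k : ℂ → ℂ) (z : ℂ) : ℂ := (1 - ss z) ^ 2 * z * deriv k z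

theorem conj_ss (z : ℂ) : conj (ss z) = ss z := by simp [ss, mul_comm]

theorem van_ee {b : ℝ} (hb : 0 < b) (hb1 : b ≤ 1) (c : ℂ) {g k : ℂ → ℂ}
    (hg : AnalyticOnNhd ℂ g (closedBall 0 1)) (hk : AnalyticOnNhd ℂ k (closedBall 0 1))
    (hgk : ∀ z ∈ closedBall (0 : ℂ) 1, z * deriv g z = -(1 / 2) * k z * g z) :
    Van b (fun z => ee c b (ss z) (xx k z) (conj (xx k z)) (ww k z) (conj (ww k z)) *
      (g z * conj (g z))) := by
  have kz : K (fun z => z) (fun z => (1 - ss z) * z) (fun _ => 0) :=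
    (K.holo (g := fun z => z) analyticOnNhd_id).congr (fun z _ => by simp [ss]) fun _ _ => rfl
  have kS : K ss (fun z => (1 - ss z) * ss z) (fun z => (1 - ss z) * ss z) :=
    (kz.mul kz.cj).congr (fun z _ => by simp only [ss, map_zero]; ring)
      (fun z _ => by simp only [map_mul, map_sub, map_one, conj_ss]; simp only [ss]; ring)
  have kd := (K.const 1).sub kS
  have kx : K (xx k) (fun z => -ss z * xx k z + ww k z) (fun z => -ss z * xx k z) :=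
    (kd.mul (K.holo hk)).congr (fun z _ => by simp only [xx, ww, ss]; ring)
      (fun z _ => by simp only [xx]; ring)
  have kxb : K (fun z => conj (xx k z)) (fun z => -ss z * conj (xx k z))
      (fun z => -ss z * conj (xx k z) + conj (ww k z)) :=
    kx.cj.congr (fun z _ => by simp only [map_mul, map_neg, conj_ss])
      (fun z _ => by simp only [map_mul, map_neg, map_add, conj_ss])
  obtain ⟨u, kw⟩ : ∃ u, K (ww k) u (fun z => -2 * ss z * ww k z) := by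
    have h1 := ((kd.mul kd).mul kz).mul (K.holo hk.deriv)
    have h2 : ww k = fun z => (1 - ss z) * (1 - ss z) * z * deriv k z := by
      funext z; simp only [ww]; ring
    rw [h2]
    exact ⟨_, h1.congr (fun _ _ => rfl) (fun z _ => by ring)⟩
  have kwb : K (fun z => conj (ww k z)) (fun z => -2 * ss z * conj (ww k z))
      (fun z => conj (u z)) :=
    kw.cj.congr (fun z _ => by simp only [map_mul, map_neg, conj_ss, map_ofNat]) fun _ _ => rfl
  have kg : K g (fun z => -(xx k z / 2) * g z) (fun _ => 0) :=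
    (K.holo hg).congr (fun z hz => by
      simp only [xx, ss]; linear_combination (-(1 - z * conj z)) * hgk z hz) fun _ _ => rfl
  have kG : K (fun z => g z * conj (g z)) (fun z => -(xx k z / 2) * (g z * conj (g z)))
      (fun z => -(conj (xx k z) / 2) * (g z * conj (g z))) :=
    (kg.mul kg.cj).congr (fun z _ => by simp only [map_zero]; ring)
      (fun z _ => by simp only [map_mul, map_neg, map_div₀, map_ofNat]; ring)
  have kP := ((K.const c).mul kS).add kx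
  have kPb := ((K.const c).mul kS).add kxb
  have kcds := (K.const c).mul (kd.mul kS)
  have kDP := kcds.add ((((K.const 0).sub kS).mul kx).add kw)
  have kDPb := kcds.add (((K.const 0).sub kS).mul kxb)
  have kEPb := kcds.add ((((K.const 0).sub kS).mul kxb).add kwb)
  have kΦ := (kP.mul kPb).sub (K.const 1)
  have kDΦ := (kDP.mul kPb).add (kP.mul kDPb)
  have kβb := ((((K.const (b : ℂ)).mul kS).sub (kd.mul (K.const (1 / 2)))).add
    (kxb.mul (K.const (1 / 2))))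
  have v1 := ((((kPb.mul kP).mul kDΦ).mul kG).van hb hb1).2
  have v2 := (((kΦ.mul (kP.mul (((kβb.mul kPb).sub kEPb).add ((K.const 2).mul kPb)))).mul
    kG).van hb hb1).1
  have v3 := (((kΦ.mul (kPb.mul ((kw.sub kx).sub kP))).mul kG).van hb hb1).2
  refine (Van.lin hb hb1 (Van.lin hb hb1 v1 v2 (-1) (-1)) v3 1 1).congr fun z _ => ?_
  have hs : z * conj z = ss z := rfl
  simp only [ee, hs]
  generalize ss z = s
  generalize conj (xx k z) = xb
  generalize conj (ww k z) = wb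
  generalize xx k z = x
  generalize ww k z = w
  generalize g z * conj (g z) = G
  ring

/-- polar form of the nondegeneracy estimate -/
theorem nondeg_polar (M : ℝ) : ∃ C : ℝ, 0 ≤ C ∧ ∀ (c b : ℝ) (g k : ℂ → ℂ),
    c ∈ Icc (0 : ℝ) (1 / 2) → 0 < b → b ≤ 1 → AnalyticOnNhd ℂ g (closedBall 0 1) →
    AnalyticOnNhd ℂ k (closedBall 0 1) →
    (∀ z ∈ closedBall (0 : ℂ) 1, z * deriv g z = -(1 / 2) * k z * g z) →
    (∀ z ∈ ball (0 : ℂ) 1, ‖(((1 - ‖z‖ ^ 2 : ℝ)) : ℂ) * k z‖ ≤ M) →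
    (∀ z ∈ ball (0 : ℂ) 1, ‖(((1 - ‖z‖ ^ 2 : ℝ)) : ℂ) ^ 2 * z * deriv k z‖ ≤ M) →
    ∫ p, (1 - p.1 ^ 2) ^ (b - 1) * ‖g (Z p)‖ ^ 2 ∂mu ≤
      C * ∫ p, (1 - p.1 ^ 2) ^ (b - 1) * ((|‖(c : ℂ) * ((‖Z p‖ ^ 2 : ℝ) : ℂ) +
        ((1 - ‖Z p‖ ^ 2 : ℝ) : ℂ) * k (Z p)‖ ^ 2 - 1| + (1 - ‖Z p‖ ^ 2)) * ‖g (Z p)‖ ^ 2) ∂mu := by
  obtain ⟨C, hC, h⟩ := ee_lower M
  refine ⟨C, hC, fun c b g k hc hb hb1 hg hk hgk hx hw => ?_⟩
  obtain ⟨v1, v2⟩ := van_ee hb hb1 (c : ℂ) hg hk hgk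
  have i1 := int_of_cont hb hb1 v1
  have i2 := int_of_cont hb hb1 (H := fun z => ‖g z‖ ^ 2) (hg.continuousOn.norm.pow 2)
  have i3 := int_of_cont hb hb1 (H := fun z => (|‖(c : ℂ) * ((‖z‖ ^ 2 : ℝ) : ℂ) +
        ((1 - ‖z‖ ^ 2 : ℝ) : ℂ) * k z‖ ^ 2 - 1| + (1 - ‖z‖ ^ 2)) * ‖g z‖ ^ 2) (by
    refine ContinuousOn.mul (ContinuousOn.add (ContinuousOn.abs (ContinuousOn.sub
      (ContinuousOn.pow (ContinuousOn.norm (ContinuousOn.add (Continuous.continuousOn ?_)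
        (ContinuousOn.mul (Continuous.continuousOn ?_) hk.continuousOn))) 2) continuousOn_const))
        (Continuous.continuousOn ?_)) (hg.continuousOn.norm.pow 2) <;> fun_prop)
  have h0 := congrArg Complex.re v2
  unfold II at h0
  have h1 := integral_re i1
  simp only [RCLike.re_to_complex] at h1
  rw [← h1, Complex.zero_re] at h0
  simp only [smul_eq_mul] at i2 i3
  rw [← integral_const_mul, ← zero_add (∫ _p, C * _ ∂mu), ← h0,
    ← integral_add (by simpa only [RCLike.re_to_complex] using i1.re) (i3.const_mul C)]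
  refine integral_mono_ae i2 (Integrable.add (by simpa only [RCLike.re_to_complex] using i1.re)
    (i3.const_mul C)) ?_
  rw [mu_eq]
  refine (ae_restrict_iff' (measurableSet_Ioo.prod measurableSet_Ioo)).2
    (Filter.Eventually.of_forall fun p hp => ?_)
  have hn : ‖Z p‖ = p.1 := by rw [norm_Z, abs_of_pos hp.1.1]
  have hz : Z p ∈ ball (0 : ℂ) 1 := by simpa [hn] using hp.1.2
  have hs : ss (Z p) = ((‖Z p‖ ^ 2 : ℝ) : ℂ) := by
    rw [ss, Complex.mul_conj, Complex.normSq_eq_norm_sq]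
  have hs1 : ‖Z p‖ ^ 2 ≤ 1 := by rw [hn]; nlinarith [hp.1.1, hp.1.2]
  have hx' : xx k (Z p) = ((1 - ‖Z p‖ ^ 2 : ℝ) : ℂ) * k (Z p) := by
    rw [xx, hs]; push_cast; ring
  have hw' : ww k (Z p) = ((1 - ‖Z p‖ ^ 2 : ℝ) : ℂ) ^ 2 * Z p * deriv k (Z p) := by
    rw [ww, hs]; push_cast; ring
  have h2 := h c b (‖Z p‖ ^ 2) (xx k (Z p)) (ww k (Z p)) hc ⟨hb.le, hb1⟩ ⟨by positivity, hs1⟩
    (hx' ▸ hx _ hz) (hw' ▸ hw _ hz)
  have hwt : 0 ≤ (1 - p.1 ^ 2) ^ (b - 1) := Real.rpow_nonneg (by rw [← hn]; linarith) _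
  simp only
  rw [Complex.mul_conj, Complex.normSq_eq_norm_sq, Complex.smul_re, Complex.re_mul_ofReal, hs,
    ← hx', smul_eq_mul]
  have h3 := mul_le_mul_of_nonneg_left h2 (mul_nonneg hwt (sq_nonneg ‖g (Z p)‖))
  linarith

/-- area integrals over the disc in polar coordinates -/
theorem area_polar (b : ℝ) (H : ℂ → ℝ) :
    ∫ z in ball (0 : ℂ) 1, (1 - ‖z‖ ^ 2) ^ (b - 1) / ‖z‖ * H z =
      ∫ p, (1 - p.1 ^ 2) ^ (b - 1) * H (Z p) ∂mu := by
  rw [← integral_indicator measurableSet_ball, ← Complex.integral_comp_polarCoord_symm, mu_eq,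
    polarCoord_target]
  have hS : MeasurableSet (Ioo (0 : ℝ) 1 ×ˢ Ioo (-Real.pi) Real.pi) :=
    measurableSet_Ioo.prod measurableSet_Ioo
  have hZ : ∀ p : ℝ × ℝ, Complex.polarCoord.symm p = Z p := fun p => by
    rw [Complex.polarCoord_symm_apply, Z, Complex.exp_mul_I]; push_cast; ring
  rw [setIntegral_eq_of_subset_of_forall_sdiff_eq_zero
    (measurableSet_Ioi.prod measurableSet_Ioo) (prod_mono Ioo_subset_Ioi_self le_rfl)]
  · refine setIntegral_congr_fun hS fun p hp => ?_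
    have hn : ‖Z p‖ = p.1 := by rw [norm_Z, abs_of_pos hp.1.1]
    have hz : Z p ∈ ball (0 : ℂ) 1 := by simpa [hn] using hp.1.2
    simp only [hZ, indicator_of_mem hz, hn, smul_eq_mul]
    have := hp.1.1.ne'
    field_simp
  · rintro p ⟨hp, hp'⟩
    have hn : ‖Z p‖ = p.1 := by rw [norm_Z, abs_of_pos hp.1]
    have hz : Z p ∉ ball (0 : ℂ) 1 := by
      intro hz
      exact hp' ⟨⟨hp.1, by simpa [hn] using hz⟩, hp.2⟩
    simp only [hZ, indicator_of_notMem hz, smul_zero]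

/-- **Nondegeneracy on average**, area form, weight `W = d^(b-1) |g|² / |z|`. -/
theorem nondeg (M : ℝ) : ∃ C : ℝ, 0 ≤ C ∧ ∀ (c b : ℝ) (g k : ℂ → ℂ),
    c ∈ Icc (0 : ℝ) (1 / 2) → 0 < b → b ≤ 1 → AnalyticOnNhd ℂ g (closedBall 0 1) →
    AnalyticOnNhd ℂ k (closedBall 0 1) →
    (∀ z ∈ closedBall (0 : ℂ) 1, z * deriv g z = -(1 / 2) * k z * g z) →
    (∀ z ∈ ball (0 : ℂ) 1, ‖(((1 - ‖z‖ ^ 2 : ℝ)) : ℂ) * k z‖ ≤ M) →
    (∀ z ∈ ball (0 : ℂ) 1, ‖(((1 - ‖z‖ ^ 2 : ℝ)) : ℂ) ^ 2 * z * deriv k z‖ ≤ M) →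
    ∫ z in ball (0 : ℂ) 1, (1 - ‖z‖ ^ 2) ^ (b - 1) / ‖z‖ * ‖g z‖ ^ 2 ≤
      C * ∫ z in ball (0 : ℂ) 1, (1 - ‖z‖ ^ 2) ^ (b - 1) / ‖z‖ *
        ((|‖(c : ℂ) * ((‖z‖ ^ 2 : ℝ) : ℂ) + ((1 - ‖z‖ ^ 2 : ℝ) : ℂ) * k z‖ ^ 2 - 1| +
          (1 - ‖z‖ ^ 2)) * ‖g z‖ ^ 2) := by
  obtain ⟨C, hC, h⟩ := nondeg_polar M
  refine ⟨C, hC, fun c b g k hc hb hb1 hg hk hgk hx hw => ?_⟩
  rw [area_polar b (fun z => ‖g z‖ ^ 2), area_polar b (fun z =>
    (|‖(c : ℂ) * ((‖z‖ ^ 2 : ℝ) : ℂ) + ((1 - ‖z‖ ^ 2 : ℝ) : ℂ) * k z‖ ^ 2 - 1| +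
      (1 - ‖z‖ ^ 2)) * ‖g z‖ ^ 2)]
  exact h c b g k hc hb hb1 hg hk hgk hx hw

end Crest.Agent.R131.IBP
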