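import Mathlib

/-!
# Row 131: integration by parts on the disc in polar coordinates (helper71)
-/

set_option autoImplicit false

open MeasureTheory Set Metric
open scoped ComplexConjugate

noncomputable section

namespace Crest.Agent.R131.IBP

/-- scaled Wirtinger jets on the closed unit disc -/
def K (A DA EA : ℂ → ℂ) : Prop :=
  ∃ A1 A2 : ℂ → ℂ, ContinuousOn A (closedBall 0 1) ∧ ContinuousOn A1 (closedBall 0 1) ∧
    ContinuousOn A2 (closedBall 0 1) ∧
    (∀ z ∈ closedBall (0 : ℂ) 1, ∀ (γ : ℝ → ℂ) (γ' : ℂ) (t : ℝ), γ t = z → HasDerivAt γ γ' t →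
      HasDerivAt (fun u => A (γ u)) (A1 z * γ' + A2 z * conj γ') t) ∧
    ∀ z ∈ closedBall (0 : ℂ) 1, DA z = (1 - z * conj z) * z * A1 z ∧
      EA z = (1 - z * conj z) * conj z * A2 z

theorem K.congr {A DA EA DA' EA' : ℂ → ℂ} (h : K A DA EA)
    (h1 : ∀ z ∈ closedBall (0 : ℂ) 1, DA' z = DA z)
    (h2 : ∀ z ∈ closedBall (0 : ℂ) 1, EA' z = EA z) : K A DA' EA' := by
  obtain ⟨A1, A2, c0, c1, c2, hd, he⟩ := h
  exact ⟨A1, A2, c0, c1, c2, hd, fun z hz => ⟨(h1 z hz).trans (he z hz).1, (h2 z hz).trans (he z hz).2⟩⟩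

theorem K.const (a : ℂ) : K (fun _ => a) (fun _ => 0) (fun _ => 0) :=
  ⟨fun _ => 0, fun _ => 0, continuousOn_const, continuousOn_const, continuousOn_const,
    fun z _ γ γ' t _ _ => by simpa using hasDerivAt_const t a, fun z _ => by simp⟩

theorem K.add {A DA EA B DB EB : ℂ → ℂ} (h : K A DA EA) (h' : K B DB EB) :
    K (fun z => A z + B z) (fun z => DA z + DB z) (fun z => EA z + EB z) := by
  obtain ⟨A1, A2, c0, c1, c2, hd, he⟩ := h
  obtain ⟨B1, B2, d0, d1, d2, hd', he'⟩ := h'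
  refine ⟨fun z => A1 z + B1 z, fun z => A2 z + B2 z, c0.add d0, c1.add d1, c2.add d2,
    fun z hz γ γ' t h1 h2 => ?_, fun z hz => ?_⟩
  · refine ((hd z hz γ γ' t h1 h2).fun_add (hd' z hz γ γ' t h1 h2)).congr_deriv ?_
    beta_reduce; ring
  · beta_reduce
    rw [(he z hz).1, (he z hz).2, (he' z hz).1, (he' z hz).2]
    constructor <;> ring

theorem K.sub {A DA EA B DB EB : ℂ → ℂ} (h : K A DA EA) (h' : K B DB EB) :
    K (fun z => A z - B z) (fun z => DA z - DB z) (fun z => EA z - EB z) := by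
  obtain ⟨A1, A2, c0, c1, c2, hd, he⟩ := h
  obtain ⟨B1, B2, d0, d1, d2, hd', he'⟩ := h'
  refine ⟨fun z => A1 z - B1 z, fun z => A2 z - B2 z, c0.sub d0, c1.sub d1, c2.sub d2,
    fun z hz γ γ' t h1 h2 => ?_, fun z hz => ?_⟩
  · refine ((hd z hz γ γ' t h1 h2).fun_sub (hd' z hz γ γ' t h1 h2)).congr_deriv ?_
    beta_reduce; ring
  · beta_reduce
    rw [(he z hz).1, (he z hz).2, (he' z hz).1, (he' z hz).2]
    constructor <;> ring

theorem K.mul {A DA EA B DB EB : ℂ → ℂ} (h : K A DA EA) (h' : K B DB EB) :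
    K (fun z => A z * B z) (fun z => DA z * B z + A z * DB z)
      (fun z => EA z * B z + A z * EB z) := by
  obtain ⟨A1, A2, c0, c1, c2, hd, he⟩ := h
  obtain ⟨B1, B2, d0, d1, d2, hd', he'⟩ := h'
  refine ⟨fun z => A1 z * B z + A z * B1 z, fun z => A2 z * B z + A z * B2 z, c0.mul d0,
    (c1.mul d0).add (c0.mul d1), (c2.mul d0).add (c0.mul d2),
    fun z hz γ γ' t h1 h2 => ?_, fun z hz => ?_⟩
  · refine ((hd z hz γ γ' t h1 h2).fun_mul (hd' z hz γ γ' t h1 h2)).congr_deriv ?_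
    beta_reduce; rw [h1]; ring
  · beta_reduce
    rw [(he z hz).1, (he z hz).2, (he' z hz).1, (he' z hz).2]
    constructor <;> ring

theorem K.cj {A DA EA : ℂ → ℂ} (h : K A DA EA) :
    K (fun z => conj (A z)) (fun z => conj (EA z)) (fun z => conj (DA z)) := by
  obtain ⟨A1, A2, c0, c1, c2, hd, he⟩ := h
  refine ⟨fun z => conj (A2 z), fun z => conj (A1 z),
    Complex.continuous_conj.comp_continuousOn c0, Complex.continuous_conj.comp_continuousOn c2,
    Complex.continuous_conj.comp_continuousOn c1,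
    fun z hz γ γ' t h1 h2 => ?_, fun z hz => ?_⟩
  · have := (hd z hz γ γ' t h1 h2).star
    refine HasDerivAt.congr_deriv this ?_
    simp only [RCLike.star_def, map_add, map_mul, Complex.conj_conj]
    ring
  · beta_reduce
    rw [(he z hz).1, (he z hz).2]
    simp only [map_mul, map_sub, map_one, Complex.conj_conj]
    constructor <;> ring

theorem K.holo {g : ℂ → ℂ} (hg : AnalyticOnNhd ℂ g (closedBall 0 1)) :
    K g (fun z => (1 - z * conj z) * z * deriv g z) (fun _ => 0) := by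
  refine ⟨deriv g, fun _ => 0, hg.continuousOn, hg.deriv.continuousOn, continuousOn_const,
    fun z hz γ γ' t h1 h2 => ?_, fun z hz => by simp⟩
  have h3 : HasDerivAt g (deriv g z) (γ t) := by
    rw [h1]; exact (hg z hz).differentiableAt.hasDerivAt
  have := (h3.hasFDerivAt.restrictScalars ℝ).comp_hasDerivAt t h2
  refine HasDerivAt.congr_deriv this ?_
  simp [mul_comm]

theorem K.cont {A DA EA : ℂ → ℂ} (h : K A DA EA) :
    ContinuousOn A (closedBall 0 1) ∧ ContinuousOn DA (closedBall 0 1) ∧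
      ContinuousOn EA (closedBall 0 1) := by
  obtain ⟨A1, A2, c0, c1, c2, -, he⟩ := h
  have hc : Continuous fun z : ℂ => conj z := Complex.continuous_conj
  refine ⟨c0, ContinuousOn.congr (f := fun z => (1 - z * conj z) * z * A1 z) ?_ fun z hz => (he z hz).1,
    ContinuousOn.congr (f := fun z => (1 - z * conj z) * conj z * A2 z) ?_ fun z hz => (he z hz).2⟩
  · exact (Continuous.continuousOn (by fun_prop)).mul c1
  · exact (Continuous.continuousOn (by fun_prop)).mul c2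

/-- polar point -/
def Z (p : ℝ × ℝ) : ℂ := (p.1 : ℂ) * Complex.exp ((p.2 : ℂ) * Complex.I)

/-- the polar box -/
def mu : Measure (ℝ × ℝ) :=
  (volume.restrict (Ioo (0 : ℝ) 1)).prod (volume.restrict (Ioo (-Real.pi) Real.pi))

theorem Z_cont : Continuous Z := by unfold Z; fun_prop

theorem norm_Z (p : ℝ × ℝ) : ‖Z p‖ = |p.1| := by
  simp [Z, Complex.norm_exp_ofReal_mul_I]

theorem Z_mem {r θ : ℝ} (h0 : 0 ≤ r) (h1 : r ≤ 1) : Z (r, θ) ∈ closedBall (0 : ℂ) 1 := by
  simp [norm_Z, abs_of_nonneg h0, h1]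

theorem Z_mul_conj (p : ℝ × ℝ) : Z p * conj (Z p) = ((p.1 ^ 2 : ℝ) : ℂ) := by
  rw [Complex.mul_conj, Complex.normSq_eq_norm_sq, norm_Z, sq_abs]

theorem mu_eq : mu = volume.restrict (Ioo (0 : ℝ) 1 ×ˢ Ioo (-Real.pi) Real.pi) := by
  rw [mu, Measure.prod_restrict, ← Measure.volume_eq_prod]

theorem wt_int {b : ℝ} (hb : 0 < b) (hb1 : b ≤ 1) :
    IntegrableOn (fun r : ℝ => (1 - r ^ 2) ^ (b - 1)) (Ioo 0 1) := by
  have h1 : IntervalIntegrable (fun r : ℝ => (1 - r) ^ (b - 1)) volume 0 1 := by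
    have := (intervalIntegral.intervalIntegrable_rpow' (a := 1) (b := 0) (r := b - 1)
      (by linarith)).comp_sub_left 1
    simpa using this
  have h2 : IntegrableOn (fun r : ℝ => (1 - r) ^ (b - 1)) (Ioo 0 1) :=
    ((intervalIntegrable_iff_integrableOn_Ioo_of_le zero_le_one).1 h1)
  refine Integrable.mono' h2 (Measurable.aestronglyMeasurable (by fun_prop)) ?_
  refine (ae_restrict_iff' measurableSet_Ioo).2 (Filter.Eventually.of_forall fun r hr => ?_)
  have h3 : 0 < 1 - r := by linarith [hr.2]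
  have h4 : 1 - r ≤ 1 - r ^ 2 := by nlinarith [hr.1, hr.2]
  rw [Real.norm_of_nonneg (Real.rpow_nonneg (by linarith) _)]
  exact Real.rpow_le_rpow_of_nonpos h3 h4 (by linarith)

theorem int_of_cont {b : ℝ} (hb : 0 < b) (hb1 : b ≤ 1) {E : Type} [NormedAddCommGroup E]
    [NormedSpace ℝ E] [SecondCountableTopology E] {H : ℂ → E}
    (hH : ContinuousOn H (closedBall 0 1)) :
    Integrable (fun p : ℝ × ℝ => ((1 - p.1 ^ 2) ^ (b - 1) : ℝ) • H (Z p)) mu := by
  obtain ⟨M, hM⟩ := (isCompact_closedBall (0 : ℂ) 1).exists_bound_of_continuousOn hH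
  have hw : Integrable (fun p : ℝ × ℝ => ((1 - p.1 ^ 2) ^ (b - 1) : ℝ) * (1 : ℝ)) mu :=
    Integrable.mul_prod (wt_int hb hb1) (g := fun _ => (1 : ℝ)) (integrable_const _)
  simp only [mul_one] at hw
  have hS : MeasurableSet (Ioo (0 : ℝ) 1 ×ˢ Ioo (-Real.pi) Real.pi) :=
    measurableSet_Ioo.prod measurableSet_Ioo
  have hmem : ∀ p ∈ Ioo (0 : ℝ) 1 ×ˢ Ioo (-Real.pi) Real.pi, Z p ∈ closedBall (0 : ℂ) 1 :=
    fun p hp => Z_mem (θ := p.2) hp.1.1.le hp.1.2.le
  have hm : AEStronglyMeasurable (fun p => H (Z p)) mu := by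
    rw [mu_eq]
    exact (hH.comp Z_cont.continuousOn hmem).aestronglyMeasurable hS
  refine Integrable.mono' (hw.norm.mul_const M) (hw.aestronglyMeasurable.smul hm) ?_
  rw [mu_eq]
  refine (ae_restrict_iff' hS).2 (Filter.Eventually.of_forall fun p hp => ?_)
  rw [norm_smul]
  exact mul_le_mul_of_nonneg_left (hM _ (hmem p hp)) (norm_nonneg _)

/-- the weighted polar integral -/
def II (b : ℝ) (H : ℂ → ℂ) : ℂ := ∫ p, ((1 - p.1 ^ 2) ^ (b - 1) : ℝ) • H (Z p) ∂mu

theorem hasDerivAt_Z_theta (r θ : ℝ) :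
    HasDerivAt (fun u : ℝ => Z (r, u)) (Z (r, θ) * Complex.I) θ := by
  have h1 : HasDerivAt (fun u : ℝ => (u : ℂ) * Complex.I) (1 * Complex.I) θ :=
    (Complex.ofRealCLM.hasDerivAt (x := θ)).mul_const _
  have := (h1.cexp).const_mul (r : ℂ)
  refine HasDerivAt.congr_deriv this ?_
  simp [Z, mul_assoc]

theorem hasDerivAt_Z_r (r θ : ℝ) :
    HasDerivAt (fun u : ℝ => Z (u, θ)) (Complex.exp ((θ : ℂ) * Complex.I)) r := by
  have h1 : HasDerivAt (fun u : ℝ => (u : ℂ) * Complex.exp ((θ : ℂ) * Complex.I))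
      (1 * Complex.exp ((θ : ℂ) * Complex.I)) r :=
    (Complex.ofRealCLM.hasDerivAt (x := r)).mul_const _
  simpa [Z] using h1

theorem ibp_ang {b : ℝ} (hb : 0 < b) (hb1 : b ≤ 1) {U DU EU : ℂ → ℂ} (h : K U DU EU) :
    II b (fun z => DU z - EU z) = 0 := by
  have hc := h.cont
  obtain ⟨A1, A2, c0, c1, c2, hd, he⟩ := h
  have hi := int_of_cont hb hb1 (H := fun z => DU z - EU z) (hc.2.1.sub hc.2.2)
  unfold II
  unfold mu at hi ⊢
  rw [integral_prod _ hi]
  refine setIntegral_eq_zero_of_forall_eq_zero fun r hr => ?_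
  simp only
  rw [integral_smul]
  have hm : ∀ θ, Z (r, θ) ∈ closedBall (0 : ℂ) 1 := fun θ => Z_mem hr.1.le hr.2.le
  have hder : ∀ θ ∈ uIcc (-Real.pi) Real.pi,
      HasDerivAt (fun u : ℝ => -Complex.I * ((1 - r ^ 2 : ℝ) : ℂ) * U (Z (r, u)))
        (DU (Z (r, θ)) - EU (Z (r, θ))) θ := by
    intro θ _
    have := (hd _ (hm θ) (fun u => Z (r, u)) _ θ rfl (hasDerivAt_Z_theta r θ)).const_mul
      (-Complex.I * ((1 - r ^ 2 : ℝ) : ℂ))
    refine HasDerivAt.congr_deriv this ?_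
    rw [(he _ (hm θ)).1, (he _ (hm θ)).2, Z_mul_conj]
    simp only [map_mul, Complex.conj_I]
    push_cast
    linear_combination (-((1 : ℂ) - r ^ 2) * (Z (r, θ) * A1 (Z (r, θ)) -
      conj (Z (r, θ)) * A2 (Z (r, θ)))) * Complex.I_mul_I
  have hcont : Continuous fun θ : ℝ => DU (Z (r, θ)) - EU (Z (r, θ)) :=
    (hc.2.1.sub hc.2.2).comp_continuous (Z_cont.comp (by fun_prop)) hm
  have h1 := intervalIntegral.integral_eq_sub_of_hasDerivAt hder (hcont.intervalIntegrable _ _)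
  rw [intervalIntegral.integral_of_le (by linarith [Real.pi_pos]), integral_Ioc_eq_integral_Ioo] at h1
  rw [h1]
  have : Z (r, Real.pi) = Z (r, -Real.pi) := by
    simp [Z, Complex.exp_neg, Complex.exp_pi_mul_I]
  rw [this]; simp

theorem ibp_rad {b : ℝ} (hb : 0 < b) (hb1 : b ≤ 1) {U DU EU : ℂ → ℂ} (h : K U DU EU) :
    II b (fun z => DU z + EU z - (2 * b * (z * conj z) - (1 - z * conj z)) * U z) = 0 := by
  have hc := h.cont
  obtain ⟨A1, A2, c0, c1, c2, hd, he⟩ := h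
  have hcj : Continuous fun z : ℂ => conj z := Complex.continuous_conj
  have hcH : ContinuousOn (fun z => DU z + EU z - (2 * b * (z * conj z) - (1 - z * conj z)) * U z)
      (closedBall (0 : ℂ) 1) :=
    (hc.2.1.add hc.2.2).sub ((Continuous.continuousOn (by fun_prop)).mul hc.1)
  have hi := int_of_cont hb hb1 hcH
  unfold II
  unfold mu at hi ⊢
  rw [integral_prod_symm _ hi]
  refine integral_eq_zero_of_ae ?_
  filter_upwards [hi.prod_left_ae] with θ hθ
  have hder : ∀ r ∈ Ioo (0 : ℝ) 1,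
      HasDerivAt (fun u : ℝ => ((1 - u ^ 2) ^ b * u : ℝ) • U (Z (u, θ)))
        (((1 - r ^ 2) ^ (b - 1) : ℝ) • (DU (Z (r, θ)) + EU (Z (r, θ)) -
          (2 * b * (Z (r, θ) * conj (Z (r, θ))) - (1 - Z (r, θ) * conj (Z (r, θ)))) *
            U (Z (r, θ)))) r := by
    intro r hr
    have hm : Z (r, θ) ∈ closedBall (0 : ℂ) 1 := Z_mem hr.1.le hr.2.le
    have hpos : 0 < 1 - r ^ 2 := by nlinarith [hr.1, hr.2]
    have h1 : HasDerivAt (fun u : ℝ => 1 - u ^ 2) (-(2 * r)) r := by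
      simpa using (hasDerivAt_pow 2 r).const_sub 1
    have h2 := ((h1.rpow_const (p := b) (Or.inl hpos.ne')).mul (hasDerivAt_id r)).smul
      (hd _ hm (fun u => Z (u, θ)) _ r rfl (hasDerivAt_Z_r r θ))
    refine HasDerivAt.congr_deriv h2 ?_
    rw [(he _ hm).1, (he _ hm).2, Z_mul_conj]
    have h3 : (1 - r ^ 2) ^ b = (1 - r ^ 2) ^ (b - 1) * (1 - r ^ 2) := by
      rw [Real.rpow_sub_one hpos.ne']; field_simp
    have h4 : Z (r, θ) = (r : ℂ) * Complex.exp ((θ : ℂ) * Complex.I) := rfl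
    have h5 : conj (Z (r, θ)) = (r : ℂ) * conj (Complex.exp ((θ : ℂ) * Complex.I)) := by
      rw [h4, map_mul, Complex.conj_ofReal]
    simp only [id, Pi.mul_apply, h3, Complex.real_smul]
    rw [h5]
    generalize A1 (Z (r, θ)) = a1
    generalize A2 (Z (r, θ)) = a2
    generalize U (Z (r, θ)) = u0
    rw [h4]
    push_cast
    ring
  have hcont : ContinuousOn (fun u : ℝ => ((1 - u ^ 2) ^ b * u : ℝ) • U (Z (u, θ))) (Icc 0 1) := by
    refine ContinuousOn.fun_smul (Continuous.continuousOn ?_) ?_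
    · exact (Continuous.rpow_const (by fun_prop) fun _ => Or.inr hb.le).mul continuous_id
    · exact hc.1.comp (Z_cont.comp (by fun_prop)).continuousOn fun u hu => Z_mem hu.1 hu.2
  have h1 := intervalIntegral.integral_eq_sub_of_hasDerivAt_of_le zero_le_one hcont hder
    ((intervalIntegrable_iff_integrableOn_Ioo_of_le zero_le_one).2 hθ)
  rw [intervalIntegral.integral_of_le zero_le_one, integral_Ioc_eq_integral_Ioo] at h1
  simp only [Pi.zero_apply]
  rw [h1]
  simp [Real.zero_rpow hb.ne']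

theorem II_congr {b : ℝ} {H H' : ℂ → ℂ} (h : ∀ z ∈ closedBall (0 : ℂ) 1, H z = H' z) :
    II b H = II b H' := by
  unfold II
  rw [mu_eq]
  refine setIntegral_congr_fun (measurableSet_Ioo.prod measurableSet_Ioo) fun p hp => ?_
  have := h _ (Z_mem (θ := p.2) hp.1.1.le hp.1.2.le)
  exact congrArg _ this

theorem II_add {b : ℝ} (hb : 0 < b) (hb1 : b ≤ 1) {H H' : ℂ → ℂ}
    (h : ContinuousOn H (closedBall 0 1)) (h' : ContinuousOn H' (closedBall 0 1)) :
    II b (fun z => H z + H' z) = II b H + II b H' := by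
  unfold II
  rw [← integral_add (int_of_cont hb hb1 h) (int_of_cont hb hb1 h')]
  simp only [smul_add]

theorem II_mul {b : ℝ} (a : ℂ) (H : ℂ → ℂ) : II b (fun z => a * H z) = a * II b H := by
  unfold II
  rw [← integral_const_mul]
  simp only [mul_smul_comm]

/-- a vanishing weighted integral of a continuous function -/
def Van (b : ℝ) (H : ℂ → ℂ) : Prop := ContinuousOn H (closedBall 0 1) ∧ II b H = 0

theorem Van.lin {b : ℝ} (hb : 0 < b) (hb1 : b ≤ 1) {H H' : ℂ → ℂ} (h : Van b H) (h' : Van b H')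
    (a a' : ℂ) : Van b (fun z => a * H z + a' * H' z) :=
  ⟨(continuousOn_const.mul h.1).add (continuousOn_const.mul h'.1), by
    rw [II_add hb hb1 (H := fun z => a * H z) (H' := fun z => a' * H' z)
      (continuousOn_const.mul h.1) (continuousOn_const.mul h'.1), II_mul, II_mul,
      h.2, h'.2]; simp⟩

theorem Van.congr {b : ℝ} {H H' : ℂ → ℂ} (h : Van b H)
    (e : ∀ z ∈ closedBall (0 : ℂ) 1, H' z = H z) : Van b H' :=
  ⟨h.1.congr e, (II_congr e).trans h.2⟩

theorem K.van {b : ℝ} (hb : 0 < b) (hb1 : b ≤ 1) {U DU EU : ℂ → ℂ} (h : K U DU EU) :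
    Van b (fun z => DU z - (b * (z * conj z) - (1 - z * conj z) / 2) * U z) ∧
    Van b (fun z => EU z - (b * (z * conj z) - (1 - z * conj z) / 2) * U z) := by
  have hc := h.cont
  have hcj : Continuous fun z : ℂ => conj z := Complex.continuous_conj
  have h1 : Van b (fun z => DU z - EU z) := ⟨hc.2.1.sub hc.2.2, ibp_ang hb hb1 h⟩
  have h2 : Van b (fun z => DU z + EU z - (2 * b * (z * conj z) - (1 - z * conj z)) * U z) :=
    ⟨(hc.2.1.add hc.2.2).sub ((Continuous.continuousOn (by fun_prop)).mul hc.1), ibp_rad hb hb1 h⟩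
  exact ⟨(Van.lin hb hb1 h1 h2 (1 / 2) (1 / 2)).congr fun z _ => by ring,
    (Van.lin hb hb1 h1 h2 (-1 / 2) (1 / 2)).congr fun z _ => by ring⟩

end Crest.Agent.R131.IBP
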