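import Crest.Agent.R131.StarDefs
import Crest.Agent.R131.Morse

/-! # Row 131: second-derivative tests for `sG` (helper26) -/

set_option autoImplicit false
open Set Metric Filter Topology
open scoped ComplexConjugate

namespace Crest.Agent.R131.T26

theorem strict_test {φ φ₁ : ℝ → ℝ} {κ : ℝ} (hφ : ∀ᶠ t in 𝓝 (0 : ℝ), HasDerivAt φ (φ₁ t) t)
    (h0 : φ₁ 0 = 0) (h2 : HasDerivAt φ₁ κ 0) (hκ : 0 < κ) : ∀ᶠ t in 𝓝[≠] (0 : ℝ), φ 0 < φ t := by
  have h3 : ∀ᶠ t in 𝓝[≠] (0 : ℝ), 0 < φ₁ t / t := by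
    have := (hasDerivAt_iff_tendsto_slope.1 h2).eventually (lt_mem_nhds hκ)
    filter_upwards [this] with t ht
    simpa [slope_def_field, h0] using ht
  rw [eventually_nhdsWithin_iff] at h3 ⊢
  obtain ⟨δ, hδ, hb⟩ := Metric.eventually_nhds_iff.1 (hφ.and h3)
  refine Metric.eventually_nhds_iff.2 ⟨δ, hδ, fun t ht ht0 => ?_⟩
  rw [Real.dist_eq, sub_zero, abs_lt] at ht
  have hin : ∀ s : ℝ, -δ < s → s < δ → HasDerivAt φ (φ₁ s) s ∧ (s ≠ 0 → 0 < φ₁ s / s) :=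
    fun s h₁ h₂ => hb (by rw [Real.dist_eq, sub_zero, abs_lt]; exact ⟨h₁, h₂⟩)
  rcases lt_or_gt_of_ne (show t ≠ 0 from ht0) with h | h
  · obtain ⟨ξ, hξ, he⟩ := exists_hasDerivAt_eq_slope φ φ₁ h
      (fun s hs => (hin s (by linarith [hs.1]) (by linarith [hs.2])).1.continuousAt.continuousWithinAt)
      (fun s hs => (hin s (by linarith [hs.1]) (by linarith [hs.2])).1)
    have h4 := (hin ξ (by linarith [hξ.1]) (by linarith [hξ.2])).2 hξ.2.ne
    have h5 : φ₁ ξ < 0 := by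
      by_contra hh
      exact absurd h4 (not_lt.2 (div_nonpos_of_nonneg_of_nonpos (not_lt.1 hh) hξ.2.le))
    rw [he, div_neg_iff] at h5
    rcases h5 with h5 | h5 <;> linarith [h5.1, h5.2]
  · obtain ⟨ξ, hξ, he⟩ := exists_hasDerivAt_eq_slope φ φ₁ h
      (fun s hs => (hin s (by linarith [hs.1]) (by linarith [hs.2])).1.continuousAt.continuousWithinAt)
      (fun s hs => (hin s (by linarith [hs.1]) (by linarith [hs.2])).1)
    have h4 := (hin ξ (by linarith [hξ.1]) (by linarith [hξ.2])).2 hξ.1.ne'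
    have h5 : 0 < φ₁ ξ := (div_pos_iff_of_pos_right hξ.1).1 h4
    rw [he, div_pos_iff] at h5
    rcases h5 with h5 | h5 <;> linarith [h5.1, h5.2]

theorem strict_test' {φ φ₁ : ℝ → ℝ} {κ : ℝ} (hφ : ∀ᶠ t in 𝓝 (0 : ℝ), HasDerivAt φ (φ₁ t) t)
    (h0 : φ₁ 0 = 0) (h2 : HasDerivAt φ₁ κ 0) (hκ : κ < 0) : ∀ᶠ t in 𝓝[≠] (0 : ℝ), φ t < φ 0 := by
  have := strict_test (φ := fun t => -φ t) (φ₁ := fun t => -φ₁ t) (κ := -κ)
    (hφ.mono fun t ht => ht.neg) (by simp [h0]) h2.neg (by linarith)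
  exact this.mono fun t ht => by linarith

/-- the gradient coefficient -/
noncomputable def cB (f : ℂ → ℂ) (c : ℝ) (a z : ℂ) : ℂ :=
  deriv f z / (f z - a) + ((1 + c : ℝ) : ℂ) * conj z / ((1 - ‖z‖ ^ 2 : ℝ) : ℂ)

/-- the Hessian coefficient -/
noncomputable def cA (f : ℂ → ℂ) (c : ℝ) (a z : ℂ) : ℂ :=
  deriv (deriv f) z / (f z - a) - (deriv f z / (f z - a)) ^ 2 +
    ((1 + c : ℝ) : ℂ) * conj z ^ 2 / ((1 - ‖z‖ ^ 2 : ℝ) : ℂ) ^ 2

theorem d_pos {z : ℂ} (hz : z ∈ ball (0 : ℂ) 1) : 0 < 1 - ‖z‖ ^ 2 := by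
  have := mem_ball_zero_iff.1 hz
  nlinarith [norm_nonneg z]

theorem norm_line (z v : ℂ) (t : ℝ) :
    ‖z + t * v‖ ^ 2 = ‖z‖ ^ 2 + 2 * t * (conj z * v).re + t ^ 2 * ‖v‖ ^ 2 := by
  simp only [Complex.sq_norm, Complex.normSq_apply]
  simp
  ring

theorem line {f : ℂ → ℂ} (hf : DifferentiableOn ℂ f (ball 0 1)) (c : ℝ) {a z : ℂ}
    (hz : z ∈ ball (0 : ℂ) 1) (ha : f z ≠ a) (v : ℂ) :
    ∃ φ φ₁ : ℝ → ℝ, (∀ᶠ t : ℝ in 𝓝 0, sG f c a (z + t * v) = Real.exp (φ t)) ∧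
      (∀ᶠ t in 𝓝 (0 : ℝ), HasDerivAt φ (φ₁ t) t) ∧ φ₁ 0 = 2 * (v * cB f c a z).re ∧
      HasDerivAt φ₁ (2 * (v ^ 2 * cA f c a z).re + 2 * (1 + c) * ‖v‖ ^ 2 / (1 - ‖z‖ ^ 2) ^ 2) 0 := by
  have han : AnalyticOnNhd ℂ f (ball 0 1) := hf.analyticOnNhd isOpen_ball
  have hγ : ∀ t : ℝ, HasDerivAt (fun t : ℝ => z + t * v) v t := fun t => by
    simpa using ((Complex.ofRealCLM.hasDerivAt (x := t)).mul_const v).const_add z
  have hγc : Tendsto (fun t : ℝ => z + t * v) (𝓝 0) (𝓝 z) := by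
    simpa using (hγ 0).continuousAt.tendsto
  have hev : ∀ᶠ t : ℝ in 𝓝 0, z + t * v ∈ ball (0 : ℂ) 1 ∧ f (z + t * v) ≠ a :=
    hγc.eventually ((isOpen_ball.eventually_mem hz).and ((han z hz).continuousAt.eventually_ne ha))
  set r : ℝ := (conj z * v).re with hr
  set Q : ℝ → ℝ := fun t => 1 - (‖z‖ ^ 2 + 2 * t * r + t ^ 2 * ‖v‖ ^ 2) with hQ
  have hQd : ∀ t : ℝ, HasDerivAt Q (-(2 * r + 2 * t * ‖v‖ ^ 2)) t := fun t => by
    have h1 : HasDerivAt (fun t : ℝ => ‖z‖ ^ 2 + 2 * t * r + t ^ 2 * ‖v‖ ^ 2)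
        (2 * r + 2 * t * ‖v‖ ^ 2) t := by
      have h2 := ((((hasDerivAt_id t).const_mul 2).mul_const r).const_add (‖z‖ ^ 2)).add
        ((hasDerivAt_pow 2 t).mul_const (‖v‖ ^ 2))
      exact h2.congr_deriv (by simp)
    exact h1.const_sub 1
  have hQe : ∀ t : ℝ, Q t = 1 - ‖z + t * v‖ ^ 2 := fun t => by rw [norm_line]
  have hd := d_pos hz
  have hQ0 : Q 0 = 1 - ‖z‖ ^ 2 := by simp [hQ]
  refine ⟨fun t => Real.log (‖f (z + t * v) - a‖ ^ 2) - (1 + c) * Real.log (Q t),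
    fun t => 2 * (v * (deriv f (z + t * v) / (f (z + t * v) - a))).re +
      (1 + c) * ((2 * r + 2 * t * ‖v‖ ^ 2) / Q t), ?_, ?_, ?_, ?_⟩
  · filter_upwards [hev] with t ht
    have h1 : 0 < ‖f (z + t * v) - a‖ ^ 2 := by
      have := norm_pos_iff.2 (sub_ne_zero.2 ht.2)
      positivity
    rw [sG, Real.exp_sub, Real.exp_log h1, hQe, Real.rpow_def_of_pos (d_pos ht.1),
      mul_comm (1 + c)]
  · filter_upwards [hev] with t ht
    have h0 : f (z + t * v) - a ≠ 0 := sub_ne_zero.2 ht.2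
    have h1 : HasDerivAt (fun t : ℝ => f (z + t * v) - a) (deriv f (z + t * v) * v) t :=
      (((han _ ht.1).differentiableAt.hasDerivAt.comp_of_eq t (hγ t) rfl)).sub_const a
    have h2 := h1.norm_sq.log (pow_ne_zero 2 (norm_ne_zero_iff.2 h0))
    have h3 := ((hQd t).log (by rw [hQe]; exact (d_pos ht.1).ne')).const_mul (1 + c)
    refine (h2.sub h3).congr_deriv ?_
    have h4 : 2 * inner ℝ (f (z + t * v) - a) (deriv f (z + t * v) * v) /
        ‖f (z + t * v) - a‖ ^ 2 = 2 * (v * (deriv f (z + t * v) / (f (z + t * v) - a))).re := by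
      rw [Complex.inner, ← mul_div_assoc v, Complex.div_re, Complex.sq_norm]
      simp only [Complex.mul_re, Complex.mul_im, Complex.conj_re, Complex.conj_im]
      ring
    rw [h4]
    ring
  · have h1 : (v * cB f c a z).re = (v * (deriv f z / (f z - a))).re +
        (1 + c) * r / (1 - ‖z‖ ^ 2) := by
      rw [cB, mul_add, Complex.add_re, ← mul_div_assoc v (_ * _), Complex.div_ofReal_re, hr,
        mul_left_comm, Complex.re_ofReal_mul, mul_comm v (conj z)]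
    simp only [Complex.ofReal_zero, zero_mul, add_zero, mul_zero]
    rw [h1, hQ0]
    ring
  · have h0 : f z - a ≠ 0 := sub_ne_zero.2 ha
    have hk : HasDerivAt (fun w => deriv f w / (f w - a))
        (deriv (deriv f) z / (f z - a) - (deriv f z / (f z - a)) ^ 2) z := by
      have h1 := (han.deriv z hz).differentiableAt.hasDerivAt.div
        ((han z hz).differentiableAt.hasDerivAt.sub_const a) h0
      refine h1.congr_deriv ?_
      field_simp
    have hk' : HasDerivAt (fun t : ℝ => deriv f (z + t * v) / (f (z + t * v) - a))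
        ((deriv (deriv f) z / (f z - a) - (deriv f z / (f z - a)) ^ 2) * v) 0 :=
      hk.comp_of_eq 0 (hγ 0) (by simp)
    have h2 := (Complex.reCLM.hasFDerivAt.comp_hasDerivAt 0 (hk'.const_mul v)).const_mul 2
    have h3 : HasDerivAt (fun t : ℝ => 2 * r + 2 * t * ‖v‖ ^ 2) (2 * ‖v‖ ^ 2) 0 := by
      simpa using (((hasDerivAt_id (0 : ℝ)).const_mul 2).mul_const (‖v‖ ^ 2)).const_add (2 * r)
    have h4 := (h3.div (hQd 0) (by rw [hQ0]; exact hd.ne')).const_mul (1 + c)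
    refine (h2.add h4).congr_deriv ?_
    have h5 : (v ^ 2 * cA f c a z).re =
        (v * ((deriv (deriv f) z / (f z - a) - (deriv f z / (f z - a)) ^ 2) * v)).re +
          (1 + c) * ((conj z * v) ^ 2).re / (1 - ‖z‖ ^ 2) ^ 2 := by
      rw [cA, mul_add, Complex.add_re, ← Complex.ofReal_pow, ← mul_div_assoc (v ^ 2) (_ * _),
        Complex.div_ofReal_re, mul_left_comm, Complex.re_ofReal_mul]
      congr 2
      · ring
      · congr 2
        ring
    have h6 : ((conj z * v) ^ 2).re = 2 * r ^ 2 - ‖z‖ ^ 2 * ‖v‖ ^ 2 := by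
      rw [hr, Complex.sq_norm, Complex.sq_norm, Complex.normSq_apply, Complex.normSq_apply, sq]
      simp
      ring
    rw [h5, h6, hQ0]
    simp only [Complex.reCLM_apply]
    field_simp
    ring

theorem ne_of_pos {f : ℂ → ℂ} {c : ℝ} {a z : ℂ} (h : 0 < sG f c a z) : f z ≠ a := fun h0 => by
  rw [sG, h0] at h
  simp at h

theorem tend_line (z v : ℂ) : Tendsto (fun t : ℝ => z + t * v) (𝓝 0) (𝓝 z) := by
  have : Continuous fun t : ℝ => z + t * v := by fun_prop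
  simpa using this.tendsto 0

/-- the strict tests along a line through a critical point -/
theorem line_lt {f : ℂ → ℂ} (hf : DifferentiableOn ℂ f (ball 0 1)) (c : ℝ) {a z : ℂ}
    (hz : z ∈ ball (0 : ℂ) 1) (ha : f z ≠ a) (v : ℂ) (h0 : (v * cB f c a z).re = 0)
    (h : 2 * (v ^ 2 * cA f c a z).re + 2 * (1 + c) * ‖v‖ ^ 2 / (1 - ‖z‖ ^ 2) ^ 2 < 0) :
    ∀ᶠ t : ℝ in 𝓝[≠] 0, sG f c a (z + t * v) < sG f c a z := by
  obtain ⟨φ, φ₁, h1, h2, h3, h4⟩ := line hf c hz ha v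
  have h5 : sG f c a z = Real.exp (φ 0) := by simpa using h1.self_of_nhds
  filter_upwards [strict_test' h2 (by rw [h3, h0, mul_zero]) h4 h, nhdsWithin_le_nhds h1]
    with t ht ht'
  rw [ht', h5]
  exact Real.exp_lt_exp.2 ht

theorem line_gt {f : ℂ → ℂ} (hf : DifferentiableOn ℂ f (ball 0 1)) (c : ℝ) {a z : ℂ}
    (hz : z ∈ ball (0 : ℂ) 1) (ha : f z ≠ a) (v : ℂ) (h0 : (v * cB f c a z).re = 0)
    (h : 0 < 2 * (v ^ 2 * cA f c a z).re + 2 * (1 + c) * ‖v‖ ^ 2 / (1 - ‖z‖ ^ 2) ^ 2) :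
    ∀ᶠ t : ℝ in 𝓝[≠] 0, sG f c a z < sG f c a (z + t * v) := by
  obtain ⟨φ, φ₁, h1, h2, h3, h4⟩ := line hf c hz ha v
  have h5 : sG f c a z = Real.exp (φ 0) := by simpa using h1.self_of_nhds
  filter_upwards [strict_test h2 (by rw [h3, h0, mul_zero]) h4 h, nhdsWithin_le_nhds h1]
    with t ht ht'
  rw [ht', h5]
  exact Real.exp_lt_exp.2 ht

theorem cB_eq_zero {f : ℂ → ℂ} (hf : DifferentiableOn ℂ f (ball 0 1)) (c : ℝ) {a z : ℂ}
    (hz : z ∈ ball (0 : ℂ) 1) (ha : f z ≠ a) (h : IsLocalExtr (sG f c a) z) :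
    cB f c a z = 0 := by
  obtain ⟨φ, φ₁, h1, h2, h3, -⟩ := line hf c hz ha (conj (cB f c a z))
  have h5 : sG f c a z = Real.exp (φ 0) := by simpa using h1.self_of_nhds
  have h6 : IsLocalExtr φ 0 := by
    rcases h with h | h
    · left
      filter_upwards [(tend_line z (conj (cB f c a z))).eventually h, h1] with t ht ht'
      rw [ht', h5] at ht
      exact Real.exp_le_exp.1 ht
    · right
      filter_upwards [(tend_line z (conj (cB f c a z))).eventually h, h1] with t ht ht'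
      rw [ht', h5] at ht
      exact Real.exp_le_exp.1 ht
  have h7 := h6.hasDerivAt_eq_zero h2.self_of_nhds
  rw [h3, Complex.conj_mul', ← Complex.ofReal_pow, Complex.ofReal_re] at h7
  have h8 : ‖cB f c a z‖ ^ 2 = 0 := by linarith
  exact norm_eq_zero.1 (pow_eq_zero_iff two_ne_zero |>.1 h8)

theorem nomax {f : ℂ → ℂ} (hf : DifferentiableOn ℂ f (ball 0 1)) {c : ℝ} (hc : -1 < c) {a z : ℂ}
    (hz : z ∈ ball (0 : ℂ) 1) (hG : 0 < sG f c a z) : ¬ IsLocalMax (sG f c a) z := by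
  intro h
  have ha := ne_of_pos hG
  have hB := cB_eq_zero hf c hz ha (Or.inr h)
  have hd := d_pos hz
  have key : ∀ v : ℂ,
      2 * (v ^ 2 * cA f c a z).re + 2 * (1 + c) * ‖v‖ ^ 2 / (1 - ‖z‖ ^ 2) ^ 2 ≤ 0 := fun v => by
    by_contra hh
    have h1 := line_gt hf c hz ha v (by simp [hB]) (not_le.1 hh)
    obtain ⟨t, ht, ht'⟩ :=
      (h1.and (nhdsWithin_le_nhds ((tend_line z v).eventually h))).exists
    exact absurd ht (not_lt.2 ht')
  have h1 := key 1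
  have h2 := key Complex.I
  rw [Complex.I_sq, Complex.norm_I] at h2
  simp only [one_pow, one_mul, norm_one, mul_one, neg_mul, Complex.neg_re] at h1 h2
  have h3 : 0 < 2 * (1 + c) / (1 - ‖z‖ ^ 2) ^ 2 := by
    have : 0 < 1 + c := by linarith
    positivity
  linarith

theorem norm_cA {f : ℂ → ℂ} {c : ℝ} (hc : -1 < c) {a z : ℂ} (hz : z ∈ ball (0 : ℂ) 1)
    (hz0 : z ≠ 0) (h1 : deriv f z ≠ 0) (ha : f z ≠ a) (hB : cB f c a z = 0) :
    ‖cA f c a z‖ = (1 + c) * ‖sX f c z‖ / (1 - ‖z‖ ^ 2) ^ 2 := by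
  have hd := d_pos hz
  have hc' : 0 < 1 + c := by linarith
  have hd' : ((1 - ‖z‖ ^ 2 : ℝ) : ℂ) ≠ 0 := by exact_mod_cast hd.ne'
  have h0 : f z - a ≠ 0 := sub_ne_zero.2 ha
  have hk : deriv f z / (f z - a) = -(((1 + c : ℝ) : ℂ) * conj z / ((1 - ‖z‖ ^ 2 : ℝ) : ℂ)) := by
    rw [cB] at hB
    linear_combination hB
  have hn : ((‖z‖ : ℂ)) ^ 2 = conj z * z := (Complex.conj_mul' z).symm
  have hA : cA f c a z = -(((1 + c : ℝ) : ℂ) * (conj z / z) * sX f c z /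
      ((1 - ‖z‖ ^ 2 : ℝ) : ℂ) ^ 2) := by
    have h2 : deriv (deriv f) z / (f z - a) =
        deriv (deriv f) z / deriv f z * (deriv f z / (f z - a)) := by
      field_simp
    rw [cA, h2, hk, sX, Complex.ofReal_mul c, Complex.ofReal_pow ‖z‖, hn]
    generalize ((1 - ‖z‖ ^ 2 : ℝ) : ℂ) = D at hd' ⊢
    push_cast
    field_simp
    ring
  rw [hA, norm_neg, norm_div, norm_mul, norm_mul, norm_div, Complex.norm_conj,
    div_self (norm_ne_zero_iff.2 hz0), norm_pow, Complex.norm_real, Complex.norm_real,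
    Real.norm_eq_abs, Real.norm_eq_abs, abs_of_pos hd, abs_of_pos hc', mul_one]

theorem exists_dir (A : ℂ) :
    ∃ v : ℂ, (v ^ 2 * A).re = -‖A‖ ^ 2 ∧ ‖v‖ ^ 2 = ‖A‖ := by
  obtain ⟨v, hv⟩ := IsAlgClosed.exists_eq_mul_self (-conj A)
  refine ⟨v, ?_, ?_⟩
  · rw [sq, ← hv, neg_mul, Complex.conj_mul', Complex.neg_re, ← Complex.ofReal_pow,
      Complex.ofReal_re]
  · rw [sq, ← norm_mul, ← hv, norm_neg, Complex.norm_conj]

theorem min_test {f : ℂ → ℂ} (hf : DifferentiableOn ℂ f (ball 0 1)) {c : ℝ} (hc : -1 < c)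
    {a z : ℂ} (hz : z ∈ ball (0 : ℂ) 1) (h1 : deriv f z ≠ 0) (h : IsLocalMin (sG f c a) z)
    (hG : 0 < sG f c a z) : z ≠ 0 ∧ sF f c z = a ∧ sJ f c z ≤ 0 := by
  have ha := ne_of_pos hG
  have h0 : f z - a ≠ 0 := sub_ne_zero.2 ha
  have hB := cB_eq_zero hf c hz ha (Or.inl h)
  have hd := d_pos hz
  have hc' : 0 < 1 + c := by linarith
  have hd' : ((1 - ‖z‖ ^ 2 : ℝ) : ℂ) ≠ 0 := by exact_mod_cast hd.ne'
  have hc'' : ((1 + c : ℝ) : ℂ) ≠ 0 := by exact_mod_cast hc'.ne'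
  have hz0 : z ≠ 0 := fun h2 => by
    rw [cB] at hB
    have h3 : conj z = 0 := by rw [h2, map_zero]
    rw [h3, mul_zero, zero_div, add_zero] at hB
    exact div_ne_zero h1 h0 hB
  have hz0' : conj z ≠ 0 := by simpa using hz0
  refine ⟨hz0, ?_, ?_⟩
  · rw [cB] at hB
    rw [sF]
    generalize ((1 - ‖z‖ ^ 2 : ℝ) : ℂ) = D at hd' hB ⊢
    generalize ((1 + c : ℝ) : ℂ) = E at hc'' hB ⊢
    field_simp at hB ⊢
    linear_combination hB
  · obtain ⟨v, hv1, hv2⟩ := exists_dir (cA f c a z)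
    have key : 0 ≤
        2 * (v ^ 2 * cA f c a z).re + 2 * (1 + c) * ‖v‖ ^ 2 / (1 - ‖z‖ ^ 2) ^ 2 := by
      by_contra hh
      have h2 := line_lt hf c hz ha v (by simp [hB]) (not_le.1 hh)
      obtain ⟨t, ht, ht'⟩ :=
        (h2.and (nhdsWithin_le_nhds ((tend_line z v).eventually h))).exists
      exact absurd ht (not_lt.2 ht')
    rw [hv1, hv2, norm_cA hc hz hz0 h1 ha hB] at key
    have hX : ‖sX f c z‖ ≤ 1 := by
      by_contra hh
      have hh := not_le.1 hh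
      set k := (1 + c) / (1 - ‖z‖ ^ 2) ^ 2 with hk
      have hk0 : 0 < k := by positivity
      have e : 2 * -((1 + c) * ‖sX f c z‖ / (1 - ‖z‖ ^ 2) ^ 2) ^ 2 +
          2 * (1 + c) * ((1 + c) * ‖sX f c z‖ / (1 - ‖z‖ ^ 2) ^ 2) / (1 - ‖z‖ ^ 2) ^ 2 =
          -(2 * k ^ 2 * (‖sX f c z‖ * (‖sX f c z‖ - 1))) := by
        rw [hk]; ring
      rw [e] at key
      have : 0 < 2 * k ^ 2 * (‖sX f c z‖ * (‖sX f c z‖ - 1)) :=
        mul_pos (by positivity) (mul_pos (by linarith) (by linarith))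
      linarith
    rw [sJ]
    refine div_nonpos_of_nonpos_of_nonneg (mul_nonpos_of_nonneg_of_nonpos (by positivity) ?_)
      (by positivity)
    nlinarith [norm_nonneg (sX f c z)]

theorem sad_test {f : ℂ → ℂ} (hf : DifferentiableOn ℂ f (ball 0 1)) {c : ℝ} (hc : -1 < c)
    {a z : ℂ} (hz : z ∈ ball (0 : ℂ) 1) (hz0 : z ≠ 0) (hF : sF f c z = a) (hJ : 0 < sJ f c z) :
    ∃ v w, IsSad (sG f c a) z v w := by
  have hd := d_pos hz
  have hc' : 0 < 1 + c := by linarith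
  have hd' : ((1 - ‖z‖ ^ 2 : ℝ) : ℂ) ≠ 0 := by exact_mod_cast hd.ne'
  have hc'' : ((1 + c : ℝ) : ℂ) ≠ 0 := by exact_mod_cast hc'.ne'
  have hz0' : conj z ≠ 0 := by simpa using hz0
  have h1 : deriv f z ≠ 0 := fun h => by
    rw [sJ, h] at hJ
    simp at hJ
  have hX : 1 < ‖sX f c z‖ := by
    by_contra hh
    have hh := not_lt.1 hh
    refine absurd hJ (not_lt.2 ?_)
    rw [sJ]
    refine div_nonpos_of_nonpos_of_nonneg (mul_nonpos_of_nonneg_of_nonpos (by positivity) ?_)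
      (by positivity)
    nlinarith [norm_nonneg (sX f c z)]
  have hfa : f z - a = -(((1 - ‖z‖ ^ 2 : ℝ) : ℂ) * deriv f z / (((1 + c : ℝ) : ℂ) * conj z)) := by
    rw [← hF, sF]; ring
  have h0 : f z - a ≠ 0 := by
    rw [hfa]
    exact neg_ne_zero.2 (div_ne_zero (mul_ne_zero hd' h1) (mul_ne_zero hc'' hz0'))
  have ha : f z ≠ a := sub_ne_zero.1 h0
  have hB : cB f c a z = 0 := by
    rw [cB, hfa]
    generalize ((1 - ‖z‖ ^ 2 : ℝ) : ℂ) = D at hd' ⊢
    generalize ((1 + c : ℝ) : ℂ) = E at hc'' ⊢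
    field_simp
    ring
  obtain ⟨v, hv1, hv2⟩ := exists_dir (cA f c a z)
  have hA := norm_cA hc hz hz0 h1 ha hB
  set k := (1 + c) / (1 - ‖z‖ ^ 2) ^ 2 with hk
  have hk0 : 0 < k := by positivity
  have hA' : ‖cA f c a z‖ = k * ‖sX f c z‖ := by rw [hA, hk]; ring
  have hA0 : 0 < ‖cA f c a z‖ := by rw [hA']; exact mul_pos hk0 (by linarith)
  refine ⟨v, Complex.I * v, ?_, (line_lt hf c hz ha v (by simp [hB]) ?_).and
    (line_gt hf c hz ha _ (by simp [hB]) ?_)⟩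
  · rw [mul_left_comm, Complex.conj_mul', ← Complex.ofReal_pow, hv2]
    simpa using hA0.ne'
  · have e : 2 * (1 + c) * ‖v‖ ^ 2 / (1 - ‖z‖ ^ 2) ^ 2 = 2 * k * ‖v‖ ^ 2 := by rw [hk]; ring
    rw [e, hv1, hv2, hA']
    have : 0 < 2 * k ^ 2 * (‖sX f c z‖ * (‖sX f c z‖ - 1)) :=
      mul_pos (by positivity) (mul_pos (by linarith) (by linarith))
    nlinarith
  · rw [mul_pow, Complex.I_sq, neg_one_mul, neg_mul, Complex.neg_re, hv1, neg_neg]
    positivity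

theorem cpt {f : ℂ → ℂ} (hf : ContinuousOn f (closedBall 0 1)) {c : ℝ} (hc : -1 < c) {a : ℂ}
    (ha : a ∉ f '' sphere 0 1) (l : ℝ) : IsCompact {z ∈ ball (0 : ℂ) 1 | sG f c a z ≤ l} := by
  have hc' : 0 < 1 + c := by linarith
  have he : {z ∈ ball (0 : ℂ) 1 | sG f c a z ≤ l} = closedBall (0 : ℂ) 1 ∩
      (fun z => ‖f z - a‖ ^ 2 - l * (1 - ‖z‖ ^ 2) ^ (1 + c)) ⁻¹' Iic 0 := by
    ext z
    simp only [mem_setOf_eq, mem_inter_iff, mem_preimage, mem_Iic, sub_nonpos]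
    constructor
    · rintro ⟨h1, h2⟩
      refine ⟨ball_subset_closedBall h1, ?_⟩
      rwa [sG, div_le_iff₀ (Real.rpow_pos_of_pos (d_pos h1) _)] at h2
    · rintro ⟨h1, h2⟩
      have h3 : z ∈ ball (0 : ℂ) 1 := by
        rcases (mem_closedBall_zero_iff.1 h1).lt_or_eq with h | h
        · exact mem_ball_zero_iff.2 h
        · exfalso
          rw [h, one_pow, sub_self, Real.zero_rpow hc'.ne', mul_zero] at h2
          have h4 : ‖f z - a‖ = 0 := pow_eq_zero_iff two_ne_zero |>.1 (le_antisymm h2 (by positivity))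
          exact ha ⟨z, mem_sphere_zero_iff_norm.2 h, sub_eq_zero.1 (norm_eq_zero.1 h4)⟩
      exact ⟨h3, by rwa [sG, div_le_iff₀ (Real.rpow_pos_of_pos (d_pos h3) _)]⟩
  rw [he]
  refine (isCompact_closedBall 0 1).of_isClosed_subset ?_ inter_subset_left
  refine ContinuousOn.preimage_isClosed_of_isClosed ?_ isClosed_closedBall isClosed_Iic
  refine ((hf.sub continuousOn_const).norm.pow 2).sub (continuousOn_const.mul ?_)
  exact ContinuousOn.rpow_const (by fun_prop) fun z _ => Or.inr hc'.le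

theorem good {f : ℂ → ℂ} {R : ℝ} (hR : 1 < R) (hf : DifferentiableOn ℂ f (ball 0 R))
    (hinj : InjOn f (ball 0 R)) {c : ℝ} (hc : -1 < c) {a : ℂ} (ha : a ∉ f '' sphere 0 1) :
    Good (sG f c a) := by
  have hf1 : DifferentiableOn ℂ f (ball 0 1) := hf.mono (ball_subset_ball hR.le)
  refine ⟨?_, cpt (hf.continuousOn.mono (closedBall_subset_ball hR)) hc ha, fun z hz => ?_,
    fun z hz y hy h1 h2 => ?_, fun z hz h => nomax hf1 hc hz h⟩
  · refine ((hf1.continuousOn.sub continuousOn_const).norm.pow 2).div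
      (ContinuousOn.rpow_const (by fun_prop) fun z hz => Or.inl (d_pos hz).ne')
      fun z hz => (Real.rpow_pos_of_pos (d_pos hz) _).ne'
  · exact div_nonneg (by positivity) (Real.rpow_pos_of_pos (d_pos hz) _).le
  · have key : ∀ w ∈ ball (0 : ℂ) 1, sG f c a w = 0 → f w = a := fun w hw h => by
      rw [sG, div_eq_zero_iff] at h
      rcases h with h | h
      · exact sub_eq_zero.1 (norm_eq_zero.1 (pow_eq_zero_iff two_ne_zero |>.1 h))
      · exact absurd h (Real.rpow_pos_of_pos (d_pos hw) _).ne'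
    exact hinj (ball_subset_ball hR.le hz) (ball_subset_ball hR.le hy)
      ((key z hz h1).trans (key y hy h2).symm)

end Crest.Agent.R131.T26
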