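import Crest.Agent.R131.StarDefs
import Crest.Agent.Lib.Complex.Univalent

/-! Row 131: one-dimensional tests for `sG` (helper80, hedge). -/

set_option autoImplicit false
open MeasureTheory Set Metric Filter Topology
open scoped ENNReal ComplexConjugate

namespace Crest.Agent.R131.T80

theorem strict_min {h h1 : ℝ → ℝ} {κ : ℝ} (hd : ∀ᶠ t in 𝓝 (0 : ℝ), HasDerivAt h (h1 t) t)
    (h10 : h1 0 = 0) (hd2 : HasDerivAt h1 κ 0) (hκ : 0 < κ) :
    ∀ᶠ t in 𝓝[≠] (0 : ℝ), h 0 < h t := by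
  have hs : ∀ᶠ t in 𝓝[≠] (0 : ℝ), 0 < slope h1 0 t :=
    (hasDerivAt_iff_tendsto_slope.1 hd2).eventually (lt_mem_nhds hκ)
  rw [eventually_nhdsWithin_iff] at hs ⊢
  obtain ⟨ε, hε, hb⟩ := Metric.eventually_nhds_iff.1 (hd.and hs)
  refine Metric.eventually_nhds_iff.2 ⟨ε, hε, fun t ht ht0 => ?_⟩
  have ht0' : t ≠ 0 := ht0
  have htε : |t| < ε := by simpa [Real.dist_eq] using ht
  have hsl : ∀ s : ℝ, |s| < ε → s ≠ 0 → 0 < h1 s / s := by
    intro s hs hs0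
    have := (hb (y := s) (by simpa [Real.dist_eq] using hs)).2 hs0
    simpa [slope_def_field, h10] using this
  have hder : ∀ s : ℝ, |s| < ε → HasDerivAt h (h1 s) s := fun s hs =>
    (hb (y := s) (by simpa [Real.dist_eq] using hs)).1
  rcases lt_or_gt_of_ne ht0' with hlt | hgt
  · have hab : ∀ s ∈ Icc t 0, |s| < ε := fun s hs => by
      rw [abs_of_nonpos hs.2]; rw [abs_of_neg hlt] at htε; linarith [hs.1]
    obtain ⟨ξ, hξ, he⟩ := exists_hasDerivAt_eq_slope h h1 hlt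
      (fun s hs => (hder s (hab s hs)).continuousAt.continuousWithinAt)
      (fun s hs => hder s (hab s (Ioo_subset_Icc_self hs)))
    have h1' := hsl ξ (hab ξ (Ioo_subset_Icc_self hξ)) hξ.2.ne
    have hneg : h1 ξ < 0 := by
      by_contra hc
      push Not at hc
      have := div_nonpos_of_nonneg_of_nonpos hc hξ.2.le
      linarith
    rw [he, div_neg_iff] at hneg
    rcases hneg with h' | h'
    · linarith [h'.2]
    · linarith [h'.1]
  · have hab : ∀ s ∈ Icc 0 t, |s| < ε := fun s hs => by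
      rw [abs_of_nonneg hs.1]; rw [abs_of_pos hgt] at htε; linarith [hs.2]
    obtain ⟨ξ, hξ, he⟩ := exists_hasDerivAt_eq_slope h h1 hgt
      (fun s hs => (hder s (hab s hs)).continuousAt.continuousWithinAt)
      (fun s hs => hder s (hab s (Ioo_subset_Icc_self hs)))
    have h1' := hsl ξ (hab ξ (Ioo_subset_Icc_self hξ)) hξ.1.ne'
    have hpos : 0 < h1 ξ := by
      have := mul_pos h1' hξ.1
      rwa [div_mul_cancel₀ _ hξ.1.ne'] at this
    rw [he, div_pos_iff] at hpos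
    rcases hpos with h' | h'
    · linarith [h'.1]
    · linarith [h'.2]

theorem strict_max {h h1 : ℝ → ℝ} {κ : ℝ} (hd : ∀ᶠ t in 𝓝 (0 : ℝ), HasDerivAt h (h1 t) t)
    (h10 : h1 0 = 0) (hd2 : HasDerivAt h1 κ 0) (hκ : κ < 0) :
    ∀ᶠ t in 𝓝[≠] (0 : ℝ), h t < h 0 := by
  have := strict_min (h := fun t => -h t) (h1 := fun t => -h1 t) (κ := -κ)
    (hd.mono fun t ht => ht.neg) (by simp [h10]) hd2.neg (by linarith)
  exact this.mono fun t ht => by linarith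

theorem log_normsq {w : ℝ → ℂ} {w' : ℂ} {t : ℝ} (hw : HasDerivAt w w' t) (h0 : w t ≠ 0) :
    HasDerivAt (fun s => Real.log (‖w s‖ ^ 2)) (2 * (w' / w t).re) t := by
  have hn : ‖w t‖ ^ 2 ≠ 0 := pow_ne_zero _ (norm_ne_zero_iff.2 h0)
  have := hw.norm_sq.log hn
  convert this using 1
  rw [Complex.div_re, Complex.inner, Complex.sq_norm]
  have h2 : Complex.normSq (w t) ≠ 0 := by rwa [← Complex.sq_norm]
  simp only [Complex.mul_re, Complex.conj_re, Complex.conj_im]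
  field_simp
  ring

theorem normsq_line (p u : ℂ) (t : ℝ) :
    ‖p + t * u‖ ^ 2 = ‖p‖ ^ 2 + 2 * (conj p * u).re * t + ‖u‖ ^ 2 * t ^ 2 := by
  simp only [Complex.sq_norm, Complex.normSq_apply, Complex.add_re, Complex.add_im, Complex.mul_re,
    Complex.mul_im, Complex.ofReal_re, Complex.ofReal_im, Complex.conj_re, Complex.conj_im]
  ring

/-- first derivative of `log G` along `u` -/
noncomputable def k1 (f : ℂ → ℂ) (c : ℝ) (a p u : ℂ) : ℝ :=
  2 * (u * (deriv f p / (f p - a))).re + (1 + c) * (2 * (conj p * u).re / (1 - ‖p‖ ^ 2))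

/-- second derivative of `log G` along `u` -/
noncomputable def k2 (f : ℂ → ℂ) (c : ℝ) (a p u : ℂ) : ℝ :=
  2 * (u ^ 2 * (deriv (deriv f) p / (f p - a) - (deriv f p / (f p - a)) ^ 2)).re +
    (1 + c) * ((2 * ‖u‖ ^ 2 * (1 - ‖p‖ ^ 2) + 4 * (conj p * u).re ^ 2) / (1 - ‖p‖ ^ 2) ^ 2)

theorem key {f : ℂ → ℂ} (c : ℝ) {a p : ℂ} (hf : AnalyticAt ℂ f p) (ha : f p ≠ a) (hp : ‖p‖ < 1)
    (u : ℂ) : ∃ h h1 : ℝ → ℝ, (∀ᶠ t : ℝ in 𝓝 0, sG f c a (p + t * u) = Real.exp (h t)) ∧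
      (∀ᶠ t in 𝓝 (0 : ℝ), HasDerivAt h (h1 t) t) ∧ h1 0 = k1 f c a p u ∧
      HasDerivAt h1 (k2 f c a p u) 0 := by
  have hd0 : 0 < 1 - ‖p‖ ^ 2 := by nlinarith [norm_nonneg p]
  obtain ⟨α, hα⟩ : ∃ α, α = (conj p * u).re := ⟨_, rfl⟩
  obtain ⟨β, hβ⟩ : ∃ β, β = ‖u‖ ^ 2 := ⟨_, rfl⟩
  obtain ⟨d, hd⟩ : ∃ d, d = 1 - ‖p‖ ^ 2 := ⟨_, rfl⟩
  have hD : ∀ t : ℝ, 1 - ‖p + t * u‖ ^ 2 = d - 2 * α * t - β * t ^ 2 := fun t => by
    rw [normsq_line, hd, hα, hβ]; ring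
  have hline : Tendsto (fun t : ℝ => p + t * u) (𝓝 0) (𝓝 p) := by
    have : Continuous (fun t : ℝ => p + t * u) := by fun_prop
    simpa using this.tendsto 0
  have e1 : ∀ᶠ t : ℝ in 𝓝 0, AnalyticAt ℂ f (p + t * u) := hline.eventually hf.eventually_analyticAt
  have e2 : ∀ᶠ t : ℝ in 𝓝 0, f (p + t * u) ≠ a :=
    hline.eventually (hf.continuousAt.eventually_ne ha)
  have e3 : ∀ᶠ t : ℝ in 𝓝 0, 0 < d - 2 * α * t - β * t ^ 2 := by
    have : Continuous (fun t : ℝ => d - 2 * α * t - β * t ^ 2) := by fun_prop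
    refine (this.tendsto 0).eventually (lt_mem_nhds ?_)
    simpa [hd] using hd0
  have hDd : ∀ t : ℝ, HasDerivAt (fun t : ℝ => d - 2 * α * t - β * t ^ 2)
      (-(2 * α) - β * (2 * t)) t := fun t => by
    have h1 := ((hasDerivAt_id t).const_mul (2 * α)).const_sub d
    have h2 := (hasDerivAt_pow 2 t).const_mul β
    refine (h1.sub h2).congr_deriv ?_
    simp
  refine ⟨fun t => Real.log (‖f (p + t * u) - a‖ ^ 2) - (1 + c) * Real.log (d - 2 * α * t - β * t ^ 2),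
    fun t => 2 * (u * (deriv f (p + t * u) / (f (p + t * u) - a))).re +
      (1 + c) * ((2 * α + β * (2 * t)) / (d - 2 * α * t - β * t ^ 2)), ?_, ?_, ?_, ?_⟩
  · filter_upwards [e2, e3] with t h2 h3
    have hn : 0 < ‖f (p + t * u) - a‖ ^ 2 := pow_pos (norm_pos_iff.2 (sub_ne_zero.2 h2)) _
    unfold sG
    rw [hD, Real.exp_sub, Real.exp_log hn, Real.rpow_def_of_pos h3, mul_comm (1 + c)]
  · filter_upwards [e1, e2, e3] with t h1 h2 h3
    have hl : HasDerivAt (fun s : ℂ => p + s * u) u (t : ℂ) := by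
      simpa using ((hasDerivAt_id (t : ℂ)).mul_const u).const_add p
    have hw : HasDerivAt (fun s : ℝ => f (p + s * u) - a) (deriv f (p + t * u) * u) t :=
      ((h1.differentiableAt.hasDerivAt.comp (t : ℂ) hl).comp_ofReal).sub_const a
    have h4 := log_normsq hw (sub_ne_zero.2 h2)
    have h5 := ((hDd t).log h3.ne').const_mul (1 + c)
    refine (h4.sub h5).congr_deriv ?_
    have : u * (deriv f (p + t * u) / (f (p + t * u) - a)) =
        deriv f (p + t * u) * u / (f (p + t * u) - a) := by ring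
    rw [this]; ring
  · simp only [k1, Complex.ofReal_zero, zero_mul, add_zero, mul_zero, sub_zero, ← hα, ← hd]
    simp
  · have hl : HasDerivAt (fun s : ℂ => p + s * u) u ((0 : ℝ) : ℂ) := by
      simpa using ((hasDerivAt_id ((0 : ℝ) : ℂ)).mul_const u).const_add p
    have hp0 : p = p + ((0 : ℝ) : ℂ) * u := by simp
    have hQ : HasDerivAt (fun z => deriv f z / (f z - a))
        ((deriv (deriv f) p * (f p - a) - deriv f p * deriv f p) / (f p - a) ^ 2) p :=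
      hf.deriv.differentiableAt.hasDerivAt.div (hf.differentiableAt.hasDerivAt.sub_const a)
        (sub_ne_zero.2 ha)
    have hQ' := (((hp0 ▸ hQ : HasDerivAt (fun z => deriv f z / (f z - a)) _
      (p + ((0 : ℝ) : ℂ) * u)).comp ((0 : ℝ) : ℂ) hl).const_mul u).real_of_complex.const_mul 2
    have hnum : HasDerivAt (fun t : ℝ => 2 * α + β * (2 * t)) (β * 2) 0 := by
      simpa using (((hasDerivAt_id (0 : ℝ)).const_mul 2).const_mul β).const_add (2 * α)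
    have hden : d - 2 * α * 0 - β * 0 ^ 2 ≠ 0 := by simpa [hd] using hd0.ne'
    have h6 := (hnum.div (hDd 0) hden).const_mul (1 + c)
    refine (hQ'.add h6).congr_deriv ?_
    have hfa : f p - a ≠ 0 := sub_ne_zero.2 ha
    have hd' : d ≠ 0 := by rw [hd]; exact hd0.ne'
    have e : u ^ 2 * (deriv (deriv f) p / (f p - a) - (deriv f p / (f p - a)) ^ 2) =
        u * ((deriv (deriv f) p * (f p - a) - deriv f p * deriv f p) / (f p - a) ^ 2 * u) := by
      field_simp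
    simp only [k2, ← hα, ← hd, ← hβ, e, Complex.ofReal_zero, zero_mul, add_zero]
    congr 1
    field_simp
    ring

theorem line_tendsto (p u : ℂ) : Tendsto (fun t : ℝ => p + t * u) (𝓝 0) (𝓝 p) := by
  have : Continuous (fun t : ℝ => p + t * u) := by fun_prop
  simpa using this.tendsto 0

theorem of_max {f : ℂ → ℂ} {c : ℝ} {a p : ℂ} (hf : AnalyticAt ℂ f p) (ha : f p ≠ a) (hp : ‖p‖ < 1)
    (hm : IsLocalMax (sG f c a) p) (u : ℂ) : k2 f c a p u ≤ 0 := by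
  obtain ⟨h, h1, e1, e2, e3, e4⟩ := key c hf ha hp u
  have e0 : sG f c a p = Real.exp (h 0) := by simpa using e1.self_of_nhds
  have hm' : IsLocalMax h 0 := by
    filter_upwards [(line_tendsto p u).eventually hm, e1] with t h2 h3
    rwa [h3, e0, Real.exp_le_exp] at h2
  by_contra hc
  push Not at hc
  have := strict_min e2 (hm'.hasDerivAt_eq_zero e2.self_of_nhds) e4 hc
  obtain ⟨t, h2, h3⟩ := (this.and (hm'.filter_mono nhdsWithin_le_nhds)).exists
  linarith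

theorem of_min {f : ℂ → ℂ} {c : ℝ} {a p : ℂ} (hf : AnalyticAt ℂ f p) (ha : f p ≠ a) (hp : ‖p‖ < 1)
    (hm : IsLocalMin (sG f c a) p) (u : ℂ) : k1 f c a p u = 0 ∧ 0 ≤ k2 f c a p u := by
  obtain ⟨h, h1, e1, e2, e3, e4⟩ := key c hf ha hp u
  have e0 : sG f c a p = Real.exp (h 0) := by simpa using e1.self_of_nhds
  have hm' : IsLocalMin h 0 := by
    filter_upwards [(line_tendsto p u).eventually hm, e1] with t h2 h3
    rwa [h3, e0, Real.exp_le_exp] at h2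
  have h0 := hm'.hasDerivAt_eq_zero e2.self_of_nhds
  refine ⟨e3 ▸ h0, ?_⟩
  by_contra hc
  push Not at hc
  have := strict_max e2 h0 e4 hc
  obtain ⟨t, h2, h3⟩ := (this.and (hm'.filter_mono nhdsWithin_le_nhds)).exists
  linarith

theorem up_of {f : ℂ → ℂ} {c : ℝ} {a p : ℂ} (hf : AnalyticAt ℂ f p) (ha : f p ≠ a) (hp : ‖p‖ < 1)
    {u : ℂ} (h1 : k1 f c a p u = 0) (h2 : 0 < k2 f c a p u) :
    ∀ᶠ t : ℝ in 𝓝[≠] 0, sG f c a p < sG f c a (p + t * u) := by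
  obtain ⟨h, h1', e1, e2, e3, e4⟩ := key c hf ha hp u
  have e0 : sG f c a p = Real.exp (h 0) := by simpa using e1.self_of_nhds
  filter_upwards [strict_min e2 (e3.trans h1) e4 h2, e1.filter_mono nhdsWithin_le_nhds] with t h3 h4
  rwa [h4, e0, Real.exp_lt_exp]

theorem down_of {f : ℂ → ℂ} {c : ℝ} {a p : ℂ} (hf : AnalyticAt ℂ f p) (ha : f p ≠ a) (hp : ‖p‖ < 1)
    {u : ℂ} (h1 : k1 f c a p u = 0) (h2 : k2 f c a p u < 0) :
    ∀ᶠ t : ℝ in 𝓝[≠] 0, sG f c a (p + t * u) < sG f c a p := by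
  obtain ⟨h, h1', e1, e2, e3, e4⟩ := key c hf ha hp u
  have e0 : sG f c a p = Real.exp (h 0) := by simpa using e1.self_of_nhds
  filter_upwards [strict_max e2 (e3.trans h1) e4 h2, e1.filter_mono nhdsWithin_le_nhds] with t h3 h4
  rwa [h4, e0, Real.exp_lt_exp]

/-- `Y = conj p (d f''/f' + c conj p)` -/
noncomputable def YY (f : ℂ → ℂ) (c : ℝ) (p : ℂ) : ℂ :=
  conj p * (((1 - ‖p‖ ^ 2 : ℝ) : ℂ) * (deriv (deriv f) p / deriv f p) + c * conj p)

theorem norm_YY (f : ℂ → ℂ) (c : ℝ) (p : ℂ) : ‖YY f c p‖ = ‖sX f c p‖ := by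
  have e : sX f c p =
      p * (((1 - ‖p‖ ^ 2 : ℝ) : ℂ) * (deriv (deriv f) p / deriv f p) + c * conj p) := by
    unfold sX
    have : ((c * ‖p‖ ^ 2 : ℝ) : ℂ) = c * (p * conj p) := by
      rw [Complex.mul_conj, Complex.normSq_eq_norm_sq]; push_cast; ring
    rw [this]; ring
  rw [e, YY, norm_mul, norm_mul, Complex.norm_conj]

theorem k_crit {f : ℂ → ℂ} {c : ℝ} {a p : ℂ} (hp : ‖p‖ < 1) (h1 : deriv f p ≠ 0)
    (hQ : deriv f p / (f p - a) = -(((1 + c : ℝ) : ℂ) * conj p / ((1 - ‖p‖ ^ 2 : ℝ) : ℂ))) (u : ℂ) :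
    k1 f c a p u = 0 ∧
      k2 f c a p u = 2 * (1 + c) / (1 - ‖p‖ ^ 2) ^ 2 * (‖u‖ ^ 2 - (u ^ 2 * YY f c p).re) := by
  have hd0 : 0 < 1 - ‖p‖ ^ 2 := by nlinarith [norm_nonneg p]
  have e : deriv (deriv f) p / (f p - a) =
      deriv (deriv f) p / deriv f p * (deriv f p / (f p - a)) := by field_simp
  unfold k1 k2 YY
  rw [e, hQ]
  obtain ⟨k, hk⟩ : ∃ k, k = deriv (deriv f) p / deriv f p := ⟨_, rfl⟩
  rw [← hk]
  have hpp : ‖p‖ ^ 2 = p.re ^ 2 + p.im ^ 2 := by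
    rw [Complex.sq_norm, Complex.normSq_apply]; ring
  have huu : ‖u‖ ^ 2 = u.re ^ 2 + u.im ^ 2 := by
    rw [Complex.sq_norm, Complex.normSq_apply]; ring
  obtain ⟨d, hd⟩ : ∃ d, d = 1 - ‖p‖ ^ 2 := ⟨_, rfl⟩
  rw [← hd] at hd0 ⊢
  have e2 : -(((1 + c : ℝ) : ℂ) * conj p / (d : ℂ)) = ((-((1 + c) / d) : ℝ) : ℂ) * conj p := by
    push_cast; ring
  rw [e2, huu]
  have hd1 : p.re ^ 2 + p.im ^ 2 = 1 - d := by rw [hd, hpp]; ring
  constructor
  · simp only [Complex.mul_re, Complex.mul_im, Complex.ofReal_re, Complex.ofReal_im,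
      Complex.conj_re, Complex.conj_im]
    field_simp
    ring
  · simp only [pow_two, Complex.mul_re, Complex.mul_im, Complex.ofReal_re, Complex.ofReal_im,
      Complex.conj_re, Complex.conj_im, Complex.sub_re, Complex.sub_im, Complex.add_re,
      Complex.add_im]
    field_simp
    linear_combination 2 * (1 + c) * (u.re ^ 2 + u.im ^ 2) * hd1

section
variable {f : ℂ → ℂ} {R c : ℝ}

theorem star_nomax (hR : 1 < R) (hf : DifferentiableOn ℂ f (ball 0 R))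
    (hinj : InjOn f (ball 0 R)) (hc : -1 < c) (a : ℂ) {z : ℂ} (hz : z ∈ ball (0 : ℂ) 1) :
    ¬IsLocalMax (sG f c a) z := by
  intro hm
  have hzR : z ∈ ball (0 : ℂ) R := ball_subset_ball hR.le hz
  have hz1 : ‖z‖ < 1 := by simpa using hz
  have hA : AnalyticAt ℂ f z := hf.analyticAt (isOpen_ball.mem_nhds hzR)
  have hd0 : 0 < 1 - ‖z‖ ^ 2 := by nlinarith [norm_nonneg z]
  by_cases ha : f z = a
  · refine Crest.Agent.Lib.Complex.not_eventually_const_of_injOn isOpen_ball hinj hzR ?_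
    filter_upwards [hm, isOpen_ball.mem_nhds hz] with w h1 h2
    have hw1 : ‖w‖ < 1 := by simpa using h2
    have hd1 : 0 < 1 - ‖w‖ ^ 2 := by nlinarith [norm_nonneg w]
    have h0 : sG f c a z = 0 := by simp [sG, ha]
    rw [h0, sG, div_le_iff₀ (Real.rpow_pos_of_pos hd1 _), zero_mul] at h1
    have : ‖f w - a‖ = 0 := by
      have := norm_nonneg (f w - a)
      nlinarith
    rw [ha]; exact sub_eq_zero.1 (norm_eq_zero.1 this)
  · have h1 := of_max hA ha hz1 hm 1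
    have h2 := of_max hA ha hz1 hm Complex.I
    unfold k2 at h1 h2
    simp only [one_pow, one_mul, norm_one, mul_one, Complex.I_sq, neg_mul, Complex.neg_re,
      Complex.norm_I] at h1 h2
    have h3 : 0 < (1 + c) * ((2 * (1 - ‖z‖ ^ 2) + 4 * (conj z).re ^ 2) / (1 - ‖z‖ ^ 2) ^ 2) := by
      have : 0 < 1 + c := by linarith
      positivity
    have h4 : 0 < (1 + c) *
        ((2 * (1 - ‖z‖ ^ 2) + 4 * (conj z * Complex.I).re ^ 2) / (1 - ‖z‖ ^ 2) ^ 2) := by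
      have : 0 < 1 + c := by linarith
      positivity
    linarith

theorem star_min (hR : 1 < R) (hf : DifferentiableOn ℂ f (ball 0 R))
    (hinj : InjOn f (ball 0 R)) (hc : -1 < c) (a : ℂ) {z : ℂ} (hz : z ∈ ball (0 : ℂ) 1)
    (hm : IsLocalMin (sG f c a) z) (ha : f z ≠ a) :
    z ≠ 0 ∧ sF f c z = a ∧ sJ f c z ≤ 0 := by
  have hzR : z ∈ ball (0 : ℂ) R := ball_subset_ball hR.le hz
  have hz1 : ‖z‖ < 1 := by simpa using hz
  have hA : AnalyticAt ℂ f z := hf.analyticAt (isOpen_ball.mem_nhds hzR)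
  have hd0 : 0 < 1 - ‖z‖ ^ 2 := by nlinarith [norm_nonneg z]
  have hc0 : 0 < 1 + c := by linarith
  have h1 : deriv f z ≠ 0 := Crest.Agent.Lib.Complex.deriv_ne_zero_of_injOn isOpen_ball hf hinj hzR
  have hfa : f z - a ≠ 0 := sub_ne_zero.2 ha
  have hQ : deriv f z / (f z - a) = -(((1 + c : ℝ) : ℂ) * conj z / ((1 - ‖z‖ ^ 2 : ℝ) : ℂ)) := by
    have a1 := (of_min hA ha hz1 hm 1).1
    have a2 := (of_min hA ha hz1 hm Complex.I).1
    unfold k1 at a1 a2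
    obtain ⟨d, hd⟩ : ∃ d, d = 1 - ‖z‖ ^ 2 := ⟨_, rfl⟩
    rw [← hd] at hd0 a1 a2 ⊢
    obtain ⟨Q, hQ⟩ : ∃ Q, Q = deriv f z / (f z - a) := ⟨_, rfl⟩
    rw [← hQ] at a1 a2 ⊢
    have e2 : -(((1 + c : ℝ) : ℂ) * conj z / (d : ℂ)) = ((-((1 + c) / d) : ℝ) : ℂ) * conj z := by
      push_cast; ring
    rw [e2]
    simp only [one_mul, mul_one, Complex.mul_re, Complex.I_re, Complex.I_im, zero_mul, mul_zero,
      Complex.conj_re, Complex.conj_im, zero_sub] at a1 a2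
    apply Complex.ext
    · simp only [Complex.mul_re, Complex.ofReal_re, Complex.ofReal_im, Complex.conj_re,
        Complex.conj_im]
      linear_combination (1 / 2 : ℝ) * a1
    · simp only [Complex.mul_im, Complex.ofReal_re, Complex.ofReal_im, Complex.conj_re,
        Complex.conj_im]
      linear_combination (-1 / 2 : ℝ) * a2
  have hz0 : z ≠ 0 := by
    rintro rfl
    simp [h1, hfa] at hQ
  have hdc : ((1 - ‖z‖ ^ 2 : ℝ) : ℂ) ≠ 0 := Complex.ofReal_ne_zero.2 hd0.ne'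
  have hcc : ((1 + c : ℝ) : ℂ) ≠ 0 := Complex.ofReal_ne_zero.2 hc0.ne'
  have hzc : conj z ≠ 0 := by simpa using hz0
  refine ⟨hz0, ?_, ?_⟩
  · unfold sF
    rw [div_eq_iff hfa] at hQ
    rw [hQ]
    field_simp
    ring
  · obtain ⟨u, hu⟩ := IsAlgClosed.exists_pow_nat_eq (conj (YY f c z)) (n := 2) (by norm_num)
    have a1 := (of_min hA ha hz1 hm u).2
    rw [(k_crit hz1 h1 hQ u).2, hu] at a1
    have hn : ‖u‖ ^ 2 = ‖YY f c z‖ := by rw [← norm_pow, hu, Complex.norm_conj]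
    have hr : (conj (YY f c z) * YY f c z).re = ‖YY f c z‖ ^ 2 := by
      rw [mul_comm, Complex.mul_conj, Complex.ofReal_re, Complex.normSq_eq_norm_sq]
    rw [hn, hr, norm_YY] at a1
    have hpos : 0 < 2 * (1 + c) / (1 - ‖z‖ ^ 2) ^ 2 := by positivity
    have a3 : 0 ≤ ‖sX f c z‖ - ‖sX f c z‖ ^ 2 := by
      by_contra hcon
      push Not at hcon
      nlinarith [mul_pos hpos (neg_pos.2 hcon)]
    have a4 : ‖sX f c z‖ ^ 2 - 1 ≤ 0 := by nlinarith [norm_nonneg (sX f c z)]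
    unfold sJ
    exact div_nonpos_of_nonpos_of_nonneg (mul_nonpos_of_nonneg_of_nonpos (by positivity) a4)
      (by positivity)

theorem star_sad (hR : 1 < R) (hf : DifferentiableOn ℂ f (ball 0 R))
    (hinj : InjOn f (ball 0 R)) (hc : -1 < c) (a : ℂ) {p : ℂ} (hp : p ∈ ball (0 : ℂ) 1)
    (hF : sF f c p = a) (hJ : 0 < sJ f c p) :
    ∃ v w : ℂ, (w / v).im ≠ 0 ∧ (∀ᶠ t : ℝ in 𝓝[≠] 0, sG f c a (p + t * v) < sG f c a p) ∧
      ∀ᶠ t : ℝ in 𝓝[≠] 0, sG f c a p < sG f c a (p + t * w) := by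
  have hzR : p ∈ ball (0 : ℂ) R := ball_subset_ball hR.le hp
  have hz1 : ‖p‖ < 1 := by simpa using hp
  have hA : AnalyticAt ℂ f p := hf.analyticAt (isOpen_ball.mem_nhds hzR)
  have hd0 : 0 < 1 - ‖p‖ ^ 2 := by nlinarith [norm_nonneg p]
  have hc0 : 0 < 1 + c := by linarith
  have h1 : deriv f p ≠ 0 := Crest.Agent.Lib.Complex.deriv_ne_zero_of_injOn isOpen_ball hf hinj hzR
  have hz0 : p ≠ 0 := by
    rintro rfl
    simp [sJ] at hJ
  have hdc : ((1 - ‖p‖ ^ 2 : ℝ) : ℂ) ≠ 0 := Complex.ofReal_ne_zero.2 hd0.ne'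
  have hcc : ((1 + c : ℝ) : ℂ) ≠ 0 := Complex.ofReal_ne_zero.2 hc0.ne'
  have hzc : conj p ≠ 0 := by simpa using hz0
  have hfa : f p - a = -(((1 - ‖p‖ ^ 2 : ℝ) : ℂ) * deriv f p / (((1 + c : ℝ) : ℂ) * conj p)) := by
    rw [← hF, sF]; ring
  have ha : f p ≠ a := by
    rw [← sub_ne_zero, hfa]
    exact neg_ne_zero.2 (div_ne_zero (mul_ne_zero hdc h1) (mul_ne_zero hcc hzc))
  have hQ : deriv f p / (f p - a) = -(((1 + c : ℝ) : ℂ) * conj p / ((1 - ‖p‖ ^ 2 : ℝ) : ℂ)) := by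
    rw [hfa]; field_simp
  have hX : 1 < ‖sX f c p‖ := by
    unfold sJ at hJ
    have hn : 0 < ‖p‖ := norm_pos_iff.2 hz0
    have h2 : 0 < ‖deriv f p‖ ^ 2 := pow_pos (norm_pos_iff.2 h1) _
    have h3 := (div_pos_iff_of_pos_right (by positivity)).1 hJ
    have h4 := (mul_pos_iff_of_pos_left h2).1 h3
    nlinarith [norm_nonneg (sX f c p)]
  obtain ⟨u, hu⟩ := IsAlgClosed.exists_pow_nat_eq (conj (YY f c p)) (n := 2) (by norm_num)
  have hn : ‖u‖ ^ 2 = ‖sX f c p‖ := by rw [← norm_pow, hu, Complex.norm_conj, norm_YY]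
  have hr : (conj (YY f c p) * YY f c p).re = ‖sX f c p‖ ^ 2 := by
    rw [mul_comm, Complex.mul_conj, Complex.ofReal_re, Complex.normSq_eq_norm_sq, norm_YY]
  have hu0 : u ≠ 0 := by
    rintro rfl
    simp at hn
    linarith
  have hpos : 0 < 2 * (1 + c) / (1 - ‖p‖ ^ 2) ^ 2 := by positivity
  refine ⟨u, Complex.I * u, ?_, ?_, ?_⟩
  · rw [mul_div_assoc, div_self hu0]; simp
  · refine down_of hA ha hz1 (k_crit hz1 h1 hQ u).1 ?_
    rw [(k_crit hz1 h1 hQ u).2, hu, hn, hr]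
    exact mul_neg_of_pos_of_neg hpos (by nlinarith)
  · refine up_of hA ha hz1 (k_crit hz1 h1 hQ _).1 ?_
    rw [(k_crit hz1 h1 hQ _).2, mul_pow, Complex.I_sq, hu, norm_mul, Complex.norm_I, one_mul, hn,
      neg_mul, neg_mul, one_mul, Complex.neg_re, hr]
    exact mul_pos hpos (by nlinarith)

end

end Crest.Agent.R131.T80
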