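import Crest.Agent.R131.W52B
import Crest.Agent.R131.Defs
import Crest.Agent.R131.Univ

/-! Row 131: from the (strict or non-strict) weighted inequality to the integral means (helper52). -/

set_option autoImplicit false

open MeasureTheory Set Filter Complex Metric ProbabilityTheory
open scoped ENNReal Topology Real Nat

noncomputable section

namespace Crest.Agent.R131.W52

/-- the coefficient inequality -/
lemma coef_bound {τ b c η C₀ K : ℝ} (hτ : 0 < τ) (hb : 0 < b) (hη : 0 ≤ η)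
    (hθ : 0 < th τ b c + η) : ∃ C : ℝ, ∀ (x A : ℕ → ℝ), (∀ n, 0 ≤ x n) → (∀ n, x n ≤ 4 ^ n * K) →
      (∀ n : ℕ, A n = beta (n + τ / 2) b * ((c ^ 2 * ((n + τ / 2) * (n + τ / 2 + 1)) -
        2 * c * (2 / τ * n) * ((n + τ / 2) * b) + (2 / τ * n) ^ 2 * (b * (b + 1))) /
          ((n + τ / 2 + b) * (n + τ / 2 + b + 1)))) →
      ∑' n : ℕ, ENNReal.ofReal (x n) * ENNReal.ofReal (beta (n + τ / 2) b) ≠ ⊤ →
      ∑' n : ℕ, ENNReal.ofReal (x n) * ENNReal.ofReal (A n) +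
        ENNReal.ofReal η * ∑' n : ℕ, ENNReal.ofReal (x n) * ENNReal.ofReal (beta (n + τ / 2) b) ≤
        ∑' n : ℕ, ENNReal.ofReal (x n) * ENNReal.ofReal (beta (n + τ / 2) b) + ENNReal.ofReal C₀ →
      ∑' n : ℕ, ENNReal.ofReal (x n) * ENNReal.ofReal (beta (n + τ / 2) b) ≤ ENNReal.ofReal C := by
  set κ : ℝ := (th τ b c + η) / 2 with hκ
  have hκ0 : 0 < κ := by positivity
  obtain ⟨N, hN⟩ := ratio_ev (c := c) (lam := 1 - η + κ) hτ hb (by unfold th at hκ hθ; linarith)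
  set C1 : ℝ := ∑ n ∈ Finset.range N, 4 ^ n * K * beta (n + τ / 2) b with hC1
  refine ⟨((1 + κ) * C1 + max C₀ 0) / κ, fun x A hx hxK hA hfin hle => ?_⟩
  have hB : ∀ n : ℕ, 0 < beta (n + τ / 2) b := fun n => beta_pos (by positivity) hb
  set S := ∑' n : ℕ, ENNReal.ofReal (x n) * ENNReal.ofReal (beta (n + τ / 2) b) with hS
  have hK : 0 ≤ K := by have := (hx 0).trans (hxK 0); simpa using this
  have hC10 : 0 ≤ C1 := Finset.sum_nonneg fun n _ => by have := hB n; positivity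
  have hterm : ∀ n : ℕ, ENNReal.ofReal (1 + κ) * (ENNReal.ofReal (x n) *
      ENNReal.ofReal (beta (n + τ / 2) b)) ≤ ENNReal.ofReal (x n) * ENNReal.ofReal (A n) +
      ENNReal.ofReal η * (ENNReal.ofReal (x n) * ENNReal.ofReal (beta (n + τ / 2) b)) +
      ENNReal.ofReal (1 + κ) * (if n ∈ Finset.range N then
        ENNReal.ofReal (4 ^ n * K * beta (n + τ / 2) b) else 0) := by
    intro n
    have h1 := hx n
    have h2 := hB n
    split_ifs with hn
    · refine le_add_left ?_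
      gcongr
      rw [← ENNReal.ofReal_mul h1]
      exact ENNReal.ofReal_le_ofReal (mul_le_mul_of_nonneg_right (hxK n) h2.le)
    · rw [mul_zero, add_zero]
      have h3 := hN n (by simpa using hn)
      have h4 : (1 - η + κ) * beta (n + τ / 2) b ≤ A n := by
        rw [hA n, mul_comm]; exact mul_le_mul_of_nonneg_left h3 h2.le
      rw [← ENNReal.ofReal_mul h1, ← ENNReal.ofReal_mul h1, ← ENNReal.ofReal_mul (by positivity),
        ← ENNReal.ofReal_mul hη]
      refine le_trans (ENNReal.ofReal_le_ofReal ?_) ENNReal.ofReal_add_le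
      nlinarith [mul_le_mul_of_nonneg_left h4 h1]
  have hsum := ENNReal.tsum_le_tsum hterm
  rw [ENNReal.tsum_mul_left, ENNReal.tsum_add, ENNReal.tsum_add, ENNReal.tsum_mul_left,
    ENNReal.tsum_mul_left, ← hS] at hsum
  have hfs : ∑' n : ℕ, (if n ∈ Finset.range N then
      ENNReal.ofReal (4 ^ n * K * beta (n + τ / 2) b) else 0) = ENNReal.ofReal C1 := by
    rw [tsum_eq_sum (s := Finset.range N) fun n hn => if_neg hn, hC1,
      ENNReal.ofReal_sum_of_nonneg fun n _ => by have := hB n; positivity]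
    exact Finset.sum_congr rfl fun n hn => if_pos hn
  rw [hfs] at hsum
  have h5 : ENNReal.ofReal (1 + κ) * S ≤ S + ENNReal.ofReal (max C₀ 0) +
      ENNReal.ofReal (1 + κ) * ENNReal.ofReal C1 := by
    exact hsum.trans (add_le_add
      (hle.trans (add_le_add le_rfl (ENNReal.ofReal_le_ofReal (le_max_left _ _)))) le_rfl)
  obtain ⟨s, hs0, hs⟩ : ∃ s : ℝ, 0 ≤ s ∧ S = ENNReal.ofReal s :=
    ⟨S.toReal, ENNReal.toReal_nonneg, (ENNReal.ofReal_toReal hfin).symm⟩
  have hm : 0 ≤ max C₀ 0 := le_max_right _ _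
  rw [hs, ← ENNReal.ofReal_mul (by positivity), ← ENNReal.ofReal_mul (by positivity),
    ← ENNReal.ofReal_add hs0 hm, ← ENNReal.ofReal_add (by positivity) (by positivity),
    ENNReal.ofReal_le_ofReal_iff (by positivity)] at h5
  rw [hs]
  refine ENNReal.ofReal_le_ofReal ?_
  rw [le_div_iff₀ hκ0]
  linarith

/-- **Means from the weighted inequality.** -/
theorem means {τ b c η C₀ K : ℝ} (hτ : 0 < τ) (hb : 0 < b) (hη : 0 ≤ η)
    (hθ : 0 < th τ b c + η) : ∃ C : ℝ, ∀ f : ℂ → ℂ, DifferentiableOn ℂ f (ball 0 1) →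
      (∀ z ∈ ball (0 : ℂ) 1, deriv f z ≠ 0) → (∀ z : ℂ, ‖z‖ = 1 / 2 → ‖deriv f z‖ ^ (-τ) ≤ K) →
      Mass τ b f ≠ ⊤ →
      (∫⁻ z in ball (0 : ℂ) 1, ENNReal.ofReal (‖XX c f z‖ ^ 2 * ww τ b f z)) +
        ENNReal.ofReal η * Mass τ b f ≤ Mass τ b f + ENNReal.ofReal C₀ →
      ∀ r : ℝ, 1 / 2 ≤ r → r < 1 →
        ∫⁻ θ in Ioc (-π) π, ENNReal.ofReal (‖deriv f (r * Complex.exp (θ * I))‖ ^ (-τ)) ≤
          ENNReal.ofReal (C * (1 - r) ^ (-b)) := by
  obtain ⟨C, hC⟩ := coef_bound (C₀ := C₀) (K := π * K) hτ hb hη hθ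
  refine ⟨2 * max C 0 / ((1 / 4) ^ (τ / 2) * (1 / 2) ^ b / 2), fun f hf hne hK hfin hle r hr0 hr1 => ?_⟩
  obtain ⟨L, hL, hexp, hder⟩ := univ_exists_log (hf.deriv isOpen_ball) hne
  set g : ℂ → ℂ := fun z => Complex.exp (-((τ / 2 : ℝ) : ℂ) * L z) with hg
  have hgd : DifferentiableOn ℂ g (ball 0 1) := (hL.const_mul _).cexp
  have hg2 : ∀ z ∈ ball (0 : ℂ) 1, ‖g z‖ ^ 2 = ‖deriv f z‖ ^ (-τ) := by
    intro z hz
    rw [← hexp z hz, hg]
    simp only [Complex.norm_exp]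
    rw [← Real.exp_mul, ← Real.exp_nat_mul]
    congr 1
    simp
    ring
  have hg' : ∀ z ∈ ball (0 : ℂ) 1,
      deriv g z = g z * (-((τ / 2 : ℝ) : ℂ) * (deriv (deriv f) z / deriv f z)) := fun z hz =>
    (((hder z hz).const_mul _).cexp).deriv
  obtain ⟨a, ha⟩ := taylor hgd
  have hwt : ∀ z ∈ ball (0 : ℂ) 1, z ≠ 0 → ww τ b f z = ‖g z‖ ^ 2 * wt τ b (‖z‖ ^ 2) := by
    intro z hz h0
    have hz0 : 0 < ‖z‖ := norm_pos_iff.2 h0
    have e : (‖z‖ ^ 2) ^ (τ / 2 - 1) = ‖z‖ ^ (τ - 2) := by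
      rw [← Real.rpow_natCast, ← Real.rpow_mul hz0.le]; congr 1; push_cast; ring
    rw [hg2 z hz, ww, wt, e, dd]; ring
  have hM : Mass τ b f = ∑' n : ℕ, ENNReal.ofReal (π * ‖a n‖ ^ 2) *
      ENNReal.ofReal (beta (n + τ / 2) b) := by
    rw [Mass, disc_formula ha (fun _ => 1) (fun _ => 0) (wt τ b) measurable_const measurable_const
      (measurable_wt τ b) (wt_nonneg τ b) _ (measurable_ww τ b f).ennreal_ofReal]
    · refine tsum_congr fun n => ?_
      rw [← lint_B hτ hb]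
      simp
    · intro z hz h0
      rw [hwt z hz h0]; simp
  have hX : (∫⁻ z in ball (0 : ℂ) 1, ENNReal.ofReal (‖XX c f z‖ ^ 2 * ww τ b f z)) =
      ∑' n : ℕ, ENNReal.ofReal (π * ‖a n‖ ^ 2) * ENNReal.ofReal (beta (n + τ / 2) b *
        ((c ^ 2 * ((n + τ / 2) * (n + τ / 2 + 1)) -
        2 * c * (2 / τ * n) * ((n + τ / 2) * b) + (2 / τ * n) ^ 2 * (b * (b + 1))) /
          ((n + τ / 2 + b) * (n + τ / 2 + b + 1)))) := by
    have hm : Measurable fun z => ENNReal.ofReal (‖XX c f z‖ ^ 2 * ww τ b f z) :=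
      (((measurable_XX c f).norm.pow_const 2).mul (measurable_ww τ b f)).ennreal_ofReal
    rw [disc_formula ha (fun s => c * s) (fun s => -(2 / τ) * (1 - s)) (wt τ b) (by fun_prop)
      (by fun_prop) (measurable_wt τ b) (wt_nonneg τ b) _ hm]
    · refine tsum_congr fun n => ?_
      rw [← lint_A hτ hb]
      congr 1
      refine lintegral_congr fun s => ?_
      congr 3; ring
    · intro z hz h0
      rw [hwt z hz h0, ← mul_assoc, ← mul_pow, ← norm_mul, hg' z hz]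
      congr 4
      have : (τ : ℂ) ≠ 0 := by exact_mod_cast hτ.ne'
      simp only [XX, dd]
      push_cast
      field_simp
  have hcirc : ∀ ρ : ℝ, 0 ≤ ρ → ρ < 1 →
      ∫⁻ θ in Ioo (-π) π, ENNReal.ofReal (‖deriv f (ρ * Complex.exp (θ * I))‖ ^ (-τ)) =
        ∑' n : ℕ, ENNReal.ofReal (2 * π * (‖a n‖ ^ 2 * (ρ ^ 2) ^ n)) := by
    intro ρ h0 h1
    have := circle_formula ha 1 0 h0 h1
    simp only [ofReal_one, one_mul, ofReal_zero, zero_mul, add_zero, one_pow] at this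
    rw [← this]
    refine lintegral_congr fun θ => ?_
    rw [hg2]
    rw [mem_ball_zero_iff, norm_mul, Complex.norm_exp_ofReal_mul_I, mul_one, Complex.norm_real,
      Real.norm_of_nonneg h0]
    exact h1
  have hK0 : 0 ≤ K := le_trans (by positivity) (hK (1 / 2) (by simp))
  have hlow : ∀ n : ℕ, π * ‖a n‖ ^ 2 ≤ 4 ^ n * (π * K) := by
    intro n
    have h1 := hcirc (1 / 2) (by norm_num) (by norm_num)
    have h2 : ∫⁻ θ in Ioo (-π) π,
        ENNReal.ofReal (‖deriv f (((1 / 2 : ℝ) : ℂ) * Complex.exp (θ * I))‖ ^ (-τ)) ≤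
          ENNReal.ofReal (2 * π * K) := by
      calc _ ≤ ∫⁻ _ in Ioo (-π) π, ENNReal.ofReal K := by
            refine lintegral_mono fun θ => ENNReal.ofReal_le_ofReal (hK _ ?_)
            rw [norm_mul, Complex.norm_exp_ofReal_mul_I, mul_one, Complex.norm_real,
              Real.norm_of_nonneg (by norm_num)]
        _ = _ := by
            rw [setLIntegral_const, Real.volume_Ioo, ← ENNReal.ofReal_mul hK0]
            congr 1; ring
    rw [h1] at h2
    have h3 := (ENNReal.le_tsum n).trans h2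
    rw [ENNReal.ofReal_le_ofReal_iff (by positivity)] at h3
    have h4 : (((1 : ℝ) / 2) ^ 2) ^ n * 4 ^ n = 1 := by rw [← mul_pow]; norm_num
    have h5 : (0 : ℝ) < 4 ^ n := by positivity
    calc π * ‖a n‖ ^ 2 = (2 * π * (‖a n‖ ^ 2 * ((1 / 2) ^ 2) ^ n)) * 4 ^ n / 2 := by
          rw [show (2 * π * (‖a n‖ ^ 2 * ((1 / 2) ^ 2) ^ n)) * 4 ^ n / 2 =
            π * ‖a n‖ ^ 2 * ((((1 : ℝ) / 2) ^ 2) ^ n * 4 ^ n) by ring, h4, mul_one]
      _ ≤ (2 * π * K) * 4 ^ n / 2 := by gcongr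
      _ = _ := by ring
  rw [hX, hM] at hle
  rw [hM] at hfin
  have hS := hC (fun n => π * ‖a n‖ ^ 2) _ (fun n => by positivity) hlow (fun _ => rfl) hfin hle
  have h1r : 0 < 1 - r := by linarith
  set m : ℝ := (1 / 4) ^ (τ / 2) * ((1 - r) / 2) ^ b / 2 with hm
  have hm0 : 0 < m := by positivity
  rw [← setLIntegral_congr Ioo_ae_eq_Ioc, hcirc r (by linarith) hr1]
  calc ∑' n : ℕ, ENNReal.ofReal (2 * π * (‖a n‖ ^ 2 * (r ^ 2) ^ n))
      ≤ ∑' n : ℕ, ENNReal.ofReal (2 / m) * (ENNReal.ofReal (π * ‖a n‖ ^ 2) *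
          ENNReal.ofReal (beta (n + τ / 2) b)) := by
        refine ENNReal.tsum_le_tsum fun n => ?_
        rw [← ENNReal.ofReal_mul (by positivity), ← ENNReal.ofReal_mul (by positivity)]
        refine ENNReal.ofReal_le_ofReal ?_
        have := beta_low hτ hb hr0 hr1 n
        calc 2 * π * (‖a n‖ ^ 2 * (r ^ 2) ^ n) = 2 / m * (π * ‖a n‖ ^ 2 * ((r ^ 2) ^ n * m)) := by
              field_simp
          _ ≤ _ := by gcongr
    _ ≤ ENNReal.ofReal (2 / m) * ENNReal.ofReal (max C 0) := by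
        rw [ENNReal.tsum_mul_left]
        gcongr
        exact hS.trans (ENNReal.ofReal_le_ofReal (le_max_left _ _))
    _ = _ := by
        rw [← ENNReal.ofReal_mul (by positivity)]
        congr 1
        have e : ((1 - r) / 2) ^ b = (1 - r) ^ b * (1 / 2) ^ b := by
          rw [← Real.mul_rpow h1r.le (by norm_num)]; congr 1; ring
        rw [hm, e, Real.rpow_neg h1r.le]
        have : 0 < (1 - r) ^ b := by positivity
        field_simp

end Crest.Agent.R131.W52
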