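import Mathlib

set_option autoImplicit false

open MeasureTheory Set Filter Complex
open scoped ENNReal Topology Real

noncomputable section

namespace Crest.Agent.R131.W52

lemma int_exp (k : ℤ) : ∫ θ in Ioo (-π) π, Complex.exp (k * θ * I) = if k = 0 then 2 * π else 0 := by
  rw [← integral_Ioc_eq_integral_Ioo, ← intervalIntegral.integral_of_le (by linarith [Real.pi_pos])]
  split_ifs with hk
  · subst hk
    simp
    ring
  · have hc : (k : ℂ) * I ≠ 0 := mul_ne_zero (by exact_mod_cast hk) I_ne_zero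
    have : ∀ θ : ℝ, Complex.exp (k * θ * I) = Complex.exp ((k * I) * θ) := fun θ => by ring_nf
    simp_rw [this]
    rw [integral_exp_mul_complex hc]
    have h1 : Complex.exp (k * I * (π : ℝ)) = Complex.exp (k * I * ((-π : ℝ) : ℂ)) := by
      have : (k : ℂ) * I * (π : ℝ) = k * I * ((-π : ℝ) : ℂ) + k * (2 * π * I) := by
        push_cast; ring
      rw [this, Complex.exp_add, Complex.exp_int_mul_two_pi_mul_I, mul_one]
    rw [h1]; simp

lemma parseval_fin (c : ℕ → ℂ) (N : ℕ) :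
    ∫ θ in Ioo (-π) π, ‖∑ n ∈ Finset.range N, c n * Complex.exp (n * θ * I)‖ ^ 2 =
      2 * π * ∑ n ∈ Finset.range N, ‖c n‖ ^ 2 := by
  have key : ∀ θ : ℝ, ((‖∑ n ∈ Finset.range N, c n * Complex.exp (n * θ * I)‖ ^ 2 : ℝ) : ℂ) =
      ∑ n ∈ Finset.range N, ∑ m ∈ Finset.range N,
        c n * (starRingEnd ℂ) (c m) * Complex.exp (((n : ℤ) - (m : ℤ) : ℤ) * θ * I) := by
    intro θ
    rw [← Complex.normSq_eq_norm_sq, ← Complex.mul_conj, map_sum, Finset.sum_mul_sum]
    refine Finset.sum_congr rfl fun n _ => Finset.sum_congr rfl fun m _ => ?_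
    rw [map_mul, ← Complex.exp_conj]
    have : (starRingEnd ℂ) ((m : ℂ) * θ * I) = -(m * θ * I) := by
      simp [map_mul, Complex.conj_ofReal]
    rw [this]
    have h2 : Complex.exp (((n : ℤ) - (m : ℤ) : ℤ) * θ * I) =
        Complex.exp (n * θ * I) * Complex.exp (-(m * θ * I)) := by
      rw [← Complex.exp_add]; congr 1; push_cast; ring
    rw [h2]; ring
  have hint : ∀ (a : ℂ) (k : ℤ), IntegrableOn (fun θ : ℝ => a * Complex.exp (k * θ * I)) (Ioo (-π) π) := by
    intro a k
    have : Continuous fun θ : ℝ => a * Complex.exp (k * θ * I) := by fun_prop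
    exact (this.integrableOn_Icc (a := -π) (b := π)).mono_set Ioo_subset_Icc_self
  apply Complex.ofReal_injective
  rw [← integral_complex_ofReal]
  simp_rw [key]
  rw [integral_finsetSum _ fun n _ => integrable_finsetSum _ fun m _ => hint _ _]
  push_cast
  rw [Finset.mul_sum]
  refine Finset.sum_congr rfl fun n hn => ?_
  have := integral_finsetSum (μ := volume.restrict (Ioo (-π) π)) (Finset.range N)
    (f := fun (m : ℕ) (θ : ℝ) => c n * (starRingEnd ℂ) (c m) *
      Complex.exp (((n : ℤ) - (m : ℤ) : ℤ) * θ * I)) fun m _ => hint _ _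
  push_cast at this
  rw [this, Finset.sum_eq_single n]
  · have h0 := int_exp 0
    rw [integral_const_mul]
    simp only [sub_self, zero_mul, Complex.exp_zero] 
    simp only [Int.cast_zero, zero_mul, Complex.exp_zero, if_true] at h0
    rw [h0, Complex.mul_conj, Complex.normSq_eq_norm_sq]; push_cast; ring
  · intro m _ hm
    rw [integral_const_mul]
    have h0 := int_exp ((n : ℤ) - m)
    rw [if_neg (by omega)] at h0
    push_cast at h0
    rw [h0, mul_zero]
  · intro h; exact absurd hn h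

lemma parseval_real (c : ℕ → ℂ) (hc : Summable fun n => ‖c n‖) :
    IntegrableOn (fun θ : ℝ => ‖∑' n, c n * Complex.exp (n * θ * I)‖ ^ 2) (Ioo (-π) π) ∧
    HasSum (fun n => 2 * π * ‖c n‖ ^ 2)
      (∫ θ in Ioo (-π) π, ‖∑' n, c n * Complex.exp (n * θ * I)‖ ^ 2) := by
  have hn : ∀ (n : ℕ) (θ : ℝ), ‖c n * Complex.exp (n * θ * I)‖ = ‖c n‖ := by
    intro n θ
    rw [norm_mul]
    have : (n : ℂ) * θ * I = ((n * θ : ℝ) : ℂ) * I := by push_cast; ring
    rw [this, Complex.norm_exp_ofReal_mul_I, mul_one]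
  have hcont : Continuous fun θ : ℝ => ∑' n, c n * Complex.exp (n * θ * I) :=
    continuous_tsum (fun n => by fun_prop) hc fun n θ => (hn n θ).le
  have hI : IntegrableOn (fun θ : ℝ => ‖∑' n, c n * Complex.exp (n * θ * I)‖ ^ 2) (Ioo (-π) π) :=
    (((hcont.norm).pow 2).integrableOn_Icc (a := -π) (b := π)).mono_set Ioo_subset_Icc_self
  refine ⟨hI, ?_⟩
  rw [hasSum_iff_tendsto_nat_of_nonneg (fun n => by positivity)]
  simp_rw [← Finset.mul_sum, ← parseval_fin]
  refine tendsto_integral_of_dominated_convergence (fun _ => (∑' n, ‖c n‖) ^ 2) ?_ ?_ ?_ ?_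
  · intro N
    exact (Continuous.aestronglyMeasurable (by fun_prop))
  · exact integrableOn_const (by simp)
  · intro N
    refine Eventually.of_forall fun θ => ?_
    rw [Real.norm_of_nonneg (by positivity)]
    refine pow_le_pow_left₀ (norm_nonneg _) ((norm_sum_le _ _).trans ?_) 2
    simp_rw [hn]
    exact hc.sum_le_tsum _ fun _ _ => norm_nonneg _
  · refine Eventually.of_forall fun θ => ?_
    have hs : Summable fun n => c n * Complex.exp (n * θ * I) :=
      Summable.of_norm (by simpa only [hn] using hc)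
    exact (hs.hasSum.tendsto_sum_nat.norm).pow 2

lemma parseval (c : ℕ → ℂ) (hc : Summable fun n => ‖c n‖) :
    ∫⁻ θ in Ioo (-π) π, ENNReal.ofReal (‖∑' n, c n * Complex.exp (n * θ * I)‖ ^ 2) =
      ∑' n, ENNReal.ofReal (2 * π * ‖c n‖ ^ 2) := by
  obtain ⟨h1, h2⟩ := parseval_real c hc
  rw [← ofReal_integral_eq_lintegral_ofReal h1 (Eventually.of_forall fun θ => by positivity),
    ← h2.tsum_eq, ENNReal.ofReal_tsum_of_nonneg (fun n => by positivity) h2.summable]

lemma polar (F : ℂ → ℝ≥0∞) (hF : Measurable F) :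
    ∫⁻ z in Metric.ball (0 : ℂ) 1, F z =
      ∫⁻ r in Ioo (0 : ℝ) 1, ENNReal.ofReal r * ∫⁻ θ in Ioo (-π) π, F (r * Complex.exp (θ * I)) := by
  rw [← lintegral_indicator measurableSet_ball, ← Complex.lintegral_comp_polarCoord_symm,
    polarCoord_target, Measure.volume_eq_prod, ← Measure.prod_restrict]
  have hsymm : ∀ p : ℝ × ℝ, Complex.polarCoord.symm p = p.1 * Complex.exp (p.2 * I) := by
    intro p
    rw [Complex.polarCoord_symm_apply, Complex.exp_mul_I]; push_cast; ring
  simp_rw [hsymm, smul_eq_mul]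
  have hm : Measurable fun p : ℝ × ℝ => ENNReal.ofReal p.1 *
      (Metric.ball (0 : ℂ) 1).indicator F (p.1 * Complex.exp (p.2 * I)) := by
    refine (ENNReal.measurable_ofReal.comp measurable_fst).mul
      ((hF.indicator measurableSet_ball).comp ?_)
    fun_prop
  rw [lintegral_prod _ hm.aemeasurable]
  have hsub : Ioo (0 : ℝ) 1 = Ioi 0 ∩ Iio 1 := rfl
  rw [← lintegral_indicator measurableSet_Ioi, ← lintegral_indicator measurableSet_Ioo]
  refine lintegral_congr fun r => ?_
  have hnorm : ∀ θ : ℝ, ‖(r : ℂ) * Complex.exp (θ * I)‖ = |r| := by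
    intro θ; rw [norm_mul, Complex.norm_exp_ofReal_mul_I, mul_one, Complex.norm_real, Real.norm_eq_abs]
  by_cases h0 : 0 < r
  · rw [indicator_of_mem (show r ∈ Ioi (0 : ℝ) from h0)]
    by_cases h1 : r < 1
    · rw [indicator_of_mem (show r ∈ Ioo (0 : ℝ) 1 from ⟨h0, h1⟩), ← lintegral_const_mul' _ _ ENNReal.ofReal_ne_top]
      refine lintegral_congr fun θ => ?_
      rw [indicator_of_mem]
      rw [mem_ball_zero_iff, hnorm, abs_of_pos h0]; exact h1
    · rw [indicator_of_notMem (fun h => h1 h.2)]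
      have : ∀ θ : ℝ, (Metric.ball (0 : ℂ) 1).indicator F (r * Complex.exp (θ * I)) = 0 := by
        intro θ
        rw [indicator_of_notMem]
        rw [mem_ball_zero_iff, hnorm, abs_of_pos h0]; exact h1
      simp [this]
  · rw [indicator_of_notMem (show r ∉ Ioi (0 : ℝ) from h0), indicator_of_notMem (fun h => h0 h.1)]

lemma subst_sq (φ : ℝ → ℝ≥0∞) :
    ∫⁻ s in Ioo (0 : ℝ) 1, φ s = ∫⁻ r in Ioo (0 : ℝ) 1, ENNReal.ofReal (2 * r) * φ (r ^ 2) := by
  have himg : (fun r : ℝ => r ^ 2) '' Ioo 0 1 = Ioo 0 1 := by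
    ext s; constructor
    · rintro ⟨r, ⟨h0, h1⟩, rfl⟩
      exact ⟨by positivity, by nlinarith⟩
    · rintro ⟨h0, h1⟩
      refine ⟨√s, ⟨Real.sqrt_pos.2 h0, ?_⟩, Real.sq_sqrt h0.le⟩
      rw [Real.sqrt_lt' one_pos]; simpa using h1
  have := lintegral_image_eq_lintegral_abs_deriv_mul (s := Ioo (0 : ℝ) 1) (f := fun r : ℝ => r ^ 2)
    (f' := fun r => 2 * r) measurableSet_Ioo
    (fun r _ => by simpa using (hasDerivAt_pow 2 r).hasDerivWithinAt)
    (fun a ha b hb h => by
      have := ha.1; have := hb.1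
      exact (pow_left_inj₀ ha.1.le hb.1.le two_ne_zero).1 h) φ
  rw [himg] at this
  rw [this]
  refine setLIntegral_congr_fun measurableSet_Ioo fun r hr => ?_
  rw [abs_of_pos (by linarith [hr.1])]

open ProbabilityTheory in
lemma lint_beta {a b : ℝ} (ha : 0 < a) (hb : 0 < b) :
    ∫⁻ s in Ioo (0 : ℝ) 1, ENNReal.ofReal (s ^ (a - 1) * (1 - s) ^ (b - 1)) =
      ENNReal.ofReal (beta a b) := by
  have h1 := lintegral_betaPDF_eq_one ha hb
  rw [lintegral_betaPDF] at h1
  have hp := beta_pos ha hb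
  have h2 : ∫⁻ s in Ioo (0 : ℝ) 1, ENNReal.ofReal (s ^ (a - 1) * (1 - s) ^ (b - 1)) =
      ENNReal.ofReal (beta a b) *
        ∫⁻ s in Ioo (0 : ℝ) 1, ENNReal.ofReal (1 / beta a b * s ^ (a - 1) * (1 - s) ^ (b - 1)) := by
    rw [← lintegral_const_mul' _ _ ENNReal.ofReal_ne_top]
    refine lintegral_congr fun s => ?_
    rw [← ENNReal.ofReal_mul hp.le]
    congr 1
    field_simp
  rw [h2, h1, mul_one]

open ProbabilityTheory in
lemma int_beta {a b : ℝ} (ha : 0 < a) (hb : 0 < b) :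
    IntegrableOn (fun s : ℝ => s ^ (a - 1) * (1 - s) ^ (b - 1)) (Ioo 0 1) ∧
      ∫ s in Ioo (0 : ℝ) 1, s ^ (a - 1) * (1 - s) ^ (b - 1) = beta a b := by
  have hnn : 0 ≤ᵐ[volume.restrict (Ioo (0 : ℝ) 1)] fun s : ℝ => s ^ (a - 1) * (1 - s) ^ (b - 1) := by
    refine (ae_restrict_iff' measurableSet_Ioo).2 (Eventually.of_forall fun s hs => ?_)
    have := hs.1; have : 0 < 1 - s := by linarith [hs.2]
    simp only [Pi.zero_apply]; positivity
  have hm : Measurable fun s : ℝ => s ^ (a - 1) * (1 - s) ^ (b - 1) := by fun_prop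
  have hI : IntegrableOn (fun s : ℝ => s ^ (a - 1) * (1 - s) ^ (b - 1)) (Ioo 0 1) := by
    refine ⟨hm.aestronglyMeasurable, ?_⟩
    rw [hasFiniteIntegral_iff_ofReal hnn, lint_beta ha hb]
    exact ENNReal.ofReal_lt_top
  refine ⟨hI, ?_⟩
  rw [integral_eq_lintegral_of_nonneg_ae hnn hm.aestronglyMeasurable, lint_beta ha hb,
    ENNReal.toReal_ofReal (beta_pos ha hb).le]

open ProbabilityTheory in
lemma beta_l {a b : ℝ} (ha : 0 < a) (hb : 0 < b) : beta (a + 1) b = beta a b * (a / (a + b)) := by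
  have h : a + 1 + b = (a + b) + 1 := by ring
  have hG := (Real.Gamma_pos_of_pos (add_pos ha hb)).ne'
  have : a + b ≠ 0 := (add_pos ha hb).ne'
  simp only [beta]
  rw [h, Real.Gamma_add_one ha.ne', Real.Gamma_add_one this]
  field_simp

open ProbabilityTheory in
lemma beta_r {a b : ℝ} (ha : 0 < a) (hb : 0 < b) : beta a (b + 1) = beta a b * (b / (a + b)) := by
  have h : a + (b + 1) = (a + b) + 1 := by ring
  have hG := (Real.Gamma_pos_of_pos (add_pos ha hb)).ne'
  have : a + b ≠ 0 := (add_pos ha hb).ne'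
  simp only [beta]
  rw [h, Real.Gamma_add_one hb.ne', Real.Gamma_add_one this]
  field_simp

end Crest.Agent.R131.W52
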