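import Crest.Agent.R131.W52A

set_option autoImplicit false

open MeasureTheory Set Filter Complex Metric ProbabilityTheory
open scoped ENNReal Topology Real Nat

noncomputable section

namespace Crest.Agent.R131.W52

lemma HasSum.congr_fun' {u v : ℕ → ℂ} {x : ℂ} (h : HasSum u x) (e : ∀ n, v n = u n) :
    HasSum v x := by
  have : v = u := funext e
  rw [this]; exact h

lemma taylor {g : ℂ → ℂ} (hg : DifferentiableOn ℂ g (ball 0 1)) :
    ∃ a : ℕ → ℂ, ∀ z ∈ ball (0 : ℂ) 1, HasSum (fun n => a n * z ^ n) (g z) ∧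
      HasSum (fun n : ℕ => (n : ℂ) * a n * z ^ n) (z * deriv g z) := by
  refine ⟨fun n => (n ! : ℂ)⁻¹ * iteratedDeriv n g 0, fun z hz => ⟨?_, ?_⟩⟩
  · have := Complex.hasSum_taylorSeries_on_ball hg hz
    have e : (fun n : ℕ => (n ! : ℂ)⁻¹ * iteratedDeriv n g 0 * z ^ n) =
        fun n : ℕ => (n ! : ℂ)⁻¹ • (z - 0) ^ n • iteratedDeriv n g 0 := by
      funext n
      simp only [smul_eq_mul, sub_zero]; ring
    rw [e]; exact this
  · have h := (Complex.hasSum_taylorSeries_on_ball (hg.deriv isOpen_ball) hz).mul_left z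
    rw [← hasSum_nat_add_iff' 1]
    simp only [Finset.range_one, Finset.sum_singleton, Nat.cast_zero, zero_mul, sub_zero]
    refine (HasSum.congr_fun' h ?_)
    intro n
    rw [iteratedDeriv_succ', Nat.factorial_succ]
    have : ((n ! : ℕ) : ℂ) ≠ 0 := by exact_mod_cast (Nat.factorial_pos n).ne'
    have h2 : ((n : ℂ) + 1) ≠ 0 := by exact_mod_cast Nat.succ_ne_zero n
    simp only [smul_eq_mul, sub_zero]
    push_cast
    field_simp
    ring

lemma circle_formula {a : ℕ → ℂ} {g g1 : ℂ → ℂ}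
    (h : ∀ z ∈ ball (0 : ℂ) 1, HasSum (fun n => a n * z ^ n) (g z) ∧
      HasSum (fun n : ℕ => (n : ℂ) * a n * z ^ n) (g1 z)) (p q : ℝ) {r : ℝ} (h0 : 0 ≤ r) (h1 : r < 1) :
    ∫⁻ θ in Ioo (-π) π, ENNReal.ofReal
        (‖(p : ℂ) * g (r * Complex.exp (θ * I)) + q * g1 (r * Complex.exp (θ * I))‖ ^ 2) =
      ∑' n : ℕ, ENNReal.ofReal (2 * π * (‖a n‖ ^ 2 * ((p + q * n) ^ 2 * (r ^ 2) ^ n))) := by
  have hmem : ∀ θ : ℝ, (r : ℂ) * Complex.exp (θ * I) ∈ ball (0 : ℂ) 1 := by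
    intro θ
    rw [mem_ball_zero_iff, norm_mul, Complex.norm_exp_ofReal_mul_I, mul_one, Complex.norm_real,
      Real.norm_of_nonneg h0]
    exact h1
  have hr : (r : ℂ) ∈ ball (0 : ℂ) 1 := by simpa using hmem 0
  set c : ℕ → ℂ := fun n => ((p + q * n : ℝ) : ℂ) * a n * (r : ℂ) ^ n with hc
  have hs : Summable fun n => ‖c n‖ := by
    have := (((h r hr).1.mul_left (p : ℂ)).add ((h r hr).2.mul_left (q : ℂ))).summable
    refine (summable_norm_iff.2 this).congr fun n => ?_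
    congr 1
    simp only [hc]; push_cast; ring
  have hsum : ∀ θ : ℝ, (p : ℂ) * g (r * Complex.exp (θ * I)) + q * g1 (r * Complex.exp (θ * I)) =
      ∑' n, c n * Complex.exp (n * θ * I) := by
    intro θ
    have := (((h _ (hmem θ)).1.mul_left (p : ℂ)).add ((h _ (hmem θ)).2.mul_left (q : ℂ)))
    rw [← this.tsum_eq]
    refine tsum_congr fun n => ?_
    have he : Complex.exp (n * θ * I) = Complex.exp (θ * I) ^ n := by
      rw [← Complex.exp_nat_mul]; congr 1; ring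
    simp only [hc, he]; push_cast; ring
  simp_rw [hsum]
  rw [parseval c hs]
  refine tsum_congr fun n => ?_
  congr 2
  simp only [hc, norm_mul, norm_pow, Complex.norm_real, Real.norm_eq_abs, mul_pow, sq_abs]
  rw [← pow_mul, ← pow_mul, mul_comm n 2, pow_mul, pow_mul, sq_abs]
  ring

lemma disc_formula {a : ℕ → ℂ} {g g1 : ℂ → ℂ}
    (h : ∀ z ∈ ball (0 : ℂ) 1, HasSum (fun n => a n * z ^ n) (g z) ∧
      HasSum (fun n : ℕ => (n : ℂ) * a n * z ^ n) (g1 z)) (p q w : ℝ → ℝ) (hp : Measurable p)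
    (hq : Measurable q) (hw : Measurable w) (hw0 : ∀ s ∈ Ioo (0 : ℝ) 1, 0 ≤ w s)
    (F : ℂ → ℝ≥0∞) (hF : Measurable F)
    (hFe : ∀ z ∈ ball (0 : ℂ) 1, z ≠ 0 → F z =
      ENNReal.ofReal (‖(p (‖z‖ ^ 2) : ℂ) * g z + q (‖z‖ ^ 2) * g1 z‖ ^ 2 * w (‖z‖ ^ 2))) :
    ∫⁻ z in ball (0 : ℂ) 1, F z = ∑' n : ℕ, ENNReal.ofReal (π * ‖a n‖ ^ 2) *
      ∫⁻ s in Ioo (0 : ℝ) 1, ENNReal.ofReal ((p s + q s * n) ^ 2 * s ^ n * w s) := by
  rw [polar F hF]
  have h1 : ∀ r ∈ Ioo (0 : ℝ) 1,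
      ENNReal.ofReal r * ∫⁻ θ in Ioo (-π) π, F (r * Complex.exp (θ * I)) =
      ∑' n : ℕ, ENNReal.ofReal (π * ‖a n‖ ^ 2) * (ENNReal.ofReal (2 * r) *
        ENNReal.ofReal ((p (r ^ 2) + q (r ^ 2) * n) ^ 2 * (r ^ 2) ^ n * w (r ^ 2))) := by
    intro r hr
    have hn : ∀ θ : ℝ, ‖(r : ℂ) * Complex.exp (θ * I)‖ = r := by
      intro θ
      rw [norm_mul, Complex.norm_exp_ofReal_mul_I, mul_one, Complex.norm_real,
        Real.norm_of_nonneg hr.1.le]
    have hs : r ^ 2 ∈ Ioo (0 : ℝ) 1 := ⟨by have := hr.1; positivity, by nlinarith [hr.1, hr.2]⟩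
    have hW := hw0 _ hs
    have h2 : ∀ θ : ℝ, F (r * Complex.exp (θ * I)) = ENNReal.ofReal
        (‖(p (r ^ 2) : ℂ) * g (r * Complex.exp (θ * I)) +
          q (r ^ 2) * g1 (r * Complex.exp (θ * I))‖ ^ 2) * ENNReal.ofReal (w (r ^ 2)) := by
      intro θ
      rw [hFe _ (by rw [mem_ball_zero_iff, hn]; exact hr.2)
        (by rw [← norm_ne_zero_iff, hn]; exact hr.1.ne'), hn, ENNReal.ofReal_mul (by positivity)]
    simp_rw [h2]
    rw [lintegral_mul_const' _ _ ENNReal.ofReal_ne_top, circle_formula h _ _ hr.1.le hr.2,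
      ← ENNReal.tsum_mul_right, ← ENNReal.tsum_mul_left]
    refine tsum_congr fun n => ?_
    have := hr.1
    rw [← ENNReal.ofReal_mul (by positivity), ← ENNReal.ofReal_mul (by positivity),
      ← ENNReal.ofReal_mul (by positivity), ← ENNReal.ofReal_mul (by positivity)]
    congr 1; ring
  rw [setLIntegral_congr_fun measurableSet_Ioo h1, lintegral_tsum]
  · refine tsum_congr fun n => ?_
    rw [lintegral_const_mul' _ _ ENNReal.ofReal_ne_top,
      subst_sq fun s => ENNReal.ofReal ((p s + q s * n) ^ 2 * s ^ n * w s)]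
  · intro n
    refine Measurable.aemeasurable ?_
    have h3 : Measurable fun r : ℝ => p (r ^ 2) := hp.comp (by fun_prop)
    have h4 : Measurable fun r : ℝ => q (r ^ 2) := hq.comp (by fun_prop)
    have h5 : Measurable fun r : ℝ => w (r ^ 2) := hw.comp (by fun_prop)
    fun_prop

/-- the radial weight -/
def wt (τ b s : ℝ) : ℝ := s ^ (τ / 2 - 1) * (1 - s) ^ (b - 1)

lemma measurable_wt (τ b : ℝ) : Measurable (wt τ b) := by unfold wt; fun_prop

lemma wt_nonneg (τ b : ℝ) : ∀ s ∈ Ioo (0 : ℝ) 1, 0 ≤ wt τ b s := by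
  intro s hs
  have := hs.1; have : 0 < 1 - s := by linarith [hs.2]
  unfold wt; positivity

lemma lint_B {τ b : ℝ} (hτ : 0 < τ) (hb : 0 < b) (n : ℕ) :
    ∫⁻ s in Ioo (0 : ℝ) 1, ENNReal.ofReal (s ^ n * wt τ b s) = ENNReal.ofReal (beta (n + τ / 2) b) := by
  rw [← lint_beta (by positivity) hb]
  refine setLIntegral_congr_fun measurableSet_Ioo fun s hs => ?_
  have : (n : ℝ) + τ / 2 - 1 = n + (τ / 2 - 1) := by ring
  rw [this, Real.rpow_add hs.1, Real.rpow_natCast, wt, mul_assoc]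

lemma lint_A {τ b : ℝ} (hτ : 0 < τ) (hb : 0 < b) (c k : ℝ) (n : ℕ) :
    ∫⁻ s in Ioo (0 : ℝ) 1, ENNReal.ofReal ((c * s - k * (1 - s)) ^ 2 * s ^ n * wt τ b s) =
      ENNReal.ofReal (beta (n + τ / 2) b * ((c ^ 2 * ((n + τ / 2) * (n + τ / 2 + 1)) -
        2 * c * k * ((n + τ / 2) * b) + k ^ 2 * (b * (b + 1))) /
          ((n + τ / 2 + b) * (n + τ / 2 + b + 1)))) := by
  set a : ℝ := n + τ / 2 with ha
  have ha0 : 0 < a := by positivity
  obtain ⟨i1, e1⟩ := int_beta (a := a + 1 + 1) (b := b) (by positivity) hb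
  obtain ⟨i2, e2⟩ := int_beta (a := a + 1) (b := b + 1) (by positivity) (by positivity)
  obtain ⟨i3, e3⟩ := int_beta (a := a) (b := b + 1 + 1) ha0 (by positivity)
  have hpt : ∀ s ∈ Ioo (0 : ℝ) 1, (c * s - k * (1 - s)) ^ 2 * s ^ n * wt τ b s =
      c ^ 2 * (s ^ (a + 1 + 1 - 1) * (1 - s) ^ (b - 1)) -
        2 * c * k * (s ^ (a + 1 - 1) * (1 - s) ^ (b + 1 - 1)) +
        k ^ 2 * (s ^ (a - 1) * (1 - s) ^ (b + 1 + 1 - 1)) := by
    intro s hs
    have h0 := hs.1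
    have h1 : 0 < 1 - s := by linarith [hs.2]
    have e0 : s ^ (a - 1) = s ^ n * s ^ (τ / 2 - 1) := by
      rw [show a - 1 = n + (τ / 2 - 1) by rw [ha]; ring, Real.rpow_add h0, Real.rpow_natCast]
    have ea : s ^ (a + 1 - 1) = s ^ (a - 1) * s := by
      rw [show a + 1 - 1 = (a - 1) + 1 by ring, Real.rpow_add_one h0.ne']
    have eb : s ^ (a + 1 + 1 - 1) = s ^ (a - 1) * s * s := by
      rw [show a + 1 + 1 - 1 = (a + 1 - 1) + 1 by ring, Real.rpow_add_one h0.ne', ea]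
    have ec : (1 - s) ^ (b + 1 - 1) = (1 - s) ^ (b - 1) * (1 - s) := by
      rw [show b + 1 - 1 = (b - 1) + 1 by ring, Real.rpow_add_one h1.ne']
    have ed : (1 - s) ^ (b + 1 + 1 - 1) = (1 - s) ^ (b - 1) * (1 - s) * (1 - s) := by
      rw [show b + 1 + 1 - 1 = (b + 1 - 1) + 1 by ring, Real.rpow_add_one h1.ne', ec]
    rw [eb, ea, ed, ec, e0, wt]; ring
  have hI : IntegrableOn (fun s : ℝ => (c * s - k * (1 - s)) ^ 2 * s ^ n * wt τ b s) (Ioo 0 1) := by
    refine IntegrableOn.congr_fun ?_ (fun s hs => (hpt s hs).symm) measurableSet_Ioo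
    exact ((i1.const_mul _).sub (i2.const_mul _)).add (i3.const_mul _)
  rw [← ofReal_integral_eq_lintegral_ofReal hI]
  · congr 1
    rw [setIntegral_congr_fun measurableSet_Ioo hpt, integral_add, integral_sub, integral_const_mul,
      integral_const_mul, integral_const_mul, e1, e2, e3, beta_l (by positivity) hb, beta_l ha0 hb,
      beta_l ha0 (by positivity), beta_r ha0 hb, beta_r ha0 (by positivity), beta_r ha0 hb]
    · have : a + b ≠ 0 := by positivity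
      have : a + b + 1 ≠ 0 := by positivity
      have : a + 1 + b ≠ 0 := by positivity
      have : a + (b + 1) ≠ 0 := by positivity
      field_simp
      ring
    · exact i1.const_mul _
    · exact i2.const_mul _
    · exact (i1.const_mul _).sub (i2.const_mul _)
    · exact i3.const_mul _
  · refine (ae_restrict_iff' measurableSet_Ioo).2 (Eventually.of_forall fun s hs => ?_)
    have := hs.1
    have := wt_nonneg τ b s hs
    simp only [Pi.zero_apply]; positivity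

lemma quad_ev {α β γ : ℝ} (hα : 0 < α) : ∃ N : ℕ, ∀ n : ℕ, N ≤ n → 0 ≤ α * n ^ 2 + β * n + γ := by
  obtain ⟨N, hN⟩ := exists_nat_ge ((|β| + |γ|) / α + 1)
  refine ⟨N, fun n hn => ?_⟩
  have h1 : (N : ℝ) ≤ n := by exact_mod_cast hn
  have h2 : 0 ≤ (|β| + |γ|) / α := by positivity
  have h3 : (1 : ℝ) ≤ n := by linarith
  have h4 : |β| + |γ| ≤ α * n := by
    have : (|β| + |γ|) / α ≤ n := by linarith
    rwa [div_le_iff₀' hα] at this
  have h5 := neg_abs_le β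
  have h6 := neg_abs_le γ
  have h7 := abs_nonneg γ
  nlinarith

lemma ratio_ev {τ b c lam : ℝ} (hτ : 0 < τ) (hb : 0 < b)
    (hl : lam < (c - 2 * b / τ) ^ 2 + 4 * b / τ ^ 2) : ∃ N : ℕ, ∀ n : ℕ, N ≤ n →
      lam ≤ (c ^ 2 * ((n + τ / 2) * (n + τ / 2 + 1)) -
        2 * c * (2 / τ * n) * ((n + τ / 2) * b) + (2 / τ * n) ^ 2 * (b * (b + 1))) /
          ((n + τ / 2 + b) * (n + τ / 2 + b + 1)) := by
  obtain ⟨N, hN⟩ := quad_ev (α := (c - 2 * b / τ) ^ 2 + 4 * b / τ ^ 2 - lam)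
    (β := c ^ 2 * (τ + 1) - 2 * c * b - lam * (τ + 2 * b + 1))
    (γ := c ^ 2 * (τ / 2 * (τ / 2 + 1)) - lam * ((τ / 2 + b) * (τ / 2 + b + 1))) (by linarith)
  refine ⟨N, fun n hn => ?_⟩
  rw [le_div_iff₀ (by positivity), ← sub_nonneg]
  refine (hN n hn).trans (le_of_eq ?_)
  field_simp
  ring

lemma beta_low {τ b r : ℝ} (hτ : 0 < τ) (hb : 0 < b) (h0 : 1 / 2 ≤ r) (h1 : r < 1) (n : ℕ) :
    (r ^ 2) ^ n * ((1 / 4) ^ (τ / 2) * ((1 - r) / 2) ^ b / 2) ≤ beta (n + τ / 2) b := by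
  have hr0 : 0 < r := by linarith
  set d : ℝ := 1 - r ^ 2 with hd
  have hd0 : 0 < d := by nlinarith
  have hd1 : 1 - r ≤ d := by nlinarith
  have hr4 : 1 / 4 ≤ r ^ 2 := by nlinarith
  rw [← ENNReal.ofReal_le_ofReal_iff (beta_pos (by positivity) hb).le, ← lint_B hτ hb]
  have hsub : Ioo (r ^ 2) (r ^ 2 + d / 2) ⊆ Ioo 0 1 := fun s hs =>
    ⟨by linarith [hs.1], by linarith [hs.2]⟩
  refine le_trans ?_ (lintegral_mono_set hsub)
  have hlow : ∀ s ∈ Ioo (r ^ 2) (r ^ 2 + d / 2),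
      ENNReal.ofReal ((r ^ 2) ^ n * ((1 / 4) ^ (τ / 2) * ((1 - r) / 2) ^ b / d)) ≤
        ENNReal.ofReal (s ^ n * wt τ b s) := by
    intro s hs
    refine ENNReal.ofReal_le_ofReal ?_
    have hs0 : 0 < s := by linarith [hs.1]
    have hs1 : s < 1 := by linarith [hs.2]
    have h1s : 0 < 1 - s := by linarith
    have e1 : (1 / 4 : ℝ) ^ (τ / 2) ≤ s ^ (τ / 2 - 1) := by
      calc (1 / 4 : ℝ) ^ (τ / 2) ≤ s ^ (τ / 2) :=
            Real.rpow_le_rpow (by norm_num) (by linarith [hs.1]) (by positivity)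
        _ ≤ s ^ (τ / 2 - 1) := Real.rpow_le_rpow_of_exponent_ge hs0 hs1.le (by linarith)
    have e2 : ((1 - r) / 2) ^ b / d ≤ (1 - s) ^ (b - 1) := by
      rw [Real.rpow_sub_one h1s.ne']
      have : ((1 - r) / 2) ^ b ≤ (1 - s) ^ b :=
        Real.rpow_le_rpow (by linarith) (by linarith [hs.2]) hb.le
      have h3 : 1 - s ≤ d := by linarith [hs.1]
      gcongr
    have e3 : (r ^ 2) ^ n ≤ s ^ n := pow_le_pow_left₀ (by positivity) hs.1.le n
    have h1r : 0 < (1 - r) / 2 := by linarith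
    rw [wt, mul_div_assoc]
    gcongr
  refine le_trans ?_ (setLIntegral_mono' measurableSet_Ioo hlow)
  have h1r : 0 < (1 - r) / 2 := by linarith
  rw [setLIntegral_const, Real.volume_Ioo, ← ENNReal.ofReal_mul (by positivity)]
  refine ENNReal.ofReal_le_ofReal (le_of_eq ?_)
  field_simp
  ring

end Crest.Agent.R131.W52
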