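import Crest.Agent.R131.WtPolar

/-! Row 131 (helper34): from the weighted area inequality to integral means. -/

set_option autoImplicit false

open MeasureTheory Set Metric Complex
open scoped ComplexConjugate Topology

noncomputable section

namespace Crest.Agent.R131.Wt

/-- the unweighted integrand -/
def G0 (c al eta : ℝ) (g : ℂ → ℂ) (z : ℂ) : ℝ :=
  ‖((c * ‖z‖ ^ 2 : ℝ) : ℂ) * g z - (((1 - ‖z‖ ^ 2) / al : ℝ) : ℂ) * z * deriv g z‖ ^ 2 -
    (1 - eta) * ‖g z‖ ^ 2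

/-- the weighted integrand -/
def GW (c b al eta : ℝ) (g : ℂ → ℂ) (z : ℂ) : ℝ :=
  (‖((c * ‖z‖ ^ 2 : ℝ) : ℂ) * g z - (((1 - ‖z‖ ^ 2) / al : ℝ) : ℂ) * z * deriv g z‖ ^ 2 -
    (1 - eta) * ‖g z‖ ^ 2) * ((1 - ‖z‖ ^ 2) ^ (b - 1) * ‖z‖ ^ (2 * al - 2))

theorem GW_eq (c b al eta : ℝ) (g : ℂ → ℂ) :
    GW c b al eta g = fun z => G0 c al eta g z * W b al z := rfl

theorem G0_cont (c al eta : ℝ) {g : ℂ → ℂ} {R : ℝ} (hR : 1 < R)
    (hg : DifferentiableOn ℂ g (ball 0 R)) : ContinuousOn (G0 c al eta g) (closedBall 0 1) := by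
  have a1 : ContinuousOn g (closedBall 0 1) := hg.continuousOn.mono (closedBall_subset_ball hR)
  have a2 : ContinuousOn (deriv g) (closedBall 0 1) :=
    (hg.deriv isOpen_ball).continuousOn.mono (closedBall_subset_ball hR)
  unfold G0
  fun_prop

theorem GW_integrableOn (c eta : ℝ) {b al : ℝ} (hal : 0 < al) (hb : 0 < b) {g : ℂ → ℂ} {R : ℝ}
    (hR : 1 < R) (hg : DifferentiableOn ℂ g (ball 0 R)) :
    IntegrableOn (GW c b al eta g) (ball (0 : ℂ) 1) :=
  integrableOn_mul_W hal hb (G0_cont c al eta hR hg)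

theorem normsq_expand (A B : ℝ) (x y : ℂ) :
    ‖(A : ℂ) * x - (B : ℂ) * y‖ ^ 2 =
      A ^ 2 * ‖x‖ ^ 2 - 2 * A * B * (conj x * y).re + B ^ 2 * ‖y‖ ^ 2 := by
  simp only [Complex.sq_norm, Complex.normSq_apply, Complex.sub_re, Complex.sub_im, Complex.mul_re,
    Complex.mul_im, Complex.ofReal_re, Complex.ofReal_im, Complex.conj_re, Complex.conj_im]
  ring

/-- the exact identity `∫ GW = ∫ w q M` -/
theorem integral_GW (c eta : ℝ) {b al : ℝ} (hal : 0 < al) (hb : 0 < b) {g : ℂ → ℂ} {R : ℝ}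
    (hR : 1 < R) (hg : DifferentiableOn ℂ g (ball 0 R)) :
    ∫ z in ball (0 : ℂ) 1, GW c b al eta g z =
      ∫ r in (0 : ℝ)..1, w b al r * (q c b al eta (r ^ 2) * (Q g g r).re) := by
  have hN := N_diff hg
  have lt : ∀ r ∈ Icc (0 : ℝ) 1, |r| < R := fun r hr => by
    rw [abs_of_nonneg hr.1]; linarith [hr.2]
  rw [GW_eq, integral_mul_W hal hb (G0_cont c al eta hR hg),
    ← ibp (M := fun r => (Q g g r).re) (M1 := fun r => (Q g (N g) r).re) (M2 := fun r => (Q (N g) (N g) r).re) hal hb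
      (Complex.continuous_re.comp_continuousOn (Q_continuousOn hg hg hR))
      (Complex.continuous_re.comp_continuousOn (Q_continuousOn hg hN hR))
      (Complex.continuous_re.comp_continuousOn (Q_continuousOn hN hN hR))]
  · refine intervalIntegral.integral_congr fun r hr => ?_
    rw [uIcc_of_le (by norm_num)] at hr
    have hr' := lt r hr
    congr 1
    have cg := cont_circ hg.continuousOn hr'
    have cN := cont_circ hN.continuousOn hr'
    have i1 : IntervalIntegrable (fun θ => ‖g (pt r θ)‖ ^ 2) volume (-Real.pi) Real.pi :=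
      (cg.norm.pow 2).intervalIntegrable _ _
    have i2 : IntervalIntegrable (fun θ => (conj (g (pt r θ)) * N g (pt r θ)).re) volume
        (-Real.pi) Real.pi := (Complex.continuous_re.comp (cc cg cN)).intervalIntegrable _ _
    have i3 : IntervalIntegrable (fun θ => ‖N g (pt r θ)‖ ^ 2) volume (-Real.pi) Real.pi :=
      (cN.norm.pow 2).intervalIntegrable _ _
    rw [Q_self_re hg.continuousOn hr', Q_self_re hN.continuousOn hr',
      Q_re hg.continuousOn hN.continuousOn hr', ← intervalIntegral.integral_const_mul,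
      ← intervalIntegral.integral_const_mul, ← intervalIntegral.integral_const_mul,
      ← intervalIntegral.integral_sub (i1.const_mul _) (i2.const_mul _),
      ← intervalIntegral.integral_add ((i1.const_mul _).sub (i2.const_mul _)) (i3.const_mul _)]
    refine intervalIntegral.integral_congr fun θ _ => ?_
    simp only [G0, norm_pt, sq_abs]
    rw [mul_assoc _ (pt r θ), normsq_expand]
    simp only [N]
    ring
  · intro r hr
    have h := Q_hasDerivAt hg hg (lt r (Ioo_subset_Icc_self hr)) hr.1.ne'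
    rw [← Q_swap hg hg (lt r (Ioo_subset_Icc_self hr))] at h
    refine (Complex.reCLM.hasFDerivAt.comp_hasDerivAt r h).congr_deriv ?_
    simp [Complex.div_ofReal_re]
  · intro r hr
    have h := Q_hasDerivAt hg hN (lt r (Ioo_subset_Icc_self hr)) hr.1.ne'
    refine (Complex.reCLM.hasFDerivAt.comp_hasDerivAt r h).congr_deriv ?_
    simp [Complex.div_ofReal_re]

theorem Q_nonneg {g : ℂ → ℂ} {R r : ℝ} (hg : ContinuousOn g (ball 0 R)) (hr : |r| < R) :
    0 ≤ (Q g g r).re := by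
  rw [Q_self_re hg hr]
  exact intervalIntegral.integral_nonneg (by linarith [Real.pi_pos]) fun θ _ => by positivity

/-- integral means are monotone -/
theorem Q_mono {g : ℂ → ℂ} {R : ℝ} (hR : 1 < R) (hg : DifferentiableOn ℂ g (ball 0 R)) :
    MonotoneOn (fun r => (Q g g r).re) (Icc 0 1) := by
  have hN := N_diff hg
  have lt : ∀ r ∈ Icc (0 : ℝ) 1, |r| < R := fun r hr => by
    rw [abs_of_nonneg hr.1]; linarith [hr.2]
  have m1 : MonotoneOn (fun r => (Q g (N g) r).re) (Icc 0 1) := by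
    refine monotoneOn_of_hasDerivWithinAt_nonneg (convex_Icc 0 1)
      (f' := fun r => 2 * (Q (N g) (N g) r).re / r)
      (Complex.continuous_re.comp_continuousOn (Q_continuousOn hg hN hR)) ?_ ?_
    · intro r hr
      rw [interior_Icc] at hr
      have h := Q_hasDerivAt hg hN (lt r (Ioo_subset_Icc_self hr)) hr.1.ne'
      refine ((Complex.reCLM.hasFDerivAt.comp_hasDerivAt r h).congr_deriv ?_).hasDerivWithinAt
      simp [Complex.div_ofReal_re]
    · intro r hr
      rw [interior_Icc] at hr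
      have := Q_nonneg hN.continuousOn (lt r (Ioo_subset_Icc_self hr))
      have := hr.1
      positivity
  have z1 : (Q g (N g) 0).re = 0 := by simp [Q, N, pt]
  refine monotoneOn_of_hasDerivWithinAt_nonneg (convex_Icc 0 1)
    (f' := fun r => 2 * (Q g (N g) r).re / r)
    (Complex.continuous_re.comp_continuousOn (Q_continuousOn hg hg hR)) ?_ ?_
  · intro r hr
    rw [interior_Icc] at hr
    have h := Q_hasDerivAt hg hg (lt r (Ioo_subset_Icc_self hr)) hr.1.ne'
    rw [← Q_swap hg hg (lt r (Ioo_subset_Icc_self hr))] at h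
    refine ((Complex.reCLM.hasFDerivAt.comp_hasDerivAt r h).congr_deriv ?_).hasDerivWithinAt
    simp [Complex.div_ofReal_re]
  · intro r hr
    rw [interior_Icc] at hr
    have h1 := m1 (left_mem_Icc.2 (by norm_num)) (Ioo_subset_Icc_self hr) hr.1.le
    simp only [z1] at h1
    have := hr.1
    positivity

/-- one-dimensional conclusion -/
theorem oneD {b al θ : ℝ} (hal : 0 < al) (hb : 0 < b) (hθ : 0 < θ) {p : ℝ → ℝ}
    (hp : Continuous p) (hp1 : p 1 = θ) :
    ∃ r0 : ℝ, 0 < r0 ∧ r0 < 1 ∧ ∃ C : ℝ, 0 < C ∧ ∀ (M : ℝ → ℝ) (K L : ℝ), 0 ≤ K → 0 ≤ L →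
      ContinuousOn M (Icc 0 1) → MonotoneOn M (Icc 0 1) → (∀ r ∈ Icc (0 : ℝ) 1, 0 ≤ M r) →
      (∀ r ∈ Icc (0 : ℝ) r0, M r ≤ 2 * Real.pi * L) →
      ∫ r in (0 : ℝ)..1, w b al r * (p r * M r) ≤ K →
      ∀ r : ℝ, 0 ≤ r → r < 1 → M r ≤ C * (K + L) * (1 - r) ^ (-b) := by
  have hev : ∀ᶠ r in 𝓝 (1 : ℝ), θ / 2 < p r :=
    hp.continuousAt.eventually (lt_mem_nhds (by rw [hp1]; linarith))
  obtain ⟨δ, hδ, hball⟩ := Metric.eventually_nhds_iff.1 hev
  obtain ⟨P, hP⟩ := (isCompact_Icc (a := (0 : ℝ)) (b := 1)).exists_bound_of_continuousOn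
    hp.continuousOn
  have hP0 : 0 ≤ P := le_trans (norm_nonneg _) (hP 0 (left_mem_Icc.2 (by norm_num)))
  set r0 : ℝ := max (1 / 2) (1 - δ / 2) with hr0
  have r0pos : 0 < r0 := lt_of_lt_of_le (by norm_num) (le_max_left _ _)
  have r0lt : r0 < 1 := max_lt (by norm_num) (by linarith)
  have hpl : ∀ r, r0 ≤ r → r ≤ 1 → θ / 2 ≤ p r := fun r h1 h2 => by
    refine (hball ?_).le
    rw [Real.dist_eq, abs_of_nonpos (by linarith)]
    have := le_max_right (1 / 2) (1 - δ / 2)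
    linarith
  set J : ℝ := ∫ r in (0 : ℝ)..1, w b al r with hJ
  have hJ0 : 0 ≤ J := intervalIntegral.integral_nonneg (by norm_num)
    fun r hr => w_nonneg b al hr.1 hr.2
  set m : ℝ := r0 ^ (2 * al) with hm
  have hm0 : 0 < m := Real.rpow_pos_of_pos r0pos _
  have hpi := Real.pi_pos
  refine ⟨r0, r0pos, r0lt, 2 * Real.pi + 4 * b / (θ * m) * (1 + 2 * Real.pi * P * J),
    by positivity, fun M K L hK hL cM mM M0 ML hI r hr0' hr1 => ?_⟩
  have hrb : 1 ≤ (1 - r) ^ (-b) :=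
    Real.one_le_rpow_of_pos_of_le_one_of_nonpos (by linarith) (by linarith) (by linarith)
  have hA : 0 ≤ 4 * b / (θ * m) * (1 + 2 * Real.pi * P * J) := by positivity
  rcases le_total r r0 with h | h
  · have h1 := ML r ⟨hr0', h⟩
    have h2 : 2 * Real.pi * L ≤
        (2 * Real.pi + 4 * b / (θ * m) * (1 + 2 * Real.pi * P * J)) * (K + L) := by
      nlinarith [mul_nonneg hA (add_nonneg hK hL), mul_nonneg hpi.le hK]
    have h3 : 0 ≤ (2 * Real.pi + 4 * b / (θ * m) * (1 + 2 * Real.pi * P * J)) * (K + L) := by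
      positivity
    nlinarith
  have hu : uIcc (0 : ℝ) 1 = Icc 0 1 := uIcc_of_le (by norm_num)
  have iw := w_int hal hb
  have i1 : IntervalIntegrable (fun r => w b al r * (p r * M r)) volume 0 1 :=
    iw.mul_continuousOn (by rw [hu]; exact hp.continuousOn.mul cM)
  have s1 : uIcc (0 : ℝ) r ⊆ uIcc 0 1 := by
    rw [hu, uIcc_of_le hr0']; exact Icc_subset_Icc le_rfl hr1.le
  have s2 : uIcc r 1 ⊆ uIcc (0 : ℝ) 1 := by
    rw [hu, uIcc_of_le hr1.le]; exact Icc_subset_Icc hr0' le_rfl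
  rw [← intervalIntegral.integral_add_adjacent_intervals (i1.mono_set s1) (i1.mono_set s2)] at hI
  -- inner part
  have in1 : -(2 * Real.pi * P * L) * J ≤ ∫ ρ in (0 : ℝ)..r, w b al ρ * (p ρ * M ρ) := by
    have a1 : ∫ ρ in (0 : ℝ)..r, w b al ρ ≤ J :=
      intervalIntegral.integral_mono_interval le_rfl hr0' hr1.le
        ((ae_restrict_iff' measurableSet_Ioc).2 (Filter.Eventually.of_forall
          fun ρ hρ => w_nonneg b al hρ.1.le hρ.2)) iw
    have a2 : ∫ ρ in (0 : ℝ)..r, -(2 * Real.pi * P * L) * w b al ρ ≤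
        ∫ ρ in (0 : ℝ)..r, w b al ρ * (p ρ * M ρ) := by
      refine intervalIntegral.integral_mono_on hr0' ((iw.mono_set s1).const_mul _)
        (i1.mono_set s1) fun ρ hρ => ?_
      have hρ1 : ρ ∈ Icc (0 : ℝ) 1 := ⟨hρ.1, by linarith [hρ.2]⟩
      have w0 := w_nonneg b al hρ1.1 hρ1.2
      have m0 := M0 ρ hρ1
      have : -(2 * Real.pi * P * L) ≤ p ρ * M ρ := by
        rcases le_total ρ r0 with h' | h'
        · have b1 := ML ρ ⟨hρ.1, h'⟩
          have b2 := (abs_le.1 (hP ρ hρ1)).1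
          nlinarith [mul_le_mul_of_nonneg_left b1 hP0, mul_le_mul_of_nonneg_right b2 m0]
        · have b2 := hpl ρ h' hρ1.2
          have : 0 ≤ p ρ * M ρ := mul_nonneg (by linarith) m0
          have : 0 ≤ 2 * Real.pi * P * L := by positivity
          linarith
      nlinarith [mul_le_mul_of_nonneg_left this w0]
    rw [intervalIntegral.integral_const_mul] at a2
    have : 0 ≤ 2 * Real.pi * P * L := by positivity
    nlinarith
  -- outer part
  have hrpos : 0 < r := lt_of_lt_of_le r0pos h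
  have Mr := M0 r ⟨hr0', hr1.le⟩
  have i3 : IntervalIntegrable (w b 1) volume r 1 := (w_int one_pos hb).mono_set s2
  have e3 : ∫ ρ in r..1, w b 1 ρ = (1 - r ^ 2) ^ b / (2 * b) := by
    have cP : ContinuousOn (fun ρ : ℝ => -((1 - ρ ^ 2) ^ b / (2 * b))) (Icc r 1) :=
      (((Real.continuous_rpow_const hb.le).comp (by fun_prop)).div_const _).neg.continuousOn
    rw [intervalIntegral.integral_eq_sub_of_hasDerivAt_of_le hr1.le cP ?_ i3]
    · simp [Real.zero_rpow hb.ne']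
    intro ρ hρ
    have hd : 0 < 1 - ρ ^ 2 := by nlinarith [hρ.1, hρ.2]
    have d0 : HasDerivAt (fun r : ℝ => r ^ 2) (2 * ρ) ρ := by simpa using hasDerivAt_pow 2 ρ
    refine ((((d0.const_sub 1).rpow_const (Or.inl hd.ne')).div_const (2 * b)).neg).congr_deriv ?_
    simp only [w, mul_one, sub_self, Real.rpow_zero]
    field_simp
  have in2 : θ / 2 * M r * m * ((1 - r ^ 2) ^ b / (2 * b)) ≤
      ∫ ρ in r..1, w b al ρ * (p ρ * M ρ) := by
    rw [← e3, ← intervalIntegral.integral_const_mul]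
    refine intervalIntegral.integral_mono_on hr1.le (i3.const_mul _) (i1.mono_set s2)
      fun ρ hρ => ?_
    have hρ0 : 0 < ρ := lt_of_lt_of_le hrpos hρ.1
    have b1 := hpl ρ (le_trans h hρ.1) hρ.2
    have b2 := mM ⟨hr0', hr1.le⟩ ⟨hρ0.le, hρ.2⟩ hρ.1
    have b3 : m ≤ ρ ^ (2 * al - 2) :=
      le_trans (Real.rpow_le_rpow r0pos.le (le_trans h hρ.1) (by linarith))
        (Real.rpow_le_rpow_of_exponent_ge hρ0 hρ.2 (by linarith))
    have b4 : θ / 2 * M r ≤ p ρ * M ρ := mul_le_mul b1 b2 Mr (by linarith)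
    have hd : 0 ≤ 1 - ρ ^ 2 := by nlinarith [hρ.2]
    have b5 : 0 ≤ ρ * (1 - ρ ^ 2) ^ (b - 1) := by positivity
    have b6 : θ / 2 * M r * m ≤ p ρ * M ρ * ρ ^ (2 * al - 2) :=
      mul_le_mul b4 b3 hm0.le (le_trans (by positivity) b4)
    have := mul_le_mul_of_nonneg_left b6 b5
    simp only [w, mul_one, sub_self, Real.rpow_zero]
    linarith
  have b7 : (1 - r) ^ b ≤ (1 - r ^ 2) ^ b :=
    Real.rpow_le_rpow (by linarith) (by nlinarith) hb.le
  have hx : 0 < (1 - r) ^ b := Real.rpow_pos_of_pos (by linarith) _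
  have b8 : θ * m / (4 * b) * (M r * (1 - r) ^ b) ≤ K + 2 * Real.pi * P * J * L := by
    have : θ * m / (4 * b) * (M r * (1 - r) ^ b) ≤ θ * m / (4 * b) * (M r * (1 - r ^ 2) ^ b) := by
      gcongr
    have e : θ * m / (4 * b) * (M r * (1 - r ^ 2) ^ b) =
        θ / 2 * M r * m * ((1 - r ^ 2) ^ b / (2 * b)) := by field_simp; ring
    linarith
  have b9 : M r * (1 - r) ^ b ≤ 4 * b / (θ * m) * (K + 2 * Real.pi * P * J * L) := by
    have := mul_le_mul_of_nonneg_left b8 (show 0 ≤ 4 * b / (θ * m) by positivity)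
    rwa [← mul_assoc, show 4 * b / (θ * m) * (θ * m / (4 * b)) = 1 by field_simp, one_mul] at this
  rw [Real.rpow_neg (by linarith), ← div_eq_mul_inv, le_div_iff₀ hx]
  refine b9.trans ?_
  have hB : 0 ≤ 4 * b / (θ * m) := by positivity
  have hC : 0 ≤ 2 * Real.pi * P * J := by positivity
  have : K + 2 * Real.pi * P * J * L ≤ (1 + 2 * Real.pi * P * J) * (K + L) := by
    nlinarith [mul_nonneg hC hK]
  have h4 := mul_le_mul_of_nonneg_left this hB
  have h5 : 0 ≤ 2 * Real.pi * (K + L) := by positivity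
  nlinarith

/-- WEIGHTS: the weighted area inequality bounds the integral means -/
theorem weights (c b al eta : ℝ) (hal : 0 < al) (hb : 0 < b)
    (hθ : 0 < (c - b / al) ^ 2 + b / al ^ 2 - 1 + eta) :
    ∃ r0 : ℝ, 0 < r0 ∧ r0 < 1 ∧ ∃ C : ℝ, 0 < C ∧ ∀ (g : ℂ → ℂ) (R K L : ℝ), 1 < R →
      DifferentiableOn ℂ g (ball 0 R) → 0 ≤ K → (∀ z : ℂ, ‖z‖ ≤ r0 → ‖g z‖ ^ 2 ≤ L) →
      ∫ z in ball (0 : ℂ) 1, GW c b al eta g z ≤ K →
      ∀ r : ℝ, 0 ≤ r → r < 1 →
        ∫ θ in (-Real.pi)..Real.pi, ‖g ((r : ℂ) * Complex.exp ((θ : ℂ) * Complex.I))‖ ^ 2 ≤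
          C * (K + L) * (1 - r) ^ (-b) := by
  obtain ⟨r0, h0, h1, C, hC, H⟩ := oneD hal hb hθ (continuous_q c b al eta)
    (by rw [one_pow, q_one hal])
  refine ⟨r0, h0, h1, C, hC, fun g R K L hR hg hK hL hI r hr0 hr1 => ?_⟩
  have lt : ∀ r ∈ Icc (0 : ℝ) 1, |r| < R := fun r hr => by
    rw [abs_of_nonneg hr.1]; linarith [hr.2]
  have hL0 : 0 ≤ L := le_trans (by positivity) (hL 0 (by simpa using h0.le))
  rw [integral_GW c eta hal hb hR hg] at hI
  have := H (fun r => (Q g g r).re) K L hK hL0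
    (Complex.continuous_re.comp_continuousOn (Q_continuousOn hg hg hR)) (Q_mono hR hg)
    (fun r hr => Q_nonneg hg.continuousOn (lt r hr)) (fun ρ hρ => ?_) hI r hr0 hr1
  · rw [Q_self_re hg.continuousOn (lt r ⟨hr0, hr1.le⟩)] at this
    exact this
  · have hρ' := lt ρ ⟨hρ.1, by linarith [hρ.2]⟩
    rw [Q_self_re hg.continuousOn hρ']
    have := intervalIntegral.integral_mono_on (μ := volume) (a := -Real.pi) (b := Real.pi)
      (f := fun θ => ‖g (pt ρ θ)‖ ^ 2) (g := fun _ => L) (by linarith [Real.pi_pos])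
      (((cont_circ hg.continuousOn hρ').norm.pow 2).intervalIntegrable _ _)
      intervalIntegrable_const
      (fun θ _ => hL _ (by rw [norm_pt, abs_of_nonneg hρ.1]; exact hρ.2))
    simp only [intervalIntegral.integral_const, smul_eq_mul] at this
    linarith

/-- from the `lintegral` comparison to the Bochner inequality -/
theorem integral_le_of_lintegral {α : Type*} [MeasurableSpace α] {μ : Measure α} {F : α → ℝ}
    (hF : Integrable F μ) {K : ℝ} (hK : 0 ≤ K)
    (h : ∫⁻ z, ENNReal.ofReal (F z) ∂μ ≤ (∫⁻ z, ENNReal.ofReal (-F z) ∂μ) + ENNReal.ofReal K) :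
    ∫ z, F z ∂μ ≤ K := by
  rw [integral_eq_lintegral_pos_part_sub_lintegral_neg_part hF]
  have h2 : ∫⁻ z, ENNReal.ofReal (-F z) ∂μ ≠ ⊤ := hF.neg.lintegral_lt_top.ne
  have h3 := ENNReal.toReal_mono (ENNReal.add_ne_top.2 ⟨h2, ENNReal.ofReal_ne_top⟩) h
  rw [ENNReal.toReal_add h2 ENNReal.ofReal_ne_top, ENNReal.toReal_ofReal hK] at h3
  linarith

/-- WEIGHTS, `lintegral` form -/
theorem weights_l (c b al eta : ℝ) (hal : 0 < al) (hb : 0 < b)
    (hθ : 0 < (c - b / al) ^ 2 + b / al ^ 2 - 1 + eta) :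
    ∃ r0 : ℝ, 0 < r0 ∧ r0 < 1 ∧ ∃ C : ℝ, 0 < C ∧ ∀ (g : ℂ → ℂ) (R K L : ℝ), 1 < R →
      DifferentiableOn ℂ g (ball 0 R) → 0 ≤ K → (∀ z : ℂ, ‖z‖ ≤ r0 → ‖g z‖ ^ 2 ≤ L) →
      ∫⁻ z in ball (0 : ℂ) 1, ENNReal.ofReal (GW c b al eta g z) ≤
        (∫⁻ z in ball (0 : ℂ) 1, ENNReal.ofReal (-GW c b al eta g z)) + ENNReal.ofReal K →
      ∀ r : ℝ, 0 ≤ r → r < 1 →
        ∫⁻ θ in Ioc (-Real.pi) Real.pi,
            ENNReal.ofReal (‖g ((r : ℂ) * Complex.exp ((θ : ℂ) * Complex.I))‖ ^ 2) ≤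
          ENNReal.ofReal (C * (K + L) * (1 - r) ^ (-b)) := by
  obtain ⟨r0, h0, h1, C, hC, H⟩ := weights c b al eta hal hb hθ
  refine ⟨r0, h0, h1, C, hC, fun g R K L hR hg hK hL hI r hr0 hr1 => ?_⟩
  have h := H g R K L hR hg hK hL
    (integral_le_of_lintegral (GW_integrableOn c eta hal hb hR hg) hK hI) r hr0 hr1
  have hr : |r| < R := by rw [abs_of_nonneg hr0]; linarith
  have ci : Continuous (fun θ : ℝ => ‖g ((r : ℂ) * Complex.exp ((θ : ℂ) * Complex.I))‖ ^ 2) :=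
    (cont_circ hg.continuousOn hr).norm.pow 2
  rw [intervalIntegral.integral_of_le (by linarith [Real.pi_pos])] at h
  rw [← ofReal_integral_eq_lintegral_ofReal (ci.integrableOn_Ioc)
    (Filter.Eventually.of_forall fun θ => by positivity)]
  exact ENNReal.ofReal_le_ofReal h

end Crest.Agent.R131.Wt
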