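import Crest.Agent.R131.Wt3A
import Crest.Agent.R131.Pars57

/-! Row 131: the weight inequality on the disc and the integral means (helper3). -/

set_option autoImplicit false

open MeasureTheory Set Metric
open scoped ENNReal Real

noncomputable section

namespace Crest.Agent.R131.Wt3

theorem polar_ball (F : ℂ → ℝ≥0∞) (hF : Measurable F) :
    ∫⁻ z in ball (0 : ℂ) 1, F z = ∫⁻ r in Ioo (0 : ℝ) 1, ENNReal.ofReal r *
      ∫⁻ θ in Ioo (-π) π, F ((r : ℂ) * Complex.exp ((θ : ℂ) * Complex.I)) := by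
  have hm : Measurable fun p : ℝ × ℝ => ENNReal.ofReal p.1 *
      (ball (0 : ℂ) 1).indicator F ((p.1 : ℂ) * Complex.exp ((p.2 : ℂ) * Complex.I)) := by
    refine (ENNReal.measurable_ofReal.comp measurable_fst).mul ?_
    exact (hF.indicator measurableSet_ball).comp (by fun_prop)
  rw [← lintegral_indicator measurableSet_ball, ← Complex.lintegral_comp_polarCoord_symm]
  have e1 : ∫⁻ p in polarCoord.target, ENNReal.ofReal p.1 •
      (ball (0 : ℂ) 1).indicator F (Complex.polarCoord.symm p) =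
      ∫⁻ p in Ioi (0 : ℝ) ×ˢ Ioo (-π) π, ENNReal.ofReal p.1 *
        (ball (0 : ℂ) 1).indicator F ((p.1 : ℂ) * Complex.exp ((p.2 : ℂ) * Complex.I)) := by
    refine lintegral_congr fun p => ?_
    rw [Complex.polarCoord_symm_apply, Complex.exp_mul_I, smul_eq_mul]
    simp
  rw [e1, Measure.volume_eq_prod, ← Measure.prod_restrict, lintegral_prod _ hm.aemeasurable]
  have e2 : Ioo (0 : ℝ) 1 = Iio 1 ∩ Ioi 0 := by ext x; simp [and_comm]
  rw [e2, ← Measure.restrict_restrict measurableSet_Iio, ← lintegral_indicator measurableSet_Iio]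
  refine setLIntegral_congr_fun measurableSet_Ioi fun r hr => ?_
  have hr0 : (0 : ℝ) < r := hr
  have hn : ∀ θ : ℝ, ‖(r : ℂ) * Complex.exp ((θ : ℂ) * Complex.I)‖ = r := by
    intro θ
    rw [norm_mul, Complex.norm_exp_ofReal_mul_I, mul_one, Complex.norm_real, Real.norm_eq_abs,
      abs_of_pos hr0]
  by_cases h1 : r < 1
  · rw [indicator_of_mem (show r ∈ Iio (1 : ℝ) from h1), ← lintegral_const_mul' _ _ ENNReal.ofReal_ne_top]
    refine lintegral_congr fun θ => ?_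
    rw [indicator_of_mem (by rw [mem_ball_zero_iff, hn]; exact h1)]
  · rw [indicator_of_notMem (show r ∉ Iio (1 : ℝ) from h1)]
    have : ∀ θ : ℝ, (ball (0 : ℂ) 1).indicator F
        ((r : ℂ) * Complex.exp ((θ : ℂ) * Complex.I)) = 0 := fun θ =>
      indicator_of_notMem (by rw [mem_ball_zero_iff, hn]; exact h1) _
    simp [this]

theorem circ_lint (g : ℂ → ℂ) (hg : DifferentiableOn ℂ g (ball 0 1)) (r : ℝ) (hr0 : 0 ≤ r)
    (hr : r < 1) (α β : ℝ) :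
    ∫⁻ θ in Ioo (-π) π, ENNReal.ofReal (‖(α : ℂ) * g (r * Complex.exp (θ * Complex.I)) +
        (β : ℂ) * ((r * Complex.exp (θ * Complex.I)) *
          deriv g (r * Complex.exp (θ * Complex.I)))‖ ^ 2) =
      ∑' n : ℕ, ENNReal.ofReal (2 * π * ((α + β * n) ^ 2 * ‖p57co g n‖ ^ 2 * r ^ (2 * n))) := by
  have hs := p57_circle g 1 hg r hr0 hr α β
  have hmem : ∀ θ : ℝ, (r : ℂ) * Complex.exp (θ * Complex.I) ∈ ball (0 : ℂ) 1 := by
    intro θ
    rw [mem_ball_zero_iff, norm_mul, Complex.norm_exp_ofReal_mul_I, mul_one, Complex.norm_real,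
      Real.norm_eq_abs, abs_of_nonneg hr0]
    exact hr
  have hc0 : Continuous fun θ : ℝ => (r : ℂ) * Complex.exp (θ * Complex.I) := by fun_prop
  have hc1 : Continuous fun θ : ℝ => g (r * Complex.exp (θ * Complex.I)) :=
    hg.continuousOn.comp_continuous hc0 hmem
  have hc2 : Continuous fun θ : ℝ => deriv g (r * Complex.exp (θ * Complex.I)) :=
    (hg.deriv isOpen_ball).continuousOn.comp_continuous hc0 hmem
  have hc : Continuous fun θ : ℝ => ‖(α : ℂ) * g (r * Complex.exp (θ * Complex.I)) +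
        (β : ℂ) * ((r * Complex.exp (θ * Complex.I)) *
          deriv g (r * Complex.exp (θ * Complex.I)))‖ ^ 2 :=
    ((continuous_const.mul hc1).add (continuous_const.mul (hc0.mul hc2))).norm.pow 2
  have hpi : -π ≤ π := by linarith [Real.pi_pos]
  have hi := (intervalIntegrable_iff_integrableOn_Ioo_of_le hpi).1 (hc.intervalIntegrable (μ := volume) (-π) π)
  rw [← ofReal_integral_eq_lintegral_ofReal hi (Filter.Eventually.of_forall fun θ => by positivity),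
    ← integral_Ioc_eq_integral_Ioo, ← intervalIntegral.integral_of_le hpi, ← hs.tsum_eq,
    ENNReal.ofReal_tsum_of_nonneg (fun n => by positivity) hs.summable]

theorem disc_sum (g : ℂ → ℂ) (hg : DifferentiableOn ℂ g (ball 0 1)) (α β ω : ℝ → ℝ)
    (hα : Measurable α) (hβ : Measurable β) (hω : Measurable ω)
    (hω0 : ∀ r ∈ Ioo (0 : ℝ) 1, 0 ≤ ω r) :
    ∫⁻ z in ball (0 : ℂ) 1, ENNReal.ofReal (‖(α ‖z‖ : ℂ) * g z +
        (β ‖z‖ : ℂ) * (z * deriv g z)‖ ^ 2 * ω ‖z‖) =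
      ∑' n : ℕ, ENNReal.ofReal (2 * π * ‖p57co g n‖ ^ 2) *
        ∫⁻ r in Ioo (0 : ℝ) 1, ENNReal.ofReal ((α r + β r * n) ^ 2 * (r ^ (2 * n + 1) * ω r)) := by
  classical
  set g' : ℂ → ℂ := (ball (0 : ℂ) 1).piecewise g 0 with hg'
  have hgm : Measurable g' :=
    hg.continuousOn.measurable_piecewise continuousOn_const measurableSet_ball
  have hd : Measurable (deriv g) := measurable_deriv g
  have hF : Measurable fun z : ℂ => ENNReal.ofReal (‖(α ‖z‖ : ℂ) * g' z +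
        (β ‖z‖ : ℂ) * (z * deriv g z)‖ ^ 2 * ω ‖z‖) := by fun_prop
  have e1 : ∫⁻ z in ball (0 : ℂ) 1, ENNReal.ofReal (‖(α ‖z‖ : ℂ) * g z +
        (β ‖z‖ : ℂ) * (z * deriv g z)‖ ^ 2 * ω ‖z‖) =
      ∫⁻ z in ball (0 : ℂ) 1, ENNReal.ofReal (‖(α ‖z‖ : ℂ) * g' z +
        (β ‖z‖ : ℂ) * (z * deriv g z)‖ ^ 2 * ω ‖z‖) := by
    refine setLIntegral_congr_fun measurableSet_ball fun z hz => ?_
    simp only [hg', piecewise_eq_of_mem _ _ _ hz]
  rw [e1, polar_ball _ hF]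
  have e2 : ∀ n : ℕ, ENNReal.ofReal (2 * π * ‖p57co g n‖ ^ 2) *
        ∫⁻ r in Ioo (0 : ℝ) 1, ENNReal.ofReal ((α r + β r * n) ^ 2 * (r ^ (2 * n + 1) * ω r)) =
      ∫⁻ r in Ioo (0 : ℝ) 1, ENNReal.ofReal (2 * π * ‖p57co g n‖ ^ 2) *
        ENNReal.ofReal ((α r + β r * n) ^ 2 * (r ^ (2 * n + 1) * ω r)) := fun n =>
    (lintegral_const_mul' _ _ ENNReal.ofReal_ne_top).symm
  simp_rw [e2]
  rw [← lintegral_tsum (fun n => by fun_prop)]
  refine setLIntegral_congr_fun measurableSet_Ioo fun r hr => ?_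
  have hn : ∀ θ : ℝ, ‖(r : ℂ) * Complex.exp ((θ : ℂ) * Complex.I)‖ = r := by
    intro θ
    rw [norm_mul, Complex.norm_exp_ofReal_mul_I, mul_one, Complex.norm_real, Real.norm_eq_abs,
      abs_of_pos hr.1]
  have hmem : ∀ θ : ℝ, (r : ℂ) * Complex.exp (θ * Complex.I) ∈ ball (0 : ℂ) 1 := by
    intro θ
    rw [mem_ball_zero_iff, hn]; exact hr.2
  have e3 : ∀ θ : ℝ, ENNReal.ofReal (‖(α ‖(r : ℂ) * Complex.exp (θ * Complex.I)‖ : ℂ) *
        g' (r * Complex.exp (θ * Complex.I)) + (β ‖(r : ℂ) * Complex.exp (θ * Complex.I)‖ : ℂ) *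
        ((r * Complex.exp (θ * Complex.I)) * deriv g (r * Complex.exp (θ * Complex.I)))‖ ^ 2 *
        ω ‖(r : ℂ) * Complex.exp (θ * Complex.I)‖) =
      ENNReal.ofReal (ω r) * ENNReal.ofReal (‖(α r : ℂ) * g (r * Complex.exp (θ * Complex.I)) +
        (β r : ℂ) * ((r * Complex.exp (θ * Complex.I)) *
          deriv g (r * Complex.exp (θ * Complex.I)))‖ ^ 2) := by
    intro θ
    rw [hn, ← ENNReal.ofReal_mul (hω0 r hr), mul_comm (ω r)]
    simp only [hg', piecewise_eq_of_mem _ _ _ (hmem θ)]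
  simp only [e3]
  rw [lintegral_const_mul' _ _ ENNReal.ofReal_ne_top, circ_lint g hg r hr.1.le hr.2,
    ← ENNReal.tsum_mul_left, ← ENNReal.tsum_mul_left]
  refine tsum_congr fun n => ?_
  rw [← ENNReal.ofReal_mul (hω0 r hr), ← ENNReal.ofReal_mul hr.1.le,
    ← ENNReal.ofReal_mul (by positivity)]
  congr 1
  ring

theorem disc_sum0 (g : ℂ → ℂ) (hg : DifferentiableOn ℂ g (ball 0 1)) (τ β : ℝ) :
    ∫⁻ z in ball (0 : ℂ) 1, ENNReal.ofReal (‖g z‖ ^ 2 * ((1 - ‖z‖ ^ 2) ^ β * ‖z‖ ^ (τ - 2))) =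
      ∑' n : ℕ, ENNReal.ofReal (2 * π * ‖p57co g n‖ ^ 2) *
        ∫⁻ r in Ioo (0 : ℝ) 1, ENNReal.ofReal (r ^ (2 * n + τ - 1) * (1 - r ^ 2) ^ β) := by
  have := disc_sum g hg (fun _ => 1) (fun _ => 0) (fun r => (1 - r ^ 2) ^ β * r ^ (τ - 2))
    measurable_const measurable_const (by fun_prop) (fun r hr =>
      mul_nonneg (Real.rpow_nonneg (by nlinarith [hr.1, hr.2]) _) (Real.rpow_nonneg hr.1.le _))
  simp only [Complex.ofReal_one, one_mul, Complex.ofReal_zero, zero_mul, add_zero, one_pow] at this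
  rw [this]
  refine tsum_congr fun n => ?_
  congr 1
  refine setLIntegral_congr_fun measurableSet_Ioo fun r hr => ?_
  have : r ^ (2 * (n : ℝ) + τ - 1) = r ^ (2 * n + 1) * r ^ (τ - 2) := by
    rw [← Real.rpow_natCast, ← Real.rpow_add hr.1]; congr 1; push_cast; ring
  simp only [this]
  congr 1
  ring

/-- **the weight inequality** -/
theorem wt_lower (τ b c : ℝ) (hτ : 1 ≤ τ) (hb : 0 < b) (hb2 : b ≤ 2) (hc : 0 ≤ c) (hc2 : c ≤ 2)
    (g : ℂ → ℂ) (hg : DifferentiableOn ℂ g (ball 0 1)) :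
    ENNReal.ofReal ((c - 2 * b / τ) ^ 2 + 4 * b / τ ^ 2) *
        ∫⁻ z in ball (0 : ℂ) 1,
          ENNReal.ofReal (‖g z‖ ^ 2 * ((1 - ‖z‖ ^ 2) ^ (b - 1) * ‖z‖ ^ (τ - 2))) ≤
      (∫⁻ z in ball (0 : ℂ) 1, ENNReal.ofReal (‖((c * ‖z‖ ^ 2 : ℝ) : ℂ) * g z +
          ((-(2 / τ * (1 - ‖z‖ ^ 2)) : ℝ) : ℂ) * (z * deriv g z)‖ ^ 2 *
            ((1 - ‖z‖ ^ 2) ^ (b - 1) * ‖z‖ ^ (τ - 2)))) +
        ENNReal.ofReal 100 * ∫⁻ z in ball (0 : ℂ) 1,
          ENNReal.ofReal (‖g z‖ ^ 2 * ((1 - ‖z‖ ^ 2) ^ b * ‖z‖ ^ (τ - 2))) := by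
  have h := disc_sum g hg (fun r => c * r ^ 2) (fun r => -(2 / τ * (1 - r ^ 2)))
    (fun r => (1 - r ^ 2) ^ (b - 1) * r ^ (τ - 2)) (by fun_prop) (by fun_prop) (by fun_prop)
    (fun r hr =>
      mul_nonneg (Real.rpow_nonneg (by nlinarith [hr.1, hr.2]) _) (Real.rpow_nonneg hr.1.le _))
  rw [h, disc_sum0 g hg, disc_sum0 g hg, ← ENNReal.tsum_mul_left, ← ENNReal.tsum_mul_left,
    ← ENNReal.tsum_add]
  refine ENNReal.tsum_le_tsum fun n => ?_
  have e : ∫⁻ r in Ioo (0 : ℝ) 1, ENNReal.ofReal ((c * r ^ 2 + -(2 / τ * (1 - r ^ 2)) * n) ^ 2 *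
      (r ^ (2 * n + 1) * ((1 - r ^ 2) ^ (b - 1) * r ^ (τ - 2)))) =
      ∫⁻ r in Ioo (0 : ℝ) 1, ENNReal.ofReal ((c * r ^ 2 - 2 / τ * (1 - r ^ 2) * n) ^ 2 *
          (r ^ (2 * n + τ - 1) * (1 - r ^ 2) ^ (b - 1))) := by
    refine setLIntegral_congr_fun measurableSet_Ioo fun r hr => ?_
    have : r ^ (2 * (n : ℝ) + τ - 1) = r ^ (2 * n + 1) * r ^ (τ - 2) := by
      rw [← Real.rpow_natCast, ← Real.rpow_add hr.1]; congr 1; push_cast; ring
    simp only [this]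
    congr 1
    ring
  rw [e, mul_left_comm, mul_left_comm (ENNReal.ofReal 100), ← mul_add]
  exact mul_le_mul_right (rad_ineq τ b c hτ hb hb2 hc hc2 n) _

/-- **integral means from the weighted mass** (`τ = 1`, `b ≤ 1`) -/
theorem means_le (b : ℝ) (hb1 : b ≤ 1) (hb : 0 ≤ b) (g : ℂ → ℂ)
    (hg : DifferentiableOn ℂ g (ball 0 1)) (r : ℝ) (hr0 : 0 ≤ r) (hr : r < 1) :
    ENNReal.ofReal ((1 - r) ^ b / 2) *
        ∫⁻ θ in Ioo (-π) π, ENNReal.ofReal (‖g (r * Complex.exp (θ * Complex.I))‖ ^ 2) ≤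
      ∫⁻ z in ball (0 : ℂ) 1,
        ENNReal.ofReal (‖g z‖ ^ 2 * ((1 - ‖z‖ ^ 2) ^ (b - 1) * ‖z‖ ^ ((1 : ℝ) - 2))) := by
  have h := circ_lint g hg r hr0 hr 1 0
  simp only [Complex.ofReal_one, one_mul, Complex.ofReal_zero, zero_mul, add_zero, one_pow] at h
  rw [h, disc_sum0 g hg, ← ENNReal.tsum_mul_left]
  refine ENNReal.tsum_le_tsum fun n => ?_
  have h1r : 0 < 1 - r := by linarith
  have key : ENNReal.ofReal (r ^ (2 * n) * ((1 - r) ^ b / 2)) ≤ ∫⁻ ρ in Ioo (0 : ℝ) 1,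
      ENNReal.ofReal (ρ ^ (2 * n + (1 : ℝ) - 1) * (1 - ρ ^ 2) ^ (b - 1)) := by
    have s1 : Ioo r 1 ⊆ Ioo (0 : ℝ) 1 := Ioo_subset_Ioo_left hr0
    refine le_trans ?_ (lintegral_mono_set s1)
    have s2 : ∫⁻ _ in Ioo r 1, ENNReal.ofReal (r ^ (2 * n) * ((1 - r) ^ (b - 1) / 2)) ≤
        ∫⁻ ρ in Ioo r 1, ENNReal.ofReal (ρ ^ (2 * n + (1 : ℝ) - 1) * (1 - ρ ^ 2) ^ (b - 1)) := by
      refine setLIntegral_mono' measurableSet_Ioo fun ρ hρ => ENNReal.ofReal_le_ofReal ?_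
      have hρ0 : 0 ≤ ρ := hr0.trans hρ.1.le
      have q1 : ρ ^ (2 * n + (1 : ℝ) - 1) = ρ ^ (2 * n) := by
        rw [← Real.rpow_natCast]; congr 1; push_cast; ring
      have q2 : r ^ (2 * n) ≤ ρ ^ (2 * n) := pow_le_pow_left₀ hr0 hρ.1.le _
      have hd : 0 < 1 - ρ ^ 2 := by nlinarith [hρ.2]
      have q3 : (2 * (1 - r)) ^ (b - 1) ≤ (1 - ρ ^ 2) ^ (b - 1) :=
        Real.rpow_le_rpow_of_nonpos hd (by nlinarith [hρ.1, hρ.2]) (by linarith)
      have q4 : (1 / 2 : ℝ) ≤ 2 ^ (b - 1) := by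
        have : (2 : ℝ) ^ (-1 : ℝ) ≤ 2 ^ (b - 1) :=
          Real.rpow_le_rpow_of_exponent_le (by norm_num) (by linarith)
        rw [Real.rpow_neg_one] at this
        linarith
      have q5 : (1 - r) ^ (b - 1) / 2 ≤ (1 - ρ ^ 2) ^ (b - 1) := by
        rw [Real.mul_rpow (by norm_num) h1r.le] at q3
        have : 0 ≤ (1 - r) ^ (b - 1) := Real.rpow_nonneg h1r.le _
        nlinarith
      rw [q1]
      exact mul_le_mul q2 q5 (by positivity) (by positivity)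
    refine le_trans (le_of_eq ?_) s2
    rw [setLIntegral_const, Real.volume_Ioo, ← ENNReal.ofReal_mul (by positivity)]
    congr 1
    have : (1 - r) ^ b = (1 - r) ^ (b - 1) * (1 - r) := by
      rw [← Real.rpow_add_one h1r.ne']; congr 1; ring
    rw [this]; ring
  refine le_trans (le_of_eq ?_) (mul_le_mul_right key _)
  rw [← ENNReal.ofReal_mul (by positivity), ← ENNReal.ofReal_mul (by positivity)]
  congr 1
  ring

end Crest.Agent.R131.Wt3
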