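import Mathlib

/-! Row 131: radial Beta integrals and the one-dimensional weight inequality (helper3). -/

set_option autoImplicit false

open MeasureTheory Set

noncomputable section

namespace Crest.Agent.R131.Wt3

theorem integrableOn_rad (κ β : ℝ) (hκ : 0 ≤ κ) (hβ : 0 < β) :
    IntegrableOn (fun r : ℝ => r ^ κ * (1 - r ^ 2) ^ (β - 1)) (Ioo 0 1) := by
  have h1 : IntervalIntegrable (fun r : ℝ => (1 - r) ^ (β - 1)) volume 0 1 := by
    have := (intervalIntegral.intervalIntegrable_rpow' (a := 1) (b := 0) (r := β - 1)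
      (by linarith)).comp_sub_left 1
    simpa using this
  have h2 : IntegrableOn (fun r : ℝ => 1 + (1 - r) ^ (β - 1)) (Ioo 0 1) := by
    refine Integrable.add (integrableOn_const (by simp)) ?_
    exact ((intervalIntegrable_iff_integrableOn_Ioo_of_le zero_le_one).1 h1)
  refine Integrable.mono' h2 (by fun_prop) ?_
  refine (ae_restrict_iff' measurableSet_Ioo).2 (Filter.Eventually.of_forall fun r hr => ?_)
  obtain ⟨h0, h1⟩ := hr
  have hd : 0 < 1 - r ^ 2 := by nlinarith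
  have ha : r ^ κ ≤ 1 := Real.rpow_le_one h0.le h1.le hκ
  have ha0 : 0 ≤ r ^ κ := Real.rpow_nonneg h0.le _
  have hb0 : 0 ≤ (1 - r ^ 2) ^ (β - 1) := Real.rpow_nonneg hd.le _
  have hc0 : 0 ≤ (1 - r) ^ (β - 1) := Real.rpow_nonneg (by linarith) _
  have hb : (1 - r ^ 2) ^ (β - 1) ≤ 1 + (1 - r) ^ (β - 1) := by
    rcases le_total β 1 with h | h
    · have : (1 - r ^ 2) ^ (β - 1) ≤ (1 - r) ^ (β - 1) :=
        Real.rpow_le_rpow_of_nonpos (by linarith) (by nlinarith) (by linarith)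
      linarith
    · have : (1 - r ^ 2) ^ (β - 1) ≤ 1 := Real.rpow_le_one hd.le (by nlinarith) (by linarith)
      linarith
  rw [Real.norm_eq_abs, abs_of_nonneg (mul_nonneg ha0 hb0)]
  nlinarith

/-- the radial Beta integral -/
def J (κ β : ℝ) : ℝ := ∫ r in Ioo (0 : ℝ) 1, r ^ κ * (1 - r ^ 2) ^ (β - 1)

theorem J_nonneg (κ β : ℝ) : 0 ≤ J κ β := by
  refine setIntegral_nonneg measurableSet_Ioo fun r hr => ?_
  exact mul_nonneg (Real.rpow_nonneg hr.1.le _) (Real.rpow_nonneg (by nlinarith [hr.1, hr.2]) _)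

theorem J_rec (κ β : ℝ) (hκ : 0 ≤ κ) (hβ : 0 < β) :
    (κ + 1 + 2 * β) * J κ (β + 1) = 2 * β * J κ β := by
  have i1 := integrableOn_rad κ (β + 1) hκ (by linarith)
  have i0 := integrableOn_rad κ β hκ hβ
  have hcont : ContinuousOn (fun r : ℝ => r ^ (κ + 1) * (1 - r ^ 2) ^ β) (Icc 0 1) := by
    refine Continuous.continuousOn ?_
    exact (Real.continuous_rpow_const (by linarith)).mul
      ((Real.continuous_rpow_const hβ.le).comp (by fun_prop))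
  have hder : ∀ r ∈ Ioo (0 : ℝ) 1, HasDerivAt (fun r : ℝ => r ^ (κ + 1) * (1 - r ^ 2) ^ β)
      ((κ + 1 + 2 * β) * (r ^ κ * (1 - r ^ 2) ^ (β + 1 - 1)) -
        2 * β * (r ^ κ * (1 - r ^ 2) ^ (β - 1))) r := by
    intro r hr
    obtain ⟨h0, h1⟩ := hr
    have hd : 0 < 1 - r ^ 2 := by nlinarith
    have e1 : HasDerivAt (fun r : ℝ => r ^ (κ + 1)) ((κ + 1) * r ^ (κ + 1 - 1)) r :=
      Real.hasDerivAt_rpow_const (Or.inl h0.ne')
    have e2 : HasDerivAt (fun r : ℝ => 1 - r ^ 2) (-(2 * r)) r := by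
      simpa using (hasDerivAt_pow 2 r).const_sub 1
    have e3 := e2.rpow_const (p := β) (Or.inl hd.ne')
    refine (e1.mul e3).congr_deriv ?_
    have q1 : r ^ (κ + 1) = r ^ κ * r := Real.rpow_add_one h0.ne' _
    have q2 : (1 - r ^ 2) ^ β = (1 - r ^ 2) ^ (β - 1) * (1 - r ^ 2) := by
      rw [← Real.rpow_add_one hd.ne']; congr 1; ring
    rw [add_sub_cancel_right, add_sub_cancel_right, q1, q2]
    ring
  have hint : IntervalIntegrable (fun r : ℝ =>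
      (κ + 1 + 2 * β) * (r ^ κ * (1 - r ^ 2) ^ (β + 1 - 1)) -
        2 * β * (r ^ κ * (1 - r ^ 2) ^ (β - 1))) volume 0 1 :=
    (intervalIntegrable_iff_integrableOn_Ioo_of_le zero_le_one).2
      ((i1.const_mul _).sub (i0.const_mul _))
  have key := intervalIntegral.integral_eq_sub_of_hasDerivAt_of_le zero_le_one hcont hder hint
  rw [intervalIntegral.integral_of_le zero_le_one, integral_Ioc_eq_integral_Ioo,
    integral_sub (i1.const_mul _) (i0.const_mul _), integral_const_mul, integral_const_mul] at key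
  have z1 : (1 : ℝ) ^ (κ + 1) * (1 - 1 ^ 2) ^ β - 0 ^ (κ + 1) * (1 - 0 ^ 2) ^ β = 0 := by
    rw [Real.zero_rpow (by linarith : κ + 1 ≠ 0)]
    simp [Real.zero_rpow hβ.ne']
  rw [z1] at key
  unfold J
  linarith

theorem alg (τ b c m a0 a1 a2 : ℝ) (hτ : 1 ≤ τ) (hb : 0 < b) (hb2 : b ≤ 2) (hc : 0 ≤ c)
    (hc2 : c ≤ 2) (hm : 0 ≤ m) (h0 : 0 ≤ a0)
    (h1 : (m * τ + τ + 2 * b) * a1 = 2 * b * a0)
    (h2 : (m * τ + τ + 2 * (b + 1)) * a2 = 2 * (b + 1) * a1) :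
    ((c - 2 * b / τ) ^ 2 + 4 * b / τ ^ 2) * a0 ≤
      c ^ 2 * a0 - 2 * c * (c + m) * a1 + (c + m) ^ 2 * a2 + 100 * a1 := by
  have hτ0 : 0 < τ := by linarith
  set u := 1 / τ with hu
  have hu0 : 0 < u := by positivity
  have hu1 : u ≤ 1 := by rw [hu, div_le_one hτ0]; exact hτ
  have huτ : u * τ = 1 := by rw [hu]; field_simp
  set D1 := m * τ + τ + 2 * b with hD1
  set D2 := m * τ + τ + 2 * (b + 1) with hD2
  have hD10 : 0 < D1 := by positivity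
  have hD20 : 0 < D2 := by positivity
  have ha1 : 0 ≤ a1 := by
    have : 0 ≤ D1 * a1 := by rw [h1]; positivity
    exact nonneg_of_mul_nonneg_right this hD10 |> fun h => h
  have ea0 : a0 = D1 * a1 / (2 * b) := by rw [h1]; field_simp
  have ea2 : a2 = 2 * (b + 1) * a1 / D2 := by rw [← h2]; field_simp
  have e1 : (c - 2 * b / τ) ^ 2 + 4 * b / τ ^ 2 = c ^ 2 + 2 * b * (2 * (b + 1) * u ^ 2 - 2 * c * u) := by
    rw [hu]; field_simp; ring
  have e2 : ((c - 2 * b / τ) ^ 2 + 4 * b / τ ^ 2) * a0 =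
      c ^ 2 * a0 + (2 * (b + 1) * u ^ 2 - 2 * c * u) * D1 * a1 := by
    rw [e1, add_mul, mul_assoc (2 * (b + 1) * u ^ 2 - 2 * c * u) D1 a1, h1]; ring
  rw [e2, ea2]
  have hu1' : u * D1 = m + 1 + 2 * b * u := by
    rw [hD1]; linear_combination (m + 1) * huτ
  have hu2' : u * D2 = m + 1 + 2 * (b + 1) * u := by
    rw [hD2]; linear_combination (m + 1) * huτ
  set e := 1 + 2 * (b + 1) * u - c with he
  have hν : c + m = u * D2 - e := by rw [hu2', he]; ring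
  have k1 : u ^ 2 * D2 - 2 * u * e ≤ (c + m) ^ 2 / D2 := by
    rw [le_div_iff₀ hD20, hν]; nlinarith [sq_nonneg e]
  have k2 : u ^ 2 * D1 ≤ u ^ 2 * D2 := by
    have : D1 ≤ D2 := by rw [hD1, hD2]; linarith
    exact mul_le_mul_of_nonneg_left this (sq_nonneg u)
  have hbu : (b + 1) * u ≤ 3 := by nlinarith
  have he7 : e ≤ 7 := by rw [he]; nlinarith
  have k3 : 2 * u * e ≤ 14 := by nlinarith
  have k4 : 2 * c * (c + m) - 2 * c * (u * D1) ≤ 4 := by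
    rw [hu1']
    have : 0 ≤ c * (b * u) := by positivity
    nlinarith
  have k5 : (2 * (b + 1) * u ^ 2 - 2 * c * u) * D1 ≤
      - (2 * c * (c + m)) + 2 * (b + 1) * ((c + m) ^ 2 / D2) + 100 := by
    have : 2 * (b + 1) * (u ^ 2 * D1) ≤ 2 * (b + 1) * ((c + m) ^ 2 / D2 + 14) :=
      mul_le_mul_of_nonneg_left (by linarith) (by linarith)
    nlinarith
  have k6 := mul_le_mul_of_nonneg_right k5 ha1
  have e3 : (c + m) ^ 2 * (2 * (b + 1) * a1 / D2) = 2 * (b + 1) * ((c + m) ^ 2 / D2) * a1 := by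
    field_simp
  rw [e3]
  nlinarith

/-- the one-dimensional weight inequality -/
theorem rad_ineq (τ b c : ℝ) (hτ : 1 ≤ τ) (hb : 0 < b) (hb2 : b ≤ 2) (hc : 0 ≤ c) (hc2 : c ≤ 2)
    (n : ℕ) :
    ENNReal.ofReal ((c - 2 * b / τ) ^ 2 + 4 * b / τ ^ 2) *
        ∫⁻ r in Ioo (0 : ℝ) 1, ENNReal.ofReal (r ^ (2 * n + τ - 1) * (1 - r ^ 2) ^ (b - 1)) ≤
      (∫⁻ r in Ioo (0 : ℝ) 1, ENNReal.ofReal ((c * r ^ 2 - 2 / τ * (1 - r ^ 2) * n) ^ 2 *
          (r ^ (2 * n + τ - 1) * (1 - r ^ 2) ^ (b - 1)))) +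
        ENNReal.ofReal 100 *
          ∫⁻ r in Ioo (0 : ℝ) 1, ENNReal.ofReal (r ^ (2 * n + τ - 1) * (1 - r ^ 2) ^ b) := by
  have hτ0 : 0 < τ := by linarith
  set κ : ℝ := 2 * n + τ - 1 with hκ
  have hn : (0 : ℝ) ≤ n := Nat.cast_nonneg n
  have hκ0 : 0 ≤ κ := by rw [hκ]; linarith
  set m : ℝ := 2 / τ * n with hm
  have hm0 : 0 ≤ m := by positivity
  have hmτ : m * τ = 2 * n := by rw [hm]; field_simp
  have i0 := integrableOn_rad κ b hκ0 hb
  have i1 := integrableOn_rad κ (b + 1) hκ0 (by linarith)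
  have i2 := integrableOn_rad κ (b + 1 + 1) hκ0 (by linarith)
  have pos : ∀ β : ℝ, ∀ᵐ r ∂(volume.restrict (Ioo (0 : ℝ) 1)), 0 ≤ r ^ κ * (1 - r ^ 2) ^ β := by
    intro β
    refine (ae_restrict_iff' measurableSet_Ioo).2 (Filter.Eventually.of_forall fun r hr => ?_)
    exact mul_nonneg (Real.rpow_nonneg hr.1.le _) (Real.rpow_nonneg (by nlinarith [hr.1, hr.2]) _)
  have l0 : ∫⁻ r in Ioo (0 : ℝ) 1, ENNReal.ofReal (r ^ κ * (1 - r ^ 2) ^ (b - 1)) =
      ENNReal.ofReal (J κ b) := (ofReal_integral_eq_lintegral_ofReal i0 (pos _)).symm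
  have l1 : ∫⁻ r in Ioo (0 : ℝ) 1, ENNReal.ofReal (r ^ κ * (1 - r ^ 2) ^ b) =
      ENNReal.ofReal (J κ (b + 1)) := by
    have := (ofReal_integral_eq_lintegral_ofReal i1 (pos _)).symm
    unfold J
    simpa only [add_sub_cancel_right] using this
  have ee : EqOn (fun r : ℝ => (c * r ^ 2 - 2 / τ * (1 - r ^ 2) * n) ^ 2 *
      (r ^ κ * (1 - r ^ 2) ^ (b - 1)))
      (fun r : ℝ => c ^ 2 * (r ^ κ * (1 - r ^ 2) ^ (b - 1)) -
        2 * c * (c + m) * (r ^ κ * (1 - r ^ 2) ^ (b + 1 - 1)) +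
        (c + m) ^ 2 * (r ^ κ * (1 - r ^ 2) ^ (b + 1 + 1 - 1))) (Ioo 0 1) := by
    intro r hr
    have hd : 0 < 1 - r ^ 2 := by nlinarith [hr.1, hr.2]
    have q1 : (1 - r ^ 2) ^ (b + 1 - 1) = (1 - r ^ 2) ^ (b - 1) * (1 - r ^ 2) := by
      rw [← Real.rpow_add_one hd.ne']; congr 1; ring
    have q2 : (1 - r ^ 2) ^ (b + 1 + 1 - 1) = (1 - r ^ 2) ^ (b - 1) * (1 - r ^ 2) * (1 - r ^ 2) := by
      rw [← Real.rpow_add_one hd.ne', ← Real.rpow_add_one hd.ne']; congr 1; ring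
    simp only [q1, q2, hm]
    ring
  have i3 : IntegrableOn (fun r : ℝ => c ^ 2 * (r ^ κ * (1 - r ^ 2) ^ (b - 1)) -
        2 * c * (c + m) * (r ^ κ * (1 - r ^ 2) ^ (b + 1 - 1)) +
        (c + m) ^ 2 * (r ^ κ * (1 - r ^ 2) ^ (b + 1 + 1 - 1))) (Ioo 0 1) :=
    ((i0.const_mul _).sub (i1.const_mul _)).add (i2.const_mul _)
  have i4 := (integrableOn_congr_fun ee measurableSet_Ioo).2 i3
  have i5 : IntegrableOn (fun r : ℝ => c ^ 2 * (r ^ κ * (1 - r ^ 2) ^ (b - 1)) -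
        2 * c * (c + m) * (r ^ κ * (1 - r ^ 2) ^ (b + 1 - 1))) (Ioo 0 1) :=
    (i0.const_mul _).sub (i1.const_mul _)
  have ev : ∫ r in Ioo (0 : ℝ) 1, (c * r ^ 2 - 2 / τ * (1 - r ^ 2) * n) ^ 2 *
      (r ^ κ * (1 - r ^ 2) ^ (b - 1)) = c ^ 2 * J κ b -
        2 * c * (c + m) * J κ (b + 1) + (c + m) ^ 2 * J κ (b + 1 + 1) := by
    rw [setIntegral_congr_fun measurableSet_Ioo ee, integral_add i5 (i2.const_mul _),
      integral_sub (i0.const_mul _) (i1.const_mul _), integral_const_mul, integral_const_mul,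
      integral_const_mul]
    rfl
  have l2 : ∫⁻ r in Ioo (0 : ℝ) 1, ENNReal.ofReal ((c * r ^ 2 - 2 / τ * (1 - r ^ 2) * n) ^ 2 *
      (r ^ κ * (1 - r ^ 2) ^ (b - 1))) = ENNReal.ofReal (c ^ 2 * J κ b -
        2 * c * (c + m) * J κ (b + 1) + (c + m) ^ 2 * J κ (b + 1 + 1)) := by
    rw [← ofReal_integral_eq_lintegral_ofReal i4
      ((pos (b - 1)).mono fun r hr => mul_nonneg (sq_nonneg _) hr), ev]
  have hX : 0 ≤ c ^ 2 * J κ b - 2 * c * (c + m) * J κ (b + 1) + (c + m) ^ 2 * J κ (b + 1 + 1) := by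
    rw [← ev]
    exact integral_nonneg_of_ae ((pos (b - 1)).mono fun r hr => mul_nonneg (sq_nonneg _) hr)
  rw [l0, l1, l2, ← ENNReal.ofReal_mul (by positivity), ← ENNReal.ofReal_mul (by norm_num),
    ← ENNReal.ofReal_add hX (mul_nonneg (by norm_num) (J_nonneg _ _))]
  refine ENNReal.ofReal_le_ofReal ?_
  refine alg τ b c m _ _ _ hτ hb hb2 hc hc2 hm0 (J_nonneg _ _) ?_ ?_
  · rw [← J_rec κ b hκ0 hb, hmτ, hκ]; ring
  · rw [← J_rec κ (b + 1) hκ0 (by linarith), hmτ, hκ]; ring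

end Crest.Agent.R131.Wt3
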