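import Crest.Agent.R131.Ibp44
import Crest.Agent.R131.Pars57

/-!
# Row 131: the weights lemma (helper44)
-/

set_option autoImplicit false

open MeasureTheory Set Metric Real

noncomputable section

namespace Crest.Agent.R131.W44

open Crest.Agent.R131.Ibp

/-- the circle mean of `|g|²` -/
def M (g : ℂ → ℂ) (r : ℝ) : ℝ := ∫ θ in (-π)..π, ‖g (r * Complex.exp (θ * Complex.I))‖ ^ 2

theorem M_nonneg (g : ℂ → ℂ) (r : ℝ) : 0 ≤ M g r :=
  intervalIntegral.integral_nonneg (by linarith [pi_pos]) fun _ _ => by positivity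

theorem M_mono {g : ℂ → ℂ} {R : ℝ} (hg : DifferentiableOn ℂ g (ball 0 R)) {r t : ℝ}
    (h0 : 0 ≤ r) (hrt : r ≤ t) (ht : t < R) : M g r ≤ M g t := by
  refine hasSum_le (fun n => ?_) (p57_circle0 g R hg r h0 (hrt.trans_lt ht))
    (p57_circle0 g R hg t (h0.trans hrt) ht)
  have := pi_pos
  gcongr

theorem inner_eq (g : ℂ → ℂ) (a β t : ℝ) :
    ∫ θ in Ioo (-π) π, Pz (B g g) a β (t, θ) = t * wt a β t * M g t := by
  unfold M
  rw [intervalIntegral.integral_of_le (by linarith [pi_pos]), integral_Ioc_eq_integral_Ioo,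
    ← integral_const_mul]
  refine integral_congr_ae (Filter.Eventually.of_forall fun θ => ?_)
  simp only [Pz, B_self, pt]
  rw [Complex.exp_mul_I]
  simp

theorem J_rad {g : ℂ → ℂ} {R : ℝ} (hR : 1 < R) (hg : DifferentiableOn ℂ g (ball 0 R))
    {a β : ℝ} (ha : -2 < a) (hβ : -1 < β) :
    IntegrableOn (fun t => t * wt a β t * M g t) (Ioo 0 1) ∧
      J (B g g) a β = ∫ t in Ioo (0 : ℝ) 1, t * wt a β t * M g t := by
  have hi := int_Pz (cont_B hR hg hg) ha hβ
  constructor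
  · have h := hi
    rw [IntegrableOn, Measure.volume_eq_prod, ← Measure.prod_restrict] at h
    have h2 := h.integral_prod_left
    simp only [inner_eq] at h2
    exact h2
  · rw [J_eq]
    rw [Measure.volume_eq_prod] at hi ⊢
    rw [setIntegral_prod _ hi]
    simp only [inner_eq]

theorem tail {b r : ℝ} (hb : 0 < b) (h0 : 0 ≤ r) (h1 : r < 1) :
    ∫ t in Ioo r 1, t * wt 0 (b - 1) t = (1 - r ^ 2) ^ b / (2 * b) := by
  have hi : IntervalIntegrable (fun t => t * wt 0 (b - 1) t) volume r 1 := by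
    rw [intervalIntegrable_iff_integrableOn_Ioo_of_le h1.le]
    exact (int_wt (by norm_num) (by linarith)).mono_set (Ioo_subset_Ioo_left h0)
  have hc : ContinuousOn (fun t : ℝ => -((1 - t ^ 2) ^ b / (2 * b))) (Icc r 1) := by
    refine ContinuousOn.neg (ContinuousOn.div_const ?_ _)
    exact ContinuousOn.rpow_const (by fun_prop) fun x _ => Or.inr hb.le
  have hd : ∀ t ∈ Ioo r 1, HasDerivAt (fun t : ℝ => -((1 - t ^ 2) ^ b / (2 * b)))
      (t * wt 0 (b - 1) t) t := by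
    intro t ht
    have hp : 0 < 1 - t ^ 2 := by nlinarith [ht.1, ht.2]
    have h1 : HasDerivAt (fun t : ℝ => 1 - t ^ 2) (-(2 * t)) t := by
      simpa using (hasDerivAt_pow 2 t).const_sub 1
    have h2 := ((h1.rpow_const (p := b) (Or.inl hp.ne')).div_const (2 * b)).neg
    refine h2.congr_deriv ?_
    simp only [wt, Real.rpow_zero]
    field_simp
  have := intervalIntegral.integral_eq_sub_of_hasDerivAt_of_le h1.le hc hd hi
  rw [intervalIntegral.integral_of_le h1.le, integral_Ioc_eq_integral_Ioo] at this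
  rw [this]
  simp [Real.zero_rpow hb.ne']

theorem means {a b : ℝ} (ha : -2 < a) (hb : 0 < b) : ∃ C : ℝ, 0 < C ∧
    ∀ (g : ℂ → ℂ) (R : ℝ), 1 < R → DifferentiableOn ℂ g (ball 0 R) → ∀ r ∈ Ico (1 / 2 : ℝ) 1,
      M g r ≤ C * J (B g g) a (b - 1) * (1 - r) ^ (-b) := by
  set m : ℝ := min 1 ((1 / 2 : ℝ) ^ a) with hm
  have hm0 : 0 < m := lt_min one_pos (by positivity)
  refine ⟨2 * b / m, by positivity, fun g R hR hg r hr => ?_⟩
  obtain ⟨hi, he⟩ := J_rad hR hg ha (show -1 < b - 1 by linarith)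
  have hr0 : 0 ≤ r := by linarith [hr.1]
  have hsub : Ioo r 1 ⊆ Ioo 0 1 := Ioo_subset_Ioo_left hr0
  have h1 : ∫ t in Ioo r 1, t * wt a (b - 1) t * M g t ≤ J (B g g) a (b - 1) := by
    rw [he]
    refine setIntegral_mono_set hi ?_ hsub.eventuallyLE
    refine (ae_restrict_iff' measurableSet_Ioo).mpr (Filter.Eventually.of_forall fun t ht => ?_)
    have := wt_nonneg a (b - 1) ht.1.le ht.2.le
    have := M_nonneg g t
    have := ht.1.le
    show (0 : ℝ) ≤ _
    positivity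
  have hi0 : IntegrableOn (fun t => t * wt 0 (b - 1) t) (Ioo r 1) :=
    (int_wt (by norm_num) (by linarith)).mono_set hsub
  have h2 : ∫ t in Ioo r 1, (m * M g r) * (t * wt 0 (b - 1) t) ≤
      ∫ t in Ioo r 1, t * wt a (b - 1) t * M g t := by
    refine setIntegral_mono_on (hi0.const_mul _) (hi.mono_set hsub) measurableSet_Ioo ?_
    intro t ht
    have ht0 : 0 < t := by linarith [ht.1, hr.1]
    have hM := M_mono hg hr0 ht.1.le (by linarith [ht.2])
    have hM0 := M_nonneg g r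
    have hma : m ≤ t ^ a := by
      rcases le_total a 0 with h | h
      · exact (min_le_left _ _).trans (Real.one_le_rpow_of_pos_of_le_one_of_nonpos ht0 ht.2.le h)
      · exact (min_le_right _ _).trans
          (Real.rpow_le_rpow (by norm_num) (by linarith [ht.1, hr.1]) h)
    have hp : 0 ≤ (1 - t ^ 2) ^ (b - 1) := Real.rpow_nonneg (by nlinarith [ht.2]) _
    simp only [wt, Real.rpow_zero]
    calc m * M g r * (t * (1 * (1 - t ^ 2) ^ (b - 1)))
        = t * (m * (1 - t ^ 2) ^ (b - 1)) * M g r := by ring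
      _ ≤ t * (t ^ a * (1 - t ^ 2) ^ (b - 1)) * M g t := by
        have := Real.rpow_nonneg ht0.le a
        gcongr
  rw [integral_const_mul, tail hb hr0 hr.2] at h2
  have h1r : 0 < 1 - r := by linarith [hr.2]
  have h3 : (1 - r) ^ b ≤ (1 - r ^ 2) ^ b :=
    Real.rpow_le_rpow h1r.le (by nlinarith [hr.2]) hb.le
  have h4 : 0 < (1 - r) ^ b := Real.rpow_pos_of_pos h1r b
  have hM0 := M_nonneg g r
  have h5 : m * M g r * ((1 - r) ^ b / (2 * b)) ≤ J (B g g) a (b - 1) := by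
    refine le_trans ?_ (h2.trans h1)
    gcongr
  rw [Real.rpow_neg h1r.le]
  calc M g r = 2 * b / m * (m * M g r * ((1 - r) ^ b / (2 * b))) * ((1 - r) ^ b)⁻¹ := by
        field_simp
    _ ≤ 2 * b / m * J (B g g) a (b - 1) * ((1 - r) ^ b)⁻¹ := by gcongr

/-- the integrand of the weights lemma -/
def GW (c b al eta : ℝ) (g : ℂ → ℂ) (z : ℂ) : ℝ :=
  (‖((c * ‖z‖ ^ 2 : ℝ) : ℂ) * g z - (((1 - ‖z‖ ^ 2) / al : ℝ) : ℂ) * z * deriv g z‖ ^ 2 -
    (1 - eta) * ‖g z‖ ^ 2) * ((1 - ‖z‖ ^ 2) ^ (b - 1) * ‖z‖ ^ (2 * al - 2))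

theorem GW_eq (c b al eta : ℝ) (g : ℂ → ℂ) (z : ℂ) :
    GW c b al eta g z = (1 * Qf g c (1 / al) z + eta * B g g z) * wt (2 * al - 2) (b - 1) ‖z‖ := by
  have e : (((1 - ‖z‖ ^ 2) / al : ℝ) : ℂ) * z * deriv g z =
      ((1 / al * (1 - ‖z‖ ^ 2) : ℝ) : ℂ) * (z * deriv g z) := by
    rw [show (1 - ‖z‖ ^ 2) / al = 1 / al * (1 - ‖z‖ ^ 2) by ring]; ring
  simp only [GW, Qf, B_self, wt, e]
  ring

theorem int_GW (c : ℝ) {b al : ℝ} (eta : ℝ) (hal : 0 < al) (hb : 0 < b) {g : ℂ → ℂ} {R : ℝ}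
    (hR : 1 < R) (hg : DifferentiableOn ℂ g (ball 0 R)) :
    IntegrableOn (GW c b al eta g) (ball 0 1) := by
  have h := int_J (H := fun z => 1 * Qf g c (1 / al) z + eta * B g g z)
    ((continuousOn_const.mul (cont_Qf hR hg c (1 / al))).add
      (continuousOn_const.mul (cont_B hR hg hg))) (a := 2 * al - 2) (β := b - 1)
      (by linarith) (by linarith)
  exact h.congr (Filter.Eventually.of_forall fun z => (GW_eq c b al eta g z).symm)

set_option maxHeartbeats 1000000 in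
/-- the mass bound -/
theorem mass (c b al eta : ℝ) (hal : 0 < al) (hb : 0 < b)
    (hth : 0 < (c - b / al) ^ 2 + b / al ^ 2 - 1 + eta) :
    ∃ r0 C : ℝ, 0 < r0 ∧ r0 < 1 ∧ 0 < C ∧ ∀ (g : ℂ → ℂ) (R K L : ℝ), 1 < R →
      DifferentiableOn ℂ g (ball 0 R) → 0 ≤ K → (∀ z : ℂ, ‖z‖ ≤ r0 → ‖g z‖ ^ 2 ≤ L) →
      ∫ z in ball (0 : ℂ) 1, GW c b al eta g z ≤ K →
        J (B g g) (2 * al - 2) (b - 1) ≤ C * (K + L) := by
  have ha : -2 < 2 * al - 2 := by linarith
  have hb1 : -1 < b - 1 := by linarith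
  obtain ⟨K0, hK0, hmom⟩ := mom_ge c (1 / al) ha hb
  set θ := (c - b / al) ^ 2 + b / al ^ 2 - 1 + eta with hθ
  set δ : ℝ := min (1 / 2) (θ / (4 * (K0 + 1))) with hδ
  have hδ0 : 0 < δ := lt_min (by norm_num) (by positivity)
  have hδ1 : δ ≤ 1 / 2 := min_le_left _ _
  have hδ2 : K0 * (2 * δ) ≤ θ / 2 := by
    have h : δ ≤ θ / (4 * (K0 + 1)) := min_le_right _ _
    rw [le_div_iff₀ (by positivity)] at h
    nlinarith
  set CW := J (fun _ => (1 : ℝ)) (2 * al - 2) (b - 1) with hCW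
  have hCW0 : 0 ≤ CW := by
    have := J_mono (H := fun _ => (1 : ℝ)) continuousOn_const (fun _ => zero_le_one) ha hb1
    exact this.1.trans this.2
  refine ⟨1 - δ, 2 / θ * (1 + K0 * CW), by linarith, by linarith, by positivity,
    fun g R K L hR hg hK hL hG => ?_⟩
  have hL0 : 0 ≤ L := le_trans (by positivity) (hL 0 (by simp; linarith))
  have hcB := cont_B hR hg hg
  have e1 : ∫ z in ball (0 : ℂ) 1, GW c b al eta g z =
      1 * J (Qf g c (1 / al)) (2 * al - 2) (b - 1) + eta * J (B g g) (2 * al - 2) (b - 1) := by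
    rw [← J_add (cont_Qf hR hg c (1 / al)) hcB ha hb1]
    simp only [J, GW_eq]
  have h1 := hmom g R hR hg
  have e2 : (c - 1 / al * b) ^ 2 + (1 / al) ^ 2 * b - 1 = θ - eta := by
    rw [hθ]; field_simp; ring
  rw [e2] at h1
  have h2 : J (B g g) (2 * al - 2) b ≤
      L * CW + (2 * δ) * J (B g g) (2 * al - 2) (b - 1) := by
    rw [hCW, ← J_add continuousOn_const hcB ha hb1]
    unfold J
    refine integral_mono_ae (int_J hcB ha (by linarith))
      (int_J ((continuousOn_const.mul continuousOn_const).add (continuousOn_const.mul hcB))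
        ha hb1) ?_
    filter_upwards [ae_ne] with z hz
    have hw := wt_d (2 * al - 2) (b - 1) hz.1 hz.2
    rw [sub_add_cancel] at hw
    have hw0 := wt_nonneg (2 * al - 2) (b - 1) hz.1.le hz.2.le
    rw [hw, B_self, ← mul_assoc]
    refine mul_le_mul_of_nonneg_right ?_ hw0
    have hg0 : 0 ≤ ‖g z‖ ^ 2 := by positivity
    rcases le_total ‖z‖ (1 - δ) with h | h
    · have := hL z h
      have h3 : ‖g z‖ ^ 2 * (1 - ‖z‖ ^ 2) ≤ ‖g z‖ ^ 2 := by
        nlinarith [mul_nonneg hg0 (sq_nonneg ‖z‖)]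
      nlinarith [mul_nonneg hg0 hδ0.le]
    · have h3 : 1 - ‖z‖ ^ 2 ≤ 2 * δ := by nlinarith [hz.1, hz.2]
      nlinarith [mul_le_mul_of_nonneg_left h3 hg0]
  have hJ0 : 0 ≤ J (B g g) (2 * al - 2) (b - 1) := by
    have := J_mono hcB (fun z => by rw [B_self]; positivity) ha hb1
    exact this.1.trans this.2
  rw [e1] at hG
  generalize J (B g g) (2 * al - 2) (b - 1) = J0 at *
  generalize J (B g g) (2 * al - 2) b = J1 at *
  generalize J (Qf g c (1 / al)) (2 * al - 2) (b - 1) = JQ at *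
  have h3 : θ / 2 * J0 ≤ K + K0 * CW * L := by
    have h4 := mul_le_mul_of_nonneg_left h2 hK0
    have h5 := mul_le_mul_of_nonneg_right hδ2 hJ0
    linarith
  have h4 : K + K0 * CW * L ≤ (1 + K0 * CW) * (K + L) := by
    have h6 := mul_nonneg hK0 hCW0
    have h7 := mul_nonneg h6 hK
    linarith
  calc J0 = 2 / θ * (θ / 2 * J0) := by field_simp
    _ ≤ 2 / θ * ((1 + K0 * CW) * (K + L)) := 
        mul_le_mul_of_nonneg_left (h3.trans h4) (by positivity)
    _ = _ := by ring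

/-- the weights lemma -/
theorem weights (c b al eta : ℝ) (hal : 0 < al) (hb : 0 < b)
    (hth : 0 < (c - b / al) ^ 2 + b / al ^ 2 - 1 + eta) :
    ∃ r0 C : ℝ, 0 < r0 ∧ r0 < 1 ∧ 0 < C ∧ ∀ (g : ℂ → ℂ) (R K L : ℝ), 1 < R →
      DifferentiableOn ℂ g (ball 0 R) → 0 ≤ K → (∀ z : ℂ, ‖z‖ ≤ r0 → ‖g z‖ ^ 2 ≤ L) →
      ∫ z in ball (0 : ℂ) 1, GW c b al eta g z ≤ K → ∀ r ∈ Ico (1 / 2 : ℝ) 1,
        ∫ θ in (-π)..π, ‖g (r * Complex.exp (θ * Complex.I))‖ ^ 2 ≤
          C * (K + L) * (1 - r) ^ (-b) := by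
  obtain ⟨r0, C, h0, h1, hC, h⟩ := mass c b al eta hal hb hth
  obtain ⟨C', hC', h'⟩ := means (a := 2 * al - 2) (by linarith) hb
  refine ⟨r0, C' * C, h0, h1, by positivity, fun g R K L hR hg hK hL hG r hr => ?_⟩
  have h2 := h g R K L hR hg hK hL hG
  have h3 := h' g R hR hg r hr
  have h4 : 0 ≤ (1 - r) ^ (-b) := Real.rpow_nonneg (by linarith [hr.2]) _
  calc _ ≤ C' * J (B g g) (2 * al - 2) (b - 1) * (1 - r) ^ (-b) := h3
    _ ≤ C' * (C * (K + L)) * (1 - r) ^ (-b) := by gcongr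
    _ = _ := by ring

/-- from the `lintegral` inequality to the real one -/
theorem int_le_of_lint {F : ℂ → ℝ} (hF : IntegrableOn F (ball 0 1)) {K : ℝ} (hK : 0 ≤ K)
    (h : ∫⁻ z in ball (0 : ℂ) 1, ENNReal.ofReal (F z) ≤
      (∫⁻ z in ball (0 : ℂ) 1, ENNReal.ofReal (-F z)) + ENNReal.ofReal K) :
    ∫ z in ball (0 : ℂ) 1, F z ≤ K := by
  rw [integral_eq_lintegral_pos_part_sub_lintegral_neg_part hF]
  have hn : (∫⁻ z in ball (0 : ℂ) 1, ENNReal.ofReal (-F z)) ≠ ⊤ :=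
    (hF.neg.lintegral_lt_top).ne
  have := ENNReal.toReal_mono (ENNReal.add_ne_top.mpr ⟨hn, ENNReal.ofReal_ne_top⟩) h
  rw [ENNReal.toReal_add hn ENNReal.ofReal_ne_top, ENNReal.toReal_ofReal hK] at this
  linarith

/-- the weights lemma, `lintegral` version -/
theorem weights_lint (c b al eta : ℝ) (hal : 0 < al) (hb : 0 < b)
    (hth : 0 < (c - b / al) ^ 2 + b / al ^ 2 - 1 + eta) :
    ∃ r0 C : ℝ, 0 < r0 ∧ r0 < 1 ∧ 0 < C ∧ ∀ (g : ℂ → ℂ) (R K L : ℝ), 1 < R →
      DifferentiableOn ℂ g (ball 0 R) → 0 ≤ K → (∀ z : ℂ, ‖z‖ ≤ r0 → ‖g z‖ ^ 2 ≤ L) →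
      (∫⁻ z in ball (0 : ℂ) 1, ENNReal.ofReal (GW c b al eta g z) ≤
        (∫⁻ z in ball (0 : ℂ) 1, ENNReal.ofReal (-GW c b al eta g z)) + ENNReal.ofReal K) →
      ∀ r ∈ Ico (1 / 2 : ℝ) 1,
        ∫⁻ θ in Ioc (-π) π, ENNReal.ofReal (‖g (r * Complex.exp (θ * Complex.I))‖ ^ 2) ≤
          ENNReal.ofReal (C * (K + L) * (1 - r) ^ (-b)) := by
  obtain ⟨r0, C, h0, h1, hC, h⟩ := weights c b al eta hal hb hth
  refine ⟨r0, C, h0, h1, hC, fun g R K L hR hg hK hL hG r hr => ?_⟩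
  have h2 := h g R K L hR hg hK hL (int_le_of_lint (int_GW c eta hal hb hR hg) hK hG) r hr
  have hc : Continuous fun θ : ℝ => ‖g (r * Complex.exp (θ * Complex.I))‖ ^ 2 := by
    have : Continuous fun θ : ℝ => g (r * Complex.exp (θ * Complex.I)) := by
      refine hg.continuousOn.comp_continuous (by fun_prop) fun θ => ?_
      rw [mem_ball_zero_iff, norm_mul, Complex.norm_exp_ofReal_mul_I, mul_one, Complex.norm_real,
        Real.norm_eq_abs, abs_of_pos (by linarith [hr.1])]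
      linarith [hr.2]
    exact this.norm.pow 2
  rw [intervalIntegral.integral_of_le (by linarith [pi_pos])] at h2
  rw [← ofReal_integral_eq_lintegral_ofReal (hc.integrableOn_Icc.mono_set Ioc_subset_Icc_self)
    (Filter.Eventually.of_forall fun θ => by positivity)]
  exact ENNReal.ofReal_le_ofReal h2

end Crest.Agent.R131.W44
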