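import Mathlib

/-!
Row 131, weights (hedge): circle means of a holomorphic function from a weighted area bound,
through the radial equations `r m0' = 2 m1`, `r m1' = 2 m2`.
-/

set_option autoImplicit false

open MeasureTheory Metric Set Filter Topology
open scoped ComplexConjugate

namespace Crest.Agent.R131.W62

noncomputable def pt (r θ : ℝ) : ℂ := (r : ℂ) * Complex.exp ((θ : ℂ) * Complex.I)

theorem norm_pt (r θ : ℝ) : ‖pt r θ‖ = |r| := by
  simp [pt, Complex.norm_exp_ofReal_mul_I]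

theorem cont_pt : Continuous (fun p : ℝ × ℝ => pt p.1 p.2) := by
  unfold pt; fun_prop

theorem cont_pt1 (r : ℝ) : Continuous (fun θ : ℝ => pt r θ) := by
  unfold pt; fun_prop

theorem pt_mem {R r : ℝ} (h : |r| < R) (θ : ℝ) : pt r θ ∈ ball (0 : ℂ) R := by
  simpa [norm_pt] using h

theorem cont_comp {R r : ℝ} {A : ℂ → ℂ} (hA : ContinuousOn A (ball 0 R)) (h : |r| < R) :
    Continuous (fun θ : ℝ => A (pt r θ)) :=
  hA.comp_continuous (cont_pt1 r) (fun θ => pt_mem h θ)

noncomputable def M (A B : ℂ → ℂ) (r : ℝ) : ℂ :=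
  ∫ θ in (-Real.pi)..Real.pi, A (pt r θ) * conj (B (pt r θ))

noncomputable def E (A : ℂ → ℂ) (z : ℂ) : ℂ := z * deriv A z

theorem E_diff {R : ℝ} {A : ℂ → ℂ} (hA : DifferentiableOn ℂ A (ball 0 R)) :
    DifferentiableOn ℂ (E A) (ball 0 R) :=
  differentiableOn_id.mul (hA.deriv isOpen_ball)

theorem hasDerivAt_r {R : ℝ} {A : ℂ → ℂ} (hA : DifferentiableOn ℂ A (ball 0 R)) {r : ℝ}
    (h : |r| < R) (θ : ℝ) :
    HasDerivAt (fun x : ℝ => A (pt x θ))
      (deriv A (pt r θ) * Complex.exp ((θ : ℂ) * Complex.I)) r := by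
  have h1 : HasDerivAt A (deriv A (pt r θ)) (pt r θ) :=
    (hA.differentiableAt (isOpen_ball.mem_nhds (pt_mem h θ))).hasDerivAt
  have h2 : HasDerivAt (fun x : ℝ => pt x θ) (Complex.exp ((θ : ℂ) * Complex.I)) r := by
    have := (Complex.ofRealCLM.hasDerivAt (x := r)).mul_const (Complex.exp ((θ : ℂ) * Complex.I))
    simpa [pt] using this
  have := h1.comp_of_eq r h2 rfl
  simpa [Function.comp_def] using this

theorem hasDerivAt_th {R : ℝ} {A : ℂ → ℂ} (hA : DifferentiableOn ℂ A (ball 0 R)) {r : ℝ}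
    (h : |r| < R) (θ : ℝ) :
    HasDerivAt (fun t : ℝ => A (pt r t)) (E A (pt r θ) * Complex.I) θ := by
  have h1 : HasDerivAt A (deriv A (pt r θ)) (pt r θ) :=
    (hA.differentiableAt (isOpen_ball.mem_nhds (pt_mem h θ))).hasDerivAt
  have h2 : HasDerivAt (fun t : ℝ => pt r t) (pt r θ * Complex.I) θ := by
    have h3 := ((Complex.ofRealCLM.hasDerivAt (x := θ)).mul_const Complex.I).cexp.const_mul (r : ℂ)
    have h4 : (r : ℂ) * (Complex.exp (Complex.ofRealCLM θ * Complex.I) *
        (Complex.ofRealCLM 1 * Complex.I)) = pt r θ * Complex.I := by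
      simp [pt, mul_assoc]
    rw [h4] at h3
    exact h3
  have := h1.comp_of_eq θ h2 rfl
  have h5 : deriv A (pt r θ) * (pt r θ * Complex.I) = E A (pt r θ) * Complex.I := by
    simp only [E]; ring
  rw [h5] at this
  exact this

theorem conj_deriv {u : ℝ → ℂ} {u' : ℂ} {x : ℝ} (h : HasDerivAt u u' x) :
    HasDerivAt (fun y => conj (u y)) (conj u') x := by
  have := (Complex.conjCLE : ℂ →L[ℝ] ℂ).hasFDerivAt.comp_hasDerivAt x h
  simpa [Function.comp_def] using this

theorem ibp {R : ℝ} {A B : ℂ → ℂ} (hA : DifferentiableOn ℂ A (ball 0 R))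
    (hB : DifferentiableOn ℂ B (ball 0 R)) {r : ℝ} (h : |r| < R) :
    M (E A) B r = M A (E B) r := by
  have cA := cont_comp hA.continuousOn h
  have cB := cont_comp hB.continuousOn h
  have cEA := cont_comp (E_diff hA).continuousOn h
  have cEB := cont_comp (E_diff hB).continuousOn h
  have c1 : Continuous (fun θ : ℝ => E A (pt r θ) * conj (B (pt r θ))) :=
    cEA.mul (Complex.continuous_conj.comp cB)
  have c2 : Continuous (fun θ : ℝ => A (pt r θ) * conj (E B (pt r θ))) :=
    cA.mul (Complex.continuous_conj.comp cEB)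
  have hd : ∀ θ ∈ uIcc (-Real.pi) Real.pi,
      HasDerivAt (fun t : ℝ => A (pt r t) * conj (B (pt r t)))
        (Complex.I * (E A (pt r θ) * conj (B (pt r θ)) - A (pt r θ) * conj (E B (pt r θ)))) θ := by
    intro θ _
    have := (hasDerivAt_th hA h θ).mul (conj_deriv (hasDerivAt_th hB h θ))
    refine this.congr_deriv ?_
    simp only [map_mul, Complex.conj_I]; ring
  have hi := intervalIntegral.integral_eq_sub_of_hasDerivAt hd
    ((continuous_const.mul (c1.sub c2)).intervalIntegrable _ _)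
  have hp : pt r Real.pi = pt r (-Real.pi) := by
    simp [pt, Complex.exp_neg, Complex.exp_pi_mul_I]
  rw [hp, sub_self, intervalIntegral.integral_const_mul,
    intervalIntegral.integral_sub (c1.intervalIntegrable _ _) (c2.intervalIntegrable _ _)] at hi
  have := (mul_eq_zero.1 hi).resolve_left Complex.I_ne_zero
  exact sub_eq_zero.1 this

theorem hasDerivAt_M0 {R : ℝ} {A B : ℂ → ℂ} (hA : DifferentiableOn ℂ A (ball 0 R))
    (hB : DifferentiableOn ℂ B (ball 0 R)) {r : ℝ} (h : |r| < R) :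
    HasDerivAt (M A B) (∫ θ in (-Real.pi)..Real.pi,
      (deriv A (pt r θ) * Complex.exp ((θ : ℂ) * Complex.I) * conj (B (pt r θ)) +
        A (pt r θ) * conj (deriv B (pt r θ) * Complex.exp ((θ : ℂ) * Complex.I)))) r := by
  set ρ := (|r| + R) / 2 with hρ
  have hρ1 : |r| < ρ := by rw [hρ]; linarith
  have hρ2 : ρ < R := by rw [hρ]; linarith
  have hsub : closedBall (0 : ℂ) ρ ⊆ ball 0 R := closedBall_subset_ball hρ2
  have hA' := hA.deriv isOpen_ball
  have hB' := hB.deriv isOpen_ball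
  obtain ⟨a0, ha0⟩ := (isCompact_closedBall (0 : ℂ) ρ).exists_bound_of_continuousOn
    (hA.continuousOn.mono hsub)
  obtain ⟨a1, ha1⟩ := (isCompact_closedBall (0 : ℂ) ρ).exists_bound_of_continuousOn
    (hA'.continuousOn.mono hsub)
  obtain ⟨b0, hb0⟩ := (isCompact_closedBall (0 : ℂ) ρ).exists_bound_of_continuousOn
    (hB.continuousOn.mono hsub)
  obtain ⟨b1, hb1⟩ := (isCompact_closedBall (0 : ℂ) ρ).exists_bound_of_continuousOn
    (hB'.continuousOn.mono hsub)
  have hs : {x : ℝ | |x| < ρ} ∈ 𝓝 r :=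
    (isOpen_lt continuous_abs continuous_const).mem_nhds hρ1
  have ce : Continuous (fun θ : ℝ => Complex.exp ((θ : ℂ) * Complex.I)) := by fun_prop
  have key := intervalIntegral.hasDerivAt_integral_of_dominated_loc_of_deriv_le
    (μ := volume) (a := -Real.pi) (b := Real.pi) (bound := fun _ => a1 * b0 + a0 * b1)
    (F := fun (x : ℝ) (θ : ℝ) => A (pt x θ) * conj (B (pt x θ)))
    (F' := fun (x : ℝ) (θ : ℝ) =>
      deriv A (pt x θ) * Complex.exp ((θ : ℂ) * Complex.I) * conj (B (pt x θ)) +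
        A (pt x θ) * conj (deriv B (pt x θ) * Complex.exp ((θ : ℂ) * Complex.I)))
    (x₀ := r) hs ?_ ?_ ?_ ?_ ?_ ?_
  · exact key.2
  · filter_upwards [hs] with x hx
    have hx' : |x| < R := lt_trans hx hρ2
    exact ((cont_comp hA.continuousOn hx').mul
      (Complex.continuous_conj.comp (cont_comp hB.continuousOn hx'))).aestronglyMeasurable
  · exact ((cont_comp hA.continuousOn h).mul
      (Complex.continuous_conj.comp (cont_comp hB.continuousOn h))).intervalIntegrable _ _
  · exact ((((cont_comp hA'.continuousOn h).mul ce).mul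
      (Complex.continuous_conj.comp (cont_comp hB.continuousOn h))).add
      ((cont_comp hA.continuousOn h).mul (Complex.continuous_conj.comp
        ((cont_comp hB'.continuousOn h).mul ce)))).aestronglyMeasurable
  · refine Eventually.of_forall fun θ _ x hx => ?_
    have hm : pt x θ ∈ closedBall (0 : ℂ) ρ := by
      simp only [mem_closedBall, dist_zero_right, norm_pt]; exact le_of_lt hx
    have e1 := ha0 _ hm
    have e2 := ha1 _ hm
    have e3 := hb0 _ hm
    have e4 := hb1 _ hm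
    refine (norm_add_le _ _).trans ?_
    simp only [norm_mul, Complex.norm_conj, Complex.norm_exp_ofReal_mul_I, mul_one]
    have n1 := norm_nonneg (A (pt x θ))
    have n2 := norm_nonneg (deriv A (pt x θ))
    have n3 := norm_nonneg (B (pt x θ))
    have n4 := norm_nonneg (deriv B (pt x θ))
    exact add_le_add (mul_le_mul e2 e3 n3 (n2.trans e2)) (mul_le_mul e1 e4 n4 (n1.trans e1))
  · exact intervalIntegrable_const
  · refine Eventually.of_forall fun θ _ x hx => ?_
    have hx' : |x| < R := lt_trans hx hρ2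
    exact (hasDerivAt_r hA hx' θ).mul (conj_deriv (hasDerivAt_r hB hx' θ))

theorem hasDerivAt_M {R : ℝ} {A B : ℂ → ℂ} (hA : DifferentiableOn ℂ A (ball 0 R))
    (hB : DifferentiableOn ℂ B (ball 0 R)) {r : ℝ} (h0 : 0 < r) (h : r < R) :
    HasDerivAt (M A B) ((M (E A) B r + M A (E B) r) / r) r := by
  have h' : |r| < R := by rwa [abs_of_pos h0]
  have hd := hasDerivAt_M0 hA hB h'
  convert hd using 1
  have cA := cont_comp hA.continuousOn h'
  have cB := cont_comp hB.continuousOn h'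
  have cEA := cont_comp (E_diff hA).continuousOn h'
  have cEB := cont_comp (E_diff hB).continuousOn h'
  have c1 : Continuous (fun θ : ℝ => E A (pt r θ) * conj (B (pt r θ))) :=
    cEA.mul (Complex.continuous_conj.comp cB)
  have c2 : Continuous (fun θ : ℝ => A (pt r θ) * conj (E B (pt r θ))) :=
    cA.mul (Complex.continuous_conj.comp cEB)
  have hr : (r : ℂ) ≠ 0 := by exact_mod_cast h0.ne'
  unfold M
  rw [← intervalIntegral.integral_add (c1.intervalIntegrable _ _) (c2.intervalIntegrable _ _),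
    ← intervalIntegral.integral_div]
  congr 1
  funext θ
  rw [div_eq_iff hr]
  simp only [E, pt, map_mul, Complex.conj_ofReal]
  ring

noncomputable def m (A B : ℂ → ℂ) (r : ℝ) : ℝ := (M A B r).re

theorem m_cont {R : ℝ} {A B : ℂ → ℂ} (hA : DifferentiableOn ℂ A (ball 0 R))
    (hB : DifferentiableOn ℂ B (ball 0 R)) {r : ℝ} (h : |r| < R) : ContinuousAt (m A B) r :=
  Complex.continuous_re.continuousAt.comp (hasDerivAt_M0 hA hB h).continuousAt

theorem re_deriv {u : ℝ → ℂ} {u' : ℂ} {x : ℝ} (h : HasDerivAt u u' x) :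
    HasDerivAt (fun y => (u y).re) u'.re x := by
  have := Complex.reCLM.hasFDerivAt.comp_hasDerivAt x h
  simpa [Function.comp_def] using this

theorem m_deriv1 {R : ℝ} {A : ℂ → ℂ} (hA : DifferentiableOn ℂ A (ball 0 R))
    {r : ℝ} (h0 : 0 < r) (h : r < R) : HasDerivAt (m A A) (2 * m (E A) A r / r) r := by
  have h' : |r| < R := by rwa [abs_of_pos h0]
  have := re_deriv (hasDerivAt_M hA hA h0 h)
  rw [← ibp hA hA h', Complex.div_ofReal_re, Complex.add_re, ← two_mul] at this
  exact this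

theorem m_deriv2 {R : ℝ} {A : ℂ → ℂ} (hA : DifferentiableOn ℂ A (ball 0 R))
    {r : ℝ} (h0 : 0 < r) (h : r < R) :
    HasDerivAt (m (E A) A) (2 * m (E A) (E A) r / r) r := by
  have h' : |r| < R := by rwa [abs_of_pos h0]
  have := re_deriv (hasDerivAt_M (E_diff hA) hA h0 h)
  rw [ibp (E_diff hA) hA h', Complex.div_ofReal_re, Complex.add_re, ← two_mul] at this
  exact this

theorem m_eq {R : ℝ} {A B : ℂ → ℂ} (hA : DifferentiableOn ℂ A (ball 0 R))
    (hB : DifferentiableOn ℂ B (ball 0 R)) {r : ℝ} (h : |r| < R) :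
    m A B r = ∫ θ in (-Real.pi)..Real.pi, (A (pt r θ) * conj (B (pt r θ))).re := by
  have c1 : Continuous (fun θ : ℝ => A (pt r θ) * conj (B (pt r θ))) :=
    (cont_comp hA.continuousOn h).mul (Complex.continuous_conj.comp (cont_comp hB.continuousOn h))
  have := Complex.reCLM.intervalIntegral_comp_comm (c1.intervalIntegrable (μ := volume) (-Real.pi) Real.pi)
  simpa [m, M] using this.symm

theorem m_self {R : ℝ} {A : ℂ → ℂ} (hA : DifferentiableOn ℂ A (ball 0 R)) {r : ℝ} (h : |r| < R) :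
    m A A r = ∫ θ in (-Real.pi)..Real.pi, ‖A (pt r θ)‖ ^ 2 := by
  rw [m_eq hA hA h]
  congr 1
  funext θ
  rw [Complex.mul_conj, Complex.ofReal_re, Complex.normSq_eq_norm_sq]

theorem m_self_nonneg {R : ℝ} {A : ℂ → ℂ} (hA : DifferentiableOn ℂ A (ball 0 R)) {r : ℝ}
    (h : |r| < R) : 0 ≤ m A A r := by
  rw [m_self hA h]
  exact intervalIntegral.integral_nonneg (by linarith [Real.pi_pos]) (fun θ _ => by positivity)

theorem m1_nonneg {R : ℝ} {A : ℂ → ℂ} (hA : DifferentiableOn ℂ A (ball 0 R)) {r : ℝ}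
    (h0 : 0 ≤ r) (h : r < R) : 0 ≤ m (E A) A r := by
  have hmono : MonotoneOn (m (E A) A) (Icc 0 r) := by
    apply monotoneOn_of_deriv_nonneg (convex_Icc 0 r)
    · intro x hx
      exact (m_cont (E_diff hA) hA (by rw [abs_of_nonneg hx.1]; linarith [hx.2])).continuousWithinAt
    · intro x hx
      rw [interior_Icc] at hx
      exact (m_deriv2 hA hx.1 (by linarith [hx.2])).differentiableAt.differentiableWithinAt
    · intro x hx
      rw [interior_Icc] at hx
      rw [(m_deriv2 hA hx.1 (by linarith [hx.2])).deriv]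
      have := m_self_nonneg (E_diff hA) (r := x) (by rw [abs_of_pos hx.1]; linarith [hx.2])
      have := hx.1
      positivity
  have hz : m (E A) A 0 = 0 := by simp [m, M, E, pt]
  rw [← hz]
  exact hmono ⟨le_rfl, h0⟩ ⟨h0, le_rfl⟩ h0

theorem m0_mono {R : ℝ} {A : ℂ → ℂ} (hA : DifferentiableOn ℂ A (ball 0 R)) {r s : ℝ}
    (h0 : 0 ≤ r) (hrs : r ≤ s) (h : s < R) : m A A r ≤ m A A s := by
  have hmono : MonotoneOn (m A A) (Icc 0 s) := by
    apply monotoneOn_of_deriv_nonneg (convex_Icc 0 s)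
    · intro x hx
      exact (m_cont hA hA (by rw [abs_of_nonneg hx.1]; linarith [hx.2])).continuousWithinAt
    · intro x hx
      rw [interior_Icc] at hx
      exact (m_deriv1 hA hx.1 (by linarith [hx.2])).differentiableAt.differentiableWithinAt
    · intro x hx
      rw [interior_Icc] at hx
      rw [(m_deriv1 hA hx.1 (by linarith [hx.2])).deriv]
      have := m1_nonneg hA hx.1.le (by linarith [hx.2] : x < R)
      have := hx.1
      positivity
  exact hmono ⟨h0, hrs⟩ ⟨h0.trans hrs, le_rfl⟩ hrs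

/-- Polar coordinates for a continuous function times a radial weight. -/
theorem polar (φ : ℂ → ℝ) (hφ : ContinuousOn φ (closedBall 0 1)) (w : ℝ → ℝ) (hwm : Measurable w)
    (hw : IntervalIntegrable (fun r => r * w r) volume 0 1) :
    IntegrableOn (fun z => φ z * w ‖z‖) (ball 0 1) ∧
      ∫ z in ball (0 : ℂ) 1, φ z * w ‖z‖ =
        ∫ r in (0 : ℝ)..1, (r * w r) * ∫ θ in (-Real.pi)..Real.pi, φ (pt r θ) := by
  obtain ⟨B, hB⟩ := (isCompact_closedBall (0 : ℂ) 1).exists_bound_of_continuousOn hφ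
  have hB0 : 0 ≤ B := (norm_nonneg _).trans (hB 0 (by simp))
  have he : ∀ p : ℝ × ℝ, Complex.polarCoord.symm p = pt p.1 p.2 := by
    intro p
    rw [Complex.polarCoord_symm_apply, pt, Complex.exp_mul_I]
    simp
  set T : Set (ℝ × ℝ) := Ioo (0 : ℝ) 1 ×ˢ Ioo (-Real.pi) Real.pi with hTdef
  have hT : MeasurableSet T := measurableSet_Ioo.prod measurableSet_Ioo
  have hTs : T ⊆ polarCoord.target := fun p hp => ⟨hp.1.1, hp.2⟩
  have hwI : IntegrableOn (fun r => r * w r) (Ioo (0 : ℝ) 1) :=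
    ((intervalIntegrable_iff_integrableOn_Ioc_of_le zero_le_one).1 hw).mono_set Ioo_subset_Ioc_self
  have hmem : ∀ p ∈ T, pt p.1 p.2 ∈ closedBall (0 : ℂ) 1 := by
    intro p hp
    simp only [mem_closedBall, dist_zero_right, norm_pt, abs_of_pos hp.1.1]
    exact hp.1.2.le
  have hφm : AEStronglyMeasurable (fun p : ℝ × ℝ => φ (pt p.1 p.2)) (volume.restrict T) :=
    (hφ.comp cont_pt.continuousOn hmem).aestronglyMeasurable hT
  have hI : IntegrableOn (fun p : ℝ × ℝ => (p.1 * w p.1) * φ (pt p.1 p.2)) T := by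
    have h1 : IntegrableOn (fun p : ℝ × ℝ => (p.1 * w p.1) * (1 : ℝ)) T := by
      rw [IntegrableOn, hTdef, Measure.volume_eq_prod, ← Measure.prod_restrict]
      exact Integrable.mul_prod hwI (integrable_const (1 : ℝ))
    have h2 : IntegrableOn (fun p : ℝ × ℝ => p.1 * w p.1) T := by simpa using h1
    refine h2.mul_bdd (c := B) hφm ?_
    filter_upwards [ae_restrict_mem hT] with p hp
    exact hB _ (hmem p hp)
  have hind : ∀ (F : ℂ → ℝ) (p : ℝ × ℝ), p ∈ polarCoord.target →
      p.1 • indicator (ball (0 : ℂ) 1) F (Complex.polarCoord.symm p) =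
        indicator T (fun p : ℝ × ℝ => p.1 * F (pt p.1 p.2)) p := by
    intro F p hp
    have hp1 : 0 < p.1 := hp.1
    rw [he]
    by_cases h : p.1 < 1
    · rw [indicator_of_mem (pt_mem (by rwa [abs_of_pos hp1]) _),
        indicator_of_mem (show p ∈ T from ⟨⟨hp1, h⟩, hp.2⟩), smul_eq_mul]
    · rw [indicator_of_notMem (by simpa [norm_pt, abs_of_pos hp1] using h),
        indicator_of_notMem (fun hh : p ∈ T => h hh.1.2), smul_zero]
  constructor
  · have hmeas : AEStronglyMeasurable (fun z => φ z * w ‖z‖) (volume.restrict (ball (0 : ℂ) 1)) :=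
      ((hφ.mono ball_subset_closedBall).aestronglyMeasurable measurableSet_ball).mul
        (hwm.comp measurable_norm).aestronglyMeasurable
    refine ⟨hmeas, ?_⟩
    rw [hasFiniteIntegral_iff_enorm, ← lintegral_indicator measurableSet_ball,
      ← Complex.lintegral_comp_polarCoord_symm]
    have hfin := hI.2
    rw [hasFiniteIntegral_iff_enorm, ← lintegral_indicator hT] at hfin
    refine lt_of_le_of_lt ?_ hfin
    refine le_trans (setLIntegral_mono' polarCoord.open_target.measurableSet ?_)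
      (setLIntegral_le_lintegral polarCoord.target _)
    intro p hp
    have hp1 : 0 < p.1 := hp.1
    rw [he]
    by_cases h : p.1 < 1
    · rw [indicator_of_mem (pt_mem (by rwa [abs_of_pos hp1]) _),
        indicator_of_mem (show p ∈ T from ⟨⟨hp1, h⟩, hp.2⟩), smul_eq_mul, norm_pt, abs_of_pos hp1,
        ← Real.enorm_of_nonneg hp1.le, ← enorm_mul]
      apply le_of_eq
      congr 1
      ring
    · rw [indicator_of_notMem (by simpa [norm_pt, abs_of_pos hp1] using h)]
      simp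
  · rw [← integral_indicator measurableSet_ball, ← Complex.integral_comp_polarCoord_symm,
      setIntegral_congr_fun polarCoord.open_target.measurableSet (fun p hp => hind _ p hp),
      setIntegral_indicator hT, inter_eq_right.2 hTs]
    have h3 : ∫ p in T, p.1 * (φ (pt p.1 p.2) * w ‖pt p.1 p.2‖) =
        ∫ p in T, (p.1 * w p.1) * φ (pt p.1 p.2) := by
      refine setIntegral_congr_fun hT fun p hp => ?_
      simp only [norm_pt, abs_of_pos hp.1.1]
      ring
    rw [h3, hTdef, Measure.volume_eq_prod, setIntegral_prod _ (by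
      rw [← Measure.volume_eq_prod]; exact hI), intervalIntegral.integral_of_le zero_le_one,
      integral_Ioc_eq_integral_Ioo]
    refine setIntegral_congr_fun measurableSet_Ioo fun r _ => ?_
    simp only
    rw [integral_const_mul, intervalIntegral.integral_of_le (by linarith [Real.pi_pos]),
      integral_Ioc_eq_integral_Ioo]

/-- The radial weight times the polar factor. -/
noncomputable def u (b ga r : ℝ) : ℝ := r * ((1 - r ^ 2) ^ (b - 1) * r ^ (2 * ga - 2))

noncomputable def aa (b ga r : ℝ) : ℝ := (1 - r ^ 2) ^ b * r ^ (2 * ga)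

theorem u_nonneg (b ga : ℝ) {r : ℝ} (h0 : 0 ≤ r) (h1 : r ≤ 1) : 0 ≤ u b ga r := by
  have : 0 ≤ 1 - r ^ 2 := by nlinarith
  unfold u; positivity

theorem aa_eq (b ga : ℝ) {r : ℝ} (h0 : 0 < r) (h1 : r < 1) :
    aa b ga r = u b ga r * (1 - r ^ 2) * r := by
  have hd : 0 < 1 - r ^ 2 := by nlinarith
  unfold aa u
  rw [Real.rpow_sub_one hd.ne', Real.rpow_sub h0, Real.rpow_two]
  field_simp

theorem aa_cont {b ga : ℝ} (hb : 0 < b) (hga : 0 < ga) : Continuous (aa b ga) := by
  unfold aa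
  exact ((continuous_const.sub (continuous_pow 2)).rpow_const (fun _ => Or.inr hb.le)).mul
    (continuous_id.rpow_const (fun _ => Or.inr (by positivity)))

theorem aa_deriv (b ga : ℝ) {r : ℝ} (h0 : 0 < r) (h1 : r < 1) :
    HasDerivAt (aa b ga) (u b ga r * (-2 * b * r ^ 2 + 2 * ga * (1 - r ^ 2))) r := by
  have hd : 0 < 1 - r ^ 2 := by nlinarith
  have d1 : HasDerivAt (fun x : ℝ => 1 - x ^ 2) (-(2 * r)) r := by
    simpa using (hasDerivAt_pow 2 r).const_sub 1
  have d2 := d1.rpow_const (p := b) (Or.inl hd.ne')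
  have d3 := Real.hasDerivAt_rpow_const (x := r) (p := 2 * ga) (Or.inl h0.ne')
  refine (d2.mul d3).congr_deriv ?_
  unfold u
  rw [Real.rpow_sub_one hd.ne', Real.rpow_sub h0 (2 * ga) 2, Real.rpow_two,
    Real.rpow_sub_one h0.ne']
  field_simp

theorem u_int {b ga : ℝ} (hb : 0 < b) (hga : 0 < ga) :
    IntervalIntegrable (u b ga) volume 0 1 := by
  have i1 : IntervalIntegrable (fun r : ℝ => (1 - r ^ 2) ^ (b - 1) * (2 * b * r)) volume 0 1 := by
    apply intervalIntegral.intervalIntegrable_deriv_of_nonneg (g := fun r : ℝ => -(1 - r ^ 2) ^ b)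
    · exact ((continuous_const.sub (continuous_pow 2)).rpow_const
        (fun _ => Or.inr hb.le)).neg.continuousOn
    · intro x hx
      simp only [min_eq_left zero_le_one, max_eq_right zero_le_one] at hx
      have hd : 0 < 1 - x ^ 2 := by nlinarith [hx.1, hx.2]
      have d1 : HasDerivAt (fun x : ℝ => 1 - x ^ 2) (-(2 * x)) x := by
        simpa using (hasDerivAt_pow 2 x).const_sub 1
      refine (d1.rpow_const (p := b) (Or.inl hd.ne')).neg.congr_deriv ?_
      ring
    · intro x hx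
      simp only [min_eq_left zero_le_one, max_eq_right zero_le_one] at hx
      have hd : 0 < 1 - x ^ 2 := by nlinarith [hx.1, hx.2]
      have := hx.1
      positivity
  have i2 : IntervalIntegrable (fun r : ℝ => r ^ (2 * ga - 1)) volume 0 1 :=
    intervalIntegral.intervalIntegrable_rpow' (by linarith)
  have c1 : Continuous (fun r : ℝ => r ^ (2 * ga) / (2 * b)) :=
    (continuous_id.rpow_const (fun _ => Or.inr (by positivity))).div_const _
  have c2 : Continuous (fun r : ℝ => (1 - r ^ 2) ^ b) :=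
    (continuous_const.sub (continuous_pow 2)).rpow_const (fun _ => Or.inr hb.le)
  have i3 := (i1.mul_continuousOn c1.continuousOn).add (i2.mul_continuousOn c2.continuousOn)
  rw [intervalIntegrable_iff_integrableOn_Ioo_of_le zero_le_one] at i3 ⊢
  refine i3.congr_fun (fun r hr => ?_) measurableSet_Ioo
  have hd : 0 < 1 - r ^ 2 := by nlinarith [hr.1, hr.2]
  have h0 := hr.1
  simp only [u]
  rw [Real.rpow_sub_one hd.ne', Real.rpow_sub h0 (2 * ga) 2, Real.rpow_two,
    Real.rpow_sub_one h0.ne']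
  field_simp
  ring

noncomputable def qq (c b ga s : ℝ) : ℝ :=
  1 / (2 * ga) + (c / ga - 1 / (2 * ga) - (b + 1) / (2 * ga ^ 2)) * s

noncomputable def pp (c b ga eta s : ℝ) : ℝ :=
  c ^ 2 * s ^ 2 - (1 - eta) + (-2 * b * s + 2 * ga * (1 - s)) * qq c b ga s +
    2 * (1 - s) * s * (c / ga - 1 / (2 * ga) - (b + 1) / (2 * ga ^ 2))

theorem pp_one (c b eta : ℝ) {ga : ℝ} (hga : 0 < ga) :
    pp c b ga eta 1 = (c - b / ga) ^ 2 + b / ga ^ 2 - 1 + eta := by
  unfold pp qq; field_simp; ring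

theorem pp_cont (c b ga eta : ℝ) : Continuous (fun r : ℝ => pp c b ga eta (r ^ 2)) := by
  unfold pp qq; fun_prop

noncomputable def GW (c b ga eta : ℝ) (g : ℂ → ℂ) (z : ℂ) : ℝ :=
  (‖((c * ‖z‖ ^ 2 : ℝ) : ℂ) * g z - (((1 - ‖z‖ ^ 2) / ga : ℝ) : ℂ) * (z * deriv g z)‖ ^ 2 -
    (1 - eta) * ‖g z‖ ^ 2) * ((1 - ‖z‖ ^ 2) ^ (b - 1) * ‖z‖ ^ (2 * ga - 2))

theorem sq_expand (x y : ℝ) (A B : ℂ) :
    ‖(x : ℂ) * A - (y : ℂ) * B‖ ^ 2 =
      x ^ 2 * ‖A‖ ^ 2 - 2 * x * y * (B * conj A).re + y ^ 2 * ‖B‖ ^ 2 := by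
  simp only [← Complex.normSq_eq_norm_sq, Complex.normSq_apply, Complex.sub_re, Complex.sub_im,
    Complex.mul_re, Complex.mul_im, Complex.ofReal_re, Complex.ofReal_im, Complex.conj_re,
    Complex.conj_im]
  ring

/-- The exact identity. -/
theorem identity (c eta : ℝ) {b ga R : ℝ} (hb : 0 < b) (hga : 0 < ga) (hR : 1 < R) {g : ℂ → ℂ}
    (hg : DifferentiableOn ℂ g (ball 0 R)) :
    IntegrableOn (GW c b ga eta g) (ball 0 1) ∧
      ∫ z in ball (0 : ℂ) 1, GW c b ga eta g z =
        ∫ r in (0 : ℝ)..1, u b ga r * (pp c b ga eta (r ^ 2) * m g g r) := by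
  have hsub : closedBall (0 : ℂ) 1 ⊆ ball 0 R := closedBall_subset_ball hR
  have hgc : ContinuousOn g (closedBall 0 1) := hg.continuousOn.mono hsub
  have hEc : ContinuousOn (E g) (closedBall 0 1) := (E_diff hg).continuousOn.mono hsub
  have hφ : ContinuousOn (fun z : ℂ =>
      ‖((c * ‖z‖ ^ 2 : ℝ) : ℂ) * g z - (((1 - ‖z‖ ^ 2) / ga : ℝ) : ℂ) * (z * deriv g z)‖ ^ 2 -
        (1 - eta) * ‖g z‖ ^ 2) (closedBall 0 1) := by
    have k1 : Continuous (fun z : ℂ => ((c * ‖z‖ ^ 2 : ℝ) : ℂ)) := by fun_prop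
    have k2 : Continuous (fun z : ℂ => (((1 - ‖z‖ ^ 2) / ga : ℝ) : ℂ)) := by fun_prop
    exact (((k1.continuousOn.mul hgc).sub (k2.continuousOn.mul hEc)).norm.pow 2).sub
      (continuousOn_const.mul (hgc.norm.pow 2))
  have hwm : Measurable (fun r : ℝ => (1 - r ^ 2) ^ (b - 1) * r ^ (2 * ga - 2)) := by fun_prop
  obtain ⟨h1, h2⟩ := polar _ hφ _ hwm (u_int hb hga)
  refine ⟨h1, h2.trans ?_⟩
  have habs : ∀ r ∈ Icc (0 : ℝ) 1, |r| < R := fun r hr => by
    rw [abs_of_nonneg hr.1]; linarith [hr.2]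
  have c0 : ContinuousOn (m g g) (Icc 0 1) := fun r hr =>
    (m_cont hg hg (habs r hr)).continuousWithinAt
  have c1 : ContinuousOn (m (E g) g) (Icc 0 1) := fun r hr =>
    (m_cont (E_diff hg) hg (habs r hr)).continuousWithinAt
  have c2 : ContinuousOn (m (E g) (E g)) (Icc 0 1) := fun r hr =>
    (m_cont (E_diff hg) (E_diff hg) (habs r hr)).continuousWithinAt
  set J : ℝ → ℝ := fun r => c ^ 2 * r ^ 4 * m g g r - 2 * (c * r ^ 2) * ((1 - r ^ 2) / ga) *
    m (E g) g r + ((1 - r ^ 2) / ga) ^ 2 * m (E g) (E g) r - (1 - eta) * m g g r with hJ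
  have cJ : ContinuousOn J (Icc 0 1) := by
    have k1 : Continuous (fun r : ℝ => c ^ 2 * r ^ 4) := by fun_prop
    have k2 : Continuous (fun r : ℝ => 2 * (c * r ^ 2) * ((1 - r ^ 2) / ga)) := by fun_prop
    have k3 : Continuous (fun r : ℝ => ((1 - r ^ 2) / ga) ^ 2) := by fun_prop
    exact (((k1.continuousOn.mul c0).sub (k2.continuousOn.mul c1)).add
      (k3.continuousOn.mul c2)).sub (continuousOn_const.mul c0)
  have cP : ContinuousOn (fun r => pp c b ga eta (r ^ 2) * m g g r) (Icc 0 1) :=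
    (pp_cont c b ga eta).continuousOn.mul c0
  have iJ : IntervalIntegrable (fun r => u b ga r * J r) volume 0 1 :=
    (u_int hb hga).mul_continuousOn (by rwa [uIcc_of_le zero_le_one])
  have iP : IntervalIntegrable (fun r => u b ga r * (pp c b ga eta (r ^ 2) * m g g r))
      volume 0 1 := (u_int hb hga).mul_continuousOn (by rwa [uIcc_of_le zero_le_one])
  have e1 : ∫ r in (0 : ℝ)..1, r * ((1 - r ^ 2) ^ (b - 1) * r ^ (2 * ga - 2)) *
      ∫ θ in (-Real.pi)..Real.pi, (‖((c * ‖pt r θ‖ ^ 2 : ℝ) : ℂ) * g (pt r θ) -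
        (((1 - ‖pt r θ‖ ^ 2) / ga : ℝ) : ℂ) * (pt r θ * deriv g (pt r θ))‖ ^ 2 -
        (1 - eta) * ‖g (pt r θ)‖ ^ 2) = ∫ r in (0 : ℝ)..1, u b ga r * J r := by
    refine intervalIntegral.integral_congr fun r hr => ?_
    rw [uIcc_of_le zero_le_one] at hr
    have ha := habs r hr
    simp only [u, hJ]
    congr 1
    have cA := cont_comp hg.continuousOn ha
    have cE := cont_comp (E_diff hg).continuousOn ha
    have j0 : IntervalIntegrable (fun θ => ‖g (pt r θ)‖ ^ 2) volume (-Real.pi) Real.pi :=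
      (cA.norm.pow 2).intervalIntegrable _ _
    have j2 : IntervalIntegrable (fun θ => ‖E g (pt r θ)‖ ^ 2) volume (-Real.pi) Real.pi :=
      (cE.norm.pow 2).intervalIntegrable _ _
    have j1 : IntervalIntegrable (fun θ => (E g (pt r θ) * conj (g (pt r θ))).re) volume
        (-Real.pi) Real.pi :=
      (Complex.continuous_re.comp (cE.mul (Complex.continuous_conj.comp cA))).intervalIntegrable _ _
    rw [m_self hg ha, m_self (E_diff hg) ha, m_eq (E_diff hg) hg ha,
      ← intervalIntegral.integral_const_mul, ← intervalIntegral.integral_const_mul,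
      ← intervalIntegral.integral_const_mul, ← intervalIntegral.integral_const_mul,
      ← intervalIntegral.integral_sub (j0.const_mul _) (j1.const_mul _),
      ← intervalIntegral.integral_add ((j0.const_mul _).sub (j1.const_mul _)) (j2.const_mul _),
      ← intervalIntegral.integral_sub (((j0.const_mul _).sub (j1.const_mul _)).add
        (j2.const_mul _)) (j0.const_mul _)]
    congr 1
    funext θ
    rw [sq_expand, norm_pt, sq_abs]
    simp only [E]
    ring
  rw [e1]
  set Θ : ℝ → ℝ := fun r => aa b ga r * ((1 - r ^ 2) / (2 * ga ^ 2) * m (E g) g r -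
    qq c b ga (r ^ 2) * m g g r) with hΘ
  have cΘ : ContinuousOn Θ (Icc 0 1) := by
    have k1 : Continuous (fun r : ℝ => (1 - r ^ 2) / (2 * ga ^ 2)) := by fun_prop
    have k2 : Continuous (fun r : ℝ => qq c b ga (r ^ 2)) := by unfold qq; fun_prop
    exact (aa_cont hb hga).continuousOn.mul ((k1.continuousOn.mul c1).sub (k2.continuousOn.mul c0))
  have dΘ : ∀ r ∈ Ioo (0 : ℝ) 1, HasDerivAt Θ
      (u b ga r * J r - u b ga r * (pp c b ga eta (r ^ 2) * m g g r)) r := by
    intro r hr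
    have hrR : r < R := hr.2.trans hR
    have d1 : HasDerivAt (fun x : ℝ => (1 - x ^ 2) / (2 * ga ^ 2)) (-(2 * r) / (2 * ga ^ 2)) r := by
      have : HasDerivAt (fun x : ℝ => 1 - x ^ 2) (-(2 * r)) r := by
        simpa using (hasDerivAt_pow 2 r).const_sub 1
      exact this.div_const _
    have d2 : HasDerivAt (fun x : ℝ => qq c b ga (x ^ 2))
        ((c / ga - 1 / (2 * ga) - (b + 1) / (2 * ga ^ 2)) * (2 * r)) r := by
      have : HasDerivAt (fun x : ℝ => x ^ 2) (2 * r) r := by simpa using hasDerivAt_pow 2 r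
      exact (this.const_mul _).const_add _
    have d3 := (aa_deriv b ga hr.1 hr.2).mul
      ((d1.mul (m_deriv2 hg hr.1 hrR)).sub (d2.mul (m_deriv1 hg hr.1 hrR)))
    refine d3.congr_deriv ?_
    have h0 := hr.1.ne'
    have hg0 := hga.ne'
    simp only [Pi.sub_apply, Pi.mul_apply, hJ]
    rw [aa_eq b ga hr.1 hr.2]
    unfold pp qq
    field_simp
    ring
  have hF := intervalIntegral.integral_eq_sub_of_hasDerivAt_of_le zero_le_one cΘ dΘ (iJ.sub iP)
  have z0 : Θ 0 = 0 := by
    simp [hΘ, aa, Real.zero_rpow (show 2 * ga ≠ 0 by positivity)]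
  have z1 : Θ 1 = 0 := by
    simp [hΘ, aa, Real.zero_rpow hb.ne']
  rw [z0, z1, sub_self, intervalIntegral.integral_sub iJ iP] at hF
  linarith

theorem weights62 (c b ga eta : ℝ) (hga : 0 < ga) (hb : 0 < b)
    (hth : 0 < (c - b / ga) ^ 2 + b / ga ^ 2 - 1 + eta) :
    ∃ r0 C : ℝ, 0 < r0 ∧ r0 < 1 ∧ 0 < C ∧ ∀ (g : ℂ → ℂ) (R K L : ℝ), 1 < R →
      DifferentiableOn ℂ g (ball 0 R) → 0 ≤ K → (∀ z : ℂ, ‖z‖ ≤ r0 → ‖g z‖ ^ 2 ≤ L) →
      ∫ z in ball (0 : ℂ) 1, GW c b ga eta g z ≤ K → ∀ r : ℝ, 0 ≤ r → r < 1 →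
      ∫ θ in (-Real.pi)..Real.pi, ‖g ((r : ℂ) * Complex.exp ((θ : ℂ) * Complex.I))‖ ^ 2 ≤
        C * (K + L) * (1 - r) ^ (-b) := by
  set t := (c - b / ga) ^ 2 + b / ga ^ 2 - 1 + eta with ht
  have hc := pp_cont c b ga eta
  obtain ⟨P, hP⟩ := (isCompact_Icc (a := (0 : ℝ)) (b := 1)).exists_bound_of_continuousOn
    hc.continuousOn
  have hP0 : 0 ≤ P := (norm_nonneg _).trans (hP 0 ⟨le_rfl, zero_le_one⟩)
  have hev : ∀ᶠ r in 𝓝 (1 : ℝ), t / 2 < pp c b ga eta (r ^ 2) :=
    hc.continuousAt.eventually (lt_mem_nhds (by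
      simp only [one_pow]; rw [pp_one c b eta hga]; linarith))
  obtain ⟨δ, hδ, hδ'⟩ := Metric.eventually_nhds_iff.1 hev
  set r0 := max (1 / 2 : ℝ) (1 - δ / 2) with hr0
  have r0a : 0 < r0 := lt_of_lt_of_le (by norm_num) (le_max_left _ _)
  have r0b : r0 < 1 := max_lt (by norm_num) (by linarith)
  have hpp : ∀ r ∈ Icc r0 1, t / 2 ≤ pp c b ga eta (r ^ 2) := by
    intro r hr
    have h1 : 1 - δ / 2 ≤ r := (le_max_right _ _).trans hr.1
    refine (hδ' ?_).le
    rw [Real.dist_eq, abs_lt]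
    constructor <;> linarith [hr.2]
  set U := ∫ r in (0 : ℝ)..1, u b ga r with hU
  have hU0 : 0 ≤ U := intervalIntegral.integral_nonneg zero_le_one
    (fun r hr => u_nonneg b ga hr.1 hr.2)
  have hρ : 0 < r0 ^ (2 * ga) := Real.rpow_pos_of_pos r0a _
  set C1 := 2 * b / r0 ^ (2 * ga) * (2 / t) * (1 + P * (2 * Real.pi) * U) with hC1
  have hC10 : 0 < C1 := by have := Real.pi_pos; positivity
  refine ⟨r0, C1 + 2 * Real.pi, r0a, r0b, by have := Real.pi_pos; positivity, ?_⟩
  intro g R K L hR hg hK hL hI r hr0' hr1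
  have hL0 : 0 ≤ L := (by positivity : 0 ≤ ‖g 0‖ ^ 2).trans (hL 0 (by simpa using r0a.le))
  have habs : ∀ x ∈ Icc (0 : ℝ) 1, |x| < R := fun x hx => by
    rw [abs_of_nonneg hx.1]; linarith [hx.2]
  have c0 : ContinuousOn (m g g) (Icc 0 1) := fun x hx =>
    (m_cont hg hg (habs x hx)).continuousWithinAt
  have hlow : ∀ x ∈ Icc (0 : ℝ) r0, m g g x ≤ 2 * Real.pi * L := by
    intro x hx
    have hx' := habs x ⟨hx.1, hx.2.trans r0b.le⟩
    rw [m_self hg hx']
    have := intervalIntegral.integral_mono_on (μ := volume) (a := -Real.pi) (b := Real.pi)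
      (f := fun θ => ‖g (pt x θ)‖ ^ 2) (g := fun _ => L) (by linarith [Real.pi_pos])
      (((cont_comp hg.continuousOn hx').norm.pow 2).intervalIntegrable _ _)
      intervalIntegrable_const (fun θ _ => hL _ (by rw [norm_pt, abs_of_nonneg hx.1]; exact hx.2))
    simpa [two_mul] using this
  have hone : 1 ≤ (1 - r) ^ (-b) :=
    Real.one_le_rpow_of_pos_of_le_one_of_nonpos (by linarith) (by linarith) (by linarith)
  change ∫ θ in (-Real.pi)..Real.pi, ‖g (pt r θ)‖ ^ 2 ≤ _
  rw [← m_self hg (habs r ⟨hr0', hr1.le⟩)]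
  rcases le_total r r0 with hcase | hcase
  · have h1 := hlow r ⟨hr0', hcase⟩
    have h2 : 2 * Real.pi * L ≤ (C1 + 2 * Real.pi) * (K + L) := by
      have := Real.pi_pos
      nlinarith [mul_nonneg hC10.le (add_nonneg hK hL0), mul_nonneg this.le hK]
    have h3 : 0 ≤ (C1 + 2 * Real.pi) * (K + L) := by have := Real.pi_pos; positivity
    nlinarith
  rw [(identity c eta hb hga hR hg).2] at hI
  have iu := u_int hb hga
  have sub : ∀ {F : ℝ → ℝ} {x y : ℝ}, IntervalIntegrable F volume 0 1 → x ∈ Icc (0 : ℝ) 1 →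
      y ∈ Icc (0 : ℝ) 1 → IntervalIntegrable F volume x y := by
    intro F x y hF hx hy
    exact hF.mono_set (by rw [uIcc_of_le zero_le_one]; exact uIcc_subset_Icc hx hy)
  have iP : IntervalIntegrable (fun x => u b ga x * (pp c b ga eta (x ^ 2) * m g g x))
      volume 0 1 := iu.mul_continuousOn (by
        rw [uIcc_of_le zero_le_one]; exact hc.continuousOn.mul c0)
  have m0 : (0 : ℝ) ∈ Icc (0 : ℝ) 1 := ⟨le_rfl, zero_le_one⟩
  have m1 : (1 : ℝ) ∈ Icc (0 : ℝ) 1 := ⟨zero_le_one, le_rfl⟩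
  have mr0 : r0 ∈ Icc (0 : ℝ) 1 := ⟨r0a.le, r0b.le⟩
  have mr : r ∈ Icc (0 : ℝ) 1 := ⟨hr0', hr1.le⟩
  rw [← intervalIntegral.integral_add_adjacent_intervals (sub iP m0 mr0) (sub iP mr0 m1),
    ← intervalIntegral.integral_add_adjacent_intervals (sub iP mr0 mr) (sub iP mr m1)] at hI
  have s1 : -(P * (2 * Real.pi * L) * U) ≤
      ∫ x in (0 : ℝ)..r0, u b ga x * (pp c b ga eta (x ^ 2) * m g g x) := by
    have hU1 : ∫ x in (0 : ℝ)..r0, u b ga x ≤ U := by
      rw [hU, ← intervalIntegral.integral_add_adjacent_intervals (sub iu m0 mr0) (sub iu mr0 m1)]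
      have := intervalIntegral.integral_nonneg (μ := volume) (f := u b ga) r0b.le
        (fun x hx => u_nonneg b ga (r0a.le.trans hx.1) hx.2)
      linarith
    have h1 := intervalIntegral.integral_mono_on (μ := volume) r0a.le
      ((sub iu m0 mr0).const_mul (-(P * (2 * Real.pi * L)))) (sub iP m0 mr0) (fun x hx => by
        have hx1 : x ∈ Icc (0 : ℝ) 1 := ⟨hx.1, hx.2.trans r0b.le⟩
        have a1 := u_nonneg b ga hx1.1 hx1.2
        have a2 := abs_le.1 (hP x hx1)
        have a3 := hlow x hx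
        have a4 := m_self_nonneg hg (habs x hx1)
        have a5 : -(P * (2 * Real.pi * L)) ≤ pp c b ga eta (x ^ 2) * m g g x := by
          nlinarith [mul_le_mul_of_nonneg_left a3 hP0, mul_le_mul_of_nonneg_right a2.1 a4]
        nlinarith [mul_le_mul_of_nonneg_left a5 a1])
    rw [intervalIntegral.integral_const_mul] at h1
    have h2 : 0 ≤ P * (2 * Real.pi * L) := by have := Real.pi_pos; positivity
    nlinarith [mul_le_mul_of_nonneg_left hU1 h2]
  have s2 : 0 ≤ ∫ x in r0..r, u b ga x * (pp c b ga eta (x ^ 2) * m g g x) :=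
    intervalIntegral.integral_nonneg hcase (fun x hx => by
      have hx1 : x ∈ Icc (0 : ℝ) 1 := ⟨r0a.le.trans hx.1, hx.2.trans hr1.le⟩
      have a1 := u_nonneg b ga hx1.1 hx1.2
      have a2 := hpp x ⟨hx.1, hx1.2⟩
      have a4 := m_self_nonneg hg (habs x hx1)
      have a5 : 0 ≤ pp c b ga eta (x ^ 2) := by linarith
      positivity)
  have hm0 := m_self_nonneg hg (habs r mr)
  have s3 : t / 2 * m g g r * ∫ x in r..1, u b ga x ≤
      ∫ x in r..1, u b ga x * (pp c b ga eta (x ^ 2) * m g g x) := by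
    rw [← intervalIntegral.integral_const_mul]
    refine intervalIntegral.integral_mono_on hr1.le ((sub iu mr m1).const_mul _) (sub iP mr m1)
      (fun x hx => ?_)
    have hx1 : x ∈ Icc (0 : ℝ) 1 := ⟨hr0'.trans hx.1, hx.2⟩
    have a1 := u_nonneg b ga hx1.1 hx1.2
    have a2 := hpp x ⟨hcase.trans hx.1, hx1.2⟩
    have a3 := m0_mono hg hr0' hx.1 (lt_of_le_of_lt hx.2 hR)
    have a5 : t / 2 * m g g r ≤ pp c b ga eta (x ^ 2) * m g g x :=
      mul_le_mul a2 a3 hm0 (by linarith)
    nlinarith [mul_le_mul_of_nonneg_left a5 a1]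
  have hrpos : 0 < r := r0a.trans_le hcase
  have s4 : aa b ga r ≤ 2 * b * ∫ x in r..1, u b ga x := by
    have kc : Continuous (fun x : ℝ => -2 * b * x ^ 2 + 2 * ga * (1 - x ^ 2)) := by fun_prop
    have iD := (sub iu mr m1).mul_continuousOn kc.continuousOn
    have hF := intervalIntegral.integral_eq_sub_of_hasDerivAt_of_le hr1.le
      (aa_cont hb hga).continuousOn (fun x hx => aa_deriv b ga (hrpos.trans hx.1) hx.2) iD
    have z1 : aa b ga 1 = 0 := by simp [aa, Real.zero_rpow hb.ne']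
    have h1 := intervalIntegral.integral_mono_on (μ := volume) hr1.le
      ((sub iu mr m1).const_mul (-(2 * b))) iD (fun x hx => by
        have hx1 : x ∈ Icc (0 : ℝ) 1 := ⟨hr0'.trans hx.1, hx.2⟩
        have a1 := u_nonneg b ga hx1.1 hx1.2
        have a2 : 0 ≤ 1 - x ^ 2 := by nlinarith [hx1.1, hx1.2]
        have a3 : -(2 * b) ≤ -2 * b * x ^ 2 + 2 * ga * (1 - x ^ 2) := by
          nlinarith [mul_nonneg hb.le a2, mul_nonneg hga.le a2]
        nlinarith [mul_le_mul_of_nonneg_left a3 a1])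
    rw [intervalIntegral.integral_const_mul, hF, z1] at h1
    linarith
  have s5 : (1 - r) ^ b * r0 ^ (2 * ga) ≤ aa b ga r := by
    unfold aa
    have a1 : (1 - r) ^ b ≤ (1 - r ^ 2) ^ b :=
      Real.rpow_le_rpow (by linarith) (by nlinarith) hb.le
    have a2 : r0 ^ (2 * ga) ≤ r ^ (2 * ga) := Real.rpow_le_rpow r0a.le hcase (by positivity)
    exact mul_le_mul a1 a2 hρ.le (Real.rpow_nonneg (by nlinarith) _)
  have hB : 0 < (1 - r) ^ b := Real.rpow_pos_of_pos (by linarith) _
  set V := ∫ x in r..1, u b ga x with hV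
  have k1 : t / 2 * m g g r * V ≤ K + P * (2 * Real.pi * L) * U := by linarith
  have k2 : K + P * (2 * Real.pi * L) * U ≤ (1 + P * (2 * Real.pi) * U) * (K + L) := by
    have := Real.pi_pos
    have h2 : 0 ≤ P * (2 * Real.pi) * U := by positivity
    nlinarith [mul_nonneg h2 hK]
  have k3 : t / 2 * m g g r * ((1 - r) ^ b * r0 ^ (2 * ga)) ≤
      2 * b * ((1 + P * (2 * Real.pi) * U) * (K + L)) := by
    have h1 : 0 ≤ t / 2 * m g g r := by positivity
    calc _ ≤ t / 2 * m g g r * (2 * b * V) := mul_le_mul_of_nonneg_left (s5.trans s4) h1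
      _ = 2 * b * (t / 2 * m g g r * V) := by ring
      _ ≤ _ := mul_le_mul_of_nonneg_left (k1.trans k2) (by positivity)
  have k4 : m g g r ≤ C1 * (K + L) * (1 - r) ^ (-b) := by
    rw [Real.rpow_neg (by linarith), ← div_eq_mul_inv, le_div_iff₀ hB, hC1]
    have : m g g r * (1 - r) ^ b =
        (t / 2 * m g g r * ((1 - r) ^ b * r0 ^ (2 * ga))) * ((2 / t) / r0 ^ (2 * ga)) := by
      field_simp
    rw [this]
    calc _ ≤ 2 * b * ((1 + P * (2 * Real.pi) * U) * (K + L)) * ((2 / t) / r0 ^ (2 * ga)) :=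
          mul_le_mul_of_nonneg_right k3 (by positivity)
      _ = _ := by ring
  refine k4.trans ?_
  have := Real.pi_pos
  have h4 : 0 ≤ K + L := add_nonneg hK hL0
  gcongr
  linarith

end Crest.Agent.R131.W62
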