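import Mathlib

/-!
# Row 131, weights (helper87), part A: radial means of holomorphic pairs
-/

set_option autoImplicit false

open MeasureTheory Set Metric
open scoped ENNReal ComplexConjugate

noncomputable section

namespace Crest.Agent.R131.W87

/-- the point `r e^{iθ}` -/
def pt (r θ : ℝ) : ℂ := (r : ℂ) * Complex.exp ((θ : ℂ) * Complex.I)

/-- the Euler operator -/
def NN (G : ℂ → ℂ) : ℂ → ℂ := fun z => z * deriv G z

/-- the pairing on the circle of radius `r` -/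
def PP (G₁ G₂ : ℂ → ℂ) (r : ℝ) : ℂ :=
  ∫ θ in (-Real.pi)..Real.pi, conj (G₁ (pt r θ)) * G₂ (pt r θ)

theorem norm_pt (r θ : ℝ) : ‖pt r θ‖ = |r| := by
  simp [pt, Complex.norm_exp_ofReal_mul_I]

theorem pt_mem {R r : ℝ} (h : |r| < R) (θ : ℝ) : pt r θ ∈ ball (0 : ℂ) R := by
  simpa [norm_pt] using h

theorem cont_pt (r : ℝ) : Continuous (pt r) := by
  unfold pt; fun_prop

theorem diff_deriv {G : ℂ → ℂ} {R : ℝ} (h : DifferentiableOn ℂ G (ball 0 R)) :
    DifferentiableOn ℂ (deriv G) (ball 0 R) := h.deriv isOpen_ball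

theorem diff_NN {G : ℂ → ℂ} {R : ℝ} (h : DifferentiableOn ℂ G (ball 0 R)) :
    DifferentiableOn ℂ (NN G) (ball 0 R) := differentiableOn_id.mul (diff_deriv h)

theorem cont_comp {G : ℂ → ℂ} {R r : ℝ} (h : DifferentiableOn ℂ G (ball 0 R)) (hr : |r| < R) :
    Continuous fun θ => G (pt r θ) :=
  h.continuousOn.comp_continuous (cont_pt r) (pt_mem hr)

theorem hasDeriv_r {G : ℂ → ℂ} {R r : ℝ} (h : DifferentiableOn ℂ G (ball 0 R)) (hr : |r| < R)
    (θ : ℝ) : HasDerivAt (fun x : ℝ => G (pt x θ))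
      (Complex.exp ((θ : ℂ) * Complex.I) * deriv G (pt r θ)) r := by
  have h1 : HasDerivAt G (deriv G (pt r θ)) (pt r θ) :=
    (h.differentiableAt (isOpen_ball.mem_nhds (pt_mem hr θ))).hasDerivAt
  have h2 : HasDerivAt (fun x : ℂ => x * Complex.exp ((θ : ℂ) * Complex.I))
      (Complex.exp ((θ : ℂ) * Complex.I)) (r : ℂ) := by
    simpa using (hasDerivAt_id (r : ℂ)).mul_const (Complex.exp ((θ : ℂ) * Complex.I))
  have h3 := (HasDerivAt.comp (r : ℂ) (h₂ := G) h1 h2).comp_ofReal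
  exact HasDerivAt.congr_deriv (f := fun x : ℝ => G (pt x θ)) h3 (by ring)

theorem hasDeriv_th {G : ℂ → ℂ} {R r : ℝ} (h : DifferentiableOn ℂ G (ball 0 R)) (hr : |r| < R)
    (θ : ℝ) : HasDerivAt (fun x : ℝ => G (pt r x)) (Complex.I * NN G (pt r θ)) θ := by
  have h1 : HasDerivAt G (deriv G (pt r θ)) (pt r θ) :=
    (h.differentiableAt (isOpen_ball.mem_nhds (pt_mem hr θ))).hasDerivAt
  have h2 : HasDerivAt (fun x : ℂ => (r : ℂ) * Complex.exp (x * Complex.I))
      ((r : ℂ) * (Complex.exp ((θ : ℂ) * Complex.I) * Complex.I)) (θ : ℂ) := by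
    have := ((hasDerivAt_id (θ : ℂ)).mul_const Complex.I).cexp
    simpa using this.const_mul (r : ℂ)
  have h3 := (HasDerivAt.comp (θ : ℂ) (h₂ := G) h1 h2).comp_ofReal
  exact HasDerivAt.congr_deriv (f := fun x : ℝ => G (pt r x)) h3 (by simp only [NN, pt]; ring)

theorem hasDeriv_conj {u : ℝ → ℂ} {u' : ℂ} {x : ℝ} (h : HasDerivAt u u' x) :
    HasDerivAt (fun y => conj (u y)) (conj u') x := by
  exact (Complex.conjCLE : ℂ →L[ℝ] ℂ).hasFDerivAt.comp_hasDerivAt x h

theorem cont_pair {u v : ℝ → ℂ} (hu : Continuous u) (hv : Continuous v) :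
    Continuous fun θ => conj (u θ) * v θ := (Complex.continuous_conj.comp hu).mul hv

/-- angular integration by parts -/
theorem PP_NN {G₁ G₂ : ℂ → ℂ} {R r : ℝ} (h₁ : DifferentiableOn ℂ G₁ (ball 0 R))
    (h₂ : DifferentiableOn ℂ G₂ (ball 0 R)) (hr : |r| < R) :
    PP (NN G₁) G₂ r = PP G₁ (NN G₂) r := by
  have c1 := cont_comp h₁ hr
  have c2 := cont_comp h₂ hr
  have c3 := cont_comp (diff_NN h₁) hr
  have c4 := cont_comp (diff_NN h₂) hr
  have hd : ∀ θ ∈ uIcc (-Real.pi) Real.pi, HasDerivAt (fun x : ℝ => conj (G₁ (pt r x)) * G₂ (pt r x))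
      (Complex.I * (conj (G₁ (pt r θ)) * NN G₂ (pt r θ) - conj (NN G₁ (pt r θ)) * G₂ (pt r θ))) θ := by
    intro θ _
    have := (hasDeriv_conj (hasDeriv_th h₁ hr θ)).mul (hasDeriv_th h₂ hr θ)
    exact HasDerivAt.congr_deriv this (by simp only [map_mul, Complex.conj_I]; ring)
  have i1 : IntervalIntegrable (fun θ => conj (G₁ (pt r θ)) * NN G₂ (pt r θ)) volume
      (-Real.pi) Real.pi := (Continuous.intervalIntegrable (cont_pair c1 c4) _ _)
  have i2 : IntervalIntegrable (fun θ => conj (NN G₁ (pt r θ)) * G₂ (pt r θ)) volume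
      (-Real.pi) Real.pi := (Continuous.intervalIntegrable (cont_pair c3 c2) _ _)
  have h := intervalIntegral.integral_eq_sub_of_hasDerivAt hd ((i1.sub i2).const_mul _)
  have hp : pt r Real.pi = pt r (-Real.pi) := by
    simp only [pt, Complex.ofReal_neg, neg_mul, Complex.exp_neg, Complex.exp_pi_mul_I]
    norm_num
  rw [hp, sub_self, intervalIntegral.integral_const_mul, intervalIntegral.integral_sub i1 i2] at h
  have := (mul_eq_zero.1 h).resolve_left Complex.I_ne_zero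
  exact (sub_eq_zero.1 this).symm

/-- the radial derivative of the pairing -/
theorem PP_deriv {G₁ G₂ : ℂ → ℂ} {R r : ℝ} (h₁ : DifferentiableOn ℂ G₁ (ball 0 R))
    (h₂ : DifferentiableOn ℂ G₂ (ball 0 R)) (hr : |r| < R) :
    HasDerivAt (PP G₁ G₂) (∫ θ in (-Real.pi)..Real.pi,
      (conj (Complex.exp ((θ : ℂ) * Complex.I) * deriv G₁ (pt r θ)) * G₂ (pt r θ) +
        conj (G₁ (pt r θ)) * (Complex.exp ((θ : ℂ) * Complex.I) * deriv G₂ (pt r θ)))) r := by
  obtain ⟨R', hR1, hR2⟩ := exists_between hr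
  have hsub : closedBall (0 : ℂ) R' ⊆ ball 0 R := closedBall_subset_ball hR2
  have bd : ∀ G : ℂ → ℂ, DifferentiableOn ℂ G (ball 0 R) →
      ∃ M, 0 ≤ M ∧ ∀ x θ : ℝ, |x| < R' → ‖G (pt x θ)‖ ≤ M := by
    intro G hG
    obtain ⟨M, hM⟩ := (isCompact_closedBall (0 : ℂ) R').exists_bound_of_continuousOn
      (hG.continuousOn.mono hsub)
    refine ⟨max M 0, le_max_right _ _, fun x θ hx => le_trans (hM _ ?_) (le_max_left _ _)⟩
    simpa [norm_pt] using hx.le
  obtain ⟨M1, p1, b1⟩ := bd _ h₁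
  obtain ⟨M2, p2, b2⟩ := bd _ h₂
  obtain ⟨M3, p3, b3⟩ := bd _ (diff_deriv h₁)
  obtain ⟨M4, p4, b4⟩ := bd _ (diff_deriv h₂)
  have hs : {x : ℝ | |x| < R'} ∈ nhds r :=
    (isOpen_lt continuous_abs continuous_const).mem_nhds hR1
  have c1 := cont_comp h₁ hr
  have c2 := cont_comp h₂ hr
  have c3 := cont_comp (diff_deriv h₁) hr
  have c4 := cont_comp (diff_deriv h₂) hr
  refine (intervalIntegral.hasDerivAt_integral_of_dominated_loc_of_deriv_le (μ := volume)
    (F := fun x θ => conj (G₁ (pt x θ)) * G₂ (pt x θ))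
    (F' := fun x θ => conj (Complex.exp ((θ : ℂ) * Complex.I) * deriv G₁ (pt x θ)) * G₂ (pt x θ) +
        conj (G₁ (pt x θ)) * (Complex.exp ((θ : ℂ) * Complex.I) * deriv G₂ (pt x θ)))
    (bound := fun _ => M3 * M2 + M1 * M4) hs ?_ ?_ ?_ ?_ ?_ ?_).2
  · filter_upwards [hs] with x hx
    have d1 := cont_comp h₁ (lt_trans hx hR2)
    have d2 := cont_comp h₂ (lt_trans hx hR2)
    exact Continuous.aestronglyMeasurable (cont_pair d1 d2)
  · exact Continuous.intervalIntegrable (cont_pair c1 c2) _ _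
  · have ce : Continuous fun θ : ℝ => Complex.exp ((θ : ℂ) * Complex.I) := by fun_prop
    exact Continuous.aestronglyMeasurable
      ((cont_pair (ce.mul c3) c2).add (cont_pair c1 (ce.mul c4)))
  · refine Filter.Eventually.of_forall fun θ _ x hx => ?_
    refine le_trans (norm_add_le _ _) ?_
    simp only [norm_mul, Complex.norm_conj, Complex.norm_exp_ofReal_mul_I, one_mul]
    exact add_le_add (mul_le_mul (b3 x θ hx) (b2 x θ hx) (norm_nonneg _) p3)
      (mul_le_mul (b1 x θ hx) (b4 x θ hx) (norm_nonneg _) p1)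
  · exact intervalIntegrable_const
  · refine Filter.Eventually.of_forall fun θ _ x hx => ?_
    exact (hasDeriv_conj (hasDeriv_r h₁ (lt_trans hx hR2) θ)).mul (hasDeriv_r h₂ (lt_trans hx hR2) θ)

theorem PP_cont {G₁ G₂ : ℂ → ℂ} {R : ℝ} (hR : 1 < R) (h₁ : DifferentiableOn ℂ G₁ (ball 0 R))
    (h₂ : DifferentiableOn ℂ G₂ (ball 0 R)) : ContinuousOn (PP G₁ G₂) (Icc 0 1) := by
  intro r hr
  have : |r| < R := by rw [abs_of_nonneg hr.1]; linarith [hr.2]
  exact (PP_deriv h₁ h₂ this).continuousAt.continuousWithinAt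

theorem PP_deriv' {G₁ G₂ : ℂ → ℂ} {R r : ℝ} (h₁ : DifferentiableOn ℂ G₁ (ball 0 R))
    (h₂ : DifferentiableOn ℂ G₂ (ball 0 R)) (h0 : 0 < r) (hr : r < R) :
    HasDerivAt (PP G₁ G₂) (2 * PP (NN G₁) G₂ r / r) r := by
  have hr' : |r| < R := by rwa [abs_of_pos h0]
  have c1 := cont_comp h₁ hr'
  have c2 := cont_comp h₂ hr'
  have c3 := cont_comp (diff_NN h₁) hr'
  have c4 := cont_comp (diff_NN h₂) hr'
  have i1 : IntervalIntegrable (fun θ => conj (G₁ (pt r θ)) * NN G₂ (pt r θ)) volume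
      (-Real.pi) Real.pi := (Continuous.intervalIntegrable (cont_pair c1 c4) _ _)
  have i2 : IntervalIntegrable (fun θ => conj (NN G₁ (pt r θ)) * G₂ (pt r θ)) volume
      (-Real.pi) Real.pi := (Continuous.intervalIntegrable (cont_pair c3 c2) _ _)
  have hr0 : (r : ℂ) ≠ 0 := by exact_mod_cast h0.ne'
  refine HasDerivAt.congr_deriv (PP_deriv h₁ h₂ hr') (Eq.symm ?_)
  rw [two_mul]
  nth_rewrite 2 [PP_NN h₁ h₂ hr']
  unfold PP
  rw [← intervalIntegral.integral_add i2 i1, ← intervalIntegral.integral_div]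
  refine intervalIntegral.integral_congr fun θ _ => ?_
  simp only [NN, pt, map_mul, Complex.conj_ofReal]
  field_simp

/-- `m`, `A`, `B` -/
def mm (g : ℂ → ℂ) (r : ℝ) : ℝ := (PP g g r).re
def AA (g : ℂ → ℂ) (r : ℝ) : ℝ := (PP (NN g) g r).re
def BB (g : ℂ → ℂ) (r : ℝ) : ℝ := (PP (NN g) (NN g) r).re

theorem hasDeriv_re {u : ℝ → ℂ} {u' : ℂ} {x : ℝ} (h : HasDerivAt u u' x) :
    HasDerivAt (fun y => (u y).re) u'.re x := by
  exact Complex.reCLM.hasFDerivAt.comp_hasDerivAt x h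

theorem re_two_div (w : ℂ) (r : ℝ) : (2 * w / (r : ℂ)).re = 2 * w.re / r := by
  rw [Complex.div_ofReal_re]; simp

theorem mm_deriv {g : ℂ → ℂ} {R r : ℝ} (h : DifferentiableOn ℂ g (ball 0 R)) (h0 : 0 < r)
    (hr : r < R) : HasDerivAt (mm g) (2 * AA g r / r) r := by
  have := hasDeriv_re (PP_deriv' h h h0 hr)
  rwa [re_two_div] at this

theorem AA_deriv {g : ℂ → ℂ} {R r : ℝ} (h : DifferentiableOn ℂ g (ball 0 R)) (h0 : 0 < r)
    (hr : r < R) : HasDerivAt (AA g) (2 * BB g r / r) r := by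
  have := hasDeriv_re (PP_deriv' (diff_NN h) h h0 hr)
  have hr' : |r| < R := by rwa [abs_of_pos h0]
  rwa [re_two_div, PP_NN (diff_NN h) h hr'] at this

theorem mm_cont {g : ℂ → ℂ} {R : ℝ} (hR : 1 < R) (h : DifferentiableOn ℂ g (ball 0 R)) :
    ContinuousOn (mm g) (Icc 0 1) := Complex.continuous_re.comp_continuousOn (PP_cont hR h h)

theorem AA_cont {g : ℂ → ℂ} {R : ℝ} (hR : 1 < R) (h : DifferentiableOn ℂ g (ball 0 R)) :
    ContinuousOn (AA g) (Icc 0 1) :=
  Complex.continuous_re.comp_continuousOn (PP_cont hR (diff_NN h) h)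

theorem BB_cont {g : ℂ → ℂ} {R : ℝ} (hR : 1 < R) (h : DifferentiableOn ℂ g (ball 0 R)) :
    ContinuousOn (BB g) (Icc 0 1) :=
  Complex.continuous_re.comp_continuousOn (PP_cont hR (diff_NN h) (diff_NN h))

theorem re_PP {G₁ G₂ : ℂ → ℂ} {R r : ℝ} (h₁ : DifferentiableOn ℂ G₁ (ball 0 R))
    (h₂ : DifferentiableOn ℂ G₂ (ball 0 R)) (hr : |r| < R) :
    (PP G₁ G₂ r).re = ∫ θ in (-Real.pi)..Real.pi, (conj (G₁ (pt r θ)) * G₂ (pt r θ)).re := by
  have c1 := cont_comp h₁ hr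
  have c2 := cont_comp h₂ hr
  have i1 : IntervalIntegrable (fun θ => conj (G₁ (pt r θ)) * G₂ (pt r θ)) volume
      (-Real.pi) Real.pi := (Continuous.intervalIntegrable (cont_pair c1 c2) _ _)
  exact (Complex.reCLM.intervalIntegral_comp_comm i1).symm

theorem re_PP_self {G : ℂ → ℂ} {R r : ℝ} (h : DifferentiableOn ℂ G (ball 0 R)) (hr : |r| < R) :
    (PP G G r).re = ∫ θ in (-Real.pi)..Real.pi, ‖G (pt r θ)‖ ^ 2 := by
  rw [re_PP h h hr]
  refine intervalIntegral.integral_congr fun θ _ => ?_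
  simp only [Complex.conj_mul', ← Complex.ofReal_pow, Complex.ofReal_re]

theorem mm_eq {g : ℂ → ℂ} {R r : ℝ} (h : DifferentiableOn ℂ g (ball 0 R)) (hr : |r| < R) :
    mm g r = ∫ θ in (-Real.pi)..Real.pi, ‖g (pt r θ)‖ ^ 2 := re_PP_self h hr

theorem mm_nonneg {g : ℂ → ℂ} {R r : ℝ} (h : DifferentiableOn ℂ g (ball 0 R)) (hr : |r| < R) :
    0 ≤ mm g r := by
  rw [mm_eq h hr]
  exact intervalIntegral.integral_nonneg (by linarith [Real.pi_pos]) fun _ _ => by positivity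

theorem BB_nonneg {g : ℂ → ℂ} {R r : ℝ} (h : DifferentiableOn ℂ g (ball 0 R)) (hr : |r| < R) :
    0 ≤ BB g r := mm_nonneg (diff_NN h) hr

/-- the mean of the quadratic expression -/
theorem quad_eq {g : ℂ → ℂ} {R r : ℝ} (h : DifferentiableOn ℂ g (ball 0 R)) (hr : |r| < R)
    (α β : ℝ) : ∫ θ in (-Real.pi)..Real.pi, ‖(α : ℂ) * g (pt r θ) - (β : ℂ) * NN g (pt r θ)‖ ^ 2 =
      α ^ 2 * mm g r - 2 * α * β * AA g r + β ^ 2 * BB g r := by
  have c1 := cont_comp h hr
  have c2 := cont_comp (diff_NN h) hr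
  have e3 : BB g r = ∫ θ in (-Real.pi)..Real.pi, ‖NN g (pt r θ)‖ ^ 2 := re_PP_self (diff_NN h) hr
  have e2 : AA g r = _ := re_PP (diff_NN h) h hr
  have k1 : Continuous fun x => α ^ 2 * ‖g (pt r x)‖ ^ 2 :=
    continuous_const.mul (c1.norm.pow 2)
  have k2 : Continuous fun x => 2 * α * β * (conj (NN g (pt r x)) * g (pt r x)).re :=
    continuous_const.mul (Complex.continuous_re.comp (cont_pair c2 c1))
  have k3 : Continuous fun x => β ^ 2 * ‖NN g (pt r x)‖ ^ 2 :=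
    continuous_const.mul (c2.norm.pow 2)
  have k12 : Continuous fun x => α ^ 2 * ‖g (pt r x)‖ ^ 2 -
      2 * α * β * (conj (NN g (pt r x)) * g (pt r x)).re := k1.sub k2
  rw [mm_eq h hr, e2, e3, ← intervalIntegral.integral_const_mul,
    ← intervalIntegral.integral_const_mul, ← intervalIntegral.integral_const_mul,
    ← intervalIntegral.integral_sub (k1.intervalIntegrable _ _) (k2.intervalIntegrable _ _),
    ← intervalIntegral.integral_add (k12.intervalIntegrable _ _)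
      (k3.intervalIntegrable _ _)]
  refine intervalIntegral.integral_congr fun θ _ => ?_
  simp only [Complex.sq_norm, Complex.normSq_apply, Complex.sub_re, Complex.mul_re,
    Complex.ofReal_re, Complex.ofReal_im, Complex.sub_im, Complex.mul_im, Complex.conj_re,
    Complex.conj_im]
  ring

theorem AA_zero (g : ℂ → ℂ) : AA g 0 = 0 := by
  simp [AA, PP, NN, pt]

theorem AA_nonneg {g : ℂ → ℂ} {R : ℝ} (hR : 1 < R) (h : DifferentiableOn ℂ g (ball 0 R)) {r : ℝ}
    (hr : r ∈ Icc (0 : ℝ) 1) : 0 ≤ AA g r := by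
  have : MonotoneOn (AA g) (Icc 0 1) := by
    refine monotoneOn_of_deriv_nonneg (convex_Icc 0 1) (AA_cont hR h) ?_ ?_
    · intro x hx
      rw [interior_Icc] at hx
      exact (AA_deriv h hx.1 (by linarith [hx.2])).differentiableAt.differentiableWithinAt
    · intro x hx
      rw [interior_Icc] at hx
      rw [(AA_deriv h hx.1 (by linarith [hx.2])).deriv]
      have := BB_nonneg h (r := x) (by rw [abs_of_pos hx.1]; linarith [hx.2])
      have := hx.1
      positivity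
  have h1 := this (left_mem_Icc.2 zero_le_one) hr hr.1
  rwa [AA_zero] at h1

theorem mm_mono {g : ℂ → ℂ} {R : ℝ} (hR : 1 < R) (h : DifferentiableOn ℂ g (ball 0 R)) :
    MonotoneOn (mm g) (Icc 0 1) := by
  refine monotoneOn_of_deriv_nonneg (convex_Icc 0 1) (mm_cont hR h) ?_ ?_
  · intro x hx
    rw [interior_Icc] at hx
    exact (mm_deriv h hx.1 (by linarith [hx.2])).differentiableAt.differentiableWithinAt
  · intro x hx
    rw [interior_Icc] at hx
    rw [(mm_deriv h hx.1 (by linarith [hx.2])).deriv]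
    have := AA_nonneg hR h (r := x) ⟨hx.1.le, hx.2.le⟩
    have := hx.1
    positivity

end Crest.Agent.R131.W87
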