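import Mathlib

/-! Row 131 (helper34): circle pairings of holomorphic functions and their radial derivatives. -/

set_option autoImplicit false

open MeasureTheory Set Metric Complex
open scoped ComplexConjugate Topology

noncomputable section

namespace Crest.Agent.R131.Wt

/-- the point `r e^{iθ}` -/
def pt (r θ : ℝ) : ℂ := (r : ℂ) * Complex.exp ((θ : ℂ) * Complex.I)

theorem norm_pt (r θ : ℝ) : ‖pt r θ‖ = |r| := by
  simp [pt, Complex.norm_exp_ofReal_mul_I]

theorem continuous_pt : Continuous (fun p : ℝ × ℝ => pt p.1 p.2) := by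
  unfold pt; fun_prop

theorem pt_mem {R r : ℝ} (hr : |r| < R) (θ : ℝ) : pt r θ ∈ ball (0 : ℂ) R := by
  simp [norm_pt, hr]

/-- Euler operator -/
def N (u : ℂ → ℂ) (z : ℂ) : ℂ := z * deriv u z

theorem N_diff {u : ℂ → ℂ} {R : ℝ} (hu : DifferentiableOn ℂ u (ball 0 R)) :
    DifferentiableOn ℂ (N u) (ball 0 R) :=
  differentiableOn_id.mul (hu.deriv isOpen_ball)

/-- the pairing on the circle of radius `r` -/
def Q (u v : ℂ → ℂ) (r : ℝ) : ℂ := ∫ θ in (-Real.pi)..Real.pi, conj (u (pt r θ)) * v (pt r θ)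

theorem cont_circ {E : Type*} [TopologicalSpace E] {u : ℂ → E} {R r : ℝ}
    (hu : ContinuousOn u (ball 0 R)) (hr : |r| < R) : Continuous (fun θ => u (pt r θ)) :=
  hu.comp_continuous (continuous_pt.comp (Continuous.prodMk_right r)) (pt_mem hr)

theorem cc {a b : ℝ → ℂ} (ha : Continuous a) (hb : Continuous b) :
    Continuous (fun θ => conj (a θ) * b θ) := (Complex.continuous_conj.comp ha).mul hb

theorem hasDerivAt_pt_r (r θ : ℝ) :
    HasDerivAt (fun r : ℝ => pt r θ) (Complex.exp ((θ : ℂ) * Complex.I)) r := by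
  unfold pt
  simpa using (Complex.ofRealCLM.hasDerivAt (x := r)).mul_const (Complex.exp ((θ : ℂ) * Complex.I))

theorem hasDerivAt_pt_θ (r θ : ℝ) :
    HasDerivAt (fun θ : ℝ => pt r θ) (pt r θ * Complex.I) θ := by
  unfold pt
  have h1 : HasDerivAt (fun θ : ℝ => (θ : ℂ) * Complex.I) Complex.I θ := by
    simpa using (Complex.ofRealCLM.hasDerivAt (x := θ)).mul_const Complex.I
  have := (h1.cexp).const_mul (r : ℂ)
  exact this.congr_deriv (by ring)

theorem hasDerivAt_comp {u : ℂ → ℂ} {R : ℝ} (hu : DifferentiableOn ℂ u (ball 0 R))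
    {γ : ℝ → ℂ} {γ' : ℂ} {t : ℝ} (hγ : HasDerivAt γ γ' t) (hm : γ t ∈ ball (0 : ℂ) R) :
    HasDerivAt (fun t => u (γ t)) (deriv u (γ t) * γ') t := by
  have h := (hu.differentiableAt (isOpen_ball.mem_nhds hm)).hasDerivAt
  exact h.comp_of_eq t hγ rfl |>.congr_deriv (by simp)

theorem hasDerivAt_conj {γ : ℝ → ℂ} {γ' : ℂ} {t : ℝ} (hγ : HasDerivAt γ γ' t) :
    HasDerivAt (fun t => conj (γ t)) (conj γ') t := by
  exact (Complex.conjCLE.hasFDerivAt (x := γ t)).comp_hasDerivAt t hγ

/-- angular integration by parts -/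
theorem Q_swap {u v : ℂ → ℂ} {R r : ℝ} (hu : DifferentiableOn ℂ u (ball 0 R))
    (hv : DifferentiableOn ℂ v (ball 0 R)) (hr : |r| < R) : Q u (N v) r = Q (N u) v r := by
  have cu := cont_circ hu.continuousOn hr
  have cv := cont_circ hv.continuousOn hr
  have cNu := cont_circ (N_diff hu).continuousOn hr
  have cNv := cont_circ (N_diff hv).continuousOn hr
  have hd : ∀ θ ∈ uIcc (-Real.pi) Real.pi, HasDerivAt (fun θ => conj (u (pt r θ)) * v (pt r θ))
      (Complex.I * (conj (u (pt r θ)) * N v (pt r θ) - conj (N u (pt r θ)) * v (pt r θ))) θ := by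
    intro θ _
    have h1 := hasDerivAt_conj (hasDerivAt_comp hu (hasDerivAt_pt_θ r θ) (pt_mem hr θ))
    have h2 := hasDerivAt_comp hv (hasDerivAt_pt_θ r θ) (pt_mem hr θ)
    refine (h1.mul h2).congr_deriv ?_
    simp only [N, map_mul, Complex.conj_I]
    ring
  have hi := intervalIntegral.integral_eq_sub_of_hasDerivAt hd
    ((continuous_const.mul ((cc cu cNv).sub (cc cNu cv))).intervalIntegrable _ _)
  have hp : pt r Real.pi = pt r (-Real.pi) := by
    simp [pt, Complex.exp_neg, Complex.exp_pi_mul_I]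
  rw [hp, sub_self, intervalIntegral.integral_const_mul, intervalIntegral.integral_sub
    ((cc cu cNv).intervalIntegrable _ _) ((cc cNu cv).intervalIntegrable _ _)] at hi
  have := (mul_eq_zero.1 hi).resolve_left Complex.I_ne_zero
  exact sub_eq_zero.1 this

/-- radial derivative of the pairing, raw form -/
theorem Q_hasDerivAt_raw {u v : ℂ → ℂ} {R r : ℝ} (hu : DifferentiableOn ℂ u (ball 0 R))
    (hv : DifferentiableOn ℂ v (ball 0 R)) (hr : |r| < R) :
    HasDerivAt (Q u v) (∫ θ in (-Real.pi)..Real.pi,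
      (conj (deriv u (pt r θ) * Complex.exp ((θ : ℂ) * Complex.I)) * v (pt r θ) +
        conj (u (pt r θ)) * (deriv v (pt r θ) * Complex.exp ((θ : ℂ) * Complex.I)))) r := by
  obtain ⟨ρ, h1, h2⟩ := exists_between hr
  have hρ : 0 ≤ ρ := le_trans (abs_nonneg r) h1.le
  set F' : ℝ → ℝ → ℂ := fun x θ =>
    conj (deriv u (pt x θ) * Complex.exp ((θ : ℂ) * Complex.I)) * v (pt x θ) +
        conj (u (pt x θ)) * (deriv v (pt x θ) * Complex.exp ((θ : ℂ) * Complex.I)) with hF'
  have hmem : ∀ x ∈ Icc (-ρ) ρ, |x| < R := fun x hx => lt_of_le_of_lt (abs_le.2 hx) h2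
  have hc : ∀ w : ℂ → ℂ, ContinuousOn w (ball 0 R) →
      ContinuousOn (fun p : ℝ × ℝ => w (pt p.1 p.2)) (Icc (-ρ) ρ ×ˢ Icc (-Real.pi) Real.pi) :=
    fun w hw => hw.comp continuous_pt.continuousOn (fun p hp => pt_mem (hmem _ hp.1) _)
  have hcF : ContinuousOn (fun p : ℝ × ℝ => F' p.1 p.2) (Icc (-ρ) ρ ×ˢ Icc (-Real.pi) Real.pi) := by
    have a1 := hc _ hu.continuousOn
    have a2 := hc _ hv.continuousOn
    have a3 := hc _ (hu.deriv isOpen_ball).continuousOn
    have a4 := hc _ (hv.deriv isOpen_ball).continuousOn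
    have a5 : Continuous (fun p : ℝ × ℝ => Complex.exp ((p.2 : ℂ) * Complex.I)) := by fun_prop
    exact ((Complex.continuous_conj.comp_continuousOn (a3.mul a5.continuousOn)).mul a2).add
      ((Complex.continuous_conj.comp_continuousOn a1).mul (a4.mul a5.continuousOn))
  obtain ⟨B, hB⟩ := (isCompact_Icc.prod isCompact_Icc).exists_bound_of_continuousOn hcF
  have hs : Icc (-ρ) ρ ∈ 𝓝 r := Icc_mem_nhds (abs_lt.1 h1).1 (abs_lt.1 h1).2
  have cF : ∀ x, |x| < R → Continuous (fun θ => conj (u (pt x θ)) * v (pt x θ)) := fun x hx => by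
    have cu := cont_circ hu.continuousOn hx
    have cv := cont_circ hv.continuousOn hx
    exact cc cu cv
  have cF' : Continuous (F' r) := by
    have cu := cont_circ hu.continuousOn hr
    have cv := cont_circ hv.continuousOn hr
    have cu' := cont_circ (hu.deriv isOpen_ball).continuousOn hr
    have cv' := cont_circ (hv.deriv isOpen_ball).continuousOn hr
    have a5 : Continuous (fun θ : ℝ => Complex.exp ((θ : ℂ) * Complex.I)) := by fun_prop
    exact (cc (cu'.mul a5) cv).add (cc cu (cv'.mul a5))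
  refine (intervalIntegral.hasDerivAt_integral_of_dominated_loc_of_deriv_le (μ := volume)
    (F := fun x θ => conj (u (pt x θ)) * v (pt x θ)) (F' := F') (bound := fun _ => B) hs
    ?_ ((cF r hr).intervalIntegrable _ _) cF'.aestronglyMeasurable ?_
    intervalIntegrable_const ?_).2
  · filter_upwards [hs] with x hx using (cF x (hmem x hx)).aestronglyMeasurable
  · refine Filter.Eventually.of_forall fun t ht x hx => hB (x, t) ⟨hx, ?_⟩
    rw [uIoc_of_le (by linarith [Real.pi_pos])] at ht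
    exact Ioc_subset_Icc_self ht
  · refine Filter.Eventually.of_forall fun t _ x hx => ?_
    have h1 := hasDerivAt_conj (hasDerivAt_comp hu (hasDerivAt_pt_r x t) (pt_mem (hmem x hx) t))
    have h2 := hasDerivAt_comp hv (hasDerivAt_pt_r x t) (pt_mem (hmem x hx) t)
    exact h1.mul h2

theorem Q_continuousOn {u v : ℂ → ℂ} {R : ℝ} (hu : DifferentiableOn ℂ u (ball 0 R))
    (hv : DifferentiableOn ℂ v (ball 0 R)) (hR : 1 < R) : ContinuousOn (Q u v) (Icc 0 1) :=
  fun r hr => (Q_hasDerivAt_raw hu hv (by rw [abs_of_nonneg hr.1]; linarith [hr.2])).continuousAt.continuousWithinAt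

/-- radial derivative of the pairing -/
theorem Q_hasDerivAt {u v : ℂ → ℂ} {R r : ℝ} (hu : DifferentiableOn ℂ u (ball 0 R))
    (hv : DifferentiableOn ℂ v (ball 0 R)) (hr : |r| < R) (h0 : r ≠ 0) :
    HasDerivAt (Q u v) (2 * Q (N u) v r / r) r := by
  refine (Q_hasDerivAt_raw hu hv hr).congr_deriv (Eq.symm ?_)
  have cu := cont_circ hu.continuousOn hr
  have cv := cont_circ hv.continuousOn hr
  have cNu := cont_circ (N_diff hu).continuousOn hr
  have cNv := cont_circ (N_diff hv).continuousOn hr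
  have hr0 : (r : ℂ) ≠ 0 := by exact_mod_cast h0
  rw [two_mul]
  nth_rewrite 2 [← Q_swap hu hv hr]
  unfold Q
  rw [← intervalIntegral.integral_add ((cc cNu cv).intervalIntegrable _ _)
    ((cc cu cNv).intervalIntegrable _ _), ← intervalIntegral.integral_div]
  refine intervalIntegral.integral_congr fun θ _ => ?_
  simp only [N, pt, map_mul, Complex.conj_ofReal]
  field_simp

theorem Q_re {u v : ℂ → ℂ} {R r : ℝ} (hu : ContinuousOn u (ball 0 R))
    (hv : ContinuousOn v (ball 0 R)) (hr : |r| < R) :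
    (Q u v r).re = ∫ θ in (-Real.pi)..Real.pi, (conj (u (pt r θ)) * v (pt r θ)).re := by
  have cu := cont_circ hu hr
  have cv := cont_circ hv hr
  unfold Q
  exact (Complex.reCLM.intervalIntegral_comp_comm
    ((cc cu cv).intervalIntegrable _ _)).symm

theorem Q_self_re {u : ℂ → ℂ} {R r : ℝ} (hu : ContinuousOn u (ball 0 R)) (hr : |r| < R) :
    (Q u u r).re = ∫ θ in (-Real.pi)..Real.pi, ‖u (pt r θ)‖ ^ 2 := by
  rw [Q_re hu hu hr]
  refine intervalIntegral.integral_congr fun θ _ => ?_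
  simp only [Complex.conj_mul', ← Complex.ofReal_pow, Complex.ofReal_re]

end Crest.Agent.R131.Wt
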