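import Crest.Agent.R131.WtPair

/-! Row 131 (helper34): the radial weight, polar coordinates, the two radial integrations by parts. -/

set_option autoImplicit false

open MeasureTheory Set Metric Complex
open scoped ComplexConjugate Topology

noncomputable section

namespace Crest.Agent.R131.Wt

/-- the weight `(1-|z|²)^(b-1) |z|^(2α-2)` -/
def W (b al : ℝ) (z : ℂ) : ℝ := (1 - ‖z‖ ^ 2) ^ (b - 1) * ‖z‖ ^ (2 * al - 2)

/-- the radial weight (with the polar Jacobian) -/
def w (b al r : ℝ) : ℝ := r * ((1 - r ^ 2) ^ (b - 1) * r ^ (2 * al - 2))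

theorem w_nonneg (b al : ℝ) {r : ℝ} (h0 : 0 ≤ r) (h1 : r ≤ 1) : 0 ≤ w b al r := by
  unfold w
  have : 0 ≤ 1 - r ^ 2 := by nlinarith
  positivity

theorem W_nonneg (b al : ℝ) {z : ℂ} (hz : ‖z‖ ≤ 1) : 0 ≤ W b al z := by
  unfold W
  have : 0 ≤ 1 - ‖z‖ ^ 2 := by nlinarith [norm_nonneg z]
  positivity

theorem measurable_W (b al : ℝ) : Measurable (W b al) := by
  unfold W; fun_prop

theorem w_int {b al : ℝ} (hal : 0 < al) (hb : 0 < b) : IntervalIntegrable (w b al) volume 0 1 := by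
  have h1 : IntervalIntegrable (w b al) volume 0 (1 / 2) := by
    have a1 : IntervalIntegrable (fun r : ℝ => r ^ (2 * al - 1)) volume 0 (1 / 2) :=
      intervalIntegral.intervalIntegrable_rpow' (by linarith)
    have a2 : ContinuousOn (fun r : ℝ => (1 - r ^ 2) ^ (b - 1)) (uIcc 0 (1 / 2)) := by
      refine ContinuousOn.rpow_const (by fun_prop) fun r hr => Or.inl ?_
      rw [uIcc_of_le (by norm_num)] at hr
      nlinarith [hr.1, hr.2]
    have a3 := a1.mul_continuousOn a2
    rw [intervalIntegrable_iff_integrableOn_Ioc_of_le (by norm_num)] at a3 ⊢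
    refine a3.congr_fun (fun r hr => ?_) measurableSet_Ioc
    have : r ^ (2 * al - 1) = r * r ^ (2 * al - 2) := by
      rw [show 2 * al - 1 = 1 + (2 * al - 2) by ring, Real.rpow_add hr.1, Real.rpow_one]
    simp only [w, this]; ring
  have h2 : IntervalIntegrable (w b al) volume (1 / 2) 1 := by
    have a1 : IntervalIntegrable (fun r : ℝ => (1 - r) ^ (b - 1)) volume (1 / 2) 1 := by
      have := (intervalIntegral.intervalIntegrable_rpow' (a := 1 / 2) (b := 0)
        (show -1 < b - 1 by linarith)).comp_sub_left 1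
      norm_num at this ⊢
      exact this
    have a2 : ContinuousOn (fun r : ℝ => (1 + r) ^ (b - 1) * (r * r ^ (2 * al - 2)))
        (uIcc (1 / 2) 1) := by
      rw [uIcc_of_le (by norm_num)]
      refine ContinuousOn.mul (ContinuousOn.rpow_const (by fun_prop) fun r hr => Or.inl ?_)
        (continuousOn_id.mul (ContinuousOn.rpow_const (by fun_prop) fun r hr => Or.inl ?_))
      · linarith [hr.1]
      · linarith [hr.1]
    have a3 := a1.mul_continuousOn a2
    rw [intervalIntegrable_iff_integrableOn_Ioc_of_le (by norm_num)] at a3 ⊢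
    refine a3.congr_fun (fun r hr => ?_) measurableSet_Ioc
    have : (1 - r ^ 2) ^ (b - 1) = (1 - r) ^ (b - 1) * (1 + r) ^ (b - 1) := by
      rw [← Real.mul_rpow (by linarith [hr.2]) (by linarith [hr.1])]; congr 1; ring
    simp only [w, this]; ring
  exact h1.trans h2

theorem polar_symm (p : ℝ × ℝ) : Complex.polarCoord.symm p = pt p.1 p.2 := by
  rw [Complex.polarCoord_symm_apply, pt, Complex.exp_mul_I]; simp

theorem polar_aux {b al : ℝ} (hal : 0 < al) (hb : 0 < b) {h : ℂ → ℝ}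
    (hh : ContinuousOn h (closedBall 0 1)) :
    IntegrableOn (fun p : ℝ × ℝ => w b al p.1 * h (pt p.1 p.2))
      (Ioo 0 1 ×ˢ Ioo (-Real.pi) Real.pi) := by
  obtain ⟨B, hB⟩ := (isCompact_closedBall (0 : ℂ) 1).exists_bound_of_continuousOn hh
  have hm : ∀ p ∈ Ioo (0 : ℝ) 1 ×ˢ Ioo (-Real.pi) Real.pi, pt p.1 p.2 ∈ closedBall (0 : ℂ) 1 :=
    fun p hp => ball_subset_closedBall (pt_mem (by rw [abs_of_pos hp.1.1]; exact hp.1.2) _)
  have h1 : IntegrableOn (fun p : ℝ × ℝ => w b al p.1) (Ioo 0 1 ×ˢ Ioo (-Real.pi) Real.pi) := by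
    have a := (intervalIntegrable_iff_integrableOn_Ioo_of_le (by norm_num)).1 (w_int hal hb)
    unfold IntegrableOn
    rw [Measure.volume_eq_prod, ← Measure.prod_restrict]
    exact Integrable.comp_fst a _
  have hS : MeasurableSet (Ioo (0 : ℝ) 1 ×ˢ Ioo (-Real.pi) Real.pi) :=
    measurableSet_Ioo.prod measurableSet_Ioo
  refine Integrable.mul_bdd (c := B) h1 ?_ ?_
  · exact (hh.comp continuous_pt.continuousOn hm).aestronglyMeasurable hS
  · exact (ae_restrict_iff' hS).2 (Filter.Eventually.of_forall fun p hp => hB _ (hm p hp))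

theorem polar_ind (b al : ℝ) (h : ℂ → ℝ) (p : ℝ × ℝ) (hp : p ∈ _root_.polarCoord.target) :
    p.1 • (ball (0 : ℂ) 1).indicator (fun z => h z * W b al z) (Complex.polarCoord.symm p) =
      (Ioo 0 1 ×ˢ Ioo (-Real.pi) Real.pi).indicator
        (fun p : ℝ × ℝ => w b al p.1 * h (pt p.1 p.2)) p := by
  have h0 : 0 < p.1 := hp.1
  have h2 : p.2 ∈ Ioo (-Real.pi) Real.pi := hp.2
  rw [polar_symm]
  by_cases h1 : p.1 < 1
  · rw [indicator_of_mem (pt_mem (by rwa [abs_of_pos h0]) _), indicator_of_mem (mem_prod.2 ⟨mem_Ioo.2 ⟨h0, h1⟩, h2⟩)]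
    simp only [W, w, norm_pt, abs_of_pos h0, smul_eq_mul]; ring
  · rw [indicator_of_notMem (by simpa [norm_pt, abs_of_pos h0] using h1),
      indicator_of_notMem (fun hh => h1 hh.1.2), smul_zero]

theorem box_sub : Ioo (0 : ℝ) 1 ×ˢ Ioo (-Real.pi) Real.pi ⊆ _root_.polarCoord.target :=
  fun _ hp => ⟨hp.1.1, hp.2⟩

/-- `h W` is integrable on the disc -/
theorem integrableOn_mul_W {b al : ℝ} (hal : 0 < al) (hb : 0 < b) {h : ℂ → ℝ}
    (hh : ContinuousOn h (closedBall 0 1)) :
    IntegrableOn (fun z => h z * W b al z) (ball (0 : ℂ) 1) := by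
  have hS : MeasurableSet (Ioo (0 : ℝ) 1 ×ˢ Ioo (-Real.pi) Real.pi) :=
    measurableSet_Ioo.prod measurableSet_Ioo
  refine ⟨((hh.mono ball_subset_closedBall).aestronglyMeasurable measurableSet_ball).mul
    (measurable_W b al).aestronglyMeasurable, ?_⟩
  have h1 := (integrable_indicator_iff hS).2 (polar_aux hal hb hh)
  have h2 := (h1.integrableOn (s := _root_.polarCoord.target)).2
  unfold HasFiniteIntegral at h2 ⊢
  rw [← lintegral_indicator measurableSet_ball, ← Complex.lintegral_comp_polarCoord_symm]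
  refine lt_of_eq_of_lt ?_ h2
  refine setLIntegral_congr_fun _root_.polarCoord.open_target.measurableSet fun p hp => ?_
  have h0 : 0 < p.1 := hp.1
  simp only
  rw [← polar_ind b al h p hp, enorm_smul, ← enorm_indicator_eq_indicator_enorm, smul_eq_mul,
    Real.enorm_eq_ofReal h0.le]

/-- polar coordinates -/
theorem integral_mul_W {b al : ℝ} (hal : 0 < al) (hb : 0 < b) {h : ℂ → ℝ}
    (hh : ContinuousOn h (closedBall 0 1)) :
    ∫ z in ball (0 : ℂ) 1, h z * W b al z =
      ∫ r in (0 : ℝ)..1, w b al r * ∫ θ in (-Real.pi)..Real.pi, h (pt r θ) := by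
  have hS : MeasurableSet (Ioo (0 : ℝ) 1 ×ˢ Ioo (-Real.pi) Real.pi) :=
    measurableSet_Ioo.prod measurableSet_Ioo
  rw [← integral_indicator measurableSet_ball, ← Complex.integral_comp_polarCoord_symm,
    setIntegral_congr_fun _root_.polarCoord.open_target.measurableSet (polar_ind b al h),
    setIntegral_indicator hS, inter_eq_self_of_subset_right box_sub, Measure.volume_eq_prod,
    setIntegral_prod _ (by rw [← Measure.volume_eq_prod]; exact polar_aux hal hb hh),
    intervalIntegral.integral_of_le (by norm_num), integral_Ioc_eq_integral_Ioo]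
  refine setIntegral_congr_fun measurableSet_Ioo fun r _ => ?_
  simp only
  rw [integral_const_mul, intervalIntegral.integral_of_le (by linarith [Real.pi_pos]),
    integral_Ioc_eq_integral_Ioo]

/-- the polynomial weight after two integrations by parts -/
def q (c b al eta s : ℝ) : ℝ :=
  c ^ 2 * s ^ 2 + 2 * c / al * ((al + 1) * s * (1 - s) - b * s ^ 2) +
    (al ^ 2 * (1 - s) ^ 2 - (b + 1) * (2 * al + 1) * s * (1 - s) + b * (b + 1) * s ^ 2) / al ^ 2
    - 1 + eta

theorem q_one {c b al eta : ℝ} (hal : 0 < al) :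
    q c b al eta 1 = (c - b / al) ^ 2 + b / al ^ 2 - 1 + eta := by
  unfold q; field_simp; ring

theorem continuous_q (c b al eta : ℝ) : Continuous (fun r : ℝ => q c b al eta (r ^ 2)) := by
  unfold q; fun_prop

theorem ibp {c b al eta : ℝ} (hal : 0 < al) (hb : 0 < b) {M M1 M2 : ℝ → ℝ}
    (cM : ContinuousOn M (Icc 0 1)) (cM1 : ContinuousOn M1 (Icc 0 1))
    (cM2 : ContinuousOn M2 (Icc 0 1))
    (dM : ∀ r ∈ Ioo (0 : ℝ) 1, HasDerivAt M (2 * M1 r / r) r)
    (dM1 : ∀ r ∈ Ioo (0 : ℝ) 1, HasDerivAt M1 (2 * M2 r / r) r) :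
    ∫ r in (0 : ℝ)..1, w b al r * (((c * r ^ 2) ^ 2 - (1 - eta)) * M r -
        2 * (c * r ^ 2) * ((1 - r ^ 2) / al) * M1 r + ((1 - r ^ 2) / al) ^ 2 * M2 r) =
      ∫ r in (0 : ℝ)..1, w b al r * (q c b al eta (r ^ 2) * M r) := by
  have hu : uIcc (0 : ℝ) 1 = Icc 0 1 := uIcc_of_le (by norm_num)
  have i1 : IntervalIntegrable (fun r => w b al r * (((c * r ^ 2) ^ 2 - (1 - eta)) * M r -
        2 * (c * r ^ 2) * ((1 - r ^ 2) / al) * M1 r + ((1 - r ^ 2) / al) ^ 2 * M2 r)) volume 0 1 :=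
    (w_int hal hb).mul_continuousOn (by rw [hu]; fun_prop)
  have i2 : IntervalIntegrable (fun r => w b al r * (q c b al eta (r ^ 2) * M r)) volume 0 1 :=
    (w_int hal hb).mul_continuousOn (by rw [hu]; exact (continuous_q c b al eta).continuousOn.mul cM)
  rw [← sub_eq_zero, ← intervalIntegral.integral_sub i1 i2]
  set B : ℝ → ℝ := fun r => ((1 - r ^ 2) * M1 r - (al * (1 - r ^ 2) - (b + 1) * r ^ 2) * M r) / al ^ 2
    - 2 * c / al * r ^ 2 * M r with hB
  have cP : ContinuousOn (fun r : ℝ => 1 / 2 * (r ^ (2 * al) * (1 - r ^ 2) ^ b * B r)) (Icc 0 1) := by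
    have a1 : Continuous (fun r : ℝ => r ^ (2 * al)) := Real.continuous_rpow_const (by linarith)
    have a2 : Continuous (fun r : ℝ => (1 - r ^ 2) ^ b) :=
      (Real.continuous_rpow_const hb.le).comp (by fun_prop)
    have a3 : ContinuousOn B (Icc 0 1) := by simp only [hB]; fun_prop
    exact continuousOn_const.mul ((a1.continuousOn.mul a2.continuousOn).mul a3)
  rw [intervalIntegral.integral_eq_sub_of_hasDerivAt_of_le (by norm_num) cP ?_ (i1.sub i2)]
  · simp [Real.zero_rpow hb.ne', Real.zero_rpow (show 2 * al ≠ 0 by linarith)]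
  intro r hr
  have h0 := hr.1
  have hd : 0 < 1 - r ^ 2 := by nlinarith [hr.1, hr.2]
  have d1 : HasDerivAt (fun r : ℝ => r ^ (2 * al)) (2 * al * r ^ (2 * al - 1)) r :=
    Real.hasDerivAt_rpow_const (Or.inl h0.ne')
  have d0 : HasDerivAt (fun r : ℝ => r ^ 2) (2 * r) r := by simpa using hasDerivAt_pow 2 r
  have d0' : HasDerivAt (fun r : ℝ => 1 - r ^ 2) (-(2 * r)) r := d0.const_sub 1
  have d2 : HasDerivAt (fun r : ℝ => (1 - r ^ 2) ^ b) (-(2 * r) * b * (1 - r ^ 2) ^ (b - 1)) r :=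
    d0'.rpow_const (Or.inl hd.ne')
  have d3 : HasDerivAt B _ r :=
    (((d0'.mul (dM1 r hr)).sub (((d0'.const_mul al).sub (d0.const_mul (b + 1))).mul
      (dM r hr))).div_const (al ^ 2)).sub ((d0.const_mul (2 * c / al)).mul (dM r hr))
  refine (((d1.mul d2).mul d3).const_mul (1 / 2)).congr_deriv ?_
  have e1 : r ^ (2 * al - 1) = r * r ^ (2 * al - 2) := by
    rw [show 2 * al - 1 = 1 + (2 * al - 2) by ring, Real.rpow_add h0, Real.rpow_one]
  have e2 : r ^ (2 * al) = r * (r * r ^ (2 * al - 2)) := by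
    rw [← e1]
    conv_lhs => rw [show 2 * al = 1 + (2 * al - 1) by ring, Real.rpow_add h0, Real.rpow_one]
  have e3 : (1 - r ^ 2) ^ b = (1 - r ^ 2) * (1 - r ^ 2) ^ (b - 1) := by
    conv_lhs => rw [show b = 1 + (b - 1) by ring, Real.rpow_add hd, Real.rpow_one]
  simp only [Pi.mul_apply, Pi.sub_apply, hB, w, q]
  rw [e1, e2, e3]
  generalize r ^ (2 * al - 2) = X
  generalize (1 - r ^ 2) ^ (b - 1) = Y
  field_simp
  ring

end Crest.Agent.R131.Wt
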